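import Vale.Agent.P237.Petty.Cor.Grid.N14.HighCert

/-!
# P237: a cell in dimension 14, subdivisions
-/

namespace Vale.Agent.P237.Petty.Cor.Grid.N14.High

def covers0 : cell.Covers table row0.1 :=
  ⟨(.cut .d 0 (.cut .v 16777216 (.cut .v 8388608 (.cut .v 4194304 (.pos 4 .mm ⟨0, 0, 49228991, 0, 0, 0, 0, 0, 0, ⟨0, 0⟩, 0⟩ 0 0) (.pos 5 .mm ⟨0, 0, 0, 0, 0, 0, 0, 0, 0, ⟨0, 0⟩, 0⟩ 0 0)) (.cut .d (-8388608) (.pos 3 .mm ⟨0, 0, 0, 0, 0, 0, 0, 0, 0, ⟨0, 0⟩, 0⟩ 0 0) (.pos 3 .mm ⟨0, 0, 0, 0, 0, 0, 0, 0, 0, ⟨0, 0⟩, 0⟩ 0 0))) (.cut .v 67108864 (.cut .v 33554432 (.cut .v 25165824 (.cut .v 20971520 (.pos 15 .mp ⟨0, 0, 0, 0, 0, 0, 0, 0, 0, ⟨0, 0⟩, 0⟩ 0 0) (.pos 16 .mp ⟨0,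 0, 0, 0, 0, 0, 0, 0, 0, ⟨0, 0⟩, 0⟩ 0 0)) (.pos 14 .mp ⟨0, 0, 0, 0, 0, 0, 0, 0, 0, ⟨0, 0⟩, 0⟩ 0 0)) (.pos 12 .mp ⟨2960200, 0, 0, 0, 0, 0, 0, 0, 0, ⟨0, 0⟩, 0⟩ 0 0)) (.pos 10 .mp ⟨6651272, 873539157, 0, 0, 0, 0, 0, 0, 0, ⟨0, 0⟩, 0⟩ 0 0))) (.cut .v 16777216 (.cut .v 8388608 (.cut .v 4194304 (.pos 4 .pm ⟨0, 0, 49541414, 0, 33494454, 0, 0, 0, 0, ⟨0, 0⟩, 0⟩ 0 0) (.pos 5 .pm ⟨0, 0, 0, 0, 3129498, 0, 0, 0, 0, ⟨0, 0⟩, 0⟩ 0 0)) (.pos 3 .pm ⟨0, 0, 0, 0, 816830, 0, 0, 0, 526776, ⟨0, 0⟩, 14107901⟩ 0 0)) (.cut .v 67108864 (.cut .d 135186692 (.cut .d 67593346 (.cut .d 33796673 (.cut .v 33554432 (.cut .d 16898336 (.cut .v 25165824 (.cut .d 8449168 (.cut .v 20971520 (.cut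 .v 18874368 (.pos 17 .pp ⟨0, 0, 0, 0, 1703017, 0, 0, 0, 0, ⟨0, 0⟩, 0⟩ 0 0) (.pos 18 .pp ⟨0, 0, 0, 0, 1065830, 0, 0, 0, 0, ⟨0, 0⟩, 0⟩ 0 0)) (.pos 16 .pp ⟨0, 0, 0, 0, 0, 0, 0, 0, 0, ⟨0, 0⟩, 0⟩ 0 0)) (.pos 13 .pp ⟨0, 0, 0, 0, 3095153, 0, 0, 0, 0, ⟨0, 0⟩, 0⟩ 0 0)) (.pos 14 .pp ⟨0, 0, 0, 0, 0, 0, 0, 0, 0, ⟨0, 0⟩, 0⟩ 0 0)) (.pos 11 .pp ⟨0, 0, 0, 0, 3049492, 0, 0, 0, 1334552, ⟨0, 0⟩, 19951585⟩ 0 0)) (.cut .d 16898336 (.pos 12 .pp ⟨0, 0, 0, 0, 0, 0, 0, 0, 1139111, ⟨0, 0⟩, 28215802⟩ 0 0) (.cut .v 50331648 (.pos 19 .pp ⟨0, 12387568, 0, 0, 0, 0, 0, 0, 1513935, ⟨0, 0⟩, 26257762⟩ 0 0) (.cut .d 25347504 (.pos 20 .pp ⟨3015729, 33862198, 0, 0, 0, 0, 257674, 0, 0, ⟨0, 0⟩,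 0⟩ 0 0) (.cut .d 29572088 (.pos 20 .pp ⟨5703504, 57492403, 0, 0, 0, 0, 0, 0, 0, ⟨0, 0⟩, 0⟩ 0 0) (.pos 20 .pp ⟨4720257, 76315509, 0, 0, 0, 0, 0, 0, 468353, ⟨0, 0⟩, 31225917⟩ 0 0)))))) (.cut .v 33554432 (.pos 11 .pp ⟨2960103, 0, 0, 0, 20733245, 0, 0, 0, 15709, ⟨0, 0⟩, 19951585⟩ 0 0) (.cut .v 50331648 (.pos 19 .pp ⟨0, 27999583, 0, 0, 0, 0, 149768, 0, 1190027, ⟨0, 0⟩, 26257762⟩ 0 0) (.cut .d 50695009 (.cut .v 58720256 (.pos 21 .pp ⟨4726103, 85193043, 0, 0, 0, 0, 0, 0, 0, ⟨0, 0⟩, 0⟩ 0 0) (.void 22 ⟨0, 100000, 0, 0, 0, 0, 0, 0, 0, ⟨0, 0⟩, 0⟩ 0 0)) (.pos 20 .pp ⟨4726103, 127378026, 0, 0, 0, 0, 0, 0, 0, ⟨0, 0⟩, 0⟩ 0 0))))) (.pos 9 .pp ⟨0, 66492850, 0, 0, 0, 0, 977866,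 0, 11501748, ⟨0, 0⟩, 23726566⟩ 0 0)) (.pos 9 .pp ⟨0, 0, 0, 0, 10975432, 0, 0, 0, 916686, ⟨0, 0⟩, 23726566⟩ 0 0)) (.void 10 ⟨0, 100000, 0, 0, 0, 0, 0, 0, 0, ⟨0, 0⟩, 0⟩ 0 0)))),
    by decide +kernel⟩

def covers1 : cell.Covers table row1.1 :=
  ⟨(.cut .d 0 (.cut .v 16777216 (.cut .v 8388608 (.cut .v 4194304 (.void 4 ⟨0, 0, 50000, 0, 50000, 0, 0, 0, 0, ⟨0, 0⟩, 0⟩ 0 0) (.pos 5 .mm ⟨0, 0, 0, 0, 0, 0, 0, 0, 0, ⟨0, 0⟩, 0⟩ 0 0)) (.cut .v 12582912 (.pos 6 .mm ⟨0, 0, 0, 0, 0, 0, 0, 0, 0, ⟨0, 0⟩, 0⟩ 0 0) (.pos 7 .mm ⟨0, 0, 0, 0, 0, 0, 0, 0, 0, ⟨0, 0⟩, 0⟩ 0 0))) (.cut .v 67108864 (.cut .v 33554432 (.cut .v 25165824 (.cut .v 20971520 (.pos 15 .mp ⟨0, 0, 0, 0, 0, 0, 0,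 0, 0, ⟨0, 0⟩, 0⟩ 0 0) (.pos 16 .mp ⟨0, 0, 0, 0, 0, 0, 0, 0, 0, ⟨0, 0⟩, 0⟩ 0 0)) (.pos 14 .mp ⟨0, 0, 0, 0, 0, 0, 0, 0, 0, ⟨0, 0⟩, 0⟩ 0 0)) (.pos 12 .mp ⟨2985766, 0, 0, 0, 0, 0, 0, 0, 0, ⟨0, 0⟩, 0⟩ 0 0)) (.pos 10 .mp ⟨6842897, 12353504, 0, 0, 0, 0, 0, 0, 0, ⟨0, 0⟩, 0⟩ 0 0))) (.cut .v 16777216 (.cut .v 8388608 (.void 2 ⟨0, 0, 0, 0, 100000, 0, 0, 0, 0, ⟨0, 0⟩, 0⟩ 0 0) (.pos 3 .pm ⟨0, 0, 0, 0, 1947703, 0, 0, 0, 0, ⟨0, 0⟩, 0⟩ 0 0)) (.cut .v 67108864 (.cut .d 74206918 (.cut .d 37103459 (.cut .v 33554432 (.cut .d 18551729 (.cut .v 25165824 (.cut .d 9275864 (.cut .v 20971520 (.cut .v 18874368 (.pos 17 .pp ⟨0, 0, 0, 0, 3823291, 0, 0, 0, 0, ⟨0, 0⟩, 0⟩ 0 0) (.pos 18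 .pp ⟨0, 0, 0, 0, 2621686, 0, 0, 0, 0, ⟨0, 0⟩, 0⟩ 0 0)) (.pos 16 .pp ⟨0, 0, 0, 0, 0, 0, 0, 0, 0, ⟨0, 0⟩, 0⟩ 0 0)) (.pos 13 .pp ⟨0, 0, 0, 0, 27720780, 0, 0, 0, 0, ⟨0, 0⟩, 0⟩ 0 0)) (.pos 14 .pp ⟨0, 0, 0, 0, 0, 0, 0, 0, 0, ⟨0, 0⟩, 0⟩ 0 0)) (.pos 11 .pp ⟨0, 0, 0, 0, 21371674, 0, 0, 0, 733516, ⟨0, 0⟩, 19951585⟩ 0 0)) (.cut .d 18551729 (.pos 12 .pp ⟨0, 0, 0, 0, 0, 0, 0, 0, 626095, ⟨0, 0⟩, 28215802⟩ 0 0) (.cut .v 50331648 (.cut .v 41943040 (.pos 23 .pp ⟨0, 0, 0, 0, 0, 0, 0, 0, 797881, ⟨0, 0⟩, 25087789⟩ 0 0) (.cut .d 27827594 (.pos 24 .pp ⟨0, 25895654, 0, 0, 0, 0, 0, 0, 790188, ⟨0, 0⟩, 27764203⟩ 0 0) (.cut .v 46137344 (.pos 25 .pp ⟨0, 34074465, 0, 0, 0, 0, 0, 0, 773768,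 ⟨0, 0⟩, 27166774⟩ 0 0) (.pos 26 .pp ⟨0, 46266735, 0, 0, 0, 0, 0, 0, 772201, ⟨0, 0⟩, 28433700⟩ 0 0)))) (.pos 20 .pp ⟨0, 165973341, 0, 0, 0, 0, 699412, 0, 0, ⟨0, 0⟩, 0⟩ 0 0)))) (.cut .s 2359296 (.void 9 ⟨0, 33397, 0, 0, 66603, 0, 0, 0, 0, ⟨0, 0⟩, 0⟩ 0 0) (.void 9 ⟨0, 44032, 0, 0, 55968, 0, 0, 0, 0, ⟨0, 0⟩, 0⟩ 0 0))) (.void 9 ⟨0, 47006, 0, 0, 0, 0, 0, 0, 52994, ⟨0, 0⟩, 23726566⟩ 0 0)) (.pos 10 .pp ⟨6774853, 2098370745, 0, 0, 0, 0, 0, 0, 0, ⟨0, 0⟩, 0⟩ 0 0)))),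
    by decide +kernel⟩

def covers2 : cell.Covers table row2.1 :=
  ⟨(.cut .d 0 (.cut .v 16777216 (.cut .v 8388608 (.cut .v 4194304 (.void 4 ⟨0, 0, 50000, 0, 50000, 0, 0, 0, 0, ⟨0, 0⟩, 0⟩ 0 0) (.pos 5 .mm ⟨0, 0, 0, 0, 0, 0, 0, 0, 0, ⟨0, 0⟩, 0⟩ 0 0)) (.cut .v 12582912 (.pos 6 .mm ⟨0, 0, 0, 0, 0, 0, 0, 0, 0, ⟨0, 0⟩, 0⟩ 0 0) (.pos 7 .mm ⟨0, 0, 0, 0, 0, 0, 0, 0, 0, ⟨0, 0⟩, 0⟩ 0 0))) (.cut .v 67108864 (.cut .v 33554432 (.cut .v 25165824 (.cut .v 20971520 (.pos 15 .mp ⟨0, 0, 0, 0, 0, 0, 0, 0, 0, ⟨0, 0⟩, 0⟩ 0 0) (.pos 16 .mp ⟨0, 0, 0, 0, 0, 0, 0, 0, 0, ⟨0, 0⟩, 0⟩ 0 0)) (.pos 14 .mp ⟨0, 0, 0, 0, 0, 0, 0, 0, 0, ⟨0, 0⟩, 0⟩ 0 0)) (.pos 12 .mp ⟨3056432, 0, 0, 0, 0, 0,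 0, 0, 0, ⟨0, 0⟩, 0⟩ 0 0)) (.pos 10 .mp ⟨6800751, 0, 0, 0, 0, 0, 0, 0, 0, ⟨0, 0⟩, 0⟩ 0 0))) (.cut .v 16777216 (.cut .v 8388608 (.void 2 ⟨0, 0, 0, 0, 100000, 0, 0, 0, 0, ⟨0, 0⟩, 0⟩ 0 0) (.pos 3 .pm ⟨0, 0, 0, 0, 1804008, 0, 0, 0, 0, ⟨0, 0⟩, 0⟩ 0 0)) (.cut .d 38295820 (.cut .v 67108864 (.cut .v 33554432 (.cut .d 19147910 (.cut .v 25165824 (.cut .d 9573955 (.cut .v 20971520 (.cut .v 18874368 (.pos 17 .pp ⟨0, 0, 0, 0, 3759350, 0, 0, 0, 0, ⟨0, 0⟩, 0⟩ 0 0) (.pos 18 .pp ⟨0, 0, 0, 0, 0, 0, 0, 0, 0, ⟨0, 0⟩, 0⟩ 0 0)) (.pos 16 .pp ⟨0, 0, 0, 0, 0, 0, 0, 0, 0, ⟨0, 0⟩, 0⟩ 0 0)) (.pos 13 .pp ⟨0, 0, 0, 0, 14255486, 0, 0, 0, 0, ⟨0, 0⟩, 0⟩ 0 0)) (.pos 14 .pp ⟨0, 0, 0, 0, 0,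 0, 0, 0, 0, ⟨0, 0⟩, 0⟩ 0 0)) (.pos 11 .pp ⟨0, 0, 0, 0, 19255792, 0, 0, 0, 650041, ⟨0, 0⟩, 19951585⟩ 0 0)) (.cut .d 19147910 (.pos 12 .pp ⟨0, 0, 0, 0, 0, 0, 0, 0, 459648, ⟨0, 0⟩, 28215802⟩ 0 0) (.cut .v 50331648 (.cut .v 41943040 (.cut .d 28721865 (.cut .v 37748736 (.pos 27 .pp ⟨0, 13634875, 0, 0, 0, 0, 0, 0, 571177, ⟨0, 0⟩, 24435601⟩ 0 0) (.pos 28 .pp ⟨0, 22357068, 0, 0, 0, 0, 0, 0, 569456, ⟨0, 0⟩, 25837502⟩ 0 0)) (.pos 23 .pp ⟨0, 33808805, 0, 0, 6382378, 0, 0, 0, 585765, ⟨0, 0⟩, 25087789⟩ 0 0)) (.cut .d 28721865 (.pos 24 .pp ⟨0, 35069829, 0, 0, 0, 0, 0, 0, 580117, ⟨0, 0⟩, 27764203⟩ 0 0) (.pos 24 .pp ⟨0, 56436086, 0, 0, 0, 0, 0, 0, 724561, ⟨0, 0⟩, 27764203⟩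 0 0))) (.pos 20 .pp ⟨0, 110797786, 0, 0, 0, 0, 605327, 0, 0, ⟨0, 0⟩, 0⟩ 0 0)))) (.pos 10 .pp ⟨6556861, 704318951, 0, 0, 0, 0, 0, 0, 0, ⟨0, 0⟩, 0⟩ 0 0)) (.void 8 ⟨0, 60259, 0, 0, 39741, 0, 0, 0, 0, ⟨0, 0⟩, 0⟩ 0 0)))),
    by decide +kernel⟩

def covers3 : cell.Covers table row3.1 :=
  ⟨(.cut .d 0 (.cut .v 16777216 (.cut .v 8388608 (.cut .v 4194304 (.void 4 ⟨0, 0, 50000, 0, 50000, 0, 0, 0, 0, ⟨0, 0⟩, 0⟩ 0 0) (.pos 5 .mm ⟨0, 0, 0, 0, 0, 886996, 0, 0, 0, ⟨0, 0⟩, 0⟩ 0 0)) (.cut .v 12582912 (.pos 6 .mm ⟨0, 0, 0, 0, 0, 773600, 0, 0, 0, ⟨0, 0⟩, 0⟩ 0 0) (.pos 7 .mm ⟨0, 0, 0, 0, 0, 540688, 0, 0, 0, ⟨0, 0⟩, 0⟩ 0 0))) (.cut .v 67108864 (.cut .v 33554432 (.cut .v 25165824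 (.pos 13 .mp ⟨0, 0, 0, 0, 0, 0, 0, 0, 0, ⟨0, 0⟩, 0⟩ 0 0) (.pos 14 .mp ⟨0, 0, 0, 0, 0, 0, 0, 0, 0, ⟨0, 0⟩, 0⟩ 0 0)) (.pos 12 .mp ⟨2946721, 0, 0, 0, 0, 0, 0, 0, 0, ⟨0, 0⟩, 0⟩ 0 0)) (.pos 10 .mp ⟨6556638, 0, 0, 0, 0, 0, 0, 0, 0, ⟨0, 0⟩, 0⟩ 0 0))) (.cut .v 16777216 (.cut .v 8388608 (.void 2 ⟨0, 0, 0, 0, 100000, 0, 0, 0, 0, ⟨0, 0⟩, 0⟩ 0 0) (.cut .v 12582912 (.pos 6 .pm ⟨0, 0, 0, 0, 0, 0, 0, 0, 0, ⟨0, 0⟩, 0⟩ 0 0) (.cut .v 14680064 (.pos 29 .pm ⟨0, 0, 0, 0, 0, 0, 0, 0, 0, ⟨0, 0⟩, 0⟩ 0 0) (.pos 30 .pm ⟨0, 0, 0, 0, 954987, 0, 0, 0, 0, ⟨0, 0⟩, 0⟩ 0 0)))) (.cut .v 67108864 (.cut .d 28636973 (.cut .v 33554432 (.cut .v 25165824 (.cut .d 14318486 (.cut .v 20971520 (.cut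 .d 7159243 (.pos 15 .pp ⟨0, 0, 0, 0, 0, 0, 0, 0, 0, ⟨0, 0⟩, 0⟩ 0 0) (.pos 15 .pp ⟨0, 0, 0, 0, 0, 0, 0, 0, 0, ⟨0, 0⟩, 0⟩ 0 0)) (.pos 16 .pp ⟨0, 0, 0, 0, 0, 0, 0, 0, 0, ⟨0, 0⟩, 0⟩ 0 0)) (.pos 13 .pp ⟨0, 0, 0, 0, 8684558, 0, 0, 0, 1984217, ⟨0, 0⟩, 18567042⟩ 0 0)) (.cut .d 14318486 (.pos 14 .pp ⟨0, 0, 0, 0, 0, 0, 0, 0, 850991, ⟨0, 0⟩, 22080058⟩ 0 0) (.cut .d 21477729 (.pos 14 .pp ⟨0, 0, 0, 0, 0, 0, 0, 0, 1388188, ⟨0, 0⟩, 22080058⟩ 0 0) (.cut .d 25057351 (.pos 14 .pp ⟨0, 0, 0, 0, 0, 0, 0, 0, 2139838, ⟨0, 0⟩, 22080058⟩ 0 0) (.pos 14 .pp ⟨0, 11455043, 0, 0, 1418000, 0, 0, 0, 2139838, ⟨0, 0⟩, 22080058⟩ 0 0))))) (.cut .v 50331648 (.cut .v 41943040 (.cut .d 14318486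 (.pos 23 .pp ⟨0, 0, 0, 0, 0, 0, 0, 0, 0, ⟨0, 0⟩, 0⟩ 0 0) (.cut .d 21477729 (.pos 23 .pp ⟨0, 0, 0, 0, 0, 0, 0, 0, 1676134, ⟨0, 0⟩, 25087789⟩ 0 0) (.cut .d 25057351 (.pos 23 .pp ⟨0, 12172924, 0, 0, 0, 0, 0, 0, 1383365, ⟨0, 0⟩, 25087789⟩ 0 0) (.cut .v 37748736 (.cut .l 17382394 (.pos 27 .pp ⟨0, 19949866, 0, 0, 0, 0, 0, 0, 2055267, ⟨0, 0⟩, 24435601⟩ 0 0) (.pos 27 .pp ⟨0, 19889229, 0, 0, 0, 0, 0, 0, 0, ⟨0, 0⟩, 0⟩ 0 0)) (.pos 28 .pp ⟨0, 31831602, 0, 0, 0, 0, 0, 0, 540230, ⟨0, 0⟩, 25837502⟩ 0 0))))) (.pos 24 .pp ⟨0, 42993714, 0, 0, 0, 0, 0, 0, 0, ⟨0, 0⟩, 0⟩ 0 0)) (.pos 20 .pp ⟨0, 87138043, 0, 0, 0, 0, 0, 0, 0, ⟨0, 0⟩, 0⟩ 0 0))) (.cut .v 33554432 (.void 11 ⟨0, 45900,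 0, 0, 54100, 0, 0, 0, 0, ⟨0, 0⟩, 0⟩ 0 0) (.cut .v 50331648 (.cut .v 41943040 (.pos 23 .pp ⟨0, 44745851, 0, 0, 7946576, 0, 0, 0, 523921, ⟨0, 0⟩, 25087789⟩ 0 0) (.void 24 ⟨0, 100000, 0, 0, 0, 0, 0, 0, 0, ⟨0, 0⟩, 0⟩ 0 0)) (.void 20 ⟨0, 100000, 0, 0, 0, 0, 0, 0, 0, ⟨0, 0⟩, 0⟩ 0 0)))) (.cut .d 28636973 (.pos 10 .pp ⟨29616983, 488388159, 0, 0, 0, 0, 0, 0, 0, ⟨0, 0⟩, 0⟩ 0 0) (.void 10 ⟨0, 100000, 0, 0, 0, 0, 0, 0, 0, ⟨0, 0⟩, 0⟩ 0 0))))),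
    by decide +kernel⟩

def covers4 : cell.Covers table row4.1 :=
  ⟨(.cut .d 0 (.cut .v 16777216 (.cut .v 8388608 (.cut .v 4194304 (.void 4 ⟨0, 0, 50000, 0, 50000, 0, 0, 0, 0, ⟨0, 0⟩, 0⟩ 0 0) (.pos 5 .mm ⟨0, 0, 0, 0, 0, 559365, 0, 0, 0, ⟨0, 0⟩, 0⟩ 0 0)) (.cut .v 12582912 (.pos 6 .mm ⟨0, 0, 0, 0, 0, 839047, 0, 0, 0, ⟨0, 0⟩, 0⟩ 0 0) (.cut .v 14680064 (.pos 29 .mm ⟨0, 0, 0, 0, 0, 986978, 0, 0, 0, ⟨0, 0⟩, 0⟩ 0 0) (.pos 30 .mm ⟨0, 0, 0, 0, 0, 280779, 0, 0, 0, ⟨0, 0⟩, 0⟩ 0 0)))) (.cut .v 268435456 (.cut .v 67108864 (.cut .v 33554432 (.cut .v 25165824 (.pos 13 .mp ⟨0, 0, 0, 0, 0, 0, 0, 0, 0, ⟨0, 0⟩, 0⟩ 0 0) (.pos 14 .mp ⟨0, 0, 0, 0, 0, 0, 0, 0, 0, ⟨0, 0⟩, 0⟩ 0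 0)) (.pos 12 .mp ⟨12516193, 0, 0, 0, 0, 0, 0, 0, 0, ⟨0, 0⟩, 0⟩ 0 0)) (.pos 10 .mp ⟨27601236, 0, 0, 0, 0, 0, 0, 0, 0, ⟨0, 0⟩, 0⟩ 0 0)) (.void 39 ⟨0, 100000, 0, 0, 0, 0, 0, 0, 0, ⟨0, 0⟩, 0⟩ 0 0))) (.cut .v 16777216 (.cut .v 8388608 (.void 2 ⟨0, 0, 0, 0, 100000, 0, 0, 0, 0, ⟨0, 0⟩, 0⟩ 0 0) (.cut .v 12582912 (.pos 6 .pm ⟨0, 0, 0, 0, 0, 0, 0, 0, 0, ⟨0, 0⟩, 0⟩ 0 0) (.pos 7 .pm ⟨0, 0, 0, 0, 735093, 0, 0, 0, 0, ⟨0, 0⟩, 0⟩ 0 0))) (.cut .v 268435456 (.cut .v 67108864 (.cut .d 22734344 (.cut .v 33554432 (.cut .v 25165824 (.cut .v 20971520 (.cut .d 11367172 (.cut .d 5683586 (.pos 15 .pp ⟨0, 0, 0, 0, 0, 0, 0, 0, 0, ⟨0, 0⟩, 0⟩ 0 0) (.pos 15 .pp ⟨0, 0, 0, 0, 0, 0, 0, 0,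 0, ⟨0, 0⟩, 0⟩ 0 0)) (.pos 15 .pp ⟨0, 0, 0, 0, 1628246, 0, 0, 0, 778841, ⟨0, 0⟩, 17739746⟩ 0 0)) (.pos 16 .pp ⟨0, 0, 0, 0, 0, 0, 0, 0, 1332478, ⟨0, 0⟩, 19632256⟩ 0 0)) (.pos 14 .pp ⟨0, 0, 0, 0, 0, 0, 0, 0, 874996, ⟨0, 0⟩, 22080058⟩ 0 0)) (.pos 12 .pp ⟨0, 15580985, 0, 0, 0, 0, 0, 0, 1219673, ⟨0, 0⟩, 28215802⟩ 0 0)) (.cut .d 34101516 (.cut .d 28417930 (.cut .v 33554432 (.cut .v 25165824 (.pos 13 .pp ⟨0, 0, 0, 0, 4731176, 0, 0, 0, 846590, ⟨0, 0⟩, 18567042⟩ 0 0) (.cut .v 29360128 (.pos 31 .pp ⟨0, 9898908, 0, 0, 1053063, 0, 0, 0, 1063647, ⟨0, 0⟩, 21355130⟩ 0 0) (.cut .d 25576137 (.pos 32 .pp ⟨0, 12308545, 0, 0, 0, 0, 0, 0, 1318922, ⟨0, 0⟩, 22947581⟩ 0 0) (.pos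 32 .pp ⟨0, 19590663, 0, 0, 0, 0, 0, 0, 1469170, ⟨0, 0⟩, 22947581⟩ 0 0)))) (.cut .d 25576137 (.cut .v 50331648 (.pos 19 .pp ⟨0, 20594593, 0, 0, 0, 0, 0, 0, 1335713, ⟨0, 0⟩, 26257762⟩ 0 0) (.void 20 ⟨0, 100000, 0, 0, 0, 0, 0, 0, 0, ⟨0, 0⟩, 0⟩ 0 0)) (.pos 12 .pp ⟨0, 55778834, 0, 0, 0, 0, 0, 0, 1653689, ⟨0, 0⟩, 28215802⟩ 0 0))) (.void 9 ⟨0, 74050, 0, 0, 25950, 0, 0, 0, 0, ⟨0, 0⟩, 0⟩ 0 0)) (.void 9 ⟨0, 73333, 0, 0, 26667, 0, 0, 0, 0, ⟨0, 0⟩, 0⟩ 0 0))) (.cut .d 22734344 (.pos 10 .pp ⟨14147795, 327647681, 0, 0, 0, 0, 0, 0, 0, ⟨0, 0⟩, 0⟩ 0 0) (.void 10 ⟨0, 100000, 0, 0, 0, 0, 0, 0, 0, ⟨0, 0⟩, 0⟩ 0 0))) (.void 39 ⟨0, 0, 0, 100000, 0, 0, 0, 0, 0, ⟨0, 0⟩, 0⟩ 0 0)))),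
    by decide +kernel⟩

def covers5 : cell.Covers table row5.1 :=
  ⟨(.cut .d 0 (.cut .v 16777216 (.cut .v 8388608 (.cut .v 4194304 (.void 4 ⟨0, 0, 100000, 0, 0, 0, 0, 0, 0, ⟨0, 0⟩, 0⟩ 0 0) (.pos 5 .mm ⟨0, 0, 0, 0, 0, 341447, 0, 0, 0, ⟨0, 0⟩, 0⟩ 0 0)) (.cut .v 12582912 (.pos 6 .mm ⟨0, 0, 0, 0, 0, 512171, 0, 0, 0, ⟨0, 0⟩, 0⟩ 0 0) (.cut .v 14680064 (.pos 29 .mm ⟨0, 0, 0, 0, 0, 596198, 0, 0, 0, ⟨0, 0⟩, 0⟩ 0 0) (.pos 30 .mm ⟨0, 0, 0, 0, 0, 428562, 0, 0, 0, ⟨0, 0⟩, 0⟩ 0 0)))) (.cut .v 268435456 (.cut .v 67108864 (.cut .v 33554432 (.pos 11 .mp ⟨0, 0, 0, 0, 0, 0, 0, 0, 0, ⟨0, 0⟩, 0⟩ 0 0) (.pos 12 .mp ⟨6352543, 0, 0, 0, 0, 0, 0, 0, 0, ⟨0, 0⟩, 0⟩ 0 0)) (.pos 10 .mp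 ⟨14134804, 0, 0, 0, 0, 0, 0, 0, 0, ⟨0, 0⟩, 0⟩ 0 0)) (.void 39 ⟨0, 100000, 0, 0, 0, 0, 0, 0, 0, ⟨0, 0⟩, 0⟩ 0 0))) (.cut .v 16777216 (.cut .v 8388608 (.void 2 ⟨0, 0, 0, 0, 100000, 0, 0, 0, 0, ⟨0, 0⟩, 0⟩ 0 0) (.cut .v 12582912 (.pos 6 .pm ⟨0, 0, 0, 0, 0, 0, 0, 0, 0, ⟨0, 0⟩, 0⟩ 0 0) (.pos 7 .pm ⟨0, 0, 0, 0, 0, 0, 0, 0, 0, ⟨0, 0⟩, 0⟩ 0 0))) (.cut .v 268435456 (.cut .v 67108864 (.cut .v 33554432 (.cut .v 25165824 (.cut .d 18454939 (.cut .d 9227469 (.pos 13 .pp ⟨0, 0, 0, 0, 0, 0, 0, 0, 0, ⟨0, 0⟩, 0⟩ 0 0) (.pos 13 .pp ⟨0, 0, 0, 0, 0, 0, 0, 0, 0, ⟨0, 0⟩, 0⟩ 0 0)) (.pos 13 .pp ⟨0, 3018604, 0, 0, 3307000, 0, 0, 0, 486879, ⟨0, 0⟩, 18567042⟩ 0 0)) (.cut .d 18454939 (.pos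 14 .pp ⟨0, 0, 0, 0, 0, 0, 0, 0, 442312, ⟨0, 0⟩, 22080058⟩ 0 0) (.cut .d 27682408 (.cut .d 23068673 (.pos 14 .pp ⟨0, 2166584, 0, 0, 0, 0, 0, 0, 443552, ⟨0, 0⟩, 22080058⟩ 0 0) (.pos 14 .pp ⟨0, 14657720, 0, 0, 0, 0, 0, 0, 713003, ⟨0, 0⟩, 22080058⟩ 0 0)) (.void 14 ⟨0, 77814, 0, 0, 22186, 0, 0, 0, 0, ⟨0, 0⟩, 0⟩ 0 0)))) (.cut .d 18454939 (.pos 12 .pp ⟨0, 0, 0, 0, 0, 0, 0, 0, 0, ⟨0, 0⟩, 0⟩ 0 0) (.cut .d 27682408 (.pos 12 .pp ⟨0, 40780518, 0, 0, 0, 0, 0, 0, 0, ⟨0, 0⟩, 0⟩ 0 0) (.void 12 ⟨0, 100000, 0, 0, 0, 0, 0, 0, 0, ⟨0, 0⟩, 0⟩ 0 0)))) (.cut .d 18454939 (.pos 10 .pp ⟨7949835, 192199779, 0, 0, 0, 0, 0, 0, 0, ⟨0, 0⟩, 0⟩ 0 0) (.void 10 ⟨0, 100000, 0, 0, 0, 0, 0, 0,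 0, ⟨0, 0⟩, 0⟩ 0 0))) (.void 39 ⟨0, 0, 0, 100000, 0, 0, 0, 0, 0, ⟨0, 0⟩, 0⟩ 0 0)))),
    by decide +kernel⟩

def covers6 : cell.Covers table row6.1 :=
  ⟨(.cut .d 0 (.cut .v 16777216 (.cut .v 8388608 (.cut .v 4194304 (.void 4 ⟨0, 0, 100000, 0, 0, 0, 0, 0, 0, ⟨0, 0⟩, 0⟩ 0 0) (.pos 5 .mm ⟨0, 0, 0, 0, 0, 292556, 0, 0, 0, ⟨0, 0⟩, 0⟩ 0 0)) (.cut .v 12582912 (.pos 6 .mm ⟨0, 0, 0, 0, 0, 434601, 0, 0, 0, ⟨0, 0⟩, 0⟩ 0 0) (.cut .v 14680064 (.pos 29 .mm ⟨0, 0, 0, 0, 0, 436879, 0, 0, 0, ⟨0, 0⟩, 0⟩ 0 0) (.pos 30 .mm ⟨0, 0, 0, 0, 0, 237766, 0, 0, 0, ⟨0, 0⟩, 0⟩ 0 0)))) (.cut .v 268435456 (.cut .v 67108864 (.cut .v 33554432 (.pos 11 .mp ⟨0, 0, 0, 0, 0, 0, 0, 0, 0, ⟨0, 0⟩,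 0⟩ 0 0) (.pos 12 .mp ⟨3567835, 0, 0, 0, 0, 0, 0, 0, 0, ⟨0, 0⟩, 0⟩ 0 0)) (.pos 10 .mp ⟨7938656, 0, 0, 0, 0, 0, 0, 0, 0, ⟨0, 0⟩, 0⟩ 0 0)) (.void 39 ⟨0, 100000, 0, 0, 0, 0, 0, 0, 0, ⟨0, 0⟩, 0⟩ 0 0))) (.cut .v 16777216 (.cut .v 8388608 (.cut .v 4194304 (.void 4 ⟨0, 0, 50000, 0, 50000, 0, 0, 0, 0, ⟨0, 0⟩, 0⟩ 0 0) (.pos 5 .pm ⟨0, 0, 0, 0, 0, 0, 0, 0, 0, ⟨0, 0⟩, 0⟩ 0 0)) (.cut .v 12582912 (.pos 6 .pm ⟨0, 0, 0, 0, 0, 0, 0, 0, 0, ⟨0, 0⟩, 0⟩ 0 0) (.cut .v 14680064 (.pos 29 .pm ⟨0, 0, 0, 0, 0, 0, 0, 0, 128666, ⟨0, 0⟩, 15100357⟩ 0 0) (.pos 30 .pm ⟨0, 0, 0, 0, 0, 0, 0, 0, 173273, ⟨0, 0⟩, 16226390⟩ 0 0)))) (.cut .v 268435456 (.cut .v 67108864 (.cut .v 33554432 (.cut .v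 25165824 (.cut .d 14953607 (.pos 13 .pp ⟨0, 0, 0, 0, 0, 0, 0, 0, 0, ⟨0, 0⟩, 0⟩ 0 0) (.pos 13 .pp ⟨0, 206308, 0, 0, 0, 0, 0, 0, 333856, ⟨0, 0⟩, 18567042⟩ 0 0)) (.pos 14 .pp ⟨0, 8925027, 0, 0, 0, 0, 0, 0, 0, ⟨0, 0⟩, 0⟩ 0 0)) (.pos 12 .pp ⟨0, 31166721, 0, 0, 0, 0, 0, 0, 0, ⟨0, 0⟩, 0⟩ 0 0)) (.pos 10 .pp ⟨10636772, 442517852, 0, 0, 0, 0, 0, 0, 0, ⟨0, 0⟩, 0⟩ 0 0)) (.void 39 ⟨0, 0, 0, 100000, 0, 0, 0, 0, 0, ⟨0, 0⟩, 0⟩ 0 0)))),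
    by decide +kernel⟩

def covers7 : cell.Covers table row7.1 :=
  ⟨(.cut .d 0 (.cut .v 16777216 (.cut .v 8388608 (.cut .v 4194304 (.void 4 ⟨0, 0, 100000, 0, 0, 0, 0, 0, 0, ⟨0, 0⟩, 0⟩ 0 0) (.pos 5 .mm ⟨0, 0, 0, 0, 0, 0, 0, 0, 0, ⟨0, 0⟩, 0⟩ 0 0)) (.cut .v 12582912 (.pos 6 .mm ⟨0, 0, 0, 0, 0, 0, 0, 0, 0, ⟨0, 0⟩, 0⟩ 0 0) (.cut .v 14680064 (.pos 29 .mm ⟨0, 0, 0, 0, 0, 0, 0, 0, 0, ⟨0, 0⟩, 0⟩ 0 0) (.pos 30 .mm ⟨0, 0, 0, 0, 0, 0, 0, 0, 0, ⟨0, 0⟩, 0⟩ 0 0)))) (.cut .v 268435456 (.cut .v 67108864 (.cut .v 33554432 (.pos 11 .mp ⟨0, 0, 0, 0, 0, 0, 0, 0, 0, ⟨0, 0⟩, 0⟩ 0 0) (.pos 12 .mp ⟨4780043, 0, 0, 0, 0, 0, 0, 0, 0, ⟨0, 0⟩, 0⟩ 0 0)) (.pos 10 .mp ⟨9186435, 0, 0, 0,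 0, 0, 0, 0, 0, ⟨0, 0⟩, 0⟩ 0 0)) (.void 39 ⟨0, 100000, 0, 0, 0, 0, 0, 0, 0, ⟨0, 0⟩, 0⟩ 0 0))) (.cut .v 16777216 (.cut .v 8388608 (.cut .v 4194304 (.void 4 ⟨0, 0, 50000, 0, 50000, 0, 0, 0, 0, ⟨0, 0⟩, 0⟩ 0 0) (.pos 5 .pm ⟨0, 0, 0, 0, 855294, 0, 0, 0, 290688, ⟨0, 0⟩, 9975792⟩ 0 0)) (.cut .d 12260274 (.cut .v 12582912 (.pos 6 .pm ⟨0, 0, 0, 0, 0, 0, 0, 0, 0, ⟨0, 0⟩, 0⟩ 0 0) (.cut .d 6130137 (.cut .v 14680064 (.pos 29 .pm ⟨0, 0, 0, 0, 0, 0, 0, 0, 0, ⟨0, 0⟩, 0⟩ 0 0) (.pos 30 .pm ⟨0, 0, 0, 0, 0, 0, 0, 0, 0, ⟨0, 0⟩, 0⟩ 0 0)) (.pos 7 .pm ⟨0, 0, 0, 0, 0, 0, 0, 0, 0, ⟨0, 0⟩, 0⟩ 0 0))) (.pos 3 .pm ⟨0, 0, 0, 0, 0, 0, 0, 0, 266210, ⟨0, 0⟩, 14107901⟩ 0 0))) (.cut .v 268435456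 (.cut .v 67108864 (.cut .v 33554432 (.pos 11 .pp ⟨0, 0, 0, 0, 0, 0, 0, 0, 0, ⟨0, 0⟩, 0⟩ 0 0) (.pos 12 .pp ⟨0, 12867582, 0, 0, 0, 0, 0, 0, 0, ⟨0, 0⟩, 0⟩ 0 0)) (.pos 10 .pp ⟨9186435, 150860735, 0, 0, 0, 0, 0, 0, 0, ⟨0, 0⟩, 0⟩ 0 0)) (.void 39 ⟨0, 0, 0, 100000, 0, 0, 0, 0, 0, ⟨0, 0⟩, 0⟩ 0 0)))),
    by decide +kernel⟩

def covers8 : cell.Covers table row8.1 :=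
  ⟨(.cut .d 0 (.cut .v 16777216 (.cut .v 8388608 (.cut .v 4194304 (.void 4 ⟨0, 0, 100000, 0, 0, 0, 0, 0, 0, ⟨0, 0⟩, 0⟩ 0 0) (.pos 5 .mm ⟨0, 0, 0, 0, 0, 0, 0, 0, 0, ⟨0, 0⟩, 0⟩ 0 0)) (.cut .v 12582912 (.pos 6 .mm ⟨0, 0, 0, 0, 0, 0, 0, 0, 0, ⟨0, 0⟩, 0⟩ 0 0) (.cut .v 14680064 (.pos 29 .mm ⟨0, 0, 0, 0, 0, 0, 0, 0, 0, ⟨0, 0⟩, 0⟩ 0 0) (.pos 30 .mm ⟨0, 0, 0, 0, 0, 0, 0, 0, 0, ⟨0, 0⟩, 0⟩ 0 0)))) (.cut .v 268435456 (.cut .v 67108864 (.cut .v 33554432 (.pos 11 .mp ⟨0, 0, 0, 0, 0, 0, 0, 0, 0, ⟨0, 0⟩, 0⟩ 0 0) (.pos 12 .mp ⟨7241411, 0, 0, 0, 0, 0, 0, 0, 0, ⟨0, 0⟩, 0⟩ 0 0)) (.pos 10 .mp ⟨121012896, 0, 0, 0, 0, 0, 0, 0, 0, ⟨0, 0⟩, 0⟩ 0 0)) (.void 39 ⟨0, 100000, 0, 0, 0,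 0, 0, 0, 0, ⟨0, 0⟩, 0⟩ 0 0))) (.cut .v 16777216 (.cut .v 8388608 (.cut .v 4194304 (.void 4 ⟨0, 0, 50000, 0, 50000, 0, 0, 0, 0, ⟨0, 0⟩, 0⟩ 0 0) (.pos 5 .pm ⟨0, 0, 0, 0, 0, 0, 0, 0, 266612, ⟨0, 0⟩, 9975792⟩ 0 0)) (.cut .d 10285164 (.cut .v 12582912 (.cut .d 5142582 (.pos 6 .pm ⟨0, 0, 0, 0, 0, 0, 0, 0, 0, ⟨0, 0⟩, 0⟩ 0 0) (.pos 6 .pm ⟨0, 0, 0, 0, 0, 0, 0, 0, 0, ⟨0, 0⟩, 0⟩ 0 0)) (.cut .v 14680064 (.cut .d 5142582 (.cut .d 2571291 (.pos 29 .pm ⟨0, 0, 0, 0, 0, 0, 0, 0, 0, ⟨0, 0⟩, 0⟩ 0 0) (.pos 29 .pm ⟨0, 0, 0, 0, 0, 0, 0, 0, 0, ⟨0, 0⟩, 0⟩ 0 0)) (.pos 29 .pm ⟨0, 0, 0, 0, 0, 0, 0, 0, 0, ⟨0, 0⟩, 0⟩ 0 0)) (.pos 30 .pm ⟨0, 0, 0, 0, 0, 0, 0, 0, 0, ⟨0, 0⟩, 0⟩ 0 0))) (.pos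 3 .pm ⟨0, 0, 0, 0, 0, 0, 0, 0, 0, ⟨0, 0⟩, 0⟩ 0 0))) (.cut .v 268435456 (.cut .v 67108864 (.cut .v 33554432 (.pos 11 .pp ⟨0, 0, 0, 0, 0, 0, 0, 0, 0, ⟨0, 0⟩, 0⟩ 0 0) (.pos 12 .pp ⟨0, 0, 0, 0, 0, 0, 0, 0, 0, ⟨0, 0⟩, 0⟩ 0 0)) (.pos 10 .pp ⟨0, 12314808, 0, 0, 0, 0, 0, 0, 0, ⟨0, 0⟩, 0⟩ 0 0)) (.void 39 ⟨0, 0, 0, 100000, 0, 0, 0, 0, 0, ⟨0, 0⟩, 0⟩ 0 0)))),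
    by decide +kernel⟩

def covers9 : cell.Covers table row9.1 :=
  ⟨(.cut .d 0 (.cut .v 16777216 (.cut .v 8388608 (.cut .v 4194304 (.void 4 ⟨0, 0, 100000, 0, 0, 0, 0, 0, 0, ⟨0, 0⟩, 0⟩ 0 0) (.pos 5 .mm ⟨0, 0, 0, 0, 0, 0, 0, 0, 0, ⟨0, 0⟩, 0⟩ 0 0)) (.cut .v 12582912 (.pos 6 .mm ⟨0, 0, 0, 0, 0, 0, 0, 0, 0, ⟨0, 0⟩, 0⟩ 0 0) (.cut .v 14680064 (.pos 29 .mm ⟨0, 0, 0, 0, 0, 0, 0, 0, 0, ⟨0, 0⟩, 0⟩ 0 0) (.pos 30 .mm ⟨0, 0, 0, 0, 0, 32484, 0, 0, 0, ⟨0, 0⟩, 0⟩ 0 0)))) (.cut .v 268435456 (.cut .v 67108864 (.cut .v 33554432 (.pos 11 .mp ⟨1510018, 0, 0, 0, 0, 0, 0, 0, 0, ⟨0, 0⟩, 0⟩ 0 0) (.pos 12 .mp ⟨55578141, 0, 0, 0, 0, 0, 0, 0, 0, ⟨0, 0⟩, 0⟩ 0 0)) (.pos 10 .mp ⟨2725397199,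 0, 0, 0, 0, 0, 0, 0, 0, ⟨0, 0⟩, 0⟩ 0 0)) (.void 39 ⟨66150, 33850, 0, 0, 0, 0, 0, 0, 0, ⟨0, 0⟩, 0⟩ 0 0))) (.cut .v 16777216 (.cut .v 8388608 (.cut .v 4194304 (.void 4 ⟨0, 0, 50000, 0, 50000, 0, 0, 0, 0, ⟨0, 0⟩, 0⟩ 0 0) (.pos 5 .pm ⟨0, 0, 0, 0, 0, 0, 0, 0, 0, ⟨0, 0⟩, 0⟩ 0 0)) (.cut .v 12582912 (.cut .d 9070610 (.cut .d 4535305 (.pos 6 .pm ⟨0, 0, 0, 0, 0, 0, 0, 0, 0, ⟨0, 0⟩, 0⟩ 0 0) (.pos 6 .pm ⟨0, 0, 0, 0, 0, 0, 0, 0, 0, ⟨0, 0⟩, 0⟩ 0 0)) (.pos 6 .pm ⟨0, 0, 0, 0, 0, 0, 0, 0, 0, ⟨0, 0⟩, 0⟩ 0 0)) (.cut .d 9070610 (.cut .d 4535305 (.cut .v 14680064 (.cut .d 2267652 (.pos 29 .pm ⟨0, 0, 0, 0, 0, 0, 0, 0, 0, ⟨0, 0⟩, 0⟩ 0 0) (.pos 29 .pm ⟨0, 0, 0, 0, 0, 0, 0, 0, 0,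 ⟨0, 0⟩, 0⟩ 0 0)) (.pos 30 .pm ⟨0, 0, 0, 0, 0, 0, 0, 0, 0, ⟨0, 0⟩, 0⟩ 0 0)) (.pos 7 .pm ⟨0, 0, 0, 0, 0, 0, 0, 0, 0, ⟨0, 0⟩, 0⟩ 0 0)) (.pos 7 .pm ⟨0, 0, 0, 0, 0, 0, 0, 0, 0, ⟨0, 0⟩, 0⟩ 0 0)))) (.cut .v 268435456 (.cut .v 67108864 (.cut .v 33554432 (.pos 11 .pp ⟨0, 0, 0, 0, 0, 0, 0, 0, 0, ⟨0, 0⟩, 0⟩ 0 0) (.pos 12 .pp ⟨3403119, 0, 0, 0, 0, 0, 0, 0, 0, ⟨0, 0⟩, 0⟩ 0 0)) (.pos 10 .pp ⟨10608897, 0, 0, 0, 0, 0, 0, 0, 0, ⟨0, 0⟩, 0⟩ 0 0)) (.void 39 ⟨0, 0, 0, 100000, 0, 0, 0, 0, 0, ⟨0, 0⟩, 0⟩ 0 0)))),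
    by decide +kernel⟩

def covers10 : cell.Covers table row10.1 :=
  ⟨(.cut .d 0 (.cut .v 16777216 (.cut .v 8388608 (.cut .v 4194304 (.void 4 ⟨0, 0, 100000, 0, 0, 0, 0, 0, 0, ⟨0, 0⟩, 0⟩ 0 0) (.pos 5 .mm ⟨0, 0, 0, 0, 0, 0, 0, 0, 0, ⟨0, 0⟩, 0⟩ 0 0)) (.cut .v 12582912 (.pos 6 .mm ⟨0, 0, 0, 0, 0, 903436, 0, 0, 0, ⟨0, 0⟩, 0⟩ 0 0) (.cut .d (-8388608) (.pos 7 .mm ⟨27789075, 0, 0, 0, 0, 0, 0, 0, 0, ⟨0, 0⟩, 0⟩ 0 0) (.cut .d (-4194304) (.pos 7 .mm ⟨963140, 0, 0, 0, 0, 1574786, 0, 0, 0, ⟨0, 0⟩, 0⟩ 0 0) (.cut .v 14680064 (.pos 29 .mm ⟨0, 0, 0, 0, 0, 808847, 0, 0, 0, ⟨0, 0⟩, 0⟩ 0 0) (.pos 30 .mm ⟨0, 0, 0, 0, 0, 1371685, 0, 0, 0, ⟨0, 0⟩, 0⟩ 0 0)))))) (.cut .v 268435456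 (.cut .d (-8388608) (.void 8 ⟨100000, 0, 0, 0, 0, 0, 0, 0, 0, ⟨0, 0⟩, 0⟩ 0 0) (.cut .v 67108864 (.cut .v 33554432 (.cut .v 25165824 (.pos 13 .mp ⟨5989152, 0, 0, 0, 0, 0, 0, 0, 0, ⟨0, 0⟩, 0⟩ 0 0) (.pos 14 .mp ⟨28767811, 0, 0, 0, 0, 0, 0, 0, 0, ⟨0, 0⟩, 0⟩ 0 0)) (.pos 12 .mp ⟨70092866, 0, 0, 0, 0, 0, 0, 0, 0, ⟨0, 0⟩, 0⟩ 0 0)) (.pos 10 .mp ⟨3343063318, 0, 0, 0, 0, 0, 0, 0, 0, ⟨0, 0⟩, 0⟩ 0 0))) (.void 39 ⟨64975, 35025, 0, 0, 0, 0, 0, 0, 0, ⟨0, 0⟩, 0⟩ 0 0))) (.cut .v 16777216 (.cut .v 8388608 (.cut .v 4194304 (.pos 4 .pm ⟨0, 0, 67923996, 0, 71286523, 0, 0, 0, 0, ⟨0, 0⟩, 0⟩ 0 0) (.pos 5 .pm ⟨0, 0, 0, 0, 0, 0, 0, 0, 0, ⟨0, 0⟩, 0⟩ 0 0)) (.cut .v 12582912 (.cut .d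 8004398 (.cut .d 4002199 (.pos 6 .pm ⟨0, 0, 0, 0, 0, 0, 0, 0, 0, ⟨0, 0⟩, 0⟩ 0 0) (.pos 6 .pm ⟨0, 0, 0, 0, 0, 0, 0, 0, 0, ⟨0, 0⟩, 0⟩ 0 0)) (.pos 6 .pm ⟨0, 0, 0, 0, 0, 0, 0, 0, 0, ⟨0, 0⟩, 0⟩ 0 0)) (.cut .d 8004398 (.pos 7 .pm ⟨0, 0, 0, 0, 0, 0, 0, 0, 0, ⟨0, 0⟩, 0⟩ 0 0) (.pos 7 .pm ⟨0, 0, 0, 0, 0, 0, 0, 0, 0, ⟨0, 0⟩, 0⟩ 0 0)))) (.cut .v 268435456 (.cut .v 67108864 (.cut .v 33554432 (.pos 11 .pp ⟨0, 0, 0, 0, 0, 0, 0, 0, 0, ⟨0, 0⟩, 0⟩ 0 0) (.pos 12 .pp ⟨7655879, 0, 0, 0, 0, 0, 0, 0, 0, ⟨0, 0⟩, 0⟩ 0 0)) (.pos 10 .pp ⟨22606312, 0, 0, 0, 0, 0, 0, 0, 0, ⟨0, 0⟩, 0⟩ 0 0)) (.void 39 ⟨0, 0, 0, 100000, 0, 0, 0, 0, 0, ⟨0, 0⟩, 0⟩ 0 0)))),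
    by decide +kernel⟩

def covers11 : cell.Covers table row11.1 :=
  ⟨(.cut .d 0 (.cut .v 16777216 (.cut .v 8388608 (.cut .v 4194304 (.void 4 ⟨0, 0, 100000, 0, 0, 0, 0, 0, 0, ⟨0, 0⟩, 0⟩ 0 0) (.pos 5 .mm ⟨0, 0, 0, 0, 0, 0, 0, 0, 0, ⟨0, 0⟩, 0⟩ 0 0)) (.cut .d (-8388608) (.pos 3 .mm ⟨5067797, 0, 0, 0, 0, 50660705, 0, 0, 0, ⟨0, 0⟩, 0⟩ 0 0) (.cut .d (-4194304) (.cut .v 12582912 (.cut .s 9306112 (.pos 6 .mm ⟨0, 0, 0, 0, 0, 3243264, 0, 0, 0, ⟨0, 0⟩, 0⟩ 0 0) (.cut .s 9437184 (.pos 6 .mm ⟨0, 0, 0, 0, 0, 6753542, 0, 0, 0, ⟨0, 0⟩, 0⟩ 0 0) (.pos 6 .mm ⟨0, 0, 0, 0, 0, 9886614, 0, 0, 0, ⟨0, 0⟩, 0⟩ 0 0))) (.cut .s 9306112 (.cut .d (-6291456) (.cut .s 9175040 (.pos 7 .mm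 ⟨7841035, 0, 0, 0, 0, 0, 0, 0, 0, ⟨0, 0⟩, 0⟩ 0 0) (.pos 7 .mm ⟨13385001, 0, 0, 0, 0, 0, 0, 0, 0, ⟨0, 0⟩, 0⟩ 0 0)) (.cut .s 9175040 (.cut .v 14680064 (.pos 29 .mm ⟨4689091, 0, 0, 0, 0, 0, 0, 0, 0, ⟨0, 0⟩, 0⟩ 0 0) (.pos 30 .mm ⟨5748927, 0, 0, 0, 0, 0, 0, 0, 0, ⟨0, 0⟩, 0⟩ 0 0)) (.cut .v 14680064 (.pos 29 .mm ⟨8474985, 0, 0, 0, 0, 0, 0, 0, 0, ⟨0, 0⟩, 0⟩ 0 0) (.pos 30 .mm ⟨10208748, 0, 0, 0, 0, 0, 0, 0, 0, ⟨0, 0⟩, 0⟩ 0 0)))) (.cut .d (-6291456) (.cut .v 14680064 (.pos 29 .mm ⟨24003821, 0, 0, 0, 0, 0, 0, 0, 0, ⟨0, 0⟩, 0⟩ 0 0) (.pos 30 .mm ⟨32183294, 0, 0, 0, 0, 0, 0, 0, 0, ⟨0, 0⟩, 0⟩ 0 0)) (.cut .l 17382394 (.cut .v 14680064 (.pos 29 .mm ⟨10903791, 0, 0, 0, 0,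 5749464, 0, 0, 0, ⟨0, 0⟩, 0⟩ 0 0) (.pos 30 .mm ⟨22694793, 0, 0, 0, 0, 0, 0, 0, 0, ⟨0, 0⟩, 0⟩ 0 0)) (.cut .s 9437184 (.cut .v 14680064 (.pos 29 .mm ⟨11341790, 0, 0, 0, 0, 0, 0, 0, 0, ⟨0, 0⟩, 0⟩ 0 0) (.pos 30 .mm ⟨13987203, 0, 0, 0, 0, 0, 0, 0, 0, ⟨0, 0⟩, 0⟩ 0 0)) (.cut .d (-5242880) (.pos 7 .mm ⟨19135479, 0, 0, 0, 0, 0, 0, 0, 0, ⟨0, 0⟩, 0⟩ 0 0) (.pos 7 .mm ⟨15177659, 0, 0, 0, 0, 0, 0, 0, 0, ⟨0, 0⟩, 0⟩ 0 0))))))) (.cut .v 12582912 (.cut .s 9306112 (.pos 6 .mm ⟨0, 0, 0, 0, 0, 1826461, 0, 0, 0, ⟨0, 0⟩, 0⟩ 0 0) (.cut .d (-2097152) (.cut .s 9437184 (.pos 6 .mm ⟨0, 0, 0, 0, 0, 5704453, 0, 0, 0, ⟨0, 0⟩, 0⟩ 0 0) (.pos 6 .mm ⟨0, 0, 0, 0, 0, 8017433, 0, 0, 0, ⟨0, 0⟩,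 0⟩ 0 0)) (.pos 6 .mm ⟨0, 0, 0, 0, 0, 3342664, 0, 0, 0, ⟨0, 0⟩, 0⟩ 0 0))) (.cut .l 17382394 (.cut .d (-2097152) (.cut .s 9306112 (.cut .v 14680064 (.cut .s 9175040 (.pos 29 .mm ⟨0, 0, 0, 0, 0, 2365505, 0, 0, 0, ⟨0, 0⟩, 0⟩ 0 0) (.pos 29 .mm ⟨0, 0, 0, 0, 0, 4722221, 0, 0, 0, ⟨0, 0⟩, 0⟩ 0 0)) (.cut .s 9175040 (.pos 30 .mm ⟨0, 0, 0, 0, 0, 3250877, 0, 0, 0, ⟨0, 0⟩, 0⟩ 0 0) (.pos 30 .mm ⟨5278333, 0, 0, 0, 0, 1909839, 0, 0, 0, ⟨0, 0⟩, 0⟩ 0 0))) (.cut .s 9437184 (.cut .v 14680064 (.cut .d (-3145728) (.pos 29 .mm ⟨0, 0, 0, 0, 0, 8237455, 0, 0, 0, ⟨0, 0⟩, 0⟩ 0 0) (.pos 29 .mm ⟨0, 0, 0, 0, 0, 6704478, 0, 0, 0, ⟨0, 0⟩, 0⟩ 0 0)) (.pos 30 .mm ⟨10671606, 0, 0, 0, 0, 767230,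 0, 0, 0, ⟨0, 0⟩, 0⟩ 0 0)) (.cut .v 14680064 (.cut .d (-3145728) (.cut .s 9502720 (.pos 29 .mm ⟨0, 0, 0, 0, 0, 10334995, 0, 0, 0, ⟨0, 0⟩, 0⟩ 0 0) (.pos 29 .mm ⟨0, 0, 0, 0, 0, 12042843, 0, 0, 0, ⟨0, 0⟩, 0⟩ 0 0)) (.pos 29 .mm ⟨0, 0, 0, 0, 0, 9473240, 0, 0, 0, ⟨0, 0⟩, 0⟩ 0 0)) (.pos 30 .mm ⟨15366899, 0, 0, 0, 0, 449918, 0, 0, 0, ⟨0, 0⟩, 0⟩ 0 0)))) (.cut .v 14680064 (.cut .s 9306112 (.pos 29 .mm ⟨0, 0, 0, 0, 0, 1870534, 0, 0, 0, ⟨0, 0⟩, 0⟩ 0 0) (.pos 29 .mm ⟨0, 0, 0, 0, 0, 4991985, 0, 0, 0, ⟨0, 0⟩, 0⟩ 0 0)) (.pos 30 .mm ⟨0, 0, 0, 0, 0, 3374090, 0, 0, 0, ⟨0, 0⟩, 0⟩ 0 0))) (.pos 7 .mm ⟨0, 0, 0, 0, 0, 0, 0, 0, 0, ⟨0, 0⟩, 0⟩ 0 0)))))) (.cut .v 268435456 (.cut .d (-8388608)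 (.void 8 ⟨100000, 0, 0, 0, 0, 0, 0, 0, 0, ⟨0, 0⟩, 0⟩ 0 0) (.cut .v 67108864 (.cut .v 33554432 (.cut .d (-4194304) (.cut .v 25165824 (.cut .d (-6291456) (.pos 13 .mp ⟨47748495, 0, 0, 0, 0, 0, 0, 0, 0, ⟨0, 0⟩, 0⟩ 0 0) (.cut .s 9306112 (.pos 13 .mp ⟨12561364, 0, 0, 0, 0, 0, 0, 0, 0, ⟨0, 0⟩, 0⟩ 0 0) (.pos 13 .mp ⟨26903138, 0, 0, 0, 0, 0, 0, 0, 0, ⟨0, 0⟩, 0⟩ 0 0))) (.pos 14 .mp ⟨94930304, 0, 0, 0, 0, 0, 0, 0, 0, ⟨0, 0⟩, 0⟩ 0 0)) (.cut .s 9306112 (.pos 11 .mp ⟨8601122, 0, 0, 0, 0, 0, 0, 0, 0, ⟨0, 0⟩, 0⟩ 0 0) (.cut .v 25165824 (.pos 13 .mp ⟨15607114, 0, 0, 0, 0, 0, 0, 0, 0, ⟨0, 0⟩, 0⟩ 0 0) (.pos 14 .mp ⟨38787901, 0, 0, 0, 0, 0, 0, 0, 0, ⟨0, 0⟩, 0⟩ 0 0)))) (.cut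 .d (-4194304) (.void 12 ⟨100000, 0, 0, 0, 0, 0, 0, 0, 0, ⟨0, 0⟩, 0⟩ 0 0) (.pos 12 .mp ⟨83464109, 0, 0, 0, 0, 0, 0, 0, 0, ⟨0, 0⟩, 0⟩ 0 0))) (.cut .v 134217728 (.pos 35 .mp ⟨1565241821, 0, 0, 0, 0, 0, 0, 0, 0, ⟨0, 0⟩, 0⟩ 0 0) (.void 36 ⟨53895, 46105, 0, 0, 0, 0, 0, 0, 0, ⟨0, 0⟩, 0⟩ 0 0)))) (.void 39 ⟨63682, 36318, 0, 0, 0, 0, 0, 0, 0, ⟨0, 0⟩, 0⟩ 0 0))) (.cut .v 16777216 (.cut .v 8388608 (.cut .v 4194304 (.cut .v 2097152 (.void 48 ⟨0, 0, 50000, 0, 50000, 0, 0, 0, 0, ⟨0, 0⟩, 0⟩ 0 0) (.pos 49 .pm ⟨0, 0, 0, 0, 0, 0, 0, 0, 1563624, ⟨0, 0⟩, 7053950⟩ 0 0)) (.pos 5 .pm ⟨0, 0, 0, 0, 0, 0, 0, 0, 0, ⟨0, 0⟩, 0⟩ 0 0)) (.cut .v 12582912 (.cut .v 10485760 (.pos 42 .pm ⟨0,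 0, 0, 0, 0, 0, 0, 0, 0, ⟨0, 0⟩, 0⟩ 0 0) (.pos 43 .pm ⟨0, 0, 0, 0, 0, 0, 0, 0, 0, ⟨0, 0⟩, 0⟩ 0 0)) (.pos 7 .pm ⟨0, 0, 0, 0, 0, 0, 0, 0, 0, ⟨0, 0⟩, 0⟩ 0 0))) (.cut .v 268435456 (.cut .v 67108864 (.cut .v 33554432 (.pos 11 .pp ⟨0, 0, 0, 0, 0, 0, 0, 0, 0, ⟨0, 0⟩, 0⟩ 0 0) (.pos 12 .pp ⟨11475306, 0, 0, 0, 0, 0, 0, 0, 0, ⟨0, 0⟩, 0⟩ 0 0)) (.pos 10 .pp ⟨340702998, 301607618, 0, 0, 0, 0, 0, 0, 0, ⟨0, 0⟩, 0⟩ 0 0)) (.void 39 ⟨0, 0, 0, 100000, 0, 0, 0, 0, 0, ⟨0, 0⟩, 0⟩ 0 0)))),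
    by decide +kernel⟩

def covers12 : cell.Covers table row12.1 :=
  ⟨(.cut .d 0 (.cut .v 16777216 (.cut .d (-8388608) (.void 1 ⟨0, 0, 0, 0, 0, 100000, 0, 0, 0, ⟨0, 0⟩, 0⟩ 0 0) (.cut .v 8388608 (.cut .v 4194304 (.void 4 ⟨0, 0, 100000, 0, 0, 0, 0, 0, 0, ⟨0, 0⟩, 0⟩ 0 0) (.pos 5 .mm ⟨0, 0, 4692863, 0, 0, 6997804, 0, 0, 0, ⟨0, 0⟩, 0⟩ 0 0)) (.cut .d (-4194304) (.cut .v 12582912 (.cut .l 17382394 (.pos 6 .mm ⟨0, 0, 0, 0, 0, 37414343, 0, 0, 0, ⟨0, 0⟩, 0⟩ 0 0) (.cut .v 10485760 (.pos 42 .mm ⟨0, 0, 15946028, 0, 0, 8747255, 0, 0, 0, ⟨0, 0⟩, 0⟩ 0 0) (.cut .d (-6291456) (.cut .s 9830400 (.pos 43 .mm ⟨28919082, 0, 0, 0, 0, 2310238, 0, 0, 0, ⟨0, 0⟩, 0⟩ 0 0) (.pos 43 .mm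 ⟨54140753, 0, 3778843, 0, 0, 0, 0, 0, 0, ⟨0, 0⟩, 0⟩ 0 0)) (.cut .s 9830400 (.cut .d (-5242880) (.pos 43 .mm ⟨20670201, 0, 0, 0, 0, 1595260, 0, 0, 0, ⟨0, 0⟩, 0⟩ 0 0) (.pos 43 .mm ⟨12959230, 0, 0, 0, 0, 3862699, 0, 0, 0, ⟨0, 0⟩, 0⟩ 0 0)) (.cut .d (-5242880) (.cut .s 9961472 (.pos 43 .mm ⟨31841984, 0, 0, 0, 0, 0, 0, 0, 0, ⟨0, 0⟩, 0⟩ 0 0) (.cut .v 11534336 (.pos 50 .mm ⟨28558189, 0, 0, 0, 0, 5533022, 0, 0, 0, ⟨0, 0⟩, 0⟩ 0 0) (.pos 51 .mm ⟨40165076, 0, 0, 0, 0, 0, 0, 0, 0, ⟨0, 0⟩, 0⟩ 0 0))) (.cut .s 9961472 (.pos 43 .mm ⟨22795577, 0, 0, 0, 0, 3089376, 0, 0, 0, ⟨0, 0⟩, 0⟩ 0 0) (.cut .l 21280101 (.cut .s 10027008 (.pos 43 .mm ⟨20099506, 0, 0, 0, 0, 10624560, 0,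 0, 0, ⟨0, 0⟩, 0⟩ 0 0) (.pos 43 .mm ⟨21754527, 0, 0, 0, 0, 12277255, 0, 0, 0, ⟨0, 0⟩, 0⟩ 0 0)) (.pos 43 .mm ⟨29438993, 0, 0, 0, 0, 0, 0, 0, 0, ⟨0, 0⟩, 0⟩ 0 0)))))))) (.cut .d (-6291456) (.cut .s 9830400 (.cut .s 9699328 (.pos 7 .mm ⟨39931442, 0, 0, 0, 0, 0, 0, 0, 0, ⟨0, 0⟩, 0⟩ 0 0) (.pos 7 .mm ⟨52530439, 0, 0, 0, 0, 0, 0, 0, 0, ⟨0, 0⟩, 0⟩ 0 0)) (.void 7 ⟨100000, 0, 0, 0, 0, 0, 0, 0, 0, ⟨0, 0⟩, 0⟩ 0 0)) (.cut .l 17382394 (.cut .s 9830400 (.cut .s 9699328 (.pos 7 .mm ⟨24401382, 0, 0, 0, 0, 3496054, 0, 0, 0, ⟨0, 0⟩, 0⟩ 0 0) (.pos 7 .mm ⟨27092098, 0, 0, 0, 0, 10451153, 0, 0, 0, ⟨0, 0⟩, 0⟩ 0 0)) (.void 7 ⟨0, 0, 0, 0, 0, 100000, 0, 0, 0, ⟨0, 0⟩, 0⟩ 0 0)) (.cut .s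 9830400 (.cut .d (-5242880) (.cut .v 14680064 (.cut .s 9699328 (.pos 29 .mm ⟨23257892, 0, 0, 0, 0, 0, 0, 0, 0, ⟨0, 0⟩, 0⟩ 0 0) (.pos 29 .mm ⟨30621598, 0, 0, 0, 0, 0, 0, 0, 0, ⟨0, 0⟩, 0⟩ 0 0)) (.pos 30 .mm ⟨34615621, 0, 0, 0, 0, 0, 0, 0, 0, ⟨0, 0⟩, 0⟩ 0 0)) (.cut .s 9699328 (.pos 7 .mm ⟨19409473, 0, 0, 0, 0, 0, 0, 0, 0, ⟨0, 0⟩, 0⟩ 0 0) (.cut .s 9764864 (.pos 7 .mm ⟨24185915, 0, 0, 0, 0, 0, 0, 0, 0, ⟨0, 0⟩, 0⟩ 0 0) (.pos 7 .mm ⟨27277249, 0, 0, 0, 0, 0, 0, 0, 0, ⟨0, 0⟩, 0⟩ 0 0)))) (.cut .d (-5242880) (.cut .v 14680064 (.cut .s 9961472 (.pos 29 .mm ⟨38886805, 0, 0, 0, 0, 0, 0, 0, 0, ⟨0, 0⟩, 0⟩ 0 0) (.pos 29 .mm ⟨48059634, 0, 0, 0, 0, 0, 0, 0, 0, ⟨0, 0⟩, 0⟩ 0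 0)) (.pos 30 .mm ⟨57061095, 0, 0, 0, 0, 0, 0, 0, 0, ⟨0, 0⟩, 0⟩ 0 0)) (.cut .v 14680064 (.cut .s 9961472 (.cut .s 9895936 (.pos 29 .mm ⟨29759791, 0, 0, 0, 0, 0, 0, 0, 0, ⟨0, 0⟩, 0⟩ 0 0) (.pos 29 .mm ⟨33302778, 0, 0, 0, 0, 0, 0, 0, 0, ⟨0, 0⟩, 0⟩ 0 0)) (.cut .d (-4718592) (.pos 29 .mm ⟨41114467, 0, 0, 0, 0, 0, 0, 0, 0, ⟨0, 0⟩, 0⟩ 0 0) (.pos 29 .mm ⟨36940034, 0, 0, 0, 0, 0, 0, 0, 0, ⟨0, 0⟩, 0⟩ 0 0))) (.pos 30 .mm ⟨44923629, 0, 0, 0, 0, 0, 0, 0, 0, ⟨0, 0⟩, 0⟩ 0 0))))))) (.cut .d (-2097152) (.cut .v 12582912 (.cut .l 17382394 (.cut .v 10485760 (.pos 42 .mm ⟨0, 0, 0, 0, 0, 14682378, 0, 0, 0, ⟨0, 0⟩, 0⟩ 0 0) (.cut .s 9830400 (.cut .s 9699328 (.pos 43 .mm ⟨0, 0, 0,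 0, 0, 11627261, 0, 0, 0, ⟨0, 0⟩, 0⟩ 0 0) (.pos 43 .mm ⟨0, 0, 0, 0, 0, 15537052, 0, 0, 0, ⟨0, 0⟩, 0⟩ 0 0)) (.cut .s 9961472 (.cut .s 9895936 (.pos 43 .mm ⟨0, 0, 0, 0, 0, 18520055, 0, 0, 0, ⟨0, 0⟩, 0⟩ 0 0) (.pos 43 .mm ⟨0, 0, 0, 0, 0, 20843469, 0, 0, 0, ⟨0, 0⟩, 0⟩ 0 0)) (.cut .d (-3145728) (.pos 43 .mm ⟨3290152, 0, 0, 0, 0, 24012882, 0, 0, 0, ⟨0, 0⟩, 0⟩ 0 0) (.pos 43 .mm ⟨0, 0, 0, 0, 0, 23649053, 0, 0, 0, ⟨0, 0⟩, 0⟩ 0 0))))) (.cut .s 9830400 (.pos 6 .mm ⟨0, 0, 0, 0, 0, 9545815, 0, 0, 0, ⟨0, 0⟩, 0⟩ 0 0) (.cut .s 9961472 (.pos 6 .mm ⟨0, 0, 0, 0, 0, 16065733, 0, 0, 0, ⟨0, 0⟩, 0⟩ 0 0) (.cut .d (-3145728) (.cut .v 10485760 (.pos 42 .mm ⟨0, 0, 0, 0, 0, 18000237,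 0, 0, 0, ⟨0, 0⟩, 0⟩ 0 0) (.pos 43 .mm ⟨19220548, 0, 0, 0, 0, 6210009, 0, 0, 0, ⟨0, 0⟩, 0⟩ 0 0)) (.pos 6 .mm ⟨0, 0, 0, 0, 0, 0, 0, 0, 0, ⟨0, 0⟩, 0⟩ 0 0))))) (.cut .s 9830400 (.cut .l 17382394 (.cut .d (-3145728) (.cut .l 13484687 (.void 7 ⟨0, 0, 0, 0, 0, 100000, 0, 0, 0, ⟨0, 0⟩, 0⟩ 0 0) (.cut .v 14680064 (.cut .s 9699328 (.cut .v 13631488 (.pos 44 .mm ⟨0, 0, 0, 0, 0, 13796432, 0, 0, 0, ⟨0, 0⟩, 0⟩ 0 0) (.pos 45 .mm ⟨17357667, 0, 0, 0, 0, 907997, 0, 0, 0, ⟨0, 0⟩, 0⟩ 0 0)) (.cut .v 13631488 (.pos 44 .mm ⟨589331, 0, 0, 0, 0, 18234286, 0, 0, 0, ⟨0, 0⟩, 0⟩ 0 0) (.pos 45 .mm ⟨22155694, 0, 0, 0, 0, 2005306, 0, 0, 0, ⟨0, 0⟩, 0⟩ 0 0))) (.pos 30 .mm ⟨25316399, 0, 0,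 0, 0, 0, 0, 0, 0, ⟨0, 0⟩, 0⟩ 0 0))) (.cut .l 13484687 (.cut .v 14680064 (.cut .s 9699328 (.pos 29 .mm ⟨0, 0, 0, 0, 0, 14078566, 0, 0, 0, ⟨0, 0⟩, 0⟩ 0 0) (.cut .s 9764864 (.pos 29 .mm ⟨0, 0, 0, 0, 0, 17144238, 0, 0, 0, ⟨0, 0⟩, 0⟩ 0 0) (.pos 29 .mm ⟨0, 0, 0, 0, 0, 19669792, 0, 0, 0, ⟨0, 0⟩, 0⟩ 0 0))) (.cut .s 9699328 (.pos 30 .mm ⟨0, 0, 0, 0, 0, 16184932, 0, 0, 0, ⟨0, 0⟩, 0⟩ 0 0) (.pos 30 .mm ⟨0, 0, 0, 0, 0, 21589353, 0, 0, 0, ⟨0, 0⟩, 0⟩ 0 0))) (.cut .v 14680064 (.pos 29 .mm ⟨2768908, 0, 0, 0, 0, 9845041, 0, 0, 0, ⟨0, 0⟩, 0⟩ 0 0) (.pos 30 .mm ⟨17656025, 0, 0, 0, 0, 0, 0, 0, 0, ⟨0, 0⟩, 0⟩ 0 0)))) (.cut .v 14680064 (.pos 29 .mm ⟨11955883, 0, 0, 0, 0, 0, 0, 0,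 0, ⟨0, 0⟩, 0⟩ 0 0) (.pos 30 .mm ⟨17526284, 0, 0, 0, 0, 0, 0, 0, 0, ⟨0, 0⟩, 0⟩ 0 0))) (.cut .l 17382394 (.cut .v 14680064 (.cut .d (-3145728) (.cut .l 13484687 (.void 29 ⟨0, 0, 0, 0, 0, 100000, 0, 0, 0, ⟨0, 0⟩, 0⟩ 0 0) (.cut .s 9961472 (.cut .v 13631488 (.cut .s 9895936 (.pos 44 .mm ⟨5359693, 0, 0, 0, 0, 17908006, 0, 0, 0, ⟨0, 0⟩, 0⟩ 0 0) (.cut .d (-3670016) (.pos 44 .mm ⟨18060364, 0, 0, 0, 0, 11562087, 0, 0, 0, ⟨0, 0⟩, 0⟩ 0 0) (.pos 44 .mm ⟨5927630, 0, 0, 0, 0, 19368070, 0, 0, 0, ⟨0, 0⟩, 0⟩ 0 0))) (.pos 45 .mm ⟨28321248, 0, 0, 0, 0, 2593174, 0, 0, 0, ⟨0, 0⟩, 0⟩ 0 0)) (.cut .d (-3670016) (.pos 29 .mm ⟨37086351, 0, 0, 0, 0, 1067732, 0, 0, 0, ⟨0, 0⟩, 0⟩ 0 0)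 (.cut .v 13631488 (.cut .l 15433540 (.pos 44 .mm ⟨11299366, 0, 0, 0, 0, 22609728, 0, 0, 0, ⟨0, 0⟩, 0⟩ 0 0) (.cut .d (-3407872) (.pos 44 .mm ⟨25100083, 0, 0, 0, 0, 6633932, 0, 0, 0, ⟨0, 0⟩, 0⟩ 0 0) (.pos 44 .mm ⟨19129291, 0, 0, 0, 0, 9630579, 0, 0, 0, ⟨0, 0⟩, 0⟩ 0 0))) (.pos 45 .mm ⟨39653517, 0, 0, 0, 0, 0, 0, 0, 0, ⟨0, 0⟩, 0⟩ 0 0))))) (.cut .l 13484687 (.cut .d (-2621440) (.pos 29 .mm ⟨0, 0, 0, 0, 0, 35432289, 0, 0, 0, ⟨0, 0⟩, 0⟩ 0 0) (.cut .s 9961472 (.pos 29 .mm ⟨0, 0, 0, 0, 0, 22896888, 0, 0, 0, ⟨0, 0⟩, 0⟩ 0 0) (.cut .s 10027008 (.pos 29 .mm ⟨0, 0, 0, 0, 0, 26643634, 0, 0, 0, ⟨0, 0⟩, 0⟩ 0 0) (.pos 29 .mm ⟨0, 0, 0, 0, 0, 29704533, 0, 0, 0, ⟨0, 0⟩, 0⟩ 0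 0)))) (.cut .d (-2621440) (.cut .l 15433540 (.cut .s 9961472 (.cut .s 9895936 (.pos 29 .mm ⟨4944410, 0, 0, 0, 0, 16442786, 0, 0, 0, ⟨0, 0⟩, 0⟩ 0 0) (.pos 29 .mm ⟨7355905, 0, 0, 0, 0, 16968972, 0, 0, 0, ⟨0, 0⟩, 0⟩ 0 0)) (.cut .v 13631488 (.pos 44 .mm ⟨0, 0, 0, 0, 0, 27833732, 0, 0, 0, ⟨0, 0⟩, 0⟩ 0 0) (.cut .s 10027008 (.pos 45 .mm ⟨12833500, 0, 0, 0, 0, 16040272, 0, 0, 0, ⟨0, 0⟩, 0⟩ 0 0) (.pos 45 .mm ⟨17760676, 0, 0, 0, 0, 14729806, 0, 0, 0, ⟨0, 0⟩, 0⟩ 0 0)))) (.pos 29 .mm ⟨10709836, 0, 0, 0, 0, 0, 0, 0, 0, ⟨0, 0⟩, 0⟩ 0 0)) (.pos 29 .mm ⟨1114204, 0, 0, 0, 0, 0, 0, 0, 0, ⟨0, 0⟩, 0⟩ 0 0)))) (.cut .d (-3145728) (.pos 30 .mm ⟨44940242, 0, 0, 0, 0, 0, 0, 0, 0,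 ⟨0, 0⟩, 0⟩ 0 0) (.cut .l 13484687 (.cut .s 9961472 (.pos 30 .mm ⟨11899061, 0, 0, 0, 0, 17056230, 0, 0, 0, ⟨0, 0⟩, 0⟩ 0 0) (.cut .s 10027008 (.pos 30 .mm ⟨16606433, 0, 0, 0, 0, 16831295, 0, 0, 0, ⟨0, 0⟩, 0⟩ 0 0) (.pos 30 .mm ⟨21647885, 0, 0, 0, 0, 15725320, 0, 0, 0, ⟨0, 0⟩, 0⟩ 0 0))) (.pos 30 .mm ⟨30255699, 0, 0, 0, 0, 0, 0, 0, 0, ⟨0, 0⟩, 0⟩ 0 0)))) (.cut .d (-3145728) (.cut .s 9961472 (.pos 7 .mm ⟨24922544, 0, 0, 0, 0, 0, 0, 0, 0, ⟨0, 0⟩, 0⟩ 0 0) (.cut .d (-3670016) (.pos 7 .mm ⟨34705940, 0, 0, 0, 0, 0, 0, 0, 0, ⟨0, 0⟩, 0⟩ 0 0) (.pos 7 .mm ⟨26671608, 0, 0, 0, 0, 0, 0, 0, 0, ⟨0, 0⟩, 0⟩ 0 0))) (.pos 7 .mm ⟨0, 0, 0, 0, 0, 0, 0, 0, 0, ⟨0, 0⟩, 0⟩ 0 0))))) (.cut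 .l 17382394 (.cut .v 12582912 (.cut .d (-1048576) (.cut .s 9830400 (.pos 6 .mm ⟨0, 0, 0, 0, 0, 9918109, 0, 0, 0, ⟨0, 0⟩, 0⟩ 0 0) (.cut .s 9961472 (.pos 6 .mm ⟨0, 0, 0, 0, 0, 15432059, 0, 0, 0, ⟨0, 0⟩, 0⟩ 0 0) (.cut .d (-1572864) (.pos 6 .mm ⟨0, 0, 0, 0, 0, 20577308, 0, 0, 0, ⟨0, 0⟩, 0⟩ 0 0) (.pos 6 .mm ⟨0, 0, 0, 0, 0, 17489195, 0, 0, 0, ⟨0, 0⟩, 0⟩ 0 0)))) (.pos 6 .mm ⟨0, 0, 0, 0, 0, 0, 0, 0, 0, ⟨0, 0⟩, 0⟩ 0 0)) (.cut .d (-1048576) (.cut .l 13484687 (.cut .s 9830400 (.cut .v 14680064 (.cut .s 9699328 (.pos 29 .mm ⟨0, 0, 0, 0, 0, 10811829, 0, 0, 0, ⟨0, 0⟩, 0⟩ 0 0) (.pos 29 .mm ⟨0, 0, 0, 0, 0, 14287302, 0, 0, 0, ⟨0, 0⟩, 0⟩ 0 0)) (.pos 30 .mm ⟨0, 0, 0, 0, 0,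 14811901, 0, 0, 0, ⟨0, 0⟩, 0⟩ 0 0)) (.cut .v 14680064 (.cut .d (-1572864) (.cut .s 9961472 (.pos 29 .mm ⟨0, 0, 0, 0, 0, 19693693, 0, 0, 0, ⟨0, 0⟩, 0⟩ 0 0) (.cut .s 10027008 (.pos 29 .mm ⟨0, 0, 0, 0, 0, 23485290, 0, 0, 0, ⟨0, 0⟩, 0⟩ 0 0) (.pos 29 .mm ⟨0, 0, 0, 0, 0, 26109227, 0, 0, 0, ⟨0, 0⟩, 0⟩ 0 0))) (.pos 29 .mm ⟨0, 0, 0, 0, 0, 17790979, 0, 0, 0, ⟨0, 0⟩, 0⟩ 0 0)) (.cut .s 9961472 (.pos 30 .mm ⟨0, 0, 0, 0, 0, 22381605, 0, 0, 0, ⟨0, 0⟩, 0⟩ 0 0) (.pos 30 .mm ⟨0, 0, 0, 0, 0, 27749201, 0, 0, 0, ⟨0, 0⟩, 0⟩ 0 0)))) (.pos 7 .mm ⟨0, 0, 0, 0, 0, 0, 0, 0, 0, ⟨0, 0⟩, 0⟩ 0 0)) (.pos 7 .mm ⟨0, 0, 0, 0, 0, 0, 0, 0, 0, ⟨0, 0⟩, 0⟩ 0 0))) (.pos 3 .mm ⟨0, 0, 0, 0, 0, 0, 0,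 0, 0, ⟨0, 0⟩, 0⟩ 0 0)))))) (.cut .v 268435456 (.cut .d (-8388608) (.void 8 ⟨100000, 0, 0, 0, 0, 0, 0, 0, 0, ⟨0, 0⟩, 0⟩ 0 0) (.cut .v 67108864 (.cut .v 33554432 (.cut .d (-4194304) (.cut .v 25165824 (.cut .d (-6291456) (.void 13 ⟨100000, 0, 0, 0, 0, 0, 0, 0, 0, ⟨0, 0⟩, 0⟩ 0 0) (.cut .s 9830400 (.cut .s 9699328 (.pos 13 .mp ⟨40041184, 0, 0, 0, 0, 0, 0, 0, 0, ⟨0, 0⟩, 0⟩ 0 0) (.pos 13 .mp ⟨54089803, 0, 0, 0, 0, 0, 0, 0, 0, ⟨0, 0⟩, 0⟩ 0 0)) (.pos 13 .mp ⟨84819500, 0, 0, 0, 0, 0, 0, 0, 0, ⟨0, 0⟩, 0⟩ 0 0))) (.void 14 ⟨100000, 0, 0, 0, 0, 0, 0, 0, 0, ⟨0, 0⟩, 0⟩ 0 0)) (.cut .v 25165824 (.cut .d (-2097152) (.cut .s 9830400 (.pos 13 .mp ⟨30564919, 0, 0, 0, 0, 0, 0,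 0, 0, ⟨0, 0⟩, 0⟩ 0 0) (.cut .s 9961472 (.pos 13 .mp ⟨43230899, 0, 0, 0, 0, 0, 0, 0, 0, ⟨0, 0⟩, 0⟩ 0 0) (.pos 13 .mp ⟨54799211, 0, 0, 0, 0, 0, 0, 0, 0, ⟨0, 0⟩, 0⟩ 0 0))) (.pos 13 .mp ⟨24447904, 0, 0, 0, 0, 0, 0, 0, 0, ⟨0, 0⟩, 0⟩ 0 0)) (.pos 14 .mp ⟨80418176, 0, 0, 0, 0, 0, 0, 0, 0, ⟨0, 0⟩, 0⟩ 0 0))) (.cut .d (-4194304) (.void 12 ⟨100000, 0, 0, 0, 0, 0, 0, 0, 0, ⟨0, 0⟩, 0⟩ 0 0) (.cut .d (-2097152) (.pos 12 .mp ⟨358823005, 0, 0, 0, 0, 0, 0, 0, 0, ⟨0, 0⟩, 0⟩ 0 0) (.pos 12 .mp ⟨134602905, 0, 0, 0, 0, 0, 0, 0, 0, ⟨0, 0⟩, 0⟩ 0 0)))) (.cut .v 134217728 (.pos 35 .mp ⟨2656849560, 0, 0, 0, 0, 0, 0, 0, 0, ⟨0, 0⟩, 0⟩ 0 0) (.void 36 ⟨52567, 47433, 0, 0, 0, 0, 0, 0, 0,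 ⟨0, 0⟩, 0⟩ 0 0)))) (.void 39 ⟨62439, 37561, 0, 0, 0, 0, 0, 0, 0, ⟨0, 0⟩, 0⟩ 0 0))) (.cut .v 16777216 (.cut .v 8388608 (.cut .v 4194304 (.cut .v 2097152 (.void 48 ⟨0, 0, 50000, 0, 50000, 0, 0, 0, 0, ⟨0, 0⟩, 0⟩ 0 0) (.pos 49 .pm ⟨0, 0, 0, 0, 0, 0, 0, 0, 852696, ⟨0, 0⟩, 7053950⟩ 0 0)) (.cut .d 6320185 (.pos 5 .pm ⟨0, 0, 0, 0, 0, 0, 0, 0, 0, ⟨0, 0⟩, 0⟩ 0 0) (.pos 5 .pm ⟨0, 7229655, 0, 0, 0, 0, 0, 0, 0, ⟨0, 0⟩, 0⟩ 0 0))) (.cut .v 12582912 (.cut .d 6320185 (.pos 6 .pm ⟨0, 0, 0, 0, 0, 0, 0, 0, 0, ⟨0, 0⟩, 0⟩ 0 0) (.cut .d 9480278 (.pos 6 .pm ⟨0, 0, 0, 0, 0, 0, 0, 0, 0, ⟨0, 0⟩, 0⟩ 0 0) (.cut .v 10485760 (.pos 42 .pm ⟨0, 12838595, 0, 0, 0, 0, 0, 0, 0, ⟨0, 0⟩, 0⟩ 0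 0) (.pos 43 .pm ⟨0, 12562951, 0, 0, 0, 0, 0, 0, 0, ⟨0, 0⟩, 0⟩ 0 0)))) (.pos 7 .pm ⟨0, 1203613, 0, 0, 0, 0, 0, 0, 0, ⟨0, 0⟩, 0⟩ 0 0))) (.cut .v 268435456 (.cut .v 67108864 (.pos 9 .pp ⟨0, 0, 0, 0, 0, 0, 0, 0, 0, ⟨0, 0⟩, 0⟩ 0 0) (.cut .v 134217728 (.pos 35 .pp ⟨302009939, 121168315, 0, 0, 0, 0, 0, 0, 0, ⟨0, 0⟩, 0⟩ 0 0) (.void 36 ⟨0, 100000, 0, 0, 0, 0, 0, 0, 0, ⟨0, 0⟩, 0⟩ 0 0))) (.void 39 ⟨0, 0, 0, 100000, 0, 0, 0, 0, 0, ⟨0, 0⟩, 0⟩ 0 0)))),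
    by decide +kernel⟩

def covers13 : cell.Covers table row13.1 :=
  ⟨(.cut .d 0 (.cut .v 16777216 (.cut .d (-8388608) (.void 1 ⟨0, 0, 0, 0, 0, 100000, 0, 0, 0, ⟨0, 0⟩, 0⟩ 0 0) (.cut .v 8388608 (.cut .v 4194304 (.void 4 ⟨0, 0, 100000, 0, 0, 0, 0, 0, 0, ⟨0, 0⟩, 0⟩ 0 0) (.cut .d (-4194304) (.void 5 ⟨0, 0, 100000, 0, 0, 0, 0, 0, 0, ⟨0, 0⟩, 0⟩ 0 0) (.pos 5 .mm ⟨0, 0, 1262761, 0, 0, 17404937, 0, 0, 0, ⟨0, 0⟩, 0⟩ 0 0))) (.cut .d (-4194304) (.cut .l 17382394 (.void 3 ⟨0, 0, 0, 0, 0, 100000, 0, 0, 0, ⟨0, 0⟩, 0⟩ 0 0) (.cut .d (-6291456) (.cut .v 12582912 (.void 6 ⟨80767, 0, 19233, 0, 0, 0, 0, 0, 0, ⟨0, 0⟩, 0⟩ 0 0) (.void 7 ⟨100000, 0, 0, 0, 0, 0, 0, 0, 0, ⟨0, 0⟩,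 0⟩ 0 0)) (.cut .v 12582912 (.cut .v 10485760 (.pos 42 .mm ⟨0, 0, 26661253, 0, 0, 21756172, 0, 0, 0, ⟨0, 0⟩, 0⟩ 0 0) (.cut .s 10289152 (.cut .d (-5242880) (.cut .d (-5767168) (.pos 43 .mm ⟨53739618, 0, 1406610, 0, 0, 0, 0, 0, 0, ⟨0, 0⟩, 0⟩ 0 0) (.cut .s 10190848 (.pos 43 .mm ⟨38900018, 0, 0, 0, 0, 3755590, 0, 0, 0, ⟨0, 0⟩, 0⟩ 0 0) (.pos 43 .mm ⟨51755133, 0, 2251425, 0, 0, 0, 0, 0, 0, ⟨0, 0⟩, 0⟩ 0 0))) (.cut .l 21280101 (.cut .d (-4718592) (.pos 43 .mm ⟨31493108, 0, 0, 0, 0, 14729831, 0, 0, 0, ⟨0, 0⟩, 0⟩ 0 0) (.cut .s 10190848 (.pos 43 .mm ⟨22609419, 0, 0, 0, 0, 13923388, 0, 0, 0, ⟨0, 0⟩, 0⟩ 0 0) (.pos 43 .mm ⟨33816248, 0, 0, 0, 0, 9284864, 0, 0, 0, ⟨0, 0⟩,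 0⟩ 0 0))) (.cut .s 10190848 (.pos 43 .mm ⟨34033561, 0, 0, 0, 0, 0, 0, 0, 0, ⟨0, 0⟩, 0⟩ 0 0) (.pos 43 .mm ⟨39859817, 0, 0, 0, 0, 0, 0, 0, 0, ⟨0, 0⟩, 0⟩ 0 0)))) (.cut .d (-5242880) (.cut .v 11534336 (.pos 50 .mm ⟨61792483, 0, 5249259, 0, 0, 0, 0, 0, 0, ⟨0, 0⟩, 0⟩ 0 0) (.pos 51 .mm ⟨70915223, 0, 0, 0, 0, 0, 0, 0, 0, ⟨0, 0⟩, 0⟩ 0 0)) (.cut .l 21280101 (.cut .v 11534336 (.pos 50 .mm ⟨32330158, 0, 0, 0, 0, 19971158, 0, 0, 0, ⟨0, 0⟩, 0⟩ 0 0) (.pos 51 .mm ⟨60795334, 0, 0, 0, 0, 0, 0, 0, 0, ⟨0, 0⟩, 0⟩ 0 0)) (.cut .s 10387456 (.pos 43 .mm ⟨46295544, 0, 0, 0, 0, 0, 0, 0, 0, ⟨0, 0⟩, 0⟩ 0 0) (.cut .d (-4718592) (.pos 43 .mm ⟨56023070, 0, 0, 0, 0, 0, 0, 0, 0, ⟨0, 0⟩, 0⟩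 0 0) (.pos 43 .mm ⟨47751290, 0, 0, 0, 0, 0, 0, 0, 0, ⟨0, 0⟩, 0⟩ 0 0))))))) (.cut .d (-5242880) (.cut .s 10289152 (.cut .s 10190848 (.pos 7 .mm ⟨62120170, 0, 0, 0, 0, 0, 0, 0, 0, ⟨0, 0⟩, 0⟩ 0 0) (.pos 7 .mm ⟨72572723, 0, 0, 0, 0, 0, 0, 0, 0, ⟨0, 0⟩, 0⟩ 0 0)) (.void 7 ⟨100000, 0, 0, 0, 0, 0, 0, 0, 0, ⟨0, 0⟩, 0⟩ 0 0)) (.cut .v 14680064 (.cut .s 10289152 (.cut .l 21280101 (.pos 29 .mm ⟨52906995, 0, 0, 0, 0, 0, 0, 0, 0, ⟨0, 0⟩, 0⟩ 0 0) (.pos 29 .mm ⟨45707717, 0, 0, 0, 0, 0, 0, 0, 0, ⟨0, 0⟩, 0⟩ 0 0)) (.cut .s 10387456 (.pos 29 .mm ⟨62093505, 0, 0, 0, 0, 0, 0, 0, 0, ⟨0, 0⟩, 0⟩ 0 0) (.pos 29 .mm ⟨71206399, 0, 0, 0, 0, 0, 0, 0, 0, ⟨0, 0⟩, 0⟩ 0 0))) (.pos 30 .mm ⟨76164001,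 0, 0, 0, 0, 0, 0, 0, 0, ⟨0, 0⟩, 0⟩ 0 0)))))) (.cut .d (-2097152) (.cut .v 12582912 (.cut .l 17382394 (.cut .s 10289152 (.cut .v 10485760 (.pos 42 .mm ⟨0, 0, 0, 0, 0, 25170891, 0, 0, 0, ⟨0, 0⟩, 0⟩ 0 0) (.cut .s 10190848 (.cut .d (-3145728) (.pos 43 .mm ⟨3986377, 0, 0, 0, 0, 27881285, 0, 0, 0, ⟨0, 0⟩, 0⟩ 0 0) (.pos 43 .mm ⟨0, 0, 0, 0, 0, 27944195, 0, 0, 0, ⟨0, 0⟩, 0⟩ 0 0)) (.cut .d (-3145728) (.pos 43 .mm ⟨10609876, 0, 0, 0, 0, 28201845, 0, 0, 0, ⟨0, 0⟩, 0⟩ 0 0) (.pos 43 .mm ⟨0, 0, 0, 0, 0, 32703561, 0, 0, 0, ⟨0, 0⟩, 0⟩ 0 0)))) (.cut .v 10485760 (.pos 42 .mm ⟨0, 0, 0, 0, 0, 34631884, 0, 0, 0, ⟨0, 0⟩, 0⟩ 0 0) (.cut .l 13484687 (.pos 43 .mm ⟨0, 0, 0, 0, 0, 49806082,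 0, 0, 0, ⟨0, 0⟩, 0⟩ 0 0) (.cut .d (-3145728) (.cut .s 10387456 (.pos 43 .mm ⟨14466473, 0, 0, 0, 0, 31765939, 0, 0, 0, ⟨0, 0⟩, 0⟩ 0 0) (.pos 43 .mm ⟨16783094, 0, 0, 0, 0, 37421113, 0, 0, 0, ⟨0, 0⟩, 0⟩ 0 0)) (.cut .s 10387456 (.pos 43 .mm ⟨0, 0, 0, 0, 0, 36787584, 0, 0, 0, ⟨0, 0⟩, 0⟩ 0 0) (.pos 43 .mm ⟨0, 0, 0, 0, 0, 42545376, 0, 0, 0, ⟨0, 0⟩, 0⟩ 0 0)))))) (.cut .d (-3145728) (.cut .v 10485760 (.pos 42 .mm ⟨0, 0, 0, 0, 0, 25319250, 0, 0, 0, ⟨0, 0⟩, 0⟩ 0 0) (.cut .l 21280101 (.cut .s 10289152 (.cut .s 10190848 (.pos 43 .mm ⟨17943910, 0, 0, 0, 0, 12214033, 0, 0, 0, ⟨0, 0⟩, 0⟩ 0 0) (.cut .d (-3670016) (.pos 43 .mm ⟨25245447, 0, 0, 0, 0, 12681118, 0, 0, 0, ⟨0,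 0⟩, 0⟩ 0 0) (.pos 43 .mm ⟨25658098, 0, 0, 0, 0, 2130319, 0, 0, 0, ⟨0, 0⟩, 0⟩ 0 0))) (.cut .v 11534336 (.pos 50 .mm ⟨0, 0, 0, 0, 0, 38186407, 0, 0, 0, ⟨0, 0⟩, 0⟩ 0 0) (.cut .d (-3670016) (.pos 51 .mm ⟨49689981, 0, 0, 0, 0, 0, 0, 0, 0, ⟨0, 0⟩, 0⟩ 0 0) (.pos 51 .mm ⟨35877919, 0, 0, 0, 0, 2332529, 0, 0, 0, ⟨0, 0⟩, 0⟩ 0 0)))) (.pos 43 .mm ⟨24001457, 0, 0, 0, 0, 0, 0, 0, 0, ⟨0, 0⟩, 0⟩ 0 0))) (.pos 6 .mm ⟨0, 0, 0, 0, 0, 0, 0, 0, 0, ⟨0, 0⟩, 0⟩ 0 0))) (.cut .l 17382394 (.cut .d (-3145728) (.cut .l 13484687 (.void 7 ⟨0, 0, 0, 0, 0, 100000, 0, 0, 0, ⟨0, 0⟩, 0⟩ 0 0) (.cut .v 14680064 (.cut .s 10289152 (.cut .d (-3670016) (.pos 29 .mm ⟨49391865, 0, 0, 0, 0, 0, 0, 0, 0,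 ⟨0, 0⟩, 0⟩ 0 0) (.cut .v 13631488 (.cut .l 15433540 (.pos 44 .mm ⟨14625373, 0, 0, 0, 0, 28487855, 0, 0, 0, ⟨0, 0⟩, 0⟩ 0 0) (.cut .s 10190848 (.cut .d (-3407872) (.pos 44 .mm ⟨27009718, 0, 0, 0, 0, 8940452, 0, 0, 0, ⟨0, 0⟩, 0⟩ 0 0) (.pos 44 .mm ⟨18848482, 0, 0, 0, 0, 14127606, 0, 0, 0, ⟨0, 0⟩, 0⟩ 0 0)) (.pos 44 .mm ⟨29583122, 0, 0, 0, 0, 11490553, 0, 0, 0, ⟨0, 0⟩, 0⟩ 0 0))) (.pos 45 .mm ⟨47479711, 0, 0, 0, 0, 0, 0, 0, 0, ⟨0, 0⟩, 0⟩ 0 0))) (.cut .s 10387456 (.cut .l 15433540 (.void 29 ⟨0, 0, 0, 0, 0, 100000, 0, 0, 0, ⟨0, 0⟩, 0⟩ 0 0) (.pos 29 .mm ⟨49417652, 0, 0, 0, 0, 3166496, 0, 0, 0, ⟨0, 0⟩, 0⟩ 0 0)) (.pos 29 .mm ⟨63607963, 0, 0, 0, 0, 0, 0, 0, 0, ⟨0, 0⟩,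 0⟩ 0 0))) (.pos 30 .mm ⟨71275288, 0, 0, 0, 0, 0, 0, 0, 0, ⟨0, 0⟩, 0⟩ 0 0))) (.cut .l 13484687 (.cut .l 11535833 (.void 7 ⟨0, 0, 0, 0, 0, 100000, 0, 0, 0, ⟨0, 0⟩, 0⟩ 0 0) (.cut .d (-2621440) (.cut .v 14680064 (.pos 29 .mm ⟨1093915, 0, 0, 0, 0, 62398021, 0, 0, 0, ⟨0, 0⟩, 0⟩ 0 0) (.void 30 ⟨100000, 0, 0, 0, 0, 0, 0, 0, 0, ⟨0, 0⟩, 0⟩ 0 0)) (.cut .v 14680064 (.cut .s 10289152 (.cut .s 10190848 (.pos 29 .mm ⟨0, 0, 0, 0, 0, 33202152, 0, 0, 0, ⟨0, 0⟩, 0⟩ 0 0) (.pos 29 .mm ⟨0, 0, 0, 0, 0, 39749509, 0, 0, 0, ⟨0, 0⟩, 0⟩ 0 0)) (.cut .s 10387456 (.pos 29 .mm ⟨603573, 0, 0, 0, 0, 46235911, 0, 0, 0, ⟨0, 0⟩, 0⟩ 0 0) (.pos 29 .mm ⟨0, 0, 0, 0, 0, 56573695, 0, 0, 0, ⟨0, 0⟩,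 0⟩ 0 0))) (.cut .s 10289152 (.pos 30 .mm ⟨33662615, 0, 0, 0, 0, 9564642, 0, 0, 0, ⟨0, 0⟩, 0⟩ 0 0) (.pos 30 .mm ⟨47660312, 0, 0, 0, 0, 10861827, 0, 0, 0, ⟨0, 0⟩, 0⟩ 0 0))))) (.cut .v 14680064 (.cut .d (-2621440) (.cut .s 10289152 (.cut .l 15433540 (.cut .v 13631488 (.cut .s 10190848 (.pos 44 .mm ⟨611823, 0, 0, 0, 0, 31659773, 0, 0, 0, ⟨0, 0⟩, 0⟩ 0 0) (.pos 44 .mm ⟨3204600, 0, 0, 0, 0, 35541557, 0, 0, 0, ⟨0, 0⟩, 0⟩ 0 0)) (.cut .s 10190848 (.cut .d (-2883584) (.pos 45 .mm ⟨26188538, 0, 0, 0, 0, 11841713, 0, 0, 0, ⟨0, 0⟩, 0⟩ 0 0) (.pos 45 .mm ⟨14994612, 0, 0, 0, 0, 18869322, 0, 0, 0, ⟨0, 0⟩, 0⟩ 0 0)) (.pos 45 .mm ⟨26158358, 0, 0, 0, 0, 16424746, 0, 0, 0, ⟨0,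 0⟩, 0⟩ 0 0))) (.pos 29 .mm ⟨20585685, 0, 0, 0, 0, 6732694, 0, 0, 0, ⟨0, 0⟩, 0⟩ 0 0)) (.cut .l 15433540 (.cut .v 13631488 (.cut .s 10387456 (.pos 44 .mm ⟨6705209, 0, 0, 0, 0, 38984766, 0, 0, 0, ⟨0, 0⟩, 0⟩ 0 0) (.pos 44 .mm ⟨11615322, 0, 0, 0, 0, 41441828, 0, 0, 0, ⟨0, 0⟩, 0⟩ 0 0)) (.pos 45 .mm ⟨47540377, 0, 0, 0, 0, 7673431, 0, 0, 0, ⟨0, 0⟩, 0⟩ 0 0)) (.pos 29 .mm ⟨26803017, 0, 0, 0, 0, 15273477, 0, 0, 0, ⟨0, 0⟩, 0⟩ 0 0))) (.cut .s 10289152 (.pos 29 .mm ⟨7526251, 0, 0, 0, 0, 20839933, 0, 0, 0, ⟨0, 0⟩, 0⟩ 0 0) (.cut .s 10387456 (.pos 29 .mm ⟨11586336, 0, 0, 0, 0, 27571919, 0, 0, 0, ⟨0, 0⟩, 0⟩ 0 0) (.pos 29 .mm ⟨15573710, 0, 0, 0, 0, 29838010, 0, 0, 0, ⟨0, 0⟩,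 0⟩ 0 0)))) (.cut .d (-2621440) (.pos 30 .mm ⟨53884366, 0, 0, 0, 0, 0, 0, 0, 0, ⟨0, 0⟩, 0⟩ 0 0) (.pos 30 .mm ⟨39510831, 0, 0, 0, 0, 0, 0, 0, 0, ⟨0, 0⟩, 0⟩ 0 0))))) (.cut .d (-3145728) (.cut .v 14680064 (.cut .s 10289152 (.cut .d (-3670016) (.pos 29 .mm ⟨40505517, 0, 0, 0, 0, 0, 0, 0, 0, ⟨0, 0⟩, 0⟩ 0 0) (.pos 29 .mm ⟨28674904, 0, 0, 0, 0, 0, 0, 0, 0, ⟨0, 0⟩, 0⟩ 0 0)) (.pos 29 .mm ⟨52875788, 0, 0, 0, 0, 0, 0, 0, 0, ⟨0, 0⟩, 0⟩ 0 0)) (.pos 30 .mm ⟨56253772, 0, 0, 0, 0, 0, 0, 0, 0, ⟨0, 0⟩, 0⟩ 0 0)) (.pos 7 .mm ⟨18336750, 0, 0, 0, 0, 0, 0, 0, 0, ⟨0, 0⟩, 0⟩ 0 0)))) (.cut .l 17382394 (.cut .v 12582912 (.cut .d (-1048576) (.cut .l 13484687 (.cut .d (-1572864) (.cut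 .s 10289152 (.pos 6 .mm ⟨0, 0, 0, 0, 0, 27391688, 0, 0, 0, ⟨0, 0⟩, 0⟩ 0 0) (.pos 6 .mm ⟨0, 0, 0, 0, 0, 37331816, 0, 0, 0, ⟨0, 0⟩, 0⟩ 0 0)) (.pos 6 .mm ⟨0, 0, 0, 0, 0, 23425001, 0, 0, 0, ⟨0, 0⟩, 0⟩ 0 0)) (.pos 6 .mm ⟨0, 0, 0, 0, 0, 0, 0, 0, 0, ⟨0, 0⟩, 0⟩ 0 0)) (.pos 6 .mm ⟨0, 0, 0, 0, 0, 0, 0, 0, 0, ⟨0, 0⟩, 0⟩ 0 0)) (.cut .d (-1048576) (.cut .l 13484687 (.cut .s 10289152 (.cut .d (-1572864) (.cut .l 11535833 (.cut .v 14680064 (.cut .s 10190848 (.pos 29 .mm ⟨0, 0, 0, 0, 0, 30890481, 0, 0, 0, ⟨0, 0⟩, 0⟩ 0 0) (.pos 29 .mm ⟨0, 0, 0, 0, 0, 36875665, 0, 0, 0, ⟨0, 0⟩, 0⟩ 0 0)) (.pos 30 .mm ⟨0, 0, 0, 0, 0, 38894619, 0, 0, 0, ⟨0, 0⟩, 0⟩ 0 0)) (.pos 7 .mm ⟨0, 0, 0,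 0, 0, 29493349, 0, 0, 0, ⟨0, 0⟩, 0⟩ 0 0)) (.cut .v 14680064 (.pos 29 .mm ⟨0, 0, 0, 0, 0, 25710906, 0, 0, 0, ⟨0, 0⟩, 0⟩ 0 0) (.pos 30 .mm ⟨0, 0, 0, 0, 0, 31407677, 0, 0, 0, ⟨0, 0⟩, 0⟩ 0 0))) (.cut .d (-1572864) (.cut .l 11535833 (.cut .v 14680064 (.pos 29 .mm ⟨0, 0, 0, 0, 0, 47897122, 0, 0, 0, ⟨0, 0⟩, 0⟩ 0 0) (.pos 30 .mm ⟨0, 0, 0, 0, 0, 55823393, 0, 0, 0, ⟨0, 0⟩, 0⟩ 0 0)) (.pos 7 .mm ⟨406391, 0, 0, 0, 0, 40641162, 0, 0, 0, ⟨0, 0⟩, 0⟩ 0 0)) (.pos 7 .mm ⟨0, 0, 0, 0, 0, 37189487, 0, 0, 0, ⟨0, 0⟩, 0⟩ 0 0))) (.pos 7 .mm ⟨0, 0, 0, 0, 0, 0, 0, 0, 0, ⟨0, 0⟩, 0⟩ 0 0)) (.pos 7 .mm ⟨0, 0, 0, 0, 0, 0, 0, 0, 0, ⟨0, 0⟩, 0⟩ 0 0))) (.pos 3 .mm ⟨0, 0, 0, 0, 0, 0, 0, 0, 0,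 ⟨0, 0⟩, 0⟩ 0 0)))))) (.cut .v 268435456 (.cut .d (-8388608) (.void 8 ⟨100000, 0, 0, 0, 0, 0, 0, 0, 0, ⟨0, 0⟩, 0⟩ 0 0) (.cut .v 67108864 (.cut .d (-4194304) (.cut .v 33554432 (.cut .v 25165824 (.pos 13 .mp ⟨201061873, 0, 0, 0, 0, 0, 0, 0, 0, ⟨0, 0⟩, 0⟩ 0 0) (.void 14 ⟨100000, 0, 0, 0, 0, 0, 0, 0, 0, ⟨0, 0⟩, 0⟩ 0 0)) (.void 12 ⟨100000, 0, 0, 0, 0, 0, 0, 0, 0, ⟨0, 0⟩, 0⟩ 0 0)) (.cut .v 33554432 (.cut .v 25165824 (.cut .d (-2097152) (.cut .v 20971520 (.cut .s 10289152 (.pos 15 .mp ⟨67004069, 0, 0, 0, 0, 0, 0, 0, 0, ⟨0, 0⟩, 0⟩ 0 0) (.pos 15 .mp ⟨89222984, 0, 0, 0, 0, 0, 0, 0, 0, ⟨0, 0⟩, 0⟩ 0 0)) (.pos 16 .mp ⟨113846412, 0, 0, 0, 0, 0, 0, 0, 0, ⟨0, 0⟩, 0⟩ 0 0))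 (.cut .d (-1048576) (.pos 13 .mp ⟨52990524, 0, 0, 0, 0, 2588053, 0, 0, 0, ⟨0, 0⟩, 0⟩ 0 0) (.pos 13 .mp ⟨0, 0, 0, 0, 0, 0, 0, 0, 0, ⟨0, 0⟩, 0⟩ 0 0))) (.cut .d (-2097152) (.pos 14 .mp ⟨173857040, 0, 0, 0, 0, 0, 0, 0, 0, ⟨0, 0⟩, 0⟩ 0 0) (.pos 14 .mp ⟨101346101, 0, 0, 0, 0, 0, 0, 0, 0, ⟨0, 0⟩, 0⟩ 0 0))) (.cut .d (-2097152) (.void 12 ⟨100000, 0, 0, 0, 0, 0, 0, 0, 0, ⟨0, 0⟩, 0⟩ 0 0) (.pos 12 .mp ⟨302615991, 0, 0, 0, 0, 0, 0, 0, 0, ⟨0, 0⟩, 0⟩ 0 0)))) (.cut .v 134217728 (.pos 35 .mp ⟨3686468940, 0, 0, 0, 0, 0, 0, 0, 0, ⟨0, 0⟩, 0⟩ 0 0) (.pos 36 .mp ⟨88633329526, 79138830474, 0, 0, 0, 0, 0, 0, 0, ⟨0, 0⟩, 0⟩ 0 0)))) (.void 39 ⟨99293, 0, 0, 0, 0, 0, 0, 0, 0, ⟨0, 0⟩,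 0⟩ 0 0))) (.cut .v 16777216 (.cut .v 8388608 (.cut .v 4194304 (.cut .v 2097152 (.pos 48 .pm ⟨0, 0, 34032574, 0, 30127041, 0, 0, 0, 5728284, ⟨0, 0⟩, 2804900⟩ 0 0) (.pos 49 .pm ⟨0, 4169257, 0, 0, 0, 0, 0, 0, 0, ⟨0, 0⟩, 0⟩ 0 0)) (.cut .d 5556092 (.pos 5 .pm ⟨0, 0, 0, 0, 0, 0, 0, 0, 0, ⟨0, 0⟩, 0⟩ 0 0) (.cut .d 8334138 (.pos 5 .pm ⟨0, 0, 0, 0, 0, 0, 0, 0, 0, ⟨0, 0⟩, 0⟩ 0 0) (.cut .d 9723161 (.pos 5 .pm ⟨0, 15255296, 0, 0, 0, 0, 0, 0, 0, ⟨0, 0⟩, 0⟩ 0 0) (.pos 5 .pm ⟨0, 25898016, 0, 0, 0, 0, 0, 0, 0, ⟨0, 0⟩, 0⟩ 0 0))))) (.cut .v 12582912 (.cut .d 5556092 (.pos 6 .pm ⟨0, 0, 0, 0, 0, 0, 0, 0, 0, ⟨0, 0⟩, 0⟩ 0 0) (.cut .d 8334138 (.pos 6 .pm ⟨0, 0, 0, 0, 0, 0, 0, 0,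 0, ⟨0, 0⟩, 0⟩ 0 0) (.cut .v 10485760 (.cut .d 9723161 (.pos 42 .pm ⟨0, 14854455, 0, 0, 0, 0, 0, 0, 0, ⟨0, 0⟩, 0⟩ 0 0) (.pos 42 .pm ⟨0, 26427146, 0, 0, 0, 0, 0, 0, 0, ⟨0, 0⟩, 0⟩ 0 0)) (.pos 43 .pm ⟨0, 20527932, 0, 0, 0, 0, 0, 0, 0, ⟨0, 0⟩, 0⟩ 0 0)))) (.pos 7 .pm ⟨0, 2978225, 0, 0, 0, 0, 0, 0, 0, ⟨0, 0⟩, 0⟩ 0 0))) (.cut .v 268435456 (.cut .v 67108864 (.pos 9 .pp ⟨0, 0, 0, 0, 0, 0, 0, 0, 0, ⟨0, 0⟩, 0⟩ 0 0) (.cut .v 134217728 (.pos 35 .pp ⟨537083381, 335152377, 0, 0, 0, 0, 0, 0, 0, ⟨0, 0⟩, 0⟩ 0 0) (.void 36 ⟨0, 100000, 0, 0, 0, 0, 0, 0, 0, ⟨0, 0⟩, 0⟩ 0 0))) (.void 39 ⟨0, 0, 0, 100000, 0, 0, 0, 0, 0, ⟨0, 0⟩, 0⟩ 0 0)))),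
    by decide +kernel⟩

def covers14 : cell.Covers table row14.1 :=
  ⟨(.cut .d 0 (.cut .v 16777216 (.cut .d (-8388608) (.void 1 ⟨0, 0, 0, 0, 0, 100000, 0, 0, 0, ⟨0, 0⟩, 0⟩ 0 0) (.cut .v 8388608 (.cut .v 4194304 (.void 4 ⟨0, 0, 100000, 0, 0, 0, 0, 0, 0, ⟨0, 0⟩, 0⟩ 0 0) (.cut .d (-4194304) (.void 5 ⟨0, 0, 100000, 0, 0, 0, 0, 0, 0, ⟨0, 0⟩, 0⟩ 0 0) (.pos 5 .mm ⟨0, 0, 34803697, 0, 0, 0, 0, 0, 0, ⟨0, 0⟩, 0⟩ 0 0))) (.cut .d (-4194304) (.cut .d (-6291456) (.void 3 ⟨82978, 0, 17022, 0, 0, 0, 0, 0, 0, ⟨0, 0⟩, 0⟩ 0 0) (.cut .l 17382394 (.void 3 ⟨0, 0, 0, 0, 0, 100000, 0, 0, 0, ⟨0, 0⟩, 0⟩ 0 0) (.cut .v 12582912 (.cut .d (-5242880) (.pos 6 .mm ⟨109432330, 0, 16736106,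 0, 0, 0, 0, 0, 0, ⟨0, 0⟩, 0⟩ 0 0) (.cut .v 10485760 (.void 42 ⟨0, 0, 100000, 0, 0, 0, 0, 0, 0, ⟨0, 0⟩, 0⟩ 0 0) (.cut .s 10682368 (.cut .v 11534336 (.cut .l 21280101 (.pos 50 .mm ⟨38754290, 0, 0, 0, 0, 32197385, 0, 0, 0, ⟨0, 0⟩, 0⟩ 0 0) (.cut .d (-4718592) (.pos 50 .mm ⟨68067363, 0, 7655559, 0, 0, 0, 0, 0, 0, ⟨0, 0⟩, 0⟩ 0 0) (.pos 50 .mm ⟨56995323, 0, 0, 0, 0, 0, 0, 0, 0, ⟨0, 0⟩, 0⟩ 0 0))) (.cut .s 10584064 (.pos 51 .mm ⟨69112640, 0, 0, 0, 0, 0, 0, 0, 0, ⟨0, 0⟩, 0⟩ 0 0) (.pos 51 .mm ⟨78741379, 0, 0, 0, 0, 0, 0, 0, 0, ⟨0, 0⟩, 0⟩ 0 0))) (.cut .v 11534336 (.cut .s 10780672 (.pos 50 .mm ⟨79317731, 0, 10716116, 0, 0, 0, 0, 0, 0, ⟨0, 0⟩, 0⟩ 0 0) (.pos 50 .mm ⟨89424909,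 0, 13224447, 0, 0, 0, 0, 0, 0, ⟨0, 0⟩, 0⟩ 0 0)) (.pos 51 .mm ⟨97013779, 0, 0, 0, 0, 0, 0, 0, 0, ⟨0, 0⟩, 0⟩ 0 0))))) (.cut .s 10682368 (.cut .d (-5242880) (.void 7 ⟨100000, 0, 0, 0, 0, 0, 0, 0, 0, ⟨0, 0⟩, 0⟩ 0 0) (.pos 7 .mm ⟨96484374, 0, 0, 0, 0, 0, 0, 0, 0, ⟨0, 0⟩, 0⟩ 0 0)) (.pos 7 .mm ⟨144483092, 0, 0, 0, 0, 0, 0, 0, 0, ⟨0, 0⟩, 0⟩ 0 0))))) (.cut .d (-2097152) (.cut .v 12582912 (.cut .l 17382394 (.cut .d (-3145728) (.cut .s 10682368 (.cut .s 10584064 (.pos 6 .mm ⟨17353178, 0, 0, 0, 0, 44440709, 0, 0, 0, ⟨0, 0⟩, 0⟩ 0 0) (.pos 6 .mm ⟨19457819, 0, 0, 0, 0, 52571988, 0, 0, 0, ⟨0, 0⟩, 0⟩ 0 0)) (.pos 6 .mm ⟨22241823, 0, 0, 0, 0, 70682004, 0, 0, 0, ⟨0, 0⟩, 0⟩ 0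 0)) (.cut .l 13484687 (.pos 6 .mm ⟨0, 0, 0, 0, 0, 71894198, 0, 0, 0, ⟨0, 0⟩, 0⟩ 0 0) (.cut .v 10485760 (.pos 42 .mm ⟨0, 0, 0, 0, 0, 46133236, 0, 0, 0, ⟨0, 0⟩, 0⟩ 0 0) (.cut .s 10682368 (.cut .s 10584064 (.pos 43 .mm ⟨0, 0, 0, 0, 0, 48372267, 0, 0, 0, ⟨0, 0⟩, 0⟩ 0 0) (.pos 43 .mm ⟨0, 0, 0, 0, 0, 55602740, 0, 0, 0, ⟨0, 0⟩, 0⟩ 0 0)) (.cut .s 10780672 (.pos 43 .mm ⟨0, 0, 0, 0, 0, 63538550, 0, 0, 0, ⟨0, 0⟩, 0⟩ 0 0) (.pos 43 .mm ⟨2820068, 0, 0, 0, 0, 69177467, 0, 0, 0, ⟨0, 0⟩, 0⟩ 0 0)))))) (.cut .d (-3145728) (.cut .v 10485760 (.cut .s 10682368 (.pos 42 .mm ⟨0, 0, 12240463, 0, 0, 37655222, 0, 0, 0, ⟨0, 0⟩, 0⟩ 0 0) (.pos 42 .mm ⟨0, 0, 21485353, 0, 0, 47759575, 0,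 0, 0, ⟨0, 0⟩, 0⟩ 0 0)) (.cut .s 10682368 (.cut .l 21280101 (.cut .v 11534336 (.cut .s 10584064 (.pos 50 .mm ⟨6687345, 0, 0, 0, 0, 41886151, 0, 0, 0, ⟨0, 0⟩, 0⟩ 0 0) (.pos 50 .mm ⟨12904306, 0, 0, 0, 0, 43848607, 0, 0, 0, ⟨0, 0⟩, 0⟩ 0 0)) (.cut .d (-3670016) (.pos 51 .mm ⟨64559961, 0, 0, 0, 0, 0, 0, 0, 0, ⟨0, 0⟩, 0⟩ 0 0) (.pos 51 .mm ⟨39668698, 0, 0, 0, 0, 15101264, 0, 0, 0, ⟨0, 0⟩, 0⟩ 0 0))) (.pos 43 .mm ⟨43022303, 0, 0, 0, 0, 0, 0, 0, 0, ⟨0, 0⟩, 0⟩ 0 0)) (.cut .l 21280101 (.cut .v 11534336 (.cut .d (-3670016) (.cut .s 10780672 (.pos 50 .mm ⟨32019797, 0, 0, 0, 0, 36936528, 0, 0, 0, ⟨0, 0⟩, 0⟩ 0 0) (.pos 50 .mm ⟨40976022, 0, 0, 0, 0, 37172104, 0, 0, 0, ⟨0,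 0⟩, 0⟩ 0 0)) (.pos 50 .mm ⟨12163916, 0, 0, 0, 0, 52580510, 0, 0, 0, ⟨0, 0⟩, 0⟩ 0 0)) (.cut .d (-3670016) (.pos 51 .mm ⟨84828335, 0, 0, 0, 0, 0, 0, 0, 0, ⟨0, 0⟩, 0⟩ 0 0) (.pos 51 .mm ⟨62221616, 0, 0, 0, 0, 10649162, 0, 0, 0, ⟨0, 0⟩, 0⟩ 0 0))) (.pos 43 .mm ⟨59632777, 0, 0, 0, 0, 0, 0, 0, 0, ⟨0, 0⟩, 0⟩ 0 0)))) (.pos 6 .mm ⟨28143573, 0, 0, 0, 0, 1291518, 0, 0, 0, ⟨0, 0⟩, 0⟩ 0 0))) (.cut .d (-3145728) (.cut .l 17382394 (.cut .s 10682368 (.pos 7 .mm ⟨92409357, 0, 0, 0, 0, 0, 0, 0, 0, ⟨0, 0⟩, 0⟩ 0 0) (.void 7 ⟨100000, 0, 0, 0, 0, 0, 0, 0, 0, ⟨0, 0⟩, 0⟩ 0 0)) (.cut .s 10682368 (.cut .s 10584064 (.pos 7 .mm ⟨66642770, 0, 0, 0, 0, 0, 0, 0, 0, ⟨0, 0⟩, 0⟩ 0 0) (.pos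 7 .mm ⟨77602006, 0, 0, 0, 0, 0, 0, 0, 0, ⟨0, 0⟩, 0⟩ 0 0)) (.pos 7 .mm ⟨95236108, 0, 0, 0, 0, 0, 0, 0, 0, ⟨0, 0⟩, 0⟩ 0 0))) (.cut .l 17382394 (.cut .l 13484687 (.cut .v 14680064 (.cut .s 10682368 (.cut .d (-2621440) (.void 29 ⟨0, 0, 0, 0, 0, 100000, 0, 0, 0, ⟨0, 0⟩, 0⟩ 0 0) (.pos 29 .mm ⟨730783, 0, 0, 0, 0, 68267457, 0, 0, 0, ⟨0, 0⟩, 0⟩ 0 0)) (.pos 29 .mm ⟨5660632, 0, 0, 0, 0, 95599670, 0, 0, 0, ⟨0, 0⟩, 0⟩ 0 0)) (.pos 30 .mm ⟨101448492, 0, 0, 0, 0, 0, 0, 0, 0, ⟨0, 0⟩, 0⟩ 0 0)) (.cut .v 14680064 (.cut .d (-2621440) (.cut .s 10682368 (.cut .s 10584064 (.cut .d (-2883584) (.pos 29 .mm ⟨44811214, 0, 0, 0, 0, 16225078, 0, 0, 0, ⟨0, 0⟩, 0⟩ 0 0) (.pos 29 .mm ⟨32742914,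 0, 0, 0, 0, 23837526, 0, 0, 0, ⟨0, 0⟩, 0⟩ 0 0)) (.pos 29 .mm ⟨48703014, 0, 0, 0, 0, 18937415, 0, 0, 0, ⟨0, 0⟩, 0⟩ 0 0)) (.pos 29 .mm ⟨73346049, 0, 0, 0, 0, 8592914, 0, 0, 0, ⟨0, 0⟩, 0⟩ 0 0)) (.cut .l 15433540 (.cut .s 10682368 (.cut .v 13631488 (.pos 44 .mm ⟨0, 0, 0, 0, 0, 54474147, 0, 0, 0, ⟨0, 0⟩, 0⟩ 0 0) (.pos 45 .mm ⟨29137098, 0, 0, 0, 0, 27766153, 0, 0, 0, ⟨0, 0⟩, 0⟩ 0 0)) (.cut .s 10780672 (.pos 29 .mm ⟨30247751, 0, 0, 0, 0, 37220055, 0, 0, 0, ⟨0, 0⟩, 0⟩ 0 0) (.pos 29 .mm ⟨37359122, 0, 0, 0, 0, 38984650, 0, 0, 0, ⟨0, 0⟩, 0⟩ 0 0))) (.pos 29 .mm ⟨32644853, 0, 0, 0, 0, 824165, 0, 0, 0, ⟨0, 0⟩, 0⟩ 0 0))) (.pos 30 .mm ⟨84707461, 0, 0, 0, 0, 0, 0, 0, 0, ⟨0,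 0⟩, 0⟩ 0 0))) (.pos 7 .mm ⟨48375732, 0, 0, 0, 0, 0, 0, 0, 0, ⟨0, 0⟩, 0⟩ 0 0)))) (.cut .l 17382394 (.cut .l 13484687 (.cut .d (-1048576) (.cut .v 12582912 (.cut .d (-1572864) (.cut .s 10682368 (.pos 6 .mm ⟨0, 0, 0, 0, 0, 48126386, 0, 0, 0, ⟨0, 0⟩, 0⟩ 0 0) (.pos 6 .mm ⟨0, 0, 0, 0, 0, 62301837, 0, 0, 0, ⟨0, 0⟩, 0⟩ 0 0)) (.pos 6 .mm ⟨0, 0, 0, 0, 0, 39933391, 0, 0, 0, ⟨0, 0⟩, 0⟩ 0 0)) (.cut .d (-1572864) (.cut .l 11535833 (.cut .s 10682368 (.cut .v 14680064 (.pos 29 .mm ⟨0, 0, 0, 0, 0, 62635498, 0, 0, 0, ⟨0, 0⟩, 0⟩ 0 0) (.pos 30 .mm ⟨0, 0, 0, 0, 0, 74426616, 0, 0, 0, ⟨0, 0⟩, 0⟩ 0 0)) (.pos 7 .mm ⟨0, 0, 0, 0, 0, 98069060, 0, 0, 0, ⟨0, 0⟩, 0⟩ 0 0)) (.cut .v 14680064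 (.cut .s 10682368 (.pos 29 .mm ⟨0, 0, 0, 0, 0, 53170759, 0, 0, 0, ⟨0, 0⟩, 0⟩ 0 0) (.pos 29 .mm ⟨0, 0, 0, 0, 0, 72145664, 0, 0, 0, ⟨0, 0⟩, 0⟩ 0 0)) (.pos 30 .mm ⟨38224321, 0, 0, 0, 0, 28279850, 0, 0, 0, ⟨0, 0⟩, 0⟩ 0 0))) (.cut .s 10682368 (.pos 7 .mm ⟨0, 0, 0, 0, 0, 47641126, 0, 0, 0, ⟨0, 0⟩, 0⟩ 0 0) (.pos 7 .mm ⟨0, 0, 0, 0, 0, 64527965, 0, 0, 0, ⟨0, 0⟩, 0⟩ 0 0)))) (.cut .v 12582912 (.pos 6 .mm ⟨0, 0, 0, 0, 0, 0, 0, 0, 0, ⟨0, 0⟩, 0⟩ 0 0) (.pos 7 .mm ⟨0, 0, 0, 0, 0, 0, 0, 0, 0, ⟨0, 0⟩, 0⟩ 0 0))) (.cut .v 12582912 (.pos 6 .mm ⟨0, 0, 0, 0, 0, 21277383, 0, 0, 0, ⟨0, 0⟩, 0⟩ 0 0) (.pos 7 .mm ⟨20550730, 0, 0, 0, 0, 0, 0, 0, 0, ⟨0, 0⟩, 0⟩ 0 0))) (.pos 3 .mm ⟨0, 0,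 0, 0, 0, 0, 0, 0, 0, ⟨0, 0⟩, 0⟩ 0 0)))))) (.cut .v 268435456 (.cut .d (-8388608) (.void 8 ⟨100000, 0, 0, 0, 0, 0, 0, 0, 0, ⟨0, 0⟩, 0⟩ 0 0) (.cut .d (-4194304) (.void 8 ⟨100000, 0, 0, 0, 0, 0, 0, 0, 0, ⟨0, 0⟩, 0⟩ 0 0) (.cut .v 67108864 (.cut .v 33554432 (.cut .d (-2097152) (.cut .v 25165824 (.cut .d (-3145728) (.pos 13 .mp ⟨172850119, 0, 0, 0, 0, 0, 0, 0, 0, ⟨0, 0⟩, 0⟩ 0 0) (.cut .l 17382394 (.pos 13 .mp ⟨142666534, 0, 0, 0, 0, 0, 0, 0, 0, ⟨0, 0⟩, 0⟩ 0 0) (.pos 13 .mp ⟨98474962, 0, 0, 0, 0, 0, 0, 0, 0, ⟨0, 0⟩, 0⟩ 0 0))) (.pos 14 .mp ⟨282896966, 0, 0, 0, 0, 0, 0, 0, 0, ⟨0, 0⟩, 0⟩ 0 0)) (.cut .v 25165824 (.cut .d (-1048576) (.pos 13 .mp ⟨87035039, 0, 0, 0, 0,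 0, 0, 0, 0, ⟨0, 0⟩, 0⟩ 0 0) (.pos 13 .mp ⟨0, 0, 0, 0, 0, 0, 0, 0, 0, ⟨0, 0⟩, 0⟩ 0 0)) (.pos 14 .mp ⟨167780768, 0, 0, 0, 0, 0, 0, 0, 0, ⟨0, 0⟩, 0⟩ 0 0))) (.cut .v 50331648 (.cut .d (-2097152) (.void 19 ⟨100000, 0, 0, 0, 0, 0, 0, 0, 0, ⟨0, 0⟩, 0⟩ 0 0) (.pos 19 .mp ⟨336938364, 0, 0, 0, 0, 0, 0, 0, 0, ⟨0, 0⟩, 0⟩ 0 0)) (.pos 20 .mp ⟨968780735, 0, 0, 0, 0, 0, 0, 0, 0, ⟨0, 0⟩, 0⟩ 0 0))) (.cut .v 134217728 (.pos 35 .mp ⟨3894323796, 0, 0, 0, 0, 0, 0, 0, 0, ⟨0, 0⟩, 0⟩ 0 0) (.void 36 ⟨46844, 53156, 0, 0, 0, 0, 0, 0, 0, ⟨0, 0⟩, 0⟩ 0 0))))) (.void 39 ⟨60664, 39336, 0, 0, 0, 0, 0, 0, 0, ⟨0, 0⟩, 0⟩ 0 0))) (.cut .v 16777216 (.cut .v 8388608 (.cut .v 4194304 (.cut .v 2097152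 (.cut .v 1048576 (.void 64 ⟨0, 0, 50000, 0, 50000, 0, 0, 0, 0, ⟨0, 0⟩, 0⟩ 0 0) (.pos 65 .pm ⟨0, 0, 0, 0, 0, 0, 0, 0, 3076346, ⟨0, 0⟩, 4987896⟩ 0 0)) (.pos 49 .pm ⟨0, 7198898, 0, 0, 0, 0, 0, 0, 0, ⟨0, 0⟩, 0⟩ 0 0)) (.cut .d 5033166 (.pos 5 .pm ⟨0, 0, 0, 0, 0, 0, 0, 0, 0, ⟨0, 0⟩, 0⟩ 0 0) (.cut .d 7549749 (.pos 5 .pm ⟨0, 0, 0, 0, 0, 0, 0, 0, 0, ⟨0, 0⟩, 0⟩ 0 0) (.cut .v 6291456 (.pos 56 .pm ⟨0, 24587681, 0, 0, 0, 0, 0, 0, 0, ⟨0, 0⟩, 0⟩ 0 0) (.cut .d 8808040 (.pos 57 .pm ⟨0, 19553172, 0, 0, 0, 0, 0, 0, 0, ⟨0, 0⟩, 0⟩ 0 0) (.cut .s 10682368 (.pos 57 .pm ⟨0, 27537048, 0, 0, 0, 0, 0, 0, 0, ⟨0, 0⟩, 0⟩ 0 0) (.pos 57 .pm ⟨0, 37578348, 0, 0, 0, 0, 0, 0, 0, ⟨0, 0⟩, 0⟩ 0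 0))))))) (.cut .d 5033166 (.pos 3 .pm ⟨0, 0, 0, 0, 0, 0, 0, 0, 0, ⟨0, 0⟩, 0⟩ 0 0) (.cut .d 7549749 (.pos 3 .pm ⟨0, 0, 0, 0, 0, 0, 0, 0, 0, ⟨0, 0⟩, 0⟩ 0 0) (.cut .v 12582912 (.cut .d 8808040 (.pos 6 .pm ⟨0, 18714297, 0, 0, 0, 0, 0, 0, 0, ⟨0, 0⟩, 0⟩ 0 0) (.pos 6 .pm ⟨0, 35568101, 0, 0, 0, 0, 0, 0, 0, ⟨0, 0⟩, 0⟩ 0 0)) (.pos 7 .pm ⟨0, 29049037, 0, 0, 0, 0, 0, 0, 0, ⟨0, 0⟩, 0⟩ 0 0))))) (.cut .v 268435456 (.cut .v 67108864 (.pos 9 .pp ⟨0, 0, 0, 0, 0, 0, 0, 0, 0, ⟨0, 0⟩, 0⟩ 0 0) (.cut .v 134217728 (.cut .v 100663296 (.pos 68 .pp ⟨654481169, 374414283, 0, 0, 0, 0, 0, 0, 0, ⟨0, 0⟩, 0⟩ 0 0) (.pos 69 .pp ⟨1514737095, 703194307, 0, 0, 0, 0, 0, 0, 0, ⟨0, 0⟩, 0⟩ 0 0))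 (.void 36 ⟨0, 100000, 0, 0, 0, 0, 0, 0, 0, ⟨0, 0⟩, 0⟩ 0 0))) (.void 39 ⟨0, 0, 0, 100000, 0, 0, 0, 0, 0, ⟨0, 0⟩, 0⟩ 0 0)))),
    by decide +kernel⟩

def covers15 : cell.Covers table row15.1 :=
  ⟨(.cut .d 0 (.cut .v 16777216 (.cut .d (-8388608) (.void 1 ⟨0, 0, 0, 0, 0, 100000, 0, 0, 0, ⟨0, 0⟩, 0⟩ 0 0) (.cut .v 8388608 (.cut .v 4194304 (.void 4 ⟨0, 0, 100000, 0, 0, 0, 0, 0, 0, ⟨0, 0⟩, 0⟩ 0 0) (.cut .d (-4194304) (.void 5 ⟨0, 0, 100000, 0, 0, 0, 0, 0, 0, ⟨0, 0⟩, 0⟩ 0 0) (.cut .d (-2097152) (.void 5 ⟨0, 0, 100000, 0, 0, 0, 0, 0, 0, ⟨0, 0⟩, 0⟩ 0 0) (.pos 5 .mm ⟨0, 0, 45317631, 0, 0, 0, 0, 0, 0, ⟨0, 0⟩, 0⟩ 0 0)))) (.cut .d (-4194304) (.cut .v 12582912 (.cut .s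 11108352 (.cut .d (-6291456) (.void 6 ⟨79843, 0, 20157, 0, 0, 0, 0, 0, 0, ⟨0, 0⟩, 0⟩ 0 0) (.cut .v 10485760 (.void 42 ⟨0, 0, 100000, 0, 0, 0, 0, 0, 0, ⟨0, 0⟩, 0⟩ 0 0) (.cut .v 11534336 (.pos 50 .mm ⟨119850228, 0, 19613855, 0, 0, 0, 0, 0, 0, ⟨0, 0⟩, 0⟩ 0 0) (.pos 51 .mm ⟨147846051, 0, 0, 0, 0, 0, 0, 0, 0, ⟨0, 0⟩, 0⟩ 0 0)))) (.void 6 ⟨79576, 0, 20424, 0, 0, 0, 0, 0, 0, ⟨0, 0⟩, 0⟩ 0 0)) (.void 7 ⟨100000, 0, 0, 0, 0, 0, 0, 0, 0, ⟨0, 0⟩, 0⟩ 0 0)) (.cut .d (-2097152) (.cut .v 12582912 (.cut .l 17382394 (.cut .d (-3145728) (.void 6 ⟨0, 0, 0, 0, 0, 100000, 0, 0, 0, ⟨0, 0⟩, 0⟩ 0 0) (.cut .l 13484687 (.void 6 ⟨0, 0, 0, 0, 0, 100000, 0, 0, 0, ⟨0, 0⟩, 0⟩ 0 0) (.cut .s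 11108352 (.cut .v 10485760 (.pos 42 .mm ⟨0, 0, 0, 0, 0, 72606537, 0, 0, 0, ⟨0, 0⟩, 0⟩ 0 0) (.cut .v 11534336 (.pos 50 .mm ⟨0, 0, 0, 0, 0, 82110354, 0, 0, 0, ⟨0, 0⟩, 0⟩ 0 0) (.cut .d (-2621440) (.cut .s 10993664 (.pos 51 .mm ⟨24967706, 0, 0, 0, 0, 63058028, 0, 0, 0, ⟨0, 0⟩, 0⟩ 0 0) (.pos 51 .mm ⟨36399921, 0, 0, 0, 0, 64758453, 0, 0, 0, ⟨0, 0⟩, 0⟩ 0 0)) (.pos 51 .mm ⟨0, 0, 0, 0, 0, 84143008, 0, 0, 0, ⟨0, 0⟩, 0⟩ 0 0)))) (.cut .v 10485760 (.pos 42 .mm ⟨0, 0, 0, 0, 0, 99148756, 0, 0, 0, ⟨0, 0⟩, 0⟩ 0 0) (.cut .d (-2621440) (.cut .s 11223040 (.cut .v 11534336 (.pos 50 .mm ⟨0, 0, 0, 0, 0, 114283931, 0, 0, 0, ⟨0, 0⟩, 0⟩ 0 0) (.pos 51 .mm ⟨49270160, 0, 0, 0, 0, 66106933,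 0, 0, 0, ⟨0, 0⟩, 0⟩ 0 0)) (.pos 43 .mm ⟨31835153, 0, 0, 0, 0, 113836446, 0, 0, 0, ⟨0, 0⟩, 0⟩ 0 0)) (.cut .s 11223040 (.pos 43 .mm ⟨6703626, 0, 0, 0, 0, 95505225, 0, 0, 0, ⟨0, 0⟩, 0⟩ 0 0) (.cut .d (-2359296) (.pos 43 .mm ⟨23663557, 0, 0, 0, 0, 94921860, 0, 0, 0, ⟨0, 0⟩, 0⟩ 0 0) (.pos 43 .mm ⟨6309892, 0, 0, 0, 0, 105219516, 0, 0, 0, ⟨0, 0⟩, 0⟩ 0 0)))))))) (.cut .d (-3145728) (.cut .v 10485760 (.cut .s 11108352 (.pos 42 .mm ⟨0, 0, 38861500, 0, 0, 59226526, 0, 0, 0, ⟨0, 0⟩, 0⟩ 0 0) (.pos 42 .mm ⟨0, 0, 69219778, 0, 0, 74744476, 0, 0, 0, ⟨0, 0⟩, 0⟩ 0 0)) (.cut .s 11108352 (.cut .s 10993664 (.cut .v 11534336 (.cut .l 21280101 (.cut .d (-3670016) (.pos 50 .mm ⟨59554942,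 0, 4814657, 0, 0, 32345127, 0, 0, 0, ⟨0, 0⟩, 0⟩ 0 0) (.pos 50 .mm ⟨22589445, 0, 0, 0, 0, 57798569, 0, 0, 0, ⟨0, 0⟩, 0⟩ 0 0)) (.pos 50 .mm ⟨75196227, 0, 1560919, 0, 0, 0, 0, 0, 0, ⟨0, 0⟩, 0⟩ 0 0)) (.pos 51 .mm ⟨95984239, 0, 0, 0, 0, 0, 0, 0, 0, ⟨0, 0⟩, 0⟩ 0 0)) (.cut .v 11534336 (.cut .d (-3670016) (.cut .l 21280101 (.pos 50 .mm ⟨112337255, 0, 15471133, 0, 0, 0, 0, 0, 0, ⟨0, 0⟩, 0⟩ 0 0) (.pos 50 .mm ⟨98852821, 0, 14420635, 0, 0, 0, 0, 0, 0, ⟨0, 0⟩, 0⟩ 0 0)) (.cut .l 21280101 (.cut .l 19331247 (.pos 50 .mm ⟨34168513, 0, 0, 0, 0, 70349704, 0, 0, 0, ⟨0, 0⟩, 0⟩ 0 0) (.pos 50 .mm ⟨66362663, 0, 0, 0, 0, 21141407, 0, 0, 0, ⟨0, 0⟩, 0⟩ 0 0)) (.pos 50 .mm ⟨76261220,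 0, 5442072, 0, 0, 0, 0, 0, 0, ⟨0, 0⟩, 0⟩ 0 0))) (.pos 51 .mm ⟨109487085, 0, 0, 0, 0, 0, 0, 0, 0, ⟨0, 0⟩, 0⟩ 0 0))) (.cut .v 11534336 (.cut .d (-3670016) (.cut .l 21280101 (.void 50 ⟨81246, 0, 18754, 0, 0, 0, 0, 0, 0, ⟨0, 0⟩, 0⟩ 0 0) (.pos 50 .mm ⟨122049339, 0, 22756586, 0, 0, 0, 0, 0, 0, ⟨0, 0⟩, 0⟩ 0 0)) (.cut .s 11223040 (.cut .l 21280101 (.cut .l 19331247 (.pos 50 .mm ⟨40391474, 0, 0, 0, 0, 82142729, 0, 0, 0, ⟨0, 0⟩, 0⟩ 0 0) (.cut .d (-3407872) (.pos 50 .mm ⟨106093767, 0, 8164752, 0, 0, 0, 0, 0, 0, ⟨0, 0⟩, 0⟩ 0 0) (.cut .s 11165696 (.pos 50 .mm ⟨57352178, 0, 0, 0, 0, 36144466, 0, 0, 0, ⟨0, 0⟩, 0⟩ 0 0) (.pos 50 .mm ⟨72156350, 0, 2020298, 0, 0, 27968917,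 0, 0, 0, ⟨0, 0⟩, 0⟩ 0 0)))) (.pos 50 .mm ⟨89796467, 0, 6037763, 0, 0, 0, 0, 0, 0, ⟨0, 0⟩, 0⟩ 0 0)) (.cut .v 11010048 (.cut .l 21280101 (.cut .l 19331247 (.pos 62 .mm ⟨46152996, 0, 0, 0, 0, 92037518, 0, 0, 0, ⟨0, 0⟩, 0⟩ 0 0) (.cut .d (-3407872) (.pos 62 .mm ⟨124768382, 0, 18660052, 0, 0, 0, 0, 0, 0, ⟨0, 0⟩, 0⟩ 0 0) (.cut .d (-3276800) (.pos 62 .mm ⟨115035341, 0, 14410673, 0, 0, 1750235, 0, 0, 0, ⟨0, 0⟩, 0⟩ 0 0) (.cut .s 11280384 (.pos 62 .mm ⟨73384994, 0, 3443794, 0, 0, 31695532, 0, 0, 0, ⟨0, 0⟩, 0⟩ 0 0) (.cut .v 10747904 (.cut .s 11309056 (.pos 70 .mm ⟨65282865, 0, 7297669, 0, 0, 44548202, 0, 0, 0, ⟨0, 0⟩, 0⟩ 0 0) (.pos 70 .mm ⟨91658956, 0, 9392298, 0, 0,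 24916810, 0, 0, 0, ⟨0, 0⟩, 0⟩ 0 0)) (.pos 71 .mm ⟨106775864, 0, 0, 0, 0, 14390029, 0, 0, 0, ⟨0, 0⟩, 0⟩ 0 0)))))) (.pos 62 .mm ⟨102456371, 0, 16875525, 0, 0, 0, 0, 0, 0, ⟨0, 0⟩, 0⟩ 0 0)) (.pos 63 .mm ⟨126468418, 0, 0, 0, 0, 0, 0, 0, 0, ⟨0, 0⟩, 0⟩ 0 0)))) (.cut .s 11223040 (.pos 51 .mm ⟨124210053, 0, 0, 0, 0, 0, 0, 0, 0, ⟨0, 0⟩, 0⟩ 0 0) (.pos 51 .mm ⟨140153707, 0, 0, 0, 0, 0, 0, 0, 0, ⟨0, 0⟩, 0⟩ 0 0))))) (.cut .d (-2621440) (.cut .l 21280101 (.cut .v 10485760 (.cut .s 11108352 (.pos 42 .mm ⟨0, 0, 0, 0, 0, 67469063, 0, 0, 0, ⟨0, 0⟩, 0⟩ 0 0) (.pos 42 .mm ⟨0, 0, 33307445, 0, 0, 74744476, 0, 0, 0, ⟨0, 0⟩, 0⟩ 0 0)) (.cut .s 11108352 (.cut .v 11534336 (.pos 50 .mm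 ⟨0, 0, 0, 0, 0, 75734636, 0, 0, 0, ⟨0, 0⟩, 0⟩ 0 0) (.pos 51 .mm ⟨57814352, 0, 0, 0, 0, 25085028, 0, 0, 0, ⟨0, 0⟩, 0⟩ 0 0)) (.cut .v 11534336 (.cut .l 19331247 (.cut .s 11223040 (.cut .d (-2883584) (.pos 50 .mm ⟨33953437, 0, 0, 0, 0, 68024722, 0, 0, 0, ⟨0, 0⟩, 0⟩ 0 0) (.pos 50 .mm ⟨15777707, 0, 0, 0, 0, 79792908, 0, 0, 0, ⟨0, 0⟩, 0⟩ 0 0)) (.cut .d (-2883584) (.cut .v 11010048 (.cut .d (-3014656) (.pos 62 .mm ⟨53262396, 0, 0, 0, 0, 59618814, 0, 0, 0, ⟨0, 0⟩, 0⟩ 0 0) (.pos 62 .mm ⟨39467506, 0, 0, 0, 0, 69423046, 0, 0, 0, ⟨0, 0⟩, 0⟩ 0 0)) (.pos 63 .mm ⟨76599732, 0, 0, 0, 0, 39332949, 0, 0, 0, ⟨0, 0⟩, 0⟩ 0 0)) (.pos 50 .mm ⟨23367802, 0, 0, 0, 0, 85625361, 0, 0,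 0, ⟨0, 0⟩, 0⟩ 0 0))) (.cut .s 11223040 (.pos 50 .mm ⟨47112114, 0, 0, 0, 0, 0, 0, 0, 0, ⟨0, 0⟩, 0⟩ 0 0) (.cut .s 11280384 (.pos 50 .mm ⟨52014658, 0, 0, 0, 0, 46640155, 0, 0, 0, ⟨0, 0⟩, 0⟩ 0 0) (.cut .s 11309056 (.pos 50 .mm ⟨55039221, 0, 0, 0, 0, 49133588, 0, 0, 0, ⟨0, 0⟩, 0⟩ 0 0) (.cut .v 11010048 (.cut .v 10747904 (.cut .v 10616832 (.pos 72 .mm ⟨0, 0, 115513000, 0, 0, 0, 0, 0, 0, ⟨0, 0⟩, 0⟩ 0 0) (.pos 73 .mm ⟨53975141, 0, 0, 0, 0, 54970184, 0, 0, 0, ⟨0, 0⟩, 0⟩ 0 0)) (.pos 71 .mm ⟨64025623, 0, 0, 0, 0, 47098215, 0, 0, 0, ⟨0, 0⟩, 0⟩ 0 0)) (.pos 63 .mm ⟨109531100, 0, 0, 0, 0, 0, 0, 0, 0, ⟨0, 0⟩, 0⟩ 0 0)))))) (.cut .s 11223040 (.pos 51 .mm ⟨72881122, 0, 0, 0,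 0, 31620594, 0, 0, 0, ⟨0, 0⟩, 0⟩ 0 0) (.pos 51 .mm ⟨91062635, 0, 0, 0, 0, 28051102, 0, 0, 0, ⟨0, 0⟩, 0⟩ 0 0))))) (.pos 6 .mm ⟨34236261, 0, 0, 0, 0, 0, 0, 0, 0, ⟨0, 0⟩, 0⟩ 0 0)) (.pos 6 .mm ⟨31796111, 0, 0, 0, 0, 0, 0, 0, 0, ⟨0, 0⟩, 0⟩ 0 0)))) (.cut .d (-3145728) (.cut .l 17382394 (.void 7 ⟨100000, 0, 0, 0, 0, 0, 0, 0, 0, ⟨0, 0⟩, 0⟩ 0 0) (.cut .s 11108352 (.cut .d (-3670016) (.pos 7 .mm ⟨133657218, 0, 0, 0, 0, 0, 0, 0, 0, ⟨0, 0⟩, 0⟩ 0 0) (.pos 7 .mm ⟨113684793, 0, 0, 0, 0, 0, 0, 0, 0, ⟨0, 0⟩, 0⟩ 0 0)) (.pos 7 .mm ⟨167316042, 0, 0, 0, 0, 0, 0, 0, 0, ⟨0, 0⟩, 0⟩ 0 0))) (.cut .l 17382394 (.cut .l 13484687 (.void 7 ⟨0, 0, 0, 0, 0, 100000, 0, 0, 0, ⟨0, 0⟩, 0⟩ 0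 0) (.cut .v 14680064 (.cut .d (-2621440) (.pos 29 .mm ⟨133041941, 0, 0, 0, 0, 0, 0, 0, 0, ⟨0, 0⟩, 0⟩ 0 0) (.cut .v 13631488 (.cut .s 11108352 (.cut .s 10993664 (.pos 44 .mm ⟨47030571, 0, 0, 0, 0, 39381834, 0, 0, 0, ⟨0, 0⟩, 0⟩ 0 0) (.pos 44 .mm ⟨59432684, 0, 0, 0, 0, 39641938, 0, 0, 0, ⟨0, 0⟩, 0⟩ 0 0)) (.cut .s 11223040 (.pos 44 .mm ⟨73244810, 0, 0, 0, 0, 39518718, 0, 0, 0, ⟨0, 0⟩, 0⟩ 0 0) (.pos 44 .mm ⟨86752788, 0, 0, 0, 0, 40759850, 0, 0, 0, ⟨0, 0⟩, 0⟩ 0 0))) (.pos 45 .mm ⟨121604362, 0, 0, 0, 0, 0, 0, 0, 0, ⟨0, 0⟩, 0⟩ 0 0))) (.pos 30 .mm ⟨151238347, 0, 0, 0, 0, 0, 0, 0, 0, ⟨0, 0⟩, 0⟩ 0 0))) (.cut .s 11108352 (.pos 7 .mm ⟨84188025, 0, 0, 0, 0, 0, 0, 0, 0,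 ⟨0, 0⟩, 0⟩ 0 0) (.pos 7 .mm ⟨115173717, 0, 0, 0, 0, 0, 0, 0, 0, ⟨0, 0⟩, 0⟩ 0 0))))) (.cut .l 17382394 (.cut .d (-1048576) (.cut .v 12582912 (.cut .l 13484687 (.cut .v 10485760 (.pos 42 .mm ⟨0, 0, 0, 0, 0, 73084004, 0, 0, 0, ⟨0, 0⟩, 0⟩ 0 0) (.cut .d (-1572864) (.cut .s 11108352 (.pos 43 .mm ⟨0, 0, 0, 0, 0, 84574294, 0, 0, 0, ⟨0, 0⟩, 0⟩ 0 0) (.pos 43 .mm ⟨0, 0, 0, 0, 0, 110777401, 0, 0, 0, ⟨0, 0⟩, 0⟩ 0 0)) (.cut .s 11108352 (.pos 43 .mm ⟨0, 0, 0, 0, 0, 69583398, 0, 0, 0, ⟨0, 0⟩, 0⟩ 0 0) (.pos 43 .mm ⟨0, 0, 0, 0, 0, 90839587, 0, 0, 0, ⟨0, 0⟩, 0⟩ 0 0)))) (.cut .s 11108352 (.pos 6 .mm ⟨0, 0, 0, 0, 0, 58232478, 0, 0, 0, ⟨0, 0⟩, 0⟩ 0 0) (.pos 6 .mm ⟨0, 0, 0, 0,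 0, 77197660, 0, 0, 0, ⟨0, 0⟩, 0⟩ 0 0))) (.cut .l 13484687 (.cut .d (-1572864) (.cut .l 11535833 (.pos 7 .mm ⟨0, 0, 0, 0, 0, 188663518, 0, 0, 0, ⟨0, 0⟩, 0⟩ 0 0) (.cut .v 14680064 (.cut .s 11108352 (.pos 29 .mm ⟨0, 0, 0, 0, 0, 100385280, 0, 0, 0, ⟨0, 0⟩, 0⟩ 0 0) (.cut .d (-1835008) (.pos 29 .mm ⟨15764784, 0, 0, 0, 0, 132560608, 0, 0, 0, ⟨0, 0⟩, 0⟩ 0 0) (.pos 29 .mm ⟨0, 0, 0, 0, 0, 126363880, 0, 0, 0, ⟨0, 0⟩, 0⟩ 0 0))) (.pos 30 .mm ⟨116626071, 0, 0, 0, 0, 6174251, 0, 0, 0, ⟨0, 0⟩, 0⟩ 0 0))) (.cut .l 11535833 (.cut .s 11108352 (.cut .d (-1310720) (.pos 7 .mm ⟨0, 0, 0, 0, 0, 107581248, 0, 0, 0, ⟨0, 0⟩, 0⟩ 0 0) (.pos 7 .mm ⟨0, 0, 0, 0, 0, 82878617, 0, 0, 0, ⟨0,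 0⟩, 0⟩ 0 0)) (.cut .d (-1310720) (.pos 7 .mm ⟨752260, 0, 0, 0, 0, 148029473, 0, 0, 0, ⟨0, 0⟩, 0⟩ 0 0) (.pos 7 .mm ⟨0, 0, 0, 0, 0, 118579535, 0, 0, 0, ⟨0, 0⟩, 0⟩ 0 0))) (.cut .v 14680064 (.pos 29 .mm ⟨0, 0, 0, 0, 0, 81280714, 0, 0, 0, ⟨0, 0⟩, 0⟩ 0 0) (.pos 30 .mm ⟨32870110, 0, 0, 0, 0, 59517747, 0, 0, 0, ⟨0, 0⟩, 0⟩ 0 0)))) (.cut .s 11108352 (.pos 7 .mm ⟨39169378, 0, 0, 0, 0, 27485314, 0, 0, 0, ⟨0, 0⟩, 0⟩ 0 0) (.cut .s 11223040 (.pos 7 .mm ⟨42361662, 0, 0, 0, 0, 46909800, 0, 0, 0, ⟨0, 0⟩, 0⟩ 0 0) (.cut .d (-1572864) (.pos 7 .mm ⟨56671289, 0, 0, 0, 0, 50865693, 0, 0, 0, ⟨0, 0⟩, 0⟩ 0 0) (.pos 7 .mm ⟨2595313, 0, 0, 0, 0, 0, 0, 0, 0, ⟨0, 0⟩, 0⟩ 0 0)))))) (.cut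 .v 12582912 (.pos 6 .mm ⟨0, 0, 0, 0, 0, 37170736, 0, 0, 0, ⟨0, 0⟩, 0⟩ 0 0) (.pos 7 .mm ⟨0, 0, 0, 0, 0, 57476000, 0, 0, 0, ⟨0, 0⟩, 0⟩ 0 0))) (.pos 3 .mm ⟨0, 0, 0, 0, 0, 0, 0, 0, 0, ⟨0, 0⟩, 0⟩ 0 0)))))) (.cut .v 268435456 (.cut .d (-8388608) (.void 8 ⟨100000, 0, 0, 0, 0, 0, 0, 0, 0, ⟨0, 0⟩, 0⟩ 0 0) (.cut .d (-4194304) (.void 8 ⟨100000, 0, 0, 0, 0, 0, 0, 0, 0, ⟨0, 0⟩, 0⟩ 0 0) (.cut .v 67108864 (.cut .v 33554432 (.cut .d (-2097152) (.cut .v 25165824 (.cut .v 20971520 (.cut .s 11108352 (.pos 15 .mp ⟨186250478, 0, 0, 0, 0, 0, 0, 0, 0, ⟨0, 0⟩, 0⟩ 0 0) (.pos 15 .mp ⟨236881161, 0, 0, 0, 0, 0, 0, 0, 0, ⟨0, 0⟩, 0⟩ 0 0)) (.pos 16 .mp ⟨303355137, 0, 0, 0, 0, 0, 0, 0,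 0, ⟨0, 0⟩, 0⟩ 0 0)) (.pos 14 .mp ⟨459229390, 0, 0, 0, 0, 0, 0, 0, 0, ⟨0, 0⟩, 0⟩ 0 0)) (.cut .v 25165824 (.cut .d (-1048576) (.cut .s 11108352 (.pos 13 .mp ⟨132063337, 0, 0, 0, 0, 0, 0, 0, 0, ⟨0, 0⟩, 0⟩ 0 0) (.pos 13 .mp ⟨182478987, 0, 0, 0, 0, 0, 0, 0, 0, ⟨0, 0⟩, 0⟩ 0 0)) (.pos 13 .mp ⟨79546859, 0, 0, 0, 0, 0, 0, 0, 0, ⟨0, 0⟩, 0⟩ 0 0)) (.pos 14 .mp ⟨273802040, 0, 0, 0, 0, 0, 0, 0, 0, ⟨0, 0⟩, 0⟩ 0 0))) (.cut .v 50331648 (.cut .d (-2097152) (.void 19 ⟨100000, 0, 0, 0, 0, 0, 0, 0, 0, ⟨0, 0⟩, 0⟩ 0 0) (.pos 19 .mp ⟨541567502, 0, 0, 0, 0, 0, 0, 0, 0, ⟨0, 0⟩, 0⟩ 0 0)) (.pos 20 .mp ⟨1403376201, 0, 0, 0, 0, 0, 0, 0, 0, ⟨0, 0⟩, 0⟩ 0 0))) (.cut .v 134217728 (.pos 35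 .mp ⟨5410806879, 0, 0, 0, 0, 0, 0, 0, 0, ⟨0, 0⟩, 0⟩ 0 0) (.void 36 ⟨45817, 54183, 0, 0, 0, 0, 0, 0, 0, ⟨0, 0⟩, 0⟩ 0 0))))) (.void 39 ⟨89432, 7008, 0, 3560, 0, 0, 0, 0, 0, ⟨0, 0⟩, 0⟩ 0 0))) (.cut .v 16777216 (.cut .v 8388608 (.cut .v 4194304 (.cut .v 2097152 (.cut .v 1048576 (.pos 64 .pm ⟨0, 0, 15892627, 0, 13950273, 0, 0, 0, 8116528, ⟨0, 0⟩, 1983364⟩ 0 0) (.pos 65 .pm ⟨0, 4634745, 0, 0, 0, 0, 0, 0, 0, ⟨0, 0⟩, 0⟩ 0 0)) (.pos 49 .pm ⟨0, 11003521, 0, 0, 0, 0, 0, 0, 0, ⟨0, 0⟩, 0⟩ 0 0)) (.cut .d 4548041 (.pos 5 .pm ⟨0, 0, 0, 0, 0, 0, 0, 0, 0, ⟨0, 0⟩, 0⟩ 0 0) (.cut .d 6822062 (.pos 5 .pm ⟨0, 0, 0, 0, 0, 0, 0, 0, 0, ⟨0, 0⟩, 0⟩ 0 0) (.cut .d 7959072 (.pos 5 .pm ⟨0,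 26281985, 0, 0, 0, 0, 0, 0, 0, ⟨0, 0⟩, 0⟩ 0 0) (.cut .v 6291456 (.pos 56 .pm ⟨0, 43632418, 0, 0, 0, 0, 0, 0, 0, ⟨0, 0⟩, 0⟩ 0 0) (.cut .s 11108352 (.pos 57 .pm ⟨0, 39026312, 0, 0, 0, 0, 0, 0, 0, ⟨0, 0⟩, 0⟩ 0 0) (.pos 57 .pm ⟨0, 53761872, 0, 0, 0, 0, 0, 0, 0, ⟨0, 0⟩, 0⟩ 0 0))))))) (.cut .d 4548041 (.pos 3 .pm ⟨0, 0, 0, 0, 0, 0, 0, 0, 0, ⟨0, 0⟩, 0⟩ 0 0) (.cut .d 6822062 (.pos 3 .pm ⟨0, 0, 0, 0, 0, 0, 0, 0, 0, ⟨0, 0⟩, 0⟩ 0 0) (.cut .d 7959072 (.pos 3 .pm ⟨0, 20052659, 0, 0, 0, 0, 0, 0, 0, ⟨0, 0⟩, 0⟩ 0 0) (.pos 3 .pm ⟨0, 48884008, 0, 0, 0, 0, 0, 0, 0, ⟨0, 0⟩, 0⟩ 0 0))))) (.cut .v 268435456 (.cut .d 4548041 (.cut .d 2274020 (.cut .v 67108864 (.cut .v 33554432 (.pos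 11 .pp ⟨0, 0, 0, 0, 0, 0, 0, 0, 0, ⟨0, 0⟩, 0⟩ 0 0) (.pos 12 .pp ⟨267667320, 0, 0, 0, 0, 0, 0, 0, 0, ⟨0, 0⟩, 0⟩ 0 0)) (.cut .v 134217728 (.cut .v 100663296 (.pos 68 .pp ⟨1250406271, 0, 0, 0, 0, 0, 0, 0, 0, ⟨0, 0⟩, 0⟩ 0 0) (.pos 69 .pp ⟨2820219132, 965835584, 0, 0, 0, 0, 0, 0, 0, ⟨0, 0⟩, 0⟩ 0 0)) (.void 36 ⟨0, 100000, 0, 0, 0, 0, 0, 0, 0, ⟨0, 0⟩, 0⟩ 0 0))) (.pos 8 .pp ⟨0, 0, 0, 0, 0, 0, 0, 0, 0, ⟨0, 0⟩, 0⟩ 0 0)) (.pos 8 .pp ⟨0, 24251832, 0, 0, 0, 0, 0, 0, 0, ⟨0, 0⟩, 0⟩ 0 0)) (.void 39 ⟨0, 0, 0, 100000, 0, 0, 0, 0, 0, ⟨0, 0⟩, 0⟩ 0 0)))),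
    by decide +kernel⟩

def covers16 : cell.Covers table row16.1 :=
  ⟨(.cut .d 0 (.cut .v 16777216 (.cut .d (-8388608) (.void 1 ⟨0, 0, 0, 0, 0, 100000, 0, 0, 0, ⟨0, 0⟩, 0⟩ 0 0) (.cut .v 8388608 (.cut .v 4194304 (.void 4 ⟨0, 0, 100000, 0, 0, 0, 0, 0, 0, ⟨0, 0⟩, 0⟩ 0 0) (.cut .d (-4194304) (.void 5 ⟨0, 0, 100000, 0, 0, 0, 0, 0, 0, ⟨0, 0⟩, 0⟩ 0 0) (.pos 5 .mm ⟨0, 0, 106028184, 0, 0, 0, 0, 0, 0, ⟨0, 0⟩, 0⟩ 0 0))) (.cut .d (-4194304) (.void 3 ⟨82090, 0, 17910, 0, 0, 0, 0, 0, 0, ⟨0, 0⟩, 0⟩ 0 0) (.cut .d (-2097152) (.cut .v 12582912 (.cut .d (-3145728) (.cut .l 17382394 (.void 6 ⟨0, 0, 0, 0, 0, 100000, 0, 0, 0, ⟨0, 0⟩, 0⟩ 0 0) (.cut .v 10485760 (.void 42 ⟨0, 0,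 100000, 0, 0, 0, 0, 0, 0, ⟨0, 0⟩, 0⟩ 0 0) (.cut .s 11534336 (.cut .v 11534336 (.cut .s 11436032 (.cut .v 11010048 (.cut .v 10747904 (.pos 70 .mm ⟨133389771, 0, 31336878, 0, 0, 0, 0, 0, 0, ⟨0, 0⟩, 0⟩ 0 0) (.pos 71 .mm ⟨133389773, 0, 10922193, 0, 0, 0, 0, 0, 0, ⟨0, 0⟩, 0⟩ 0 0)) (.pos 63 .mm ⟨142459584, 0, 0, 0, 0, 0, 0, 0, 0, ⟨0, 0⟩, 0⟩ 0 0)) (.pos 50 .mm ⟨149663534, 0, 23837043, 0, 0, 0, 0, 0, 0, ⟨0, 0⟩, 0⟩ 0 0)) (.pos 51 .mm ⟨162394157, 0, 0, 0, 0, 0, 0, 0, 0, ⟨0, 0⟩, 0⟩ 0 0)) (.pos 43 .mm ⟨194351952, 0, 40721428, 0, 0, 0, 0, 0, 0, ⟨0, 0⟩, 0⟩ 0 0)))) (.cut .l 17382394 (.cut .l 13484687 (.void 6 ⟨0, 0, 0, 0, 0, 100000, 0, 0, 0, ⟨0, 0⟩, 0⟩ 0 0) (.cut .d (-2621440)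 (.cut .v 10485760 (.pos 42 .mm ⟨0, 0, 0, 0, 0, 153870834, 0, 0, 0, ⟨0, 0⟩, 0⟩ 0 0) (.pos 43 .mm ⟨40320540, 0, 0, 0, 0, 150639781, 0, 0, 0, ⟨0, 0⟩, 0⟩ 0 0)) (.cut .s 11534336 (.cut .d (-2359296) (.cut .v 10485760 (.pos 42 .mm ⟨0, 0, 0, 0, 0, 105930113, 0, 0, 0, ⟨0, 0⟩, 0⟩ 0 0) (.cut .d (-2490368) (.pos 43 .mm ⟨32178299, 0, 0, 0, 0, 104211513, 0, 0, 0, ⟨0, 0⟩, 0⟩ 0 0) (.pos 43 .mm ⟨24805995, 0, 0, 0, 0, 105358508, 0, 0, 0, ⟨0, 0⟩, 0⟩ 0 0))) (.pos 6 .mm ⟨5612182, 0, 0, 0, 0, 115932068, 0, 0, 0, ⟨0, 0⟩, 0⟩ 0 0)) (.pos 6 .mm ⟨2939671, 0, 0, 0, 0, 172001213, 0, 0, 0, ⟨0, 0⟩, 0⟩ 0 0)))) (.cut .v 10485760 (.cut .s 11534336 (.pos 42 .mm ⟨0, 0, 26242219, 0, 0, 92833436,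 0, 0, 0, ⟨0, 0⟩, 0⟩ 0 0) (.pos 42 .mm ⟨0, 0, 41871580, 0, 0, 112373125, 0, 0, 0, ⟨0, 0⟩, 0⟩ 0 0)) (.cut .d (-2621440) (.cut .s 11534336 (.cut .v 11534336 (.cut .s 11436032 (.cut .d (-2883584) (.cut .s 11386880 (.cut .v 11010048 (.cut .v 10747904 (.cut .l 21280101 (.cut .l 19331247 (.pos 70 .mm ⟨0, 0, 0, 0, 0, 123585619, 0, 0, 0, ⟨0, 0⟩, 0⟩ 0 0) (.pos 70 .mm ⟨62914306, 0, 1922609, 0, 0, 47782377, 0, 0, 0, ⟨0, 0⟩, 0⟩ 0 0)) (.pos 70 .mm ⟨0, 0, 48656634, 0, 0, 0, 0, 0, 0, ⟨0, 0⟩, 0⟩ 0 0)) (.pos 71 .mm ⟨73799132, 0, 0, 0, 0, 42509286, 0, 0, 0, ⟨0, 0⟩, 0⟩ 0 0)) (.pos 63 .mm ⟨78746237, 0, 0, 0, 0, 41508949, 0, 0, 0, ⟨0, 0⟩, 0⟩ 0 0)) (.pos 50 .mm ⟨81196697, 0, 0,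 0, 0, 39130924, 0, 0, 0, ⟨0, 0⟩, 0⟩ 0 0)) (.pos 50 .mm ⟨55508985, 0, 0, 0, 0, 53085107, 0, 0, 0, ⟨0, 0⟩, 0⟩ 0 0)) (.pos 50 .mm ⟨88233849, 0, 0, 0, 0, 38656078, 0, 0, 0, ⟨0, 0⟩, 0⟩ 0 0)) (.pos 51 .mm ⟨125813403, 0, 0, 0, 0, 0, 0, 0, 0, ⟨0, 0⟩, 0⟩ 0 0)) (.pos 43 .mm ⟨128050585, 0, 0, 0, 0, 19409029, 0, 0, 0, ⟨0, 0⟩, 0⟩ 0 0)) (.pos 43 .mm ⟨59881938, 0, 0, 0, 0, 38209742, 0, 0, 0, ⟨0, 0⟩, 0⟩ 0 0))))) (.cut .d (-3145728) (.pos 7 .mm ⟨256188236, 0, 0, 0, 0, 0, 0, 0, 0, ⟨0, 0⟩, 0⟩ 0 0) (.cut .v 14680064 (.cut .s 11534336 (.cut .s 11436032 (.pos 29 .mm ⟨158901228, 0, 0, 0, 0, 960222, 0, 0, 0, ⟨0, 0⟩, 0⟩ 0 0) (.pos 29 .mm ⟨176220753, 0, 0, 0, 0, 0, 0, 0, 0, ⟨0, 0⟩,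 0⟩ 0 0)) (.pos 29 .mm ⟨203040148, 0, 0, 0, 0, 0, 0, 0, 0, ⟨0, 0⟩, 0⟩ 0 0)) (.pos 30 .mm ⟨226050348, 0, 0, 0, 0, 0, 0, 0, 0, ⟨0, 0⟩, 0⟩ 0 0)))) (.cut .l 17382394 (.cut .d (-1048576) (.cut .v 12582912 (.cut .l 13484687 (.cut .d (-1572864) (.pos 6 .mm ⟨0, 0, 0, 0, 0, 148257128, 0, 0, 0, ⟨0, 0⟩, 0⟩ 0 0) (.pos 6 .mm ⟨0, 0, 0, 0, 0, 107878108, 0, 0, 0, ⟨0, 0⟩, 0⟩ 0 0)) (.cut .s 11534336 (.pos 6 .mm ⟨0, 0, 0, 0, 0, 93297253, 0, 0, 0, ⟨0, 0⟩, 0⟩ 0 0) (.pos 6 .mm ⟨0, 0, 0, 0, 0, 117076808, 0, 0, 0, ⟨0, 0⟩, 0⟩ 0 0))) (.cut .d (-1572864) (.cut .v 14680064 (.cut .l 13484687 (.pos 29 .mm ⟨2749238, 0, 0, 0, 0, 178937114, 0, 0, 0, ⟨0, 0⟩, 0⟩ 0 0) (.pos 29 .mm ⟨61300603,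 0, 0, 0, 0, 68718723, 0, 0, 0, ⟨0, 0⟩, 0⟩ 0 0)) (.pos 30 .mm ⟨191142852, 0, 0, 0, 0, 0, 0, 0, 0, ⟨0, 0⟩, 0⟩ 0 0)) (.cut .v 14680064 (.cut .s 11534336 (.pos 29 .mm ⟨0, 0, 0, 0, 0, 123022429, 0, 0, 0, ⟨0, 0⟩, 0⟩ 0 0) (.pos 29 .mm ⟨0, 0, 0, 0, 0, 152487397, 0, 0, 0, ⟨0, 0⟩, 0⟩ 0 0)) (.pos 30 .mm ⟨80545355, 0, 0, 0, 0, 75200321, 0, 0, 0, ⟨0, 0⟩, 0⟩ 0 0)))) (.cut .v 12582912 (.pos 6 .mm ⟨0, 0, 0, 0, 0, 68142986, 0, 0, 0, ⟨0, 0⟩, 0⟩ 0 0) (.pos 7 .mm ⟨0, 0, 0, 0, 0, 102432073, 0, 0, 0, ⟨0, 0⟩, 0⟩ 0 0))) (.pos 3 .mm ⟨8510242, 0, 0, 0, 0, 0, 0, 0, 0, ⟨0, 0⟩, 0⟩ 0 0)))))) (.cut .v 268435456 (.cut .d (-8388608) (.void 8 ⟨100000, 0, 0, 0, 0, 0, 0, 0, 0, ⟨0, 0⟩, 0⟩ 0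 0) (.cut .d (-4194304) (.void 8 ⟨100000, 0, 0, 0, 0, 0, 0, 0, 0, ⟨0, 0⟩, 0⟩ 0 0) (.cut .v 67108864 (.cut .v 33554432 (.cut .d (-2097152) (.cut .v 25165824 (.cut .v 20971520 (.pos 15 .mp ⟨328618872, 0, 0, 0, 0, 0, 0, 0, 0, ⟨0, 0⟩, 0⟩ 0 0) (.pos 16 .mp ⟨442022599, 0, 0, 0, 0, 0, 0, 0, 0, ⟨0, 0⟩, 0⟩ 0 0)) (.void 14 ⟨100000, 0, 0, 0, 0, 0, 0, 0, 0, ⟨0, 0⟩, 0⟩ 0 0)) (.cut .v 25165824 (.cut .d (-1048576) (.cut .s 11534336 (.pos 13 .mp ⟨222983039, 0, 0, 0, 0, 0, 0, 0, 0, ⟨0, 0⟩, 0⟩ 0 0) (.pos 13 .mp ⟨270299408, 0, 0, 0, 0, 0, 0, 0, 0, ⟨0, 0⟩, 0⟩ 0 0)) (.pos 13 .mp ⟨120126938, 0, 0, 0, 0, 0, 0, 0, 0, ⟨0, 0⟩, 0⟩ 0 0)) (.pos 14 .mp ⟨396082276, 0, 0, 0, 0, 0, 0, 0,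 0, ⟨0, 0⟩, 0⟩ 0 0))) (.cut .v 50331648 (.cut .d (-2097152) (.void 19 ⟨100000, 0, 0, 0, 0, 0, 0, 0, 0, ⟨0, 0⟩, 0⟩ 0 0) (.pos 19 .mp ⟨767161114, 0, 0, 0, 0, 0, 0, 0, 0, ⟨0, 0⟩, 0⟩ 0 0)) (.pos 20 .mp ⟨1862518958, 0, 0, 0, 0, 0, 0, 0, 0, ⟨0, 0⟩, 0⟩ 0 0))) (.cut .v 134217728 (.pos 35 .mp ⟨6949282668, 0, 0, 0, 0, 0, 0, 0, 0, ⟨0, 0⟩, 0⟩ 0 0) (.void 36 ⟨44971, 55029, 0, 0, 0, 0, 0, 0, 0, ⟨0, 0⟩, 0⟩ 0 0))))) (.void 39 ⟨95569, 0, 0, 4431, 0, 0, 0, 0, 0, ⟨0, 0⟩, 0⟩ 0 0))) (.cut .v 16777216 (.cut .v 8388608 (.cut .v 4194304 (.cut .v 2097152 (.cut .v 1048576 (.pos 64 .pm ⟨0, 0, 2516278, 0, 0, 0, 0, 0, 8827150, ⟨0, 0⟩, 1983364⟩ 0 0) (.pos 65 .pm ⟨0, 6590101, 0, 0, 0, 0,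 0, 0, 0, ⟨0, 0⟩, 0⟩ 0 0)) (.pos 49 .pm ⟨0, 12056770, 0, 0, 0, 0, 0, 0, 0, ⟨0, 0⟩, 0⟩ 0 0)) (.cut .d 4024593 (.pos 5 .pm ⟨0, 0, 2451593, 0, 0, 0, 0, 0, 0, ⟨0, 0⟩, 0⟩ 0 0) (.cut .v 6291456 (.pos 56 .pm ⟨0, 31265929, 0, 0, 0, 0, 0, 0, 0, ⟨0, 0⟩, 0⟩ 0 0) (.pos 57 .pm ⟨0, 34130024, 0, 0, 0, 0, 0, 0, 0, ⟨0, 0⟩, 0⟩ 0 0)))) (.cut .d 4024593 (.pos 3 .pm ⟨0, 0, 0, 0, 0, 0, 0, 0, 0, ⟨0, 0⟩, 0⟩ 0 0) (.pos 3 .pm ⟨0, 38056831, 0, 0, 0, 0, 0, 0, 0, ⟨0, 0⟩, 0⟩ 0 0))) (.cut .v 268435456 (.cut .d 4024593 (.cut .v 67108864 (.cut .v 33554432 (.pos 11 .pp ⟨0, 0, 0, 0, 0, 0, 0, 0, 0, ⟨0, 0⟩, 0⟩ 0 0) (.cut .v 50331648 (.pos 19 .pp ⟨231062388, 0, 0, 0, 0, 0, 0, 0, 0, ⟨0, 0⟩, 0⟩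 0 0) (.pos 20 .pp ⟨620290720, 0, 0, 0, 0, 0, 0, 0, 0, ⟨0, 0⟩, 0⟩ 0 0))) (.cut .v 134217728 (.cut .v 100663296 (.cut .v 83886080 (.pos 74 .pp ⟨1168059933, 0, 0, 0, 0, 0, 0, 0, 0, ⟨0, 0⟩, 0⟩ 0 0) (.pos 75 .pp ⟨2156364698, 990504037, 0, 0, 0, 0, 0, 0, 0, ⟨0, 0⟩, 0⟩ 0 0)) (.pos 69 .pp ⟨3313102980, 1606534775, 0, 0, 0, 0, 0, 0, 0, ⟨0, 0⟩, 0⟩ 0 0)) (.void 36 ⟨0, 100000, 0, 0, 0, 0, 0, 0, 0, ⟨0, 0⟩, 0⟩ 0 0))) (.pos 8 .pp ⟨0, 37350035, 0, 0, 0, 0, 0, 0, 0, ⟨0, 0⟩, 0⟩ 0 0)) (.void 39 ⟨0, 0, 0, 100000, 0, 0, 0, 0, 0, ⟨0, 0⟩, 0⟩ 0 0)))),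
    by decide +kernel⟩

def covers17 : cell.Covers table row17.1 :=
  ⟨(.cut .d 0 (.cut .v 16777216 (.cut .d (-8388608) (.void 1 ⟨0, 0, 1, 0, 0, 72014, 0, 0, 0, ⟨0, 0⟩, 0⟩ 0 0) (.cut .d (-4194304) (.void 1 ⟨0, 0, 0, 0, 0, 100000, 0, 0, 0, ⟨0, 0⟩, 0⟩ 0 0) (.cut .v 8388608 (.cut .v 4194304 (.void 4 ⟨0, 0, 100000, 0, 0, 0, 0, 0, 0, ⟨0, 0⟩, 0⟩ 0 0) (.pos 5 .mm ⟨0, 0, 191485241, 0, 0, 0, 0, 0, 0, ⟨0, 0⟩, 0⟩ 0 0)) (.cut .d (-2097152) (.cut .v 12582912 (.cut .d (-3145728) (.pos 6 .mm ⟨307108852, 0, 74804763, 0, 0, 0, 0, 0, 0, ⟨0, 0⟩, 0⟩ 0 0) (.cut .l 17382394 (.cut .s 11993088 (.cut .s 11862016 (.pos 6 .mm ⟨9008363, 0, 0, 0, 0, 239089508, 0, 0, 0, ⟨0, 0⟩, 0⟩ 0 0)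 (.pos 6 .mm ⟨18547231, 0, 0, 0, 0, 266063458, 0, 0, 0, ⟨0, 0⟩, 0⟩ 0 0)) (.pos 6 .mm ⟨30722278, 0, 0, 0, 0, 334391349, 0, 0, 0, ⟨0, 0⟩, 0⟩ 0 0)) (.cut .v 10485760 (.cut .s 11993088 (.pos 42 .mm ⟨0, 0, 82681966, 0, 0, 134676111, 0, 0, 0, ⟨0, 0⟩, 0⟩ 0 0) (.pos 42 .mm ⟨0, 0, 123511757, 0, 0, 167369330, 0, 0, 0, ⟨0, 0⟩, 0⟩ 0 0)) (.cut .s 11993088 (.cut .d (-2621440) (.pos 43 .mm ⟨194631823, 0, 0, 0, 0, 0, 0, 0, 0, ⟨0, 0⟩, 0⟩ 0 0) (.pos 43 .mm ⟨128931140, 0, 2566699, 0, 0, 39791006, 0, 0, 0, ⟨0, 0⟩, 0⟩ 0 0)) (.cut .d (-2621440) (.pos 43 .mm ⟨276651482, 0, 60754931, 0, 0, 0, 0, 0, 0, ⟨0, 0⟩, 0⟩ 0 0) (.cut .s 12124160 (.pos 43 .mm ⟨156383629, 0, 2096072, 0, 0, 50203681,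 0, 0, 0, ⟨0, 0⟩, 0⟩ 0 0) (.pos 43 .mm ⟨189581488, 0, 1722094, 0, 0, 42948461, 0, 0, 0, ⟨0, 0⟩, 0⟩ 0 0))))))) (.cut .d (-3145728) (.void 7 ⟨100000, 0, 0, 0, 0, 0, 0, 0, 0, ⟨0, 0⟩, 0⟩ 0 0) (.cut .s 11993088 (.cut .l 17382394 (.pos 7 .mm ⟨295298871, 0, 0, 0, 0, 0, 0, 0, 0, ⟨0, 0⟩, 0⟩ 0 0) (.pos 7 .mm ⟨245200902, 0, 0, 0, 0, 0, 0, 0, 0, ⟨0, 0⟩, 0⟩ 0 0)) (.pos 7 .mm ⟨353764525, 0, 0, 0, 0, 0, 0, 0, 0, ⟨0, 0⟩, 0⟩ 0 0)))) (.cut .d (-1048576) (.cut .l 17382394 (.cut .v 12582912 (.cut .d (-1572864) (.cut .l 13484687 (.pos 6 .mm ⟨0, 0, 0, 0, 0, 307499021, 0, 0, 0, ⟨0, 0⟩, 0⟩ 0 0) (.cut .v 10485760 (.pos 42 .mm ⟨0, 0, 7874781, 0, 0, 184924914, 0, 0, 0, ⟨0, 0⟩, 0⟩ 0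 0) (.cut .s 11993088 (.pos 43 .mm ⟨0, 0, 0, 0, 0, 190252293, 0, 0, 0, ⟨0, 0⟩, 0⟩ 0 0) (.cut .d (-1835008) (.pos 43 .mm ⟨32961793, 0, 0, 0, 0, 223984668, 0, 0, 0, ⟨0, 0⟩, 0⟩ 0 0) (.pos 43 .mm ⟨0, 0, 0, 0, 0, 233350108, 0, 0, 0, ⟨0, 0⟩, 0⟩ 0 0))))) (.cut .l 13484687 (.cut .s 11993088 (.pos 6 .mm ⟨0, 0, 0, 0, 0, 171810177, 0, 0, 0, ⟨0, 0⟩, 0⟩ 0 0) (.pos 6 .mm ⟨0, 0, 0, 0, 0, 226764071, 0, 0, 0, ⟨0, 0⟩, 0⟩ 0 0)) (.pos 6 .mm ⟨0, 0, 0, 0, 0, 139348232, 0, 0, 0, ⟨0, 0⟩, 0⟩ 0 0))) (.cut .v 14680064 (.cut .d (-1572864) (.cut .l 13484687 (.pos 29 .mm ⟨18330798, 0, 0, 0, 0, 358102319, 0, 0, 0, ⟨0, 0⟩, 0⟩ 0 0) (.pos 29 .mm ⟨225562011, 0, 0, 0, 0, 203537, 0, 0, 0, ⟨0,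 0⟩, 0⟩ 0 0)) (.cut .s 11993088 (.pos 29 .mm ⟨0, 0, 0, 0, 0, 199701397, 0, 0, 0, ⟨0, 0⟩, 0⟩ 0 0) (.cut .l 13484687 (.pos 29 .mm ⟨0, 0, 0, 0, 0, 288956185, 0, 0, 0, ⟨0, 0⟩, 0⟩ 0 0) (.pos 29 .mm ⟨86654990, 0, 0, 0, 0, 130059773, 0, 0, 0, ⟨0, 0⟩, 0⟩ 0 0)))) (.pos 30 .mm ⟨287418468, 0, 0, 0, 0, 0, 0, 0, 0, ⟨0, 0⟩, 0⟩ 0 0))) (.cut .v 12582912 (.cut .v 10485760 (.pos 42 .mm ⟨0, 0, 32273657, 0, 0, 127928430, 0, 0, 0, ⟨0, 0⟩, 0⟩ 0 0) (.pos 43 .mm ⟨78857815, 0, 0, 0, 0, 59808264, 0, 0, 0, ⟨0, 0⟩, 0⟩ 0 0)) (.pos 7 .mm ⟨163788495, 0, 0, 0, 0, 0, 0, 0, 0, ⟨0, 0⟩, 0⟩ 0 0))) (.cut .v 12582912 (.pos 6 .mm ⟨0, 0, 0, 0, 0, 110868919, 0, 0, 0, ⟨0, 0⟩, 0⟩ 0 0) (.pos 7 .mm ⟨32872984,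 0, 0, 0, 0, 138088065, 0, 0, 0, ⟨0, 0⟩, 0⟩ 0 0))))))) (.cut .v 268435456 (.cut .d (-8388608) (.void 8 ⟨100000, 0, 0, 0, 0, 0, 0, 0, 0, ⟨0, 0⟩, 0⟩ 0 0) (.cut .d (-4194304) (.void 8 ⟨100000, 0, 0, 0, 0, 0, 0, 0, 0, ⟨0, 0⟩, 0⟩ 0 0) (.cut .v 67108864 (.cut .v 33554432 (.cut .d (-2097152) (.cut .v 25165824 (.pos 13 .mp ⟨643460803, 0, 0, 0, 0, 0, 0, 0, 0, ⟨0, 0⟩, 0⟩ 0 0) (.void 14 ⟨100000, 0, 0, 0, 0, 0, 0, 0, 0, ⟨0, 0⟩, 0⟩ 0 0)) (.cut .v 25165824 (.cut .d (-1048576) (.cut .s 11993088 (.pos 13 .mp ⟨344375472, 0, 0, 0, 0, 0, 0, 0, 0, ⟨0, 0⟩, 0⟩ 0 0) (.pos 13 .mp ⟨437000142, 0, 0, 0, 0, 0, 0, 0, 0, ⟨0, 0⟩, 0⟩ 0 0)) (.pos 13 .mp ⟨209341884, 0, 0, 0, 0, 0, 0, 0, 0,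 ⟨0, 0⟩, 0⟩ 0 0)) (.cut .d (-1048576) (.pos 14 .mp ⟨714612056, 0, 0, 0, 0, 0, 0, 0, 0, ⟨0, 0⟩, 0⟩ 0 0) (.pos 14 .mp ⟨492610934, 0, 0, 0, 0, 0, 0, 0, 0, ⟨0, 0⟩, 0⟩ 0 0)))) (.cut .v 50331648 (.cut .d (-2097152) (.void 19 ⟨100000, 0, 0, 0, 0, 0, 0, 0, 0, ⟨0, 0⟩, 0⟩ 0 0) (.cut .v 41943040 (.pos 23 .mp ⟨943151215, 0, 0, 0, 0, 0, 0, 0, 0, ⟨0, 0⟩, 0⟩ 0 0) (.pos 24 .mp ⟨1334569588, 0, 0, 0, 0, 0, 0, 0, 0, ⟨0, 0⟩, 0⟩ 0 0))) (.pos 20 .mp ⟨2705856863, 0, 0, 0, 0, 0, 0, 0, 0, ⟨0, 0⟩, 0⟩ 0 0))) (.cut .v 134217728 (.pos 35 .mp ⟨9610756724, 0, 0, 0, 0, 0, 0, 0, 0, ⟨0, 0⟩, 0⟩ 0 0) (.void 36 ⟨43892, 56108, 0, 0, 0, 0, 0, 0, 0, ⟨0, 0⟩, 0⟩ 0 0))))) (.void 39 ⟨95373, 0, 0, 4627,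 0, 0, 0, 0, 0, ⟨0, 0⟩, 0⟩ 0 0))) (.cut .v 16777216 (.cut .v 8388608 (.cut .v 4194304 (.cut .v 2097152 (.cut .v 1048576 (.pos 64 .pm ⟨0, 1289855, 0, 0, 0, 0, 0, 0, 0, ⟨0, 0⟩, 0⟩ 0 0) (.pos 65 .pm ⟨0, 10099581, 0, 0, 0, 0, 0, 0, 0, ⟨0, 0⟩, 0⟩ 0 0)) (.pos 49 .pm ⟨0, 16658785, 0, 0, 0, 0, 0, 0, 0, ⟨0, 0⟩, 0⟩ 0 0)) (.cut .d 3608508 (.pos 5 .pm ⟨0, 0, 9817375, 0, 0, 0, 0, 0, 0, ⟨0, 0⟩, 0⟩ 0 0) (.pos 5 .pm ⟨0, 45153799, 0, 0, 0, 0, 0, 0, 0, ⟨0, 0⟩, 0⟩ 0 0))) (.pos 3 .pm ⟨0, 16189097, 0, 0, 0, 0, 0, 0, 0, ⟨0, 0⟩, 0⟩ 0 0)) (.cut .v 268435456 (.cut .d 3608508 (.cut .v 67108864 (.cut .v 33554432 (.pos 11 .pp ⟨0, 0, 0, 0, 0, 0, 0, 0, 0, ⟨0, 0⟩, 0⟩ 0 0) (.cut .v 50331648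 (.pos 19 .pp ⟨330089886, 0, 0, 0, 0, 0, 0, 0, 0, ⟨0, 0⟩, 0⟩ 0 0) (.pos 20 .pp ⟨864774074, 0, 0, 0, 0, 0, 0, 0, 0, ⟨0, 0⟩, 0⟩ 0 0))) (.cut .v 134217728 (.cut .d 1804254 (.cut .v 100663296 (.cut .v 83886080 (.pos 74 .pp ⟨1960254369, 0, 0, 0, 0, 0, 0, 0, 0, ⟨0, 0⟩, 0⟩ 0 0) (.cut .d 902127 (.pos 75 .pp ⟨3413544917, 0, 0, 0, 0, 0, 0, 0, 0, ⟨0, 0⟩, 0⟩ 0 0) (.pos 75 .pp ⟨2340567676, 502654717, 0, 0, 0, 0, 0, 0, 0, ⟨0, 0⟩, 0⟩ 0 0))) (.pos 69 .pp ⟨5022038039, 2382349749, 0, 0, 0, 0, 0, 0, 0, ⟨0, 0⟩, 0⟩ 0 0)) (.pos 35 .pp ⟨0, 0, 0, 0, 0, 0, 0, 0, 0, ⟨0, 0⟩, 0⟩ 0 0)) (.void 36 ⟨0, 100000, 0, 0, 0, 0, 0, 0, 0, ⟨0, 0⟩, 0⟩ 0 0))) (.pos 8 .pp ⟨0, 49175624, 0, 0, 0, 0, 0,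 0, 0, ⟨0, 0⟩, 0⟩ 0 0)) (.void 39 ⟨0, 0, 0, 100000, 0, 0, 0, 0, 0, ⟨0, 0⟩, 0⟩ 0 0)))),
    by decide +kernel⟩

def covers18 : cell.Covers table row18.1 :=
  ⟨(.cut .d 0 (.cut .v 16777216 (.cut .d (-8388608) (.void 1 ⟨0, 0, 0, 0, 0, 100000, 0, 0, 0, ⟨0, 0⟩, 0⟩ 0 0) (.cut .d (-4194304) (.void 1 ⟨0, 0, 0, 0, 0, 100000, 0, 0, 0, ⟨0, 0⟩, 0⟩ 0 0) (.cut .v 8388608 (.cut .v 4194304 (.void 4 ⟨0, 0, 100000, 0, 0, 0, 0, 0, 0, ⟨0, 0⟩, 0⟩ 0 0) (.pos 5 .mm ⟨0, 0, 310710122, 0, 0, 0, 0, 0, 0, ⟨0, 0⟩, 0⟩ 0 0)) (.cut .d (-2097152) (.cut .d (-3145728) (.void 3 ⟨81147, 0, 18853, 0, 0, 0, 0, 0, 0, ⟨0, 0⟩, 0⟩ 0 0) (.cut .v 12582912 (.cut .l 17382394 (.void 6 ⟨0, 0, 0, 0, 0, 100000,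 0, 0, 0, ⟨0, 0⟩, 0⟩ 0 0) (.cut .v 10485760 (.void 42 ⟨0, 0, 100000, 0, 0, 0, 0, 0, 0, ⟨0, 0⟩, 0⟩ 0 0) (.cut .s 12484608 (.cut .v 11534336 (.pos 50 .mm ⟨283459924, 0, 65497152, 0, 0, 0, 0, 0, 0, ⟨0, 0⟩, 0⟩ 0 0) (.pos 51 .mm ⟨332518294, 0, 0, 0, 0, 0, 0, 0, 0, ⟨0, 0⟩, 0⟩ 0 0)) (.pos 43 .mm ⟨381433954, 0, 97045943, 0, 0, 0, 0, 0, 0, ⟨0, 0⟩, 0⟩ 0 0)))) (.pos 7 .mm ⟨515965601, 0, 0, 0, 0, 0, 0, 0, 0, ⟨0, 0⟩, 0⟩ 0 0))) (.cut .d (-1048576) (.cut .v 12582912 (.cut .l 17382394 (.cut .d (-1572864) (.cut .l 13484687 (.void 6 ⟨0, 0, 0, 0, 0, 100000, 0, 0, 0, ⟨0, 0⟩, 0⟩ 0 0) (.cut .l 15433540 (.pos 6 .mm ⟨10201487, 0, 0, 0, 0, 470808994, 0, 0, 0, ⟨0, 0⟩, 0⟩ 0 0) (.cut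 .d (-1835008) (.cut .s 12484608 (.cut .s 12369920 (.pos 6 .mm ⟨20423014, 0, 0, 0, 0, 348853734, 0, 0, 0, ⟨0, 0⟩, 0⟩ 0 0) (.pos 6 .mm ⟨37279647, 0, 0, 0, 0, 371867731, 0, 0, 0, ⟨0, 0⟩, 0⟩ 0 0)) (.pos 6 .mm ⟨52372162, 0, 0, 0, 0, 466450218, 0, 0, 0, ⟨0, 0⟩, 0⟩ 0 0)) (.cut .v 10485760 (.pos 42 .mm ⟨0, 0, 22381612, 0, 0, 291711706, 0, 0, 0, ⟨0, 0⟩, 0⟩ 0 0) (.cut .s 12484608 (.pos 43 .mm ⟨110325049, 0, 0, 0, 0, 140703853, 0, 0, 0, ⟨0, 0⟩, 0⟩ 0 0) (.cut .d (-1703936) (.pos 43 .mm ⟨91928799, 0, 0, 0, 0, 279805297, 0, 0, 0, ⟨0, 0⟩, 0⟩ 0 0) (.pos 43 .mm ⟨129163641, 0, 0, 0, 0, 171763489, 0, 0, 0, ⟨0, 0⟩, 0⟩ 0 0))))))) (.cut .l 13484687 (.pos 6 .mm ⟨0, 0, 0, 0, 0,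 351207029, 0, 0, 0, ⟨0, 0⟩, 0⟩ 0 0) (.cut .s 12484608 (.pos 6 .mm ⟨0, 0, 0, 0, 0, 230554350, 0, 0, 0, ⟨0, 0⟩, 0⟩ 0 0) (.cut .v 10485760 (.pos 42 .mm ⟨0, 0, 26395869, 0, 0, 276269121, 0, 0, 0, ⟨0, 0⟩, 0⟩ 0 0) (.cut .l 15433540 (.pos 43 .mm ⟨6868229, 0, 0, 0, 0, 344805588, 0, 0, 0, ⟨0, 0⟩, 0⟩ 0 0) (.pos 43 .mm ⟨89700912, 0, 0, 0, 0, 182473955, 0, 0, 0, ⟨0, 0⟩, 0⟩ 0 0)))))) (.cut .d (-1572864) (.cut .v 10485760 (.pos 42 .mm ⟨0, 0, 319598021, 0, 0, 0, 0, 0, 0, ⟨0, 0⟩, 0⟩ 0 0) (.cut .v 11534336 (.cut .l 21280101 (.cut .s 12484608 (.cut .s 12369920 (.pos 50 .mm ⟨92325400, 0, 0, 0, 0, 146600895, 0, 0, 0, ⟨0, 0⟩, 0⟩ 0 0) (.pos 50 .mm ⟨145144037, 0, 6655090, 0, 0,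 113789650, 0, 0, 0, ⟨0, 0⟩, 0⟩ 0 0)) (.cut .d (-1835008) (.pos 50 .mm ⟨273139450, 0, 52471445, 0, 0, 33952841, 0, 0, 0, ⟨0, 0⟩, 0⟩ 0 0) (.cut .s 12599296 (.pos 50 .mm ⟨105610734, 0, 6201083, 0, 0, 171400648, 0, 0, 0, ⟨0, 0⟩, 0⟩ 0 0) (.pos 50 .mm ⟨158272843, 0, 13111839, 0, 0, 144032912, 0, 0, 0, ⟨0, 0⟩, 0⟩ 0 0)))) (.pos 50 .mm ⟨195724827, 0, 27696990, 0, 0, 0, 0, 0, 0, ⟨0, 0⟩, 0⟩ 0 0)) (.pos 51 .mm ⟨289235020, 0, 0, 0, 0, 0, 0, 0, 0, ⟨0, 0⟩, 0⟩ 0 0))) (.pos 6 .mm ⟨26909304, 0, 0, 0, 0, 0, 0, 0, 0, ⟨0, 0⟩, 0⟩ 0 0))) (.cut .v 14680064 (.cut .l 17382394 (.cut .d (-1572864) (.pos 29 .mm ⟨405390986, 0, 0, 0, 0, 0, 0, 0, 0, ⟨0, 0⟩, 0⟩ 0 0) (.cut .s 12484608 (.pos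 29 .mm ⟨216992405, 0, 0, 0, 0, 88909499, 0, 0, 0, ⟨0, 0⟩, 0⟩ 0 0) (.pos 29 .mm ⟨286562791, 0, 0, 0, 0, 80778812, 0, 0, 0, ⟨0, 0⟩, 0⟩ 0 0))) (.pos 29 .mm ⟨286978521, 0, 0, 0, 0, 0, 0, 0, 0, ⟨0, 0⟩, 0⟩ 0 0)) (.pos 30 .mm ⟨431830861, 0, 0, 0, 0, 0, 0, 0, 0, ⟨0, 0⟩, 0⟩ 0 0))) (.cut .d (-524288) (.cut .l 17382394 (.cut .l 13484687 (.cut .v 12582912 (.pos 6 .mm ⟨0, 0, 0, 0, 0, 226780949, 0, 0, 0, ⟨0, 0⟩, 0⟩ 0 0) (.cut .v 14680064 (.pos 29 .mm ⟨0, 0, 0, 0, 0, 319528534, 0, 0, 0, ⟨0, 0⟩, 0⟩ 0 0) (.pos 30 .mm ⟨178289338, 0, 0, 0, 0, 160736096, 0, 0, 0, ⟨0, 0⟩, 0⟩ 0 0))) (.pos 3 .mm ⟨1604469, 0, 0, 0, 0, 0, 0, 0, 0, ⟨0, 0⟩, 0⟩ 0 0)) (.pos 3 .mm ⟨0, 0, 16574182, 0,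 0, 0, 0, 0, 0, ⟨0, 0⟩, 0⟩ 0 0)) (.pos 3 .mm ⟨0, 0, 419032, 0, 0, 0, 0, 0, 0, ⟨0, 0⟩, 0⟩ 0 0))))))) (.cut .v 268435456 (.cut .d (-8388608) (.void 8 ⟨100000, 0, 0, 0, 0, 0, 0, 0, 0, ⟨0, 0⟩, 0⟩ 0 0) (.cut .d (-4194304) (.void 8 ⟨100000, 0, 0, 0, 0, 0, 0, 0, 0, ⟨0, 0⟩, 0⟩ 0 0) (.cut .d (-2097152) (.void 8 ⟨100000, 0, 0, 0, 0, 0, 0, 0, 0, ⟨0, 0⟩, 0⟩ 0 0) (.cut .v 67108864 (.cut .v 33554432 (.cut .v 25165824 (.cut .v 20971520 (.cut .d (-1048576) (.pos 15 .mp ⟨543659114, 0, 0, 0, 0, 0, 0, 0, 0, ⟨0, 0⟩, 0⟩ 0 0) (.pos 15 .mp ⟨311055312, 0, 0, 0, 0, 0, 0, 0, 0, ⟨0, 0⟩, 0⟩ 0 0)) (.pos 16 .mp ⟨626937372, 0, 0, 0, 0, 0, 0, 0, 0, ⟨0, 0⟩, 0⟩ 0 0)) (.cut .d (-1048576) (.pos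 14 .mp ⟨1067396716, 0, 0, 0, 0, 0, 0, 0, 0, ⟨0, 0⟩, 0⟩ 0 0) (.pos 14 .mp ⟨740910304, 0, 0, 0, 0, 0, 0, 0, 0, ⟨0, 0⟩, 0⟩ 0 0))) (.cut .v 50331648 (.cut .v 41943040 (.pos 23 .mp ⟨1350480721, 0, 0, 0, 0, 0, 0, 0, 0, ⟨0, 0⟩, 0⟩ 0 0) (.pos 24 .mp ⟨1872908260, 0, 0, 0, 0, 0, 0, 0, 0, ⟨0, 0⟩, 0⟩ 0 0)) (.pos 20 .mp ⟨2966615338, 0, 0, 0, 0, 0, 0, 0, 0, ⟨0, 0⟩, 0⟩ 0 0))) (.cut .v 134217728 (.pos 35 .mp ⟨11414932764, 0, 0, 0, 0, 0, 0, 0, 0, ⟨0, 0⟩, 0⟩ 0 0) (.void 36 ⟨41307, 58693, 0, 0, 0, 0, 0, 0, 0, ⟨0, 0⟩, 0⟩ 0 0)))))) (.void 39 ⟨95196, 0, 0, 4804, 0, 0, 0, 0, 0, ⟨0, 0⟩, 0⟩ 0 0))) (.cut .v 16777216 (.cut .v 8388608 (.cut .v 4194304 (.cut .v 2097152 (.cut .v 1048576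 (.cut .v 524288 (.pos 78 .pm ⟨0, 0, 347785, 0, 0, 0, 0, 0, 0, ⟨0, 0⟩, 0⟩ 0 0) (.pos 79 .pm ⟨0, 4638568, 0, 0, 0, 0, 0, 0, 0, ⟨0, 0⟩, 0⟩ 0 0)) (.pos 65 .pm ⟨0, 10891219, 0, 0, 0, 0, 0, 0, 0, ⟨0, 0⟩, 0⟩ 0 0)) (.pos 49 .pm ⟨0, 15930341, 0, 0, 0, 0, 0, 0, 0, ⟨0, 0⟩, 0⟩ 0 0)) (.pos 5 .pm ⟨0, 17271110, 0, 0, 0, 0, 0, 0, 0, ⟨0, 0⟩, 0⟩ 0 0)) (.pos 3 .pm ⟨0, 9085315, 0, 0, 0, 0, 0, 0, 0, ⟨0, 0⟩, 0⟩ 0 0)) (.cut .v 268435456 (.cut .d 3095263 (.cut .v 67108864 (.cut .v 33554432 (.pos 11 .pp ⟨0, 0, 0, 0, 0, 0, 0, 0, 0, ⟨0, 0⟩, 0⟩ 0 0) (.cut .v 50331648 (.pos 19 .pp ⟨489194581, 0, 0, 0, 0, 0, 0, 0, 0, ⟨0, 0⟩, 0⟩ 0 0) (.cut .d 1547631 (.pos 20 .pp ⟨1588450388, 0, 0, 0,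 0, 0, 0, 0, 0, ⟨0, 0⟩, 0⟩ 0 0) (.pos 20 .pp ⟨0, 0, 0, 0, 0, 0, 0, 0, 0, ⟨0, 0⟩, 0⟩ 0 0)))) (.cut .v 134217728 (.cut .d 1547631 (.cut .v 100663296 (.cut .d 773815 (.cut .v 83886080 (.pos 74 .pp ⟨3107797637, 0, 0, 0, 0, 0, 0, 0, 0, ⟨0, 0⟩, 0⟩ 0 0) (.pos 75 .pp ⟨4628417446, 0, 0, 0, 0, 0, 0, 0, 0, ⟨0, 0⟩, 0⟩ 0 0)) (.pos 68 .pp ⟨2311863743, 626645730, 0, 0, 0, 0, 0, 0, 0, ⟨0, 0⟩, 0⟩ 0 0)) (.cut .d 773815 (.cut .d 386907 (.pos 69 .pp ⟨8081333711, 2647163629, 0, 0, 0, 0, 0, 0, 0, ⟨0, 0⟩, 0⟩ 0 0) (.pos 69 .pp ⟨6209077008, 2505568857, 0, 0, 0, 0, 0, 0, 0, ⟨0, 0⟩, 0⟩ 0 0)) (.void 69 ⟨0, 100000, 0, 0, 0, 0, 0, 0, 0, ⟨0, 0⟩, 0⟩ 0 0))) (.pos 35 .pp ⟨0, 212899918, 0,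 0, 0, 0, 0, 0, 0, ⟨0, 0⟩, 0⟩ 0 0)) (.void 36 ⟨0, 100000, 0, 0, 0, 0, 0, 0, 0, ⟨0, 0⟩, 0⟩ 0 0))) (.pos 8 .pp ⟨0, 61197907, 0, 0, 0, 0, 0, 0, 0, ⟨0, 0⟩, 0⟩ 0 0)) (.void 39 ⟨0, 0, 0, 100000, 0, 0, 0, 0, 0, ⟨0, 0⟩, 0⟩ 0 0)))),
    by decide +kernel⟩

def covers19 : cell.Covers table row19.1 :=
  ⟨(.cut .d 0 (.cut .v 16777216 (.cut .d (-8388608) (.void 1 ⟨0, 0, 0, 0, 0, 100000, 0, 0, 0, ⟨0, 0⟩, 0⟩ 0 0) (.cut .d (-4194304) (.void 1 ⟨0, 0, 0, 0, 0, 100000, 0, 0, 0, ⟨0, 0⟩, 0⟩ 0 0) (.cut .v 8388608 (.cut .v 4194304 (.void 4 ⟨0, 0, 100000, 0, 0, 0, 0, 0, 0, ⟨0, 0⟩, 0⟩ 0 0) (.pos 5 .mm ⟨0, 0, 513292478, 0, 0, 0, 0, 0, 0, ⟨0, 0⟩, 0⟩ 0 0)) (.cut .d (-2097152) (.cut .v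 12582912 (.cut .s 12976128 (.pos 6 .mm ⟨518878056, 0, 149755744, 0, 0, 0, 0, 0, 0, ⟨0, 0⟩, 0⟩ 0 0) (.void 6 ⟨77448, 0, 22552, 0, 0, 0, 0, 0, 0, ⟨0, 0⟩, 0⟩ 0 0)) (.pos 7 .mm ⟨935204586, 0, 0, 0, 0, 0, 0, 0, 0, ⟨0, 0⟩, 0⟩ 0 0)) (.cut .d (-1048576) (.cut .v 12582912 (.cut .v 10485760 (.cut .d (-1572864) (.pos 42 .mm ⟨0, 0, 567152742, 0, 0, 291660186, 0, 0, 0, ⟨0, 0⟩, 0⟩ 0 0) (.cut .l 17382394 (.cut .s 12976128 (.pos 42 .mm ⟨0, 0, 27733295, 0, 0, 355485067, 0, 0, 0, ⟨0, 0⟩, 0⟩ 0 0) (.cut .s 13107200 (.pos 42 .mm ⟨0, 0, 77489651, 0, 0, 394851695, 0, 0, 0, ⟨0, 0⟩, 0⟩ 0 0) (.pos 42 .mm ⟨0, 0, 94181292, 0, 0, 438052597, 0, 0, 0, ⟨0, 0⟩, 0⟩ 0 0))) (.pos 42 .mm ⟨0,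 0, 395633005, 0, 0, 0, 0, 0, 0, ⟨0, 0⟩, 0⟩ 0 0))) (.cut .l 17382394 (.cut .l 13484687 (.pos 43 .mm ⟨0, 0, 0, 0, 0, 720253729, 0, 0, 0, ⟨0, 0⟩, 0⟩ 0 0) (.cut .d (-1572864) (.cut .s 12976128 (.cut .d (-1835008) (.void 43 ⟨80892, 0, 19108, 0, 0, 0, 0, 0, 0, ⟨0, 0⟩, 0⟩ 0 0) (.cut .d (-1703936) (.void 43 ⟨0, 0, 0, 0, 0, 100000, 0, 0, 0, ⟨0, 0⟩, 0⟩ 0 0) (.cut .s 12845056 (.pos 43 .mm ⟨98567616, 0, 0, 0, 0, 310568179, 0, 0, 0, ⟨0, 0⟩, 0⟩ 0 0) (.pos 43 .mm ⟨135946840, 0, 0, 0, 0, 321982263, 0, 0, 0, ⟨0, 0⟩, 0⟩ 0 0)))) (.void 43 ⟨80630, 0, 19370, 0, 0, 0, 0, 0, 0, ⟨0, 0⟩, 0⟩ 0 0)) (.cut .s 12976128 (.cut .d (-1310720) (.cut .v 11534336 (.cut .s 12845056 (.pos 50 .mm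 ⟨50407680, 0, 0, 0, 0, 314949122, 0, 0, 0, ⟨0, 0⟩, 0⟩ 0 0) (.pos 50 .mm ⟨77264192, 0, 0, 0, 0, 331143951, 0, 0, 0, ⟨0, 0⟩, 0⟩ 0 0)) (.pos 51 .mm ⟨328262058, 0, 0, 0, 0, 68152798, 0, 0, 0, ⟨0, 0⟩, 0⟩ 0 0)) (.pos 43 .mm ⟨0, 0, 0, 0, 0, 380703128, 0, 0, 0, ⟨0, 0⟩, 0⟩ 0 0)) (.cut .v 11534336 (.cut .d (-1310720) (.cut .l 15433540 (.void 50 ⟨0, 0, 0, 0, 0, 100000, 0, 0, 0, ⟨0, 0⟩, 0⟩ 0 0) (.cut .v 11010048 (.cut .d (-1441792) (.cut .s 13107200 (.pos 62 .mm ⟨139879730, 0, 6741632, 0, 0, 302693242, 0, 0, 0, ⟨0, 0⟩, 0⟩ 0 0) (.pos 62 .mm ⟨283292143, 0, 58311711, 0, 0, 187966127, 0, 0, 0, ⟨0, 0⟩, 0⟩ 0 0)) (.pos 62 .mm ⟨51340381, 0, 0, 0, 0, 418541942, 0, 0, 0, ⟨0, 0⟩,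 0⟩ 0 0)) (.pos 63 .mm ⟨339906756, 0, 0, 0, 0, 104529085, 0, 0, 0, ⟨0, 0⟩, 0⟩ 0 0))) (.pos 50 .mm ⟨0, 0, 0, 0, 0, 461100674, 0, 0, 0, ⟨0, 0⟩, 0⟩ 0 0)) (.cut .d (-1310720) (.pos 51 .mm ⟨455859615, 0, 0, 0, 0, 32938692, 0, 0, 0, ⟨0, 0⟩, 0⟩ 0 0) (.pos 51 .mm ⟨216635546, 0, 0, 0, 0, 239879659, 0, 0, 0, ⟨0, 0⟩, 0⟩ 0 0)))))) (.cut .d (-1572864) (.cut .v 11534336 (.cut .s 12976128 (.cut .d (-1835008) (.pos 50 .mm ⟨380797006, 0, 75788810, 0, 0, 0, 0, 0, 0, ⟨0, 0⟩, 0⟩ 0 0) (.cut .d (-1703936) (.pos 50 .mm ⟨331295188, 0, 65281223, 0, 0, 31295011, 0, 0, 0, ⟨0, 0⟩, 0⟩ 0 0) (.cut .s 12845056 (.pos 50 .mm ⟨181177487, 0, 20620459, 0, 0, 149272641, 0, 0, 0, ⟨0, 0⟩, 0⟩ 0 0)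 (.pos 50 .mm ⟨226450882, 0, 23036987, 0, 0, 142626081, 0, 0, 0, ⟨0, 0⟩, 0⟩ 0 0)))) (.pos 50 .mm ⟨445848781, 0, 90859124, 0, 0, 0, 0, 0, 0, ⟨0, 0⟩, 0⟩ 0 0)) (.pos 51 .mm ⟨455744578, 0, 0, 0, 0, 0, 0, 0, 0, ⟨0, 0⟩, 0⟩ 0 0)) (.cut .s 12976128 (.pos 43 .mm ⟨243636180, 0, 34522335, 0, 0, 0, 0, 0, 0, ⟨0, 0⟩, 0⟩ 0 0) (.cut .d (-1310720) (.cut .s 13107200 (.pos 43 .mm ⟨312798499, 0, 42216672, 0, 0, 0, 0, 0, 0, ⟨0, 0⟩, 0⟩ 0 0) (.pos 43 .mm ⟨353585857, 0, 41460212, 0, 0, 0, 0, 0, 0, ⟨0, 0⟩, 0⟩ 0 0)) (.pos 43 .mm ⟨48823695, 0, 0, 0, 0, 0, 0, 0, 0, ⟨0, 0⟩, 0⟩ 0 0)))))) (.cut .v 14680064 (.cut .d (-1572864) (.pos 29 .mm ⟨586819763, 0, 0, 0, 0, 0, 0, 0, 0, ⟨0, 0⟩, 0⟩ 0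 0) (.cut .s 12976128 (.pos 29 .mm ⟨392426063, 0, 0, 0, 0, 55365967, 0, 0, 0, ⟨0, 0⟩, 0⟩ 0 0) (.pos 29 .mm ⟨555763261, 0, 0, 0, 0, 0, 0, 0, 0, ⟨0, 0⟩, 0⟩ 0 0))) (.pos 30 .mm ⟨648046110, 0, 0, 0, 0, 0, 0, 0, 0, ⟨0, 0⟩, 0⟩ 0 0))) (.cut .d (-524288) (.cut .l 17382394 (.cut .v 12582912 (.cut .l 13484687 (.cut .d (-786432) (.cut .s 12976128 (.pos 6 .mm ⟨0, 0, 0, 0, 0, 362314564, 0, 0, 0, ⟨0, 0⟩, 0⟩ 0 0) (.pos 6 .mm ⟨0, 0, 0, 0, 0, 471985242, 0, 0, 0, ⟨0, 0⟩, 0⟩ 0 0)) (.pos 6 .mm ⟨0, 0, 0, 0, 0, 308839901, 0, 0, 0, ⟨0, 0⟩, 0⟩ 0 0)) (.pos 6 .mm ⟨0, 0, 0, 0, 0, 271670460, 0, 0, 0, ⟨0, 0⟩, 0⟩ 0 0)) (.cut .d (-786432) (.cut .s 12976128 (.pos 7 .mm ⟨250479536, 0, 0,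 0, 0, 158585003, 0, 0, 0, ⟨0, 0⟩, 0⟩ 0 0) (.cut .s 13107200 (.pos 7 .mm ⟨281913888, 0, 0, 0, 0, 208538355, 0, 0, 0, ⟨0, 0⟩, 0⟩ 0 0) (.pos 7 .mm ⟨329785428, 0, 0, 0, 0, 215364647, 0, 0, 0, ⟨0, 0⟩, 0⟩ 0 0))) (.pos 7 .mm ⟨174442956, 0, 0, 0, 0, 216689353, 0, 0, 0, ⟨0, 0⟩, 0⟩ 0 0))) (.pos 3 .mm ⟨0, 0, 13330505, 0, 0, 0, 0, 0, 0, ⟨0, 0⟩, 0⟩ 0 0)) (.pos 3 .mm ⟨0, 0, 2361786, 0, 0, 151668608, 0, 0, 0, ⟨0, 0⟩, 0⟩ 0 0))))))) (.cut .v 268435456 (.cut .d (-8388608) (.void 8 ⟨100000, 0, 0, 0, 0, 0, 0, 0, 0, ⟨0, 0⟩, 0⟩ 0 0) (.cut .d (-4194304) (.void 8 ⟨100000, 0, 0, 0, 0, 0, 0, 0, 0, ⟨0, 0⟩, 0⟩ 0 0) (.cut .d (-2097152) (.void 8 ⟨100000, 0, 0, 0, 0, 0, 0, 0, 0, ⟨0, 0⟩,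 0⟩ 0 0) (.cut .v 67108864 (.cut .v 33554432 (.cut .d (-1048576) (.cut .v 25165824 (.cut .s 12976128 (.pos 13 .mp ⟨815070952, 0, 0, 0, 0, 0, 0, 0, 0, ⟨0, 0⟩, 0⟩ 0 0) (.pos 13 .mp ⟨1011484459, 0, 0, 0, 0, 0, 0, 0, 0, ⟨0, 0⟩, 0⟩ 0 0)) (.pos 14 .mp ⟨1594818224, 0, 0, 0, 0, 0, 0, 0, 0, ⟨0, 0⟩, 0⟩ 0 0)) (.cut .v 25165824 (.cut .d (-524288) (.pos 13 .mp ⟨657880520, 0, 0, 0, 0, 0, 0, 0, 0, ⟨0, 0⟩, 0⟩ 0 0) (.pos 13 .mp ⟨276414042, 0, 0, 0, 0, 0, 0, 0, 0, ⟨0, 0⟩, 0⟩ 0 0)) (.pos 14 .mp ⟨1068854057, 0, 0, 0, 0, 0, 0, 0, 0, ⟨0, 0⟩, 0⟩ 0 0))) (.cut .v 50331648 (.cut .v 41943040 (.pos 23 .mp ⟨1933934705, 0, 0, 0, 0, 0, 0, 0, 0, ⟨0, 0⟩, 0⟩ 0 0) (.pos 24 .mp ⟨2644585766,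 0, 0, 0, 0, 0, 0, 0, 0, ⟨0, 0⟩, 0⟩ 0 0)) (.pos 20 .mp ⟨4141706083, 0, 0, 0, 0, 0, 0, 0, 0, ⟨0, 0⟩, 0⟩ 0 0))) (.cut .v 134217728 (.pos 35 .mp ⟨15307779803, 0, 0, 0, 0, 0, 0, 0, 0, ⟨0, 0⟩, 0⟩ 0 0) (.void 36 ⟨40331, 59669, 0, 0, 0, 0, 0, 0, 0, ⟨0, 0⟩, 0⟩ 0 0)))))) (.void 39 ⟨95002, 0, 0, 4998, 0, 0, 0, 0, 0, ⟨0, 0⟩, 0⟩ 0 0))) (.cut .v 16777216 (.cut .v 8388608 (.cut .v 4194304 (.cut .v 2097152 (.cut .v 1048576 (.cut .v 524288 (.pos 78 .pm ⟨0, 646310, 0, 0, 0, 0, 0, 0, 0, ⟨0, 0⟩, 0⟩ 0 0) (.pos 79 .pm ⟨0, 5966682, 0, 0, 0, 0, 0, 0, 0, ⟨0, 0⟩, 0⟩ 0 0)) (.pos 65 .pm ⟨0, 12366390, 0, 0, 0, 0, 0, 0, 0, ⟨0, 0⟩, 0⟩ 0 0)) (.pos 49 .pm ⟨0, 15205907, 0, 0, 0, 0, 0, 0,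 0, ⟨0, 0⟩, 0⟩ 0 0)) (.pos 5 .pm ⟨0, 15496512, 0, 0, 0, 0, 0, 0, 0, ⟨0, 0⟩, 0⟩ 0 0)) (.pos 3 .pm ⟨0, 317293, 0, 0, 0, 0, 0, 0, 0, ⟨0, 0⟩, 0⟩ 0 0)) (.cut .v 268435456 (.cut .d 2680896 (.cut .v 67108864 (.cut .v 33554432 (.pos 11 .pp ⟨0, 0, 0, 0, 0, 0, 0, 0, 0, ⟨0, 0⟩, 0⟩ 0 0) (.cut .v 50331648 (.pos 19 .pp ⟨675251394, 0, 0, 0, 0, 0, 0, 0, 0, ⟨0, 0⟩, 0⟩ 0 0) (.cut .d 1340448 (.pos 20 .pp ⟨2134312094, 0, 0, 0, 0, 0, 0, 0, 0, ⟨0, 0⟩, 0⟩ 0 0) (.pos 20 .pp ⟨0, 0, 0, 0, 0, 0, 0, 0, 0, ⟨0, 0⟩, 0⟩ 0 0)))) (.cut .v 134217728 (.cut .d 1340448 (.cut .v 100663296 (.cut .d 670224 (.cut .v 83886080 (.pos 74 .pp ⟨4202871269, 0, 0, 0, 0, 0, 0, 0, 0, ⟨0, 0⟩, 0⟩ 0 0) (.cut .v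 92274688 (.pos 76 .pp ⟨5477806664, 0, 0, 0, 0, 0, 0, 0, 0, ⟨0, 0⟩, 0⟩ 0 0) (.pos 77 .pp ⟨6481611715, 0, 0, 0, 0, 0, 0, 0, 0, ⟨0, 0⟩, 0⟩ 0 0))) (.cut .v 83886080 (.pos 74 .pp ⟨2782057117, 0, 0, 0, 0, 0, 0, 0, 0, ⟨0, 0⟩, 0⟩ 0 0) (.pos 75 .pp ⟨4404580941, 1495472552, 0, 0, 0, 0, 0, 0, 0, ⟨0, 0⟩, 0⟩ 0 0))) (.cut .v 117440512 (.cut .d 670224 (.cut .d 335112 (.pos 80 .pp ⟨10096022053, 955978906, 0, 0, 0, 0, 0, 0, 0, ⟨0, 0⟩, 0⟩ 0 0) (.pos 80 .pp ⟨7559642045, 3180699094, 0, 0, 0, 0, 0, 0, 0, ⟨0, 0⟩, 0⟩ 0 0)) (.void 80 ⟨0, 100000, 0, 0, 0, 0, 0, 0, 0, ⟨0, 0⟩, 0⟩ 0 0)) (.void 81 ⟨37862, 62138, 0, 0, 0, 0, 0, 0, 0, ⟨0, 0⟩, 0⟩ 0 0))) (.pos 35 .pp ⟨0, 670625598, 0, 0,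 0, 0, 0, 0, 0, ⟨0, 0⟩, 0⟩ 0 0)) (.void 36 ⟨0, 100000, 0, 0, 0, 0, 0, 0, 0, ⟨0, 0⟩, 0⟩ 0 0))) (.pos 8 .pp ⟨0, 66134229, 0, 0, 0, 0, 0, 0, 0, ⟨0, 0⟩, 0⟩ 0 0)) (.void 39 ⟨0, 0, 0, 100000, 0, 0, 0, 0, 0, ⟨0, 0⟩, 0⟩ 0 0)))),
    by decide +kernel⟩

def covers20 : cell.Covers table row20.1 :=
  ⟨(.cut .d 0 (.cut .v 16777216 (.cut .d (-8388608) (.void 1 ⟨0, 0, 0, 0, 0, 100000, 0, 0, 0, ⟨0, 0⟩, 0⟩ 0 0) (.cut .v 8388608 (.pos 2 .mm ⟨0, 0, 1320314311, 0, 0, 0, 0, 0, 0, ⟨0, 0⟩, 0⟩ 0 0) (.cut .d (-4194304) (.void 3 ⟨80153, 0, 19847, 0, 0, 0, 0, 0, 0, ⟨0, 0⟩, 0⟩ 0 0) (.cut .d (-2097152) (.void 3 ⟨80153, 0, 19847, 0, 0, 0, 0, 0, 0, ⟨0, 0⟩, 0⟩ 0 0) (.cut .d (-1048576) (.cut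 .v 12582912 (.cut .d (-1572864) (.cut .l 17382394 (.void 6 ⟨78348, 0, 21652, 0, 0, 0, 0, 0, 0, ⟨0, 0⟩, 0⟩ 0 0) (.pos 6 .mm ⟨675892558, 0, 227983899, 0, 0, 0, 0, 0, 0, ⟨0, 0⟩, 0⟩ 0 0)) (.cut .v 10485760 (.cut .s 13500416 (.cut .s 13369344 (.cut .s 13303808 (.pos 42 .mm ⟨0, 0, 171727087, 0, 0, 443007958, 0, 0, 0, ⟨0, 0⟩, 0⟩ 0 0) (.pos 42 .mm ⟨0, 0, 185671578, 0, 0, 465118735, 0, 0, 0, ⟨0, 0⟩, 0⟩ 0 0)) (.pos 42 .mm ⟨0, 0, 235805379, 0, 0, 493934860, 0, 0, 0, ⟨0, 0⟩, 0⟩ 0 0)) (.pos 42 .mm ⟨0, 0, 604516502, 0, 0, 534084890, 0, 0, 0, ⟨0, 0⟩, 0⟩ 0 0)) (.cut .l 17382394 (.cut .l 13484687 (.void 43 ⟨0, 0, 0, 0, 0, 100000, 0, 0, 0, ⟨0, 0⟩, 0⟩ 0 0) (.cut .d (-1310720)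 (.cut .s 13500416 (.cut .s 13369344 (.cut .v 11534336 (.pos 50 .mm ⟨232628940, 0, 50264995, 0, 0, 343220164, 0, 0, 0, ⟨0, 0⟩, 0⟩ 0 0) (.void 51 ⟨100000, 0, 0, 0, 0, 0, 0, 0, 0, ⟨0, 0⟩, 0⟩ 0 0)) (.void 43 ⟨80238, 0, 19762, 0, 0, 0, 0, 0, 0, ⟨0, 0⟩, 0⟩ 0 0)) (.void 43 ⟨80108, 0, 19892, 0, 0, 0, 0, 0, 0, ⟨0, 0⟩, 0⟩ 0 0)) (.cut .v 11534336 (.cut .l 15433540 (.pos 50 .mm ⟨0, 0, 0, 0, 0, 844666815, 0, 0, 0, ⟨0, 0⟩, 0⟩ 0 0) (.cut .s 13500416 (.cut .s 13369344 (.pos 50 .mm ⟨147880264, 0, 0, 0, 0, 357479345, 0, 0, 0, ⟨0, 0⟩, 0⟩ 0 0) (.cut .s 13434880 (.pos 50 .mm ⟨186664610, 0, 3697482, 0, 0, 353990592, 0, 0, 0, ⟨0, 0⟩, 0⟩ 0 0) (.pos 50 .mm ⟨205321148, 0, 1724126,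 0, 0, 364455489, 0, 0, 0, ⟨0, 0⟩, 0⟩ 0 0))) (.cut .d (-1179648) (.pos 50 .mm ⟨461067800, 0, 88766907, 0, 0, 153166239, 0, 0, 0, ⟨0, 0⟩, 0⟩ 0 0) (.pos 50 .mm ⟨214760612, 0, 0, 0, 0, 403756330, 0, 0, 0, ⟨0, 0⟩, 0⟩ 0 0)))) (.cut .s 13500416 (.pos 51 .mm ⟨426015563, 0, 0, 0, 0, 140586804, 0, 0, 0, ⟨0, 0⟩, 0⟩ 0 0) (.pos 51 .mm ⟨721611814, 0, 0, 0, 0, 0, 0, 0, 0, ⟨0, 0⟩, 0⟩ 0 0))))) (.cut .v 11534336 (.cut .l 21280101 (.cut .d (-1310720) (.cut .s 13500416 (.pos 50 .mm ⟨459988314, 0, 108719690, 0, 0, 0, 0, 0, 0, ⟨0, 0⟩, 0⟩ 0 0) (.pos 50 .mm ⟨646461770, 0, 138684295, 0, 0, 0, 0, 0, 0, ⟨0, 0⟩, 0⟩ 0 0)) (.cut .s 13500416 (.pos 50 .mm ⟨354537770, 0, 62388147, 0, 0,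 0, 0, 0, 0, ⟨0, 0⟩, 0⟩ 0 0) (.pos 50 .mm ⟨450710271, 0, 59828702, 0, 0, 0, 0, 0, 0, ⟨0, 0⟩, 0⟩ 0 0))) (.pos 50 .mm ⟨381937368, 0, 156930785, 0, 0, 0, 0, 0, 0, ⟨0, 0⟩, 0⟩ 0 0)) (.pos 51 .mm ⟨564509319, 0, 0, 0, 0, 0, 0, 0, 0, ⟨0, 0⟩, 0⟩ 0 0))))) (.cut .s 13500416 (.cut .l 17382394 (.pos 7 .mm ⟨806412352, 0, 0, 0, 0, 0, 0, 0, 0, ⟨0, 0⟩, 0⟩ 0 0) (.pos 7 .mm ⟨704020313, 0, 0, 0, 0, 0, 0, 0, 0, ⟨0, 0⟩, 0⟩ 0 0)) (.pos 7 .mm ⟨962878573, 0, 0, 0, 0, 0, 0, 0, 0, ⟨0, 0⟩, 0⟩ 0 0))) (.cut .d (-524288) (.cut .l 17382394 (.cut .v 12582912 (.cut .l 13484687 (.cut .d (-786432) (.pos 6 .mm ⟨0, 0, 16747674, 0, 0, 798631215, 0, 0, 0, ⟨0, 0⟩, 0⟩ 0 0) (.cut .l 11535833 (.pos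 6 .mm ⟨0, 0, 0, 0, 0, 633688639, 0, 0, 0, ⟨0, 0⟩, 0⟩ 0 0) (.pos 6 .mm ⟨0, 0, 0, 0, 0, 487527537, 0, 0, 0, ⟨0, 0⟩, 0⟩ 0 0))) (.cut .d (-786432) (.cut .v 10485760 (.cut .s 13500416 (.pos 42 .mm ⟨0, 0, 53425531, 0, 0, 478811366, 0, 0, 0, ⟨0, 0⟩, 0⟩ 0 0) (.pos 42 .mm ⟨0, 0, 56053500, 0, 0, 600528288, 0, 0, 0, ⟨0, 0⟩, 0⟩ 0 0)) (.cut .s 13500416 (.pos 43 .mm ⟨0, 0, 0, 0, 0, 548707909, 0, 0, 0, ⟨0, 0⟩, 0⟩ 0 0) (.cut .v 11534336 (.pos 50 .mm ⟨0, 0, 0, 0, 0, 663648884, 0, 0, 0, ⟨0, 0⟩, 0⟩ 0 0) (.pos 51 .mm ⟨261008839, 0, 0, 0, 0, 390338731, 0, 0, 0, ⟨0, 0⟩, 0⟩ 0 0)))) (.pos 6 .mm ⟨0, 0, 2949656, 0, 0, 356616768, 0, 0, 0, ⟨0, 0⟩, 0⟩ 0 0))) (.cut .v 14680064 (.cut .l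 13484687 (.cut .d (-786432) (.pos 29 .mm ⟨47737316, 0, 0, 0, 0, 885397867, 0, 0, 0, ⟨0, 0⟩, 0⟩ 0 0) (.pos 29 .mm ⟨0, 0, 0, 0, 0, 757261066, 0, 0, 0, ⟨0, 0⟩, 0⟩ 0 0)) (.pos 29 .mm ⟨361687786, 0, 0, 0, 0, 186278580, 0, 0, 0, ⟨0, 0⟩, 0⟩ 0 0)) (.pos 30 .mm ⟨661054163, 0, 0, 0, 0, 103023727, 0, 0, 0, ⟨0, 0⟩, 0⟩ 0 0))) (.pos 3 .mm ⟨63216417, 0, 0, 0, 0, 0, 0, 0, 0, ⟨0, 0⟩, 0⟩ 0 0)) (.pos 3 .mm ⟨23221550, 0, 0, 0, 0, 330852643, 0, 0, 0, ⟨0, 0⟩, 0⟩ 0 0))))))) (.cut .v 268435456 (.cut .d (-8388608) (.void 8 ⟨100000, 0, 0, 0, 0, 0, 0, 0, 0, ⟨0, 0⟩, 0⟩ 0 0) (.cut .d (-4194304) (.void 8 ⟨100000, 0, 0, 0, 0, 0, 0, 0, 0, ⟨0, 0⟩, 0⟩ 0 0) (.cut .d (-2097152) (.void 8 ⟨100000,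 0, 0, 0, 0, 0, 0, 0, 0, ⟨0, 0⟩, 0⟩ 0 0) (.cut .v 67108864 (.cut .v 33554432 (.cut .d (-1048576) (.cut .v 25165824 (.pos 13 .mp ⟨1481794833, 0, 0, 0, 0, 0, 0, 0, 0, ⟨0, 0⟩, 0⟩ 0 0) (.void 14 ⟨100000, 0, 0, 0, 0, 0, 0, 0, 0, ⟨0, 0⟩, 0⟩ 0 0)) (.cut .v 25165824 (.cut .d (-524288) (.pos 13 .mp ⟨1015075627, 0, 0, 0, 0, 0, 0, 0, 0, ⟨0, 0⟩, 0⟩ 0 0) (.pos 13 .mp ⟨534756928, 0, 0, 0, 0, 0, 0, 0, 0, ⟨0, 0⟩, 0⟩ 0 0)) (.pos 14 .mp ⟨1564026031, 0, 0, 0, 0, 0, 0, 0, 0, ⟨0, 0⟩, 0⟩ 0 0))) (.cut .v 50331648 (.cut .v 41943040 (.pos 23 .mp ⟨2790299113, 0, 0, 0, 0, 0, 0, 0, 0, ⟨0, 0⟩, 0⟩ 0 0) (.pos 24 .mp ⟨3754987090, 0, 0, 0, 0, 0, 0, 0, 0, ⟨0, 0⟩, 0⟩ 0 0)) (.pos 20 .mp ⟨5781010559,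 0, 0, 0, 0, 0, 0, 0, 0, ⟨0, 0⟩, 0⟩ 0 0))) (.cut .v 134217728 (.pos 35 .mp ⟨19692963393, 0, 0, 0, 0, 0, 0, 0, 0, ⟨0, 0⟩, 0⟩ 0 0) (.void 36 ⟨100000, 0, 0, 0, 0, 0, 0, 0, 0, ⟨0, 0⟩, 0⟩ 0 0)))))) (.void 39 ⟨94815, 0, 0, 5185, 0, 0, 0, 0, 0, ⟨0, 0⟩, 0⟩ 0 0))) (.cut .v 16777216 (.cut .v 8388608 (.cut .v 4194304 (.cut .v 2097152 (.cut .v 1048576 (.cut .v 524288 (.pos 78 .pm ⟨0, 1191849, 0, 0, 0, 0, 0, 0, 0, ⟨0, 0⟩, 0⟩ 0 0) (.pos 79 .pm ⟨0, 5667226, 0, 0, 0, 0, 0, 0, 0, ⟨0, 0⟩, 0⟩ 0 0)) (.pos 65 .pm ⟨0, 10098779, 0, 0, 0, 0, 0, 0, 0, ⟨0, 0⟩, 0⟩ 0 0)) (.pos 49 .pm ⟨0, 12187392, 0, 0, 0, 0, 0, 0, 0, ⟨0, 0⟩, 0⟩ 0 0)) (.pos 5 .pm ⟨0, 9064042, 0, 0, 0, 0, 0, 0, 0, ⟨0,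 0⟩, 0⟩ 0 0)) (.pos 3 .pm ⟨0, 0, 0, 0, 0, 0, 0, 0, 0, ⟨0, 0⟩, 0⟩ 0 0)) (.cut .v 268435456 (.cut .d 2242500 (.cut .v 67108864 (.cut .v 33554432 (.pos 11 .pp ⟨0, 0, 0, 0, 0, 0, 0, 0, 0, ⟨0, 0⟩, 0⟩ 0 0) (.cut .v 50331648 (.pos 19 .pp ⟨947653149, 0, 0, 0, 0, 0, 0, 0, 0, ⟨0, 0⟩, 0⟩ 0 0) (.cut .d 1121250 (.pos 20 .pp ⟨2834153408, 0, 0, 0, 0, 0, 0, 0, 0, ⟨0, 0⟩, 0⟩ 0 0) (.pos 20 .pp ⟨0, 0, 0, 0, 0, 0, 0, 0, 0, ⟨0, 0⟩, 0⟩ 0 0)))) (.cut .v 134217728 (.cut .d 1121250 (.cut .v 100663296 (.cut .d 560625 (.cut .v 83886080 (.pos 74 .pp ⟨5719752160, 0, 0, 0, 0, 0, 0, 0, 0, ⟨0, 0⟩, 0⟩ 0 0) (.cut .l 17382394 (.pos 75 .pp ⟨9242056554, 0, 0, 0, 0, 0, 0, 0, 0, ⟨0, 0⟩, 0⟩ 0 0)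 (.pos 75 .pp ⟨7729932604, 0, 0, 0, 0, 0, 0, 0, 0, ⟨0, 0⟩, 0⟩ 0 0))) (.cut .v 83886080 (.pos 74 .pp ⟨3808786682, 0, 0, 0, 0, 0, 0, 0, 0, ⟨0, 0⟩, 0⟩ 0 0) (.cut .v 92274688 (.pos 76 .pp ⟨5630823736, 0, 0, 0, 0, 0, 0, 0, 0, ⟨0, 0⟩, 0⟩ 0 0) (.pos 77 .pp ⟨7048082955, 2404969526, 0, 0, 0, 0, 0, 0, 0, ⟨0, 0⟩, 0⟩ 0 0)))) (.cut .v 117440512 (.cut .d 560625 (.cut .d 280312 (.pos 80 .pp ⟨12531906340, 1731699275, 0, 0, 0, 0, 0, 0, 0, ⟨0, 0⟩, 0⟩ 0 0) (.cut .l 17382394 (.pos 80 .pp ⟨11078872523, 5444084500, 0, 0, 0, 0, 0, 0, 0, ⟨0, 0⟩, 0⟩ 0 0) (.pos 80 .pp ⟨9271149521, 3768910405, 0, 0, 0, 0, 0, 0, 0, ⟨0, 0⟩, 0⟩ 0 0))) (.void 80 ⟨0, 100000, 0, 0, 0, 0, 0, 0, 0, ⟨0, 0⟩,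 0⟩ 0 0)) (.void 81 ⟨37100, 62900, 0, 0, 0, 0, 0, 0, 0, ⟨0, 0⟩, 0⟩ 0 0))) (.pos 35 .pp ⟨0, 1379007191, 0, 0, 0, 0, 0, 0, 0, ⟨0, 0⟩, 0⟩ 0 0)) (.void 36 ⟨36360, 63640, 0, 0, 0, 0, 0, 0, 0, ⟨0, 0⟩, 0⟩ 0 0))) (.pos 8 .pp ⟨0, 56731974, 0, 0, 0, 0, 0, 0, 0, ⟨0, 0⟩, 0⟩ 0 0)) (.void 39 ⟨0, 0, 0, 100000, 0, 0, 0, 0, 0, ⟨0, 0⟩, 0⟩ 0 0)))),
    by decide +kernel⟩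

def covers21 : cell.Covers table row21.1 :=
  ⟨(.cut .d 0 (.cut .v 16777216 (.cut .d (-8388608) (.void 1 ⟨0, 0, 0, 0, 0, 100000, 0, 0, 0, ⟨0, 0⟩, 0⟩ 0 0) (.cut .d (-4194304) (.void 1 ⟨0, 0, 0, 0, 0, 100000, 0, 0, 0, ⟨0, 0⟩, 0⟩ 0 0) (.cut .v 8388608 (.pos 2 .mm ⟨0, 0, 1671267810, 0, 0, 0, 0, 0, 0, ⟨0, 0⟩, 0⟩ 0 0) (.cut .d (-2097152) (.void 3 ⟨79629, 0, 20371, 0, 0, 0, 0, 0, 0, ⟨0, 0⟩, 0⟩ 0 0) (.cut .d (-1048576) (.cut .v 12582912 (.cut .v 10485760 (.void 42 ⟨0, 0, 100000, 0, 0, 0, 0, 0, 0, ⟨0, 0⟩, 0⟩ 0 0) (.cut .v 11534336 (.cut .l 17382394 (.pos 50 .mm ⟨810862831, 0, 213502265, 0, 0, 54722087, 0, 0, 0, ⟨0, 0⟩, 0⟩ 0 0) (.pos 50 .mm ⟨796003294, 0, 223015886,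 0, 0, 0, 0, 0, 0, ⟨0, 0⟩, 0⟩ 0 0)) (.pos 51 .mm ⟨1000662557, 0, 0, 0, 0, 0, 0, 0, 0, ⟨0, 0⟩, 0⟩ 0 0))) (.pos 7 .mm ⟨1277765962, 0, 0, 0, 0, 0, 0, 0, 0, ⟨0, 0⟩, 0⟩ 0 0)) (.cut .d (-524288) (.cut .v 12582912 (.cut .v 10485760 (.cut .s 13959168 (.pos 42 .mm ⟨0, 0, 204557739, 0, 0, 656457610, 0, 0, 0, ⟨0, 0⟩, 0⟩ 0 0) (.pos 42 .mm ⟨0, 0, 294151276, 0, 0, 719589643, 0, 0, 0, ⟨0, 0⟩, 0⟩ 0 0)) (.cut .l 17382394 (.cut .d (-786432) (.cut .s 13959168 (.cut .v 11534336 (.pos 50 .mm ⟨64055014, 0, 0, 0, 0, 737909726, 0, 0, 0, ⟨0, 0⟩, 0⟩ 0 0) (.pos 51 .mm ⟨491561339, 0, 0, 0, 0, 318917572, 0, 0, 0, ⟨0, 0⟩, 0⟩ 0 0)) (.pos 43 .mm ⟨99024574, 0, 0, 0, 0, 877153059, 0, 0, 0,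 ⟨0, 0⟩, 0⟩ 0 0)) (.pos 43 .mm ⟨0, 0, 0, 0, 0, 798554068, 0, 0, 0, ⟨0, 0⟩, 0⟩ 0 0)) (.pos 43 .mm ⟨476823254, 0, 70443936, 0, 0, 0, 0, 0, 0, ⟨0, 0⟩, 0⟩ 0 0))) (.cut .d (-786432) (.pos 7 .mm ⟨969619201, 0, 0, 0, 0, 0, 0, 0, 0, ⟨0, 0⟩, 0⟩ 0 0) (.pos 7 .mm ⟨470758598, 0, 0, 0, 0, 407277134, 0, 0, 0, ⟨0, 0⟩, 0⟩ 0 0))) (.pos 3 .mm ⟨15273461, 0, 0, 0, 0, 514468832, 0, 0, 0, ⟨0, 0⟩, 0⟩ 0 0))))))) (.cut .v 268435456 (.cut .d (-8388608) (.void 8 ⟨100000, 0, 0, 0, 0, 0, 0, 0, 0, ⟨0, 0⟩, 0⟩ 0 0) (.cut .d (-4194304) (.void 8 ⟨100000, 0, 0, 0, 0, 0, 0, 0, 0, ⟨0, 0⟩, 0⟩ 0 0) (.cut .d (-2097152) (.void 8 ⟨100000, 0, 0, 0, 0, 0, 0, 0, 0, ⟨0, 0⟩, 0⟩ 0 0) (.cut .v 67108864 (.cut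 .d (-1048576) (.pos 9 .mp ⟨7167413716, 0, 0, 0, 0, 0, 0, 0, 0, ⟨0, 0⟩, 0⟩ 0 0) (.cut .v 33554432 (.cut .v 25165824 (.cut .d (-524288) (.pos 13 .mp ⟨1411994033, 0, 0, 0, 0, 0, 0, 0, 0, ⟨0, 0⟩, 0⟩ 0 0) (.pos 13 .mp ⟨725780723, 0, 0, 0, 0, 0, 0, 0, 0, ⟨0, 0⟩, 0⟩ 0 0)) (.pos 14 .mp ⟨2062901196, 0, 0, 0, 0, 0, 0, 0, 0, ⟨0, 0⟩, 0⟩ 0 0)) (.cut .v 50331648 (.pos 19 .mp ⟨3704637390, 0, 0, 0, 0, 0, 0, 0, 0, ⟨0, 0⟩, 0⟩ 0 0) (.pos 20 .mp ⟨6440043465, 0, 0, 0, 0, 0, 0, 0, 0, ⟨0, 0⟩, 0⟩ 0 0)))) (.cut .v 134217728 (.pos 35 .mp ⟨24898380705, 0, 0, 0, 0, 0, 0, 0, 0, ⟨0, 0⟩, 0⟩ 0 0) (.void 36 ⟨100000, 0, 0, 0, 0, 0, 0, 0, 0, ⟨0, 0⟩, 0⟩ 0 0)))))) (.void 39 ⟨94675, 0, 0, 5325,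 0, 0, 0, 0, 0, ⟨0, 0⟩, 0⟩ 0 0))) (.cut .v 16777216 (.cut .v 8388608 (.cut .v 4194304 (.cut .v 2097152 (.cut .v 1048576 (.cut .v 524288 (.pos 78 .pm ⟨0, 203932, 0, 0, 0, 0, 0, 0, 0, ⟨0, 0⟩, 0⟩ 0 0) (.pos 79 .pm ⟨0, 781957, 0, 0, 0, 0, 0, 0, 0, ⟨0, 0⟩, 0⟩ 0 0)) (.pos 65 .pm ⟨0, 762212, 0, 0, 0, 0, 0, 0, 0, ⟨0, 0⟩, 0⟩ 0 0)) (.pos 49 .pm ⟨0, 0, 951082, 0, 0, 0, 0, 0, 0, ⟨0, 0⟩, 0⟩ 0 0)) (.pos 5 .pm ⟨0, 0, 18828657, 0, 0, 0, 0, 0, 0, ⟨0, 0⟩, 0⟩ 0 0)) (.pos 3 .pm ⟨0, 0, 0, 0, 0, 0, 0, 0, 0, ⟨0, 0⟩, 0⟩ 0 0)) (.cut .v 268435456 (.cut .d 1837506 (.cut .v 67108864 (.cut .v 33554432 (.pos 11 .pp ⟨0, 0, 0, 0, 0, 0, 0, 0, 0, ⟨0, 0⟩, 0⟩ 0 0) (.cut .v 50331648 (.pos 19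 .pp ⟨1287118207, 0, 0, 0, 0, 0, 0, 0, 0, ⟨0, 0⟩, 0⟩ 0 0) (.pos 20 .pp ⟨2742810787, 0, 0, 0, 0, 0, 0, 0, 0, ⟨0, 0⟩, 0⟩ 0 0))) (.cut .v 134217728 (.cut .d 918753 (.cut .v 100663296 (.cut .v 83886080 (.pos 74 .pp ⟨6035085157, 0, 0, 0, 0, 0, 0, 0, 0, ⟨0, 0⟩, 0⟩ 0 0) (.cut .d 459376 (.pos 75 .pp ⟨10485152138, 0, 0, 0, 0, 0, 0, 0, 0, ⟨0, 0⟩, 0⟩ 0 0) (.pos 75 .pp ⟨7946937110, 0, 0, 0, 0, 0, 0, 0, 0, ⟨0, 0⟩, 0⟩ 0 0))) (.cut .v 117440512 (.cut .d 459376 (.cut .v 109051904 (.pos 82 .pp ⟨12514464274, 0, 0, 0, 0, 0, 0, 0, 0, ⟨0, 0⟩, 0⟩ 0 0) (.pos 83 .pp ⟨15471773926, 6556783472, 0, 0, 0, 0, 0, 0, 0, ⟨0, 0⟩, 0⟩ 0 0)) (.pos 80 .pp ⟨10980614408, 4806093393, 0, 0, 0, 0,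 0, 0, 0, ⟨0, 0⟩, 0⟩ 0 0)) (.void 81 ⟨36580, 63420, 0, 0, 0, 0, 0, 0, 0, ⟨0, 0⟩, 0⟩ 0 0))) (.pos 35 .pp ⟨0, 2292276565, 0, 0, 0, 0, 0, 0, 0, ⟨0, 0⟩, 0⟩ 0 0)) (.void 36 ⟨35972, 64028, 0, 0, 0, 0, 0, 0, 0, ⟨0, 0⟩, 0⟩ 0 0))) (.pos 8 .pp ⟨0, 17277329, 0, 0, 0, 0, 0, 0, 0, ⟨0, 0⟩, 0⟩ 0 0)) (.void 39 ⟨0, 0, 0, 100000, 0, 0, 0, 0, 0, ⟨0, 0⟩, 0⟩ 0 0)))),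
    by decide +kernel⟩

def covers22 : cell.Covers table row22.1 :=
  ⟨(.cut .d 0 (.cut .v 16777216 (.cut .d (-8388608) (.void 1 ⟨0, 0, 0, 0, 0, 100000, 0, 0, 0, ⟨0, 0⟩, 0⟩ 0 0) (.cut .d (-4194304) (.pos 1 .mm ⟨0, 0, 70780458, 0, 0, 167701379542, 0, 0, 0, ⟨0, 0⟩, 0⟩ 0 0) (.cut .v 8388608 (.void 2 ⟨0, 0, 100000, 0, 0, 0, 0, 0, 0, ⟨0, 0⟩, 0⟩ 0 0) (.cut .d (-2097152) (.void 3 ⟨79240, 0, 20760, 0, 0, 0, 0, 0, 0, ⟨0, 0⟩, 0⟩ 0 0) (.cut .d (-1048576) (.cut .v 12582912 (.pos 6 .mm ⟨1214659351, 0, 460666936, 0, 0, 0, 0, 0, 0, ⟨0, 0⟩, 0⟩ 0 0) (.pos 7 .mm ⟨1720209584, 0, 0, 0, 0, 0, 0, 0, 0, ⟨0, 0⟩, 0⟩ 0 0)) (.cut .d (-524288) (.cut .v 12582912 (.cut .v 10485760 (.cut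 .s 14319616 (.pos 42 .mm ⟨0, 0, 433551154, 0, 0, 809707520, 0, 0, 0, ⟨0, 0⟩, 0⟩ 0 0) (.pos 42 .mm ⟨0, 0, 527388145, 0, 0, 896818801, 0, 0, 0, ⟨0, 0⟩, 0⟩ 0 0)) (.cut .l 17382394 (.cut .l 13484687 (.pos 43 .mm ⟨0, 0, 0, 0, 0, 1620301231, 0, 0, 0, ⟨0, 0⟩, 0⟩ 0 0) (.cut .d (-786432) (.pos 43 .mm ⟨940792573, 0, 53913898, 0, 0, 0, 0, 0, 0, ⟨0, 0⟩, 0⟩ 0 0) (.pos 43 .mm ⟨345715178, 0, 0, 0, 0, 614249645, 0, 0, 0, ⟨0, 0⟩, 0⟩ 0 0))) (.cut .d (-786432) (.pos 43 .mm ⟨821595397, 0, 70718836, 0, 0, 0, 0, 0, 0, ⟨0, 0⟩, 0⟩ 0 0) (.pos 43 .mm ⟨596735540, 0, 147459510, 0, 0, 0, 0, 0, 0, ⟨0, 0⟩, 0⟩ 0 0)))) (.pos 7 .mm ⟨1196760360, 0, 0, 0, 0, 0, 0, 0, 0, ⟨0, 0⟩, 0⟩ 0 0)) (.cut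 .v 12582912 (.pos 6 .mm ⟨0, 0, 0, 0, 0, 722808106, 0, 0, 0, ⟨0, 0⟩, 0⟩ 0 0) (.pos 7 .mm ⟨358775541, 0, 0, 0, 0, 659990455, 0, 0, 0, ⟨0, 0⟩, 0⟩ 0 0)))))))) (.cut .v 268435456 (.cut .d (-8388608) (.void 8 ⟨100000, 0, 0, 0, 0, 0, 0, 0, 0, ⟨0, 0⟩, 0⟩ 0 0) (.cut .d (-4194304) (.void 8 ⟨100000, 0, 0, 0, 0, 0, 0, 0, 0, ⟨0, 0⟩, 0⟩ 0 0) (.cut .d (-2097152) (.void 8 ⟨100000, 0, 0, 0, 0, 0, 0, 0, 0, ⟨0, 0⟩, 0⟩ 0 0) (.cut .d (-1048576) (.void 8 ⟨100000, 0, 0, 0, 0, 0, 0, 0, 0, ⟨0, 0⟩, 0⟩ 0 0) (.cut .v 67108864 (.cut .v 33554432 (.cut .d (-524288) (.pos 11 .mp ⟨2408079795, 0, 0, 0, 0, 0, 0, 0, 0, ⟨0, 0⟩, 0⟩ 0 0) (.pos 11 .mp ⟨1450198281, 0, 0, 0, 0, 0, 0, 0, 0, ⟨0, 0⟩,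 0⟩ 0 0)) (.cut .v 50331648 (.pos 19 .mp ⟨4666935507, 0, 0, 0, 0, 0, 0, 0, 0, ⟨0, 0⟩, 0⟩ 0 0) (.pos 20 .mp ⟨7920826368, 0, 0, 0, 0, 0, 0, 0, 0, ⟨0, 0⟩, 0⟩ 0 0))) (.cut .v 134217728 (.pos 35 .mp ⟨29315768318, 0, 0, 0, 0, 0, 0, 0, 0, ⟨0, 0⟩, 0⟩ 0 0) (.void 36 ⟨100000, 0, 0, 0, 0, 0, 0, 0, 0, ⟨0, 0⟩, 0⟩ 0 0))))))) (.void 39 ⟨94558, 0, 0, 5442, 0, 0, 0, 0, 0, ⟨0, 0⟩, 0⟩ 0 0))) (.cut .v 16777216 (.cut .v 8388608 (.cut .v 4194304 (.cut .v 2097152 (.cut .v 1048576 (.cut .v 524288 (.pos 78 .pm ⟨0, 0, 1259336, 0, 0, 0, 0, 0, 0, ⟨0, 0⟩, 0⟩ 0 0) (.pos 79 .pm ⟨0, 0, 4696002, 0, 0, 0, 0, 0, 0, ⟨0, 0⟩, 0⟩ 0 0)) (.pos 65 .pm ⟨0, 0, 7207496, 0, 0, 0, 0, 0, 0, ⟨0, 0⟩, 0⟩ 0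 0)) (.pos 49 .pm ⟨0, 0, 13549822, 0, 0, 0, 0, 0, 0, ⟨0, 0⟩, 0⟩ 0 0)) (.pos 5 .pm ⟨0, 0, 40799804, 0, 0, 0, 0, 0, 0, ⟨0, 0⟩, 0⟩ 0 0)) (.pos 3 .pm ⟨0, 0, 127094894, 0, 0, 0, 0, 0, 0, ⟨0, 0⟩, 0⟩ 0 0)) (.cut .v 268435456 (.cut .d 1553447 (.cut .v 67108864 (.cut .v 33554432 (.pos 11 .pp ⟨0, 0, 0, 0, 0, 0, 0, 0, 0, ⟨0, 0⟩, 0⟩ 0 0) (.cut .v 50331648 (.pos 19 .pp ⟨1616977865, 0, 0, 0, 0, 0, 0, 0, 0, ⟨0, 0⟩, 0⟩ 0 0) (.pos 20 .pp ⟨3462308144, 0, 0, 0, 0, 0, 0, 0, 0, ⟨0, 0⟩, 0⟩ 0 0))) (.cut .v 134217728 (.cut .d 776723 (.cut .v 100663296 (.cut .d 388361 (.cut .v 83886080 (.pos 74 .pp ⟨8890154839, 0, 0, 0, 0, 0, 0, 0, 0, ⟨0, 0⟩, 0⟩ 0 0) (.pos 75 .pp ⟨12747662700, 0,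 0, 0, 0, 0, 0, 0, 0, ⟨0, 0⟩, 0⟩ 0 0)) (.pos 68 .pp ⟨8064144085, 0, 0, 0, 0, 0, 0, 0, 0, ⟨0, 0⟩, 0⟩ 0 0)) (.cut .v 117440512 (.cut .d 388361 (.cut .v 109051904 (.pos 82 .pp ⟨15155333056, 205024446, 0, 0, 0, 0, 0, 0, 0, ⟨0, 0⟩, 0⟩ 0 0) (.pos 83 .pp ⟨18355247981, 8015723451, 0, 0, 0, 0, 0, 0, 0, ⟨0, 0⟩, 0⟩ 0 0)) (.pos 80 .pp ⟨13276137805, 6136409128, 0, 0, 0, 0, 0, 0, 0, ⟨0, 0⟩, 0⟩ 0 0)) (.void 81 ⟨36146, 63854, 0, 0, 0, 0, 0, 0, 0, ⟨0, 0⟩, 0⟩ 0 0))) (.pos 35 .pp ⟨0, 2892720779, 0, 0, 0, 0, 0, 0, 0, ⟨0, 0⟩, 0⟩ 0 0)) (.void 36 ⟨35632, 64368, 0, 0, 0, 0, 0, 0, 0, ⟨0, 0⟩, 0⟩ 0 0))) (.pos 8 .pp ⟨0, 0, 0, 0, 0, 0, 0, 0, 0, ⟨0, 0⟩, 0⟩ 0 0)) (.void 39 ⟨0, 0, 0, 100000,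 0, 0, 0, 0, 0, ⟨0, 0⟩, 0⟩ 0 0)))),
    by decide +kernel⟩

def covers23 : cell.Covers table row23.1 :=
  ⟨(.cut .d 0 (.cut .v 16777216 (.cut .d (-8388608) (.void 1 ⟨0, 0, 0, 0, 0, 100000, 0, 0, 0, ⟨0, 0⟩, 0⟩ 0 0) (.cut .d (-4194304) (.void 1 ⟨0, 0, 0, 0, 0, 100000, 0, 0, 0, ⟨0, 0⟩, 0⟩ 0 0) (.cut .v 8388608 (.void 2 ⟨0, 0, 100000, 0, 0, 0, 0, 0, 0, ⟨0, 0⟩, 0⟩ 0 0) (.cut .d (-2097152) (.void 3 ⟨78918, 0, 21082, 0, 0, 0, 0, 0, 0, ⟨0, 0⟩, 0⟩ 0 0) (.cut .d (-1048576) (.void 3 ⟨78918, 0, 21082, 0, 0, 0, 0, 0, 0, ⟨0, 0⟩, 0⟩ 0 0) (.cut .d (-524288) (.cut .v 12582912 (.cut .v 10485760 (.pos 42 .mm ⟨0, 0, 598167526, 0, 0, 1006465465, 0, 0, 0, ⟨0, 0⟩, 0⟩ 0 0) (.cut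 .d (-786432) (.pos 43 .mm ⟨1165070439, 0, 142491895, 0, 0, 0, 0, 0, 0, ⟨0, 0⟩, 0⟩ 0 0) (.pos 43 .mm ⟨562006103, 0, 0, 0, 0, 513704004, 0, 0, 0, ⟨0, 0⟩, 0⟩ 0 0))) (.pos 7 .mm ⟨1416122325, 0, 0, 0, 0, 459741, 0, 0, 0, ⟨0, 0⟩, 0⟩ 0 0)) (.cut .v 12582912 (.pos 6 .mm ⟨0, 0, 0, 0, 0, 849656622, 0, 0, 0, ⟨0, 0⟩, 0⟩ 0 0) (.pos 7 .mm ⟨299841461, 0, 0, 0, 0, 952132165, 0, 0, 0, ⟨0, 0⟩, 0⟩ 0 0)))))))) (.cut .v 268435456 (.cut .d (-8388608) (.void 8 ⟨100000, 0, 0, 0, 0, 0, 0, 0, 0, ⟨0, 0⟩, 0⟩ 0 0) (.cut .d (-4194304) (.void 8 ⟨100000, 0, 0, 0, 0, 0, 0, 0, 0, ⟨0, 0⟩, 0⟩ 0 0) (.cut .d (-2097152) (.void 8 ⟨100000, 0, 0, 0, 0, 0, 0, 0, 0, ⟨0, 0⟩, 0⟩ 0 0) (.cut .d (-1048576)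 (.void 8 ⟨100000, 0, 0, 0, 0, 0, 0, 0, 0, ⟨0, 0⟩, 0⟩ 0 0) (.cut .v 67108864 (.cut .v 33554432 (.cut .d (-524288) (.pos 11 .mp ⟨2915915627, 0, 0, 0, 0, 0, 0, 0, 0, ⟨0, 0⟩, 0⟩ 0 0) (.pos 11 .mp ⟨1539992627, 0, 0, 0, 0, 0, 0, 0, 0, ⟨0, 0⟩, 0⟩ 0 0)) (.cut .v 50331648 (.pos 19 .mp ⟨5458914773, 0, 0, 0, 0, 0, 0, 0, 0, ⟨0, 0⟩, 0⟩ 0 0) (.pos 20 .mp ⟨9169664884, 0, 0, 0, 0, 0, 0, 0, 0, ⟨0, 0⟩, 0⟩ 0 0))) (.cut .v 134217728 (.pos 35 .mp ⟨33694844348, 0, 0, 0, 0, 0, 0, 0, 0, ⟨0, 0⟩, 0⟩ 0 0) (.void 36 ⟨100000, 0, 0, 0, 0, 0, 0, 0, 0, ⟨0, 0⟩, 0⟩ 0 0))))))) (.void 39 ⟨94442, 0, 0, 5558, 0, 0, 0, 0, 0, ⟨0, 0⟩, 0⟩ 0 0))) (.cut .v 16777216 (.cut .v 8388608 (.cut .v 4194304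 (.cut .v 2097152 (.cut .v 1048576 (.cut .v 524288 (.cut .v 262144 (.pos 84 .pm ⟨0, 0, 1164612, 0, 0, 0, 0, 0, 0, ⟨0, 0⟩, 0⟩ 0 0) (.pos 85 .pm ⟨0, 0, 4841597, 0, 0, 0, 0, 0, 0, ⟨0, 0⟩, 0⟩ 0 0)) (.pos 79 .pm ⟨0, 0, 7046632, 0, 0, 0, 0, 0, 0, ⟨0, 0⟩, 0⟩ 0 0)) (.pos 65 .pm ⟨0, 0, 11823526, 0, 0, 0, 0, 0, 0, ⟨0, 0⟩, 0⟩ 0 0)) (.pos 49 .pm ⟨0, 0, 30400453, 0, 0, 0, 0, 0, 0, ⟨0, 0⟩, 0⟩ 0 0)) (.pos 5 .pm ⟨0, 0, 87189988, 0, 0, 0, 0, 0, 0, ⟨0, 0⟩, 0⟩ 0 0)) (.pos 3 .pm ⟨0, 0, 158932807, 0, 0, 0, 0, 0, 0, ⟨0, 0⟩, 0⟩ 0 0)) (.cut .v 268435456 (.cut .d 1328514 (.cut .v 67108864 (.cut .v 33554432 (.pos 11 .pp ⟨0, 0, 0, 0, 0, 0, 0, 0, 0, ⟨0, 0⟩, 0⟩ 0 0) (.cut .v 50331648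 (.pos 19 .pp ⟨1940101473, 0, 0, 0, 0, 0, 0, 0, 0, ⟨0, 0⟩, 0⟩ 0 0) (.pos 20 .pp ⟨4049224024, 0, 0, 0, 0, 0, 0, 0, 0, ⟨0, 0⟩, 0⟩ 0 0))) (.cut .v 134217728 (.cut .d 664257 (.cut .v 100663296 (.cut .v 83886080 (.pos 74 .pp ⟨8300700873, 0, 0, 0, 0, 0, 0, 0, 0, ⟨0, 0⟩, 0⟩ 0 0) (.pos 75 .pp ⟨12204862442, 0, 0, 0, 0, 0, 0, 0, 0, ⟨0, 0⟩, 0⟩ 0 0)) (.cut .v 117440512 (.cut .d 332128 (.pos 80 .pp ⟨18719348744, 807764851, 0, 0, 0, 0, 0, 0, 0, ⟨0, 0⟩, 0⟩ 0 0) (.pos 80 .pp ⟨15606040248, 6721294867, 0, 0, 0, 0, 0, 0, 0, ⟨0, 0⟩, 0⟩ 0 0)) (.void 81 ⟨35707, 64293, 0, 0, 0, 0, 0, 0, 0, ⟨0, 0⟩, 0⟩ 0 0))) (.pos 35 .pp ⟨0, 3705181589, 0, 0, 0, 0, 0, 0, 0, ⟨0, 0⟩, 0⟩ 0 0)) (.void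 36 ⟨89097, 0, 0, 10903, 0, 0, 0, 0, 0, ⟨0, 0⟩, 0⟩ 0 0))) (.pos 8 .pp ⟨0, 0, 0, 0, 0, 0, 0, 0, 0, ⟨0, 0⟩, 0⟩ 0 0)) (.void 39 ⟨0, 0, 0, 100000, 0, 0, 0, 0, 0, ⟨0, 0⟩, 0⟩ 0 0)))),
    by decide +kernel⟩

def covers24 : cell.Covers table row24.1 :=
  ⟨(.cut .d 0 (.cut .v 16777216 (.cut .d (-8388608) (.void 1 ⟨0, 0, 0, 0, 0, 100000, 0, 0, 0, ⟨0, 0⟩, 0⟩ 0 0) (.cut .d (-4194304) (.void 1 ⟨0, 0, 0, 0, 0, 100000, 0, 0, 0, ⟨0, 0⟩, 0⟩ 0 0) (.cut .v 8388608 (.void 2 ⟨0, 0, 100000, 0, 0, 0, 0, 0, 0, ⟨0, 0⟩, 0⟩ 0 0) (.cut .d (-2097152) (.void 3 ⟨78598, 0, 21402, 0, 0, 0, 0, 0, 0, ⟨0, 0⟩, 0⟩ 0 0) (.cut .d (-1048576) (.void 3 ⟨78598, 0, 21402, 0, 0, 0, 0, 0, 0, ⟨0, 0⟩, 0⟩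 0 0) (.cut .d (-524288) (.cut .v 12582912 (.cut .l 17382394 (.pos 6 .mm ⟨1197210764, 0, 481806892, 0, 0, 363525546, 0, 0, 0, ⟨0, 0⟩, 0⟩ 0 0) (.cut .v 10485760 (.void 42 ⟨0, 0, 100000, 0, 0, 0, 0, 0, 0, ⟨0, 0⟩, 0⟩ 0 0) (.cut .v 11534336 (.pos 50 .mm ⟨1239903890, 0, 506157477, 0, 0, 0, 0, 0, 0, ⟨0, 0⟩, 0⟩ 0 0) (.pos 51 .mm ⟨1525467607, 0, 0, 0, 0, 0, 0, 0, 0, ⟨0, 0⟩, 0⟩ 0 0)))) (.pos 7 .mm ⟨1891813850, 0, 0, 0, 0, 0, 0, 0, 0, ⟨0, 0⟩, 0⟩ 0 0)) (.cut .v 12582912 (.cut .v 10485760 (.pos 42 .mm ⟨0, 0, 621272516, 0, 0, 1084872242, 0, 0, 0, ⟨0, 0⟩, 0⟩ 0 0) (.pos 43 .mm ⟨460693973, 0, 0, 0, 0, 778745155, 0, 0, 0, ⟨0, 0⟩, 0⟩ 0 0)) (.pos 7 .mm ⟨1095636393, 0, 0, 0,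 0, 280412612, 0, 0, 0, ⟨0, 0⟩, 0⟩ 0 0)))))))) (.cut .v 268435456 (.cut .d (-8388608) (.void 8 ⟨100000, 0, 0, 0, 0, 0, 0, 0, 0, ⟨0, 0⟩, 0⟩ 0 0) (.cut .d (-4194304) (.void 8 ⟨100000, 0, 0, 0, 0, 0, 0, 0, 0, ⟨0, 0⟩, 0⟩ 0 0) (.cut .d (-2097152) (.void 8 ⟨100000, 0, 0, 0, 0, 0, 0, 0, 0, ⟨0, 0⟩, 0⟩ 0 0) (.cut .d (-1048576) (.void 8 ⟨100000, 0, 0, 0, 0, 0, 0, 0, 0, ⟨0, 0⟩, 0⟩ 0 0) (.cut .v 67108864 (.cut .v 33554432 (.cut .d (-524288) (.pos 11 .mp ⟨3907730375, 0, 0, 0, 0, 0, 0, 0, 0, ⟨0, 0⟩, 0⟩ 0 0) (.pos 11 .mp ⟨2231704799, 0, 0, 0, 0, 0, 0, 0, 0, ⟨0, 0⟩, 0⟩ 0 0)) (.cut .v 50331648 (.pos 19 .mp ⟨6782745120, 0, 0, 0, 0, 0, 0, 0, 0, ⟨0, 0⟩, 0⟩ 0 0) (.pos 20 .mp ⟨11113831418,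 0, 0, 0, 0, 0, 0, 0, 0, ⟨0, 0⟩, 0⟩ 0 0))) (.cut .v 134217728 (.pos 35 .mp ⟨40966003819, 0, 0, 0, 0, 0, 0, 0, 0, ⟨0, 0⟩, 0⟩ 0 0) (.void 36 ⟨89665, 0, 0, 10335, 0, 0, 0, 0, 0, ⟨0, 0⟩, 0⟩ 0 0))))))) (.void 39 ⟨94349, 0, 0, 5651, 0, 0, 0, 0, 0, ⟨0, 0⟩, 0⟩ 0 0))) (.cut .v 16777216 (.cut .v 8388608 (.cut .v 4194304 (.cut .v 2097152 (.cut .v 1048576 (.cut .v 524288 (.cut .v 262144 (.pos 84 .pm ⟨0, 0, 2653628, 0, 0, 0, 0, 0, 0, ⟨0, 0⟩, 0⟩ 0 0) (.pos 85 .pm ⟨0, 0, 9894658, 0, 0, 0, 0, 0, 0, ⟨0, 0⟩, 0⟩ 0 0)) (.pos 79 .pm ⟨0, 0, 15829166, 0, 0, 0, 0, 0, 0, ⟨0, 0⟩, 0⟩ 0 0)) (.pos 65 .pm ⟨0, 0, 25529472, 0, 0, 0, 0, 0, 0, ⟨0, 0⟩, 0⟩ 0 0)) (.pos 49 .pm ⟨0, 0, 51744705,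 0, 0, 0, 0, 0, 0, ⟨0, 0⟩, 0⟩ 0 0)) (.pos 5 .pm ⟨0, 0, 122203007, 0, 0, 0, 0, 0, 0, ⟨0, 0⟩, 0⟩ 0 0)) (.pos 3 .pm ⟨0, 0, 306233103, 0, 0, 0, 0, 0, 0, ⟨0, 0⟩, 0⟩ 0 0)) (.cut .v 268435456 (.cut .v 67108864 (.pos 9 .pp ⟨666132870, 0, 0, 0, 0, 0, 0, 0, 0, ⟨0, 0⟩, 0⟩ 0 0) (.cut .v 134217728 (.cut .d 1113533 (.cut .d 556766 (.cut .v 100663296 (.cut .v 83886080 (.pos 74 .pp ⟨10148364338, 0, 0, 0, 0, 0, 0, 0, 0, ⟨0, 0⟩, 0⟩ 0 0) (.pos 75 .pp ⟨14512910728, 0, 0, 0, 0, 0, 0, 0, 0, ⟨0, 0⟩, 0⟩ 0 0)) (.cut .v 117440512 (.pos 80 .pp ⟨21148945223, 10277747263, 0, 0, 0, 0, 0, 0, 0, ⟨0, 0⟩, 0⟩ 0 0) (.void 81 ⟨35377, 64623, 0, 0, 0, 0, 0, 0, 0, ⟨0, 0⟩, 0⟩ 0 0))) (.pos 35 .pp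 ⟨0, 3542690920, 0, 0, 0, 0, 0, 0, 0, ⟨0, 0⟩, 0⟩ 0 0)) (.void 35 ⟨0, 100000, 0, 0, 0, 0, 0, 0, 0, ⟨0, 0⟩, 0⟩ 0 0)) (.void 36 ⟨83173, 0, 0, 16827, 0, 0, 0, 0, 0, ⟨0, 0⟩, 0⟩ 0 0))) (.void 39 ⟨0, 0, 0, 100000, 0, 0, 0, 0, 0, ⟨0, 0⟩, 0⟩ 0 0)))),
    by decide +kernel⟩

def covers25 : cell.Covers table row25.1 :=
  ⟨(.cut .d 0 (.cut .v 16777216 (.cut .d (-8388608) (.void 1 ⟨0, 0, 0, 0, 0, 100000, 0, 0, 0, ⟨0, 0⟩, 0⟩ 0 0) (.cut .d (-4194304) (.void 1 ⟨0, 0, 0, 0, 0, 100000, 0, 0, 0, ⟨0, 0⟩, 0⟩ 0 0) (.cut .v 8388608 (.void 2 ⟨0, 0, 100000, 0, 0, 0, 0, 0, 0, ⟨0, 0⟩, 0⟩ 0 0) (.cut .d (-2097152) (.void 3 ⟨78344, 0, 21656, 0, 0, 0, 0, 0, 0, ⟨0, 0⟩, 0⟩ 0 0) (.cut .d (-1048576)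 (.void 3 ⟨78344, 0, 21656, 0, 0, 0, 0, 0, 0, ⟨0, 0⟩, 0⟩ 0 0) (.cut .d (-524288) (.cut .v 12582912 (.cut .v 10485760 (.void 42 ⟨0, 0, 100000, 0, 0, 0, 0, 0, 0, ⟨0, 0⟩, 0⟩ 0 0) (.cut .v 11534336 (.pos 50 .mm ⟨1525251266, 0, 704170175, 0, 0, 0, 0, 0, 0, ⟨0, 0⟩, 0⟩ 0 0) (.pos 51 .mm ⟨1808434203, 0, 0, 0, 0, 0, 0, 0, 0, ⟨0, 0⟩, 0⟩ 0 0))) (.pos 7 .mm ⟨2267150168, 0, 0, 0, 0, 0, 0, 0, 0, ⟨0, 0⟩, 0⟩ 0 0)) (.cut .v 12582912 (.cut .d (-262144) (.cut .v 10485760 (.pos 42 .mm ⟨0, 0, 1132710714, 0, 0, 1204323401, 0, 0, 0, ⟨0, 0⟩, 0⟩ 0 0) (.cut .l 17382394 (.cut .d (-393216) (.cut .l 13484687 (.void 43 ⟨0, 0, 0, 0, 0, 100000, 0, 0, 0, ⟨0, 0⟩, 0⟩ 0 0) (.cut .d (-458752)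 (.pos 43 .mm ⟨1409285799, 0, 283748191, 0, 0, 0, 0, 0, 0, ⟨0, 0⟩, 0⟩ 0 0) (.cut .l 15433540 (.pos 43 .mm ⟨0, 0, 2274644, 0, 0, 2377092860, 0, 0, 0, ⟨0, 0⟩, 0⟩ 0 0) (.cut .d (-425984) (.pos 43 .mm ⟨1098064593, 0, 308807401, 0, 0, 257466212, 0, 0, 0, ⟨0, 0⟩, 0⟩ 0 0) (.pos 43 .mm ⟨666806787, 0, 226875113, 0, 0, 776408158, 0, 0, 0, ⟨0, 0⟩, 0⟩ 0 0))))) (.pos 43 .mm ⟨0, 0, 0, 0, 0, 1480862226, 0, 0, 0, ⟨0, 0⟩, 0⟩ 0 0)) (.pos 43 .mm ⟨1083579003, 0, 264808322, 0, 0, 0, 0, 0, 0, ⟨0, 0⟩, 0⟩ 0 0))) (.pos 6 .mm ⟨0, 0, 103423629, 0, 0, 1052591742, 0, 0, 0, ⟨0, 0⟩, 0⟩ 0 0)) (.pos 7 .mm ⟨1329038082, 0, 0, 0, 0, 247375566, 0, 0, 0, ⟨0, 0⟩, 0⟩ 0 0)))))))) (.cut .v 268435456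 (.cut .d (-8388608) (.void 8 ⟨100000, 0, 0, 0, 0, 0, 0, 0, 0, ⟨0, 0⟩, 0⟩ 0 0) (.cut .d (-4194304) (.void 8 ⟨100000, 0, 0, 0, 0, 0, 0, 0, 0, ⟨0, 0⟩, 0⟩ 0 0) (.cut .d (-2097152) (.void 8 ⟨100000, 0, 0, 0, 0, 0, 0, 0, 0, ⟨0, 0⟩, 0⟩ 0 0) (.cut .d (-1048576) (.void 8 ⟨100000, 0, 0, 0, 0, 0, 0, 0, 0, ⟨0, 0⟩, 0⟩ 0 0) (.cut .v 67108864 (.cut .d (-524288) (.pos 9 .mp ⟨11792138027, 0, 0, 0, 0, 0, 0, 0, 0, ⟨0, 0⟩, 0⟩ 0 0) (.cut .v 33554432 (.cut .v 25165824 (.pos 13 .mp ⟨2252862182, 0, 0, 0, 0, 0, 0, 0, 0, ⟨0, 0⟩, 0⟩ 0 0) (.pos 14 .mp ⟨3785244336, 0, 0, 0, 0, 0, 0, 0, 0, ⟨0, 0⟩, 0⟩ 0 0)) (.pos 12 .mp ⟨9019319227, 0, 0, 0, 0, 0, 0, 0, 0, ⟨0, 0⟩, 0⟩ 0 0))) (.cut .v 134217728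 (.pos 35 .mp ⟨43738231694, 0, 0, 0, 0, 0, 0, 0, 0, ⟨0, 0⟩, 0⟩ 0 0) (.void 36 ⟨89500, 0, 0, 10500, 0, 0, 0, 0, 0, ⟨0, 0⟩, 0⟩ 0 0))))))) (.void 39 ⟨94279, 0, 0, 5721, 0, 0, 0, 0, 0, ⟨0, 0⟩, 0⟩ 0 0))) (.cut .v 16777216 (.cut .v 8388608 (.cut .v 4194304 (.cut .v 2097152 (.cut .v 1048576 (.cut .v 524288 (.cut .v 262144 (.pos 84 .pm ⟨0, 0, 4663183, 0, 0, 0, 0, 0, 0, ⟨0, 0⟩, 0⟩ 0 0) (.pos 85 .pm ⟨0, 0, 15768009, 0, 0, 0, 0, 0, 0, ⟨0, 0⟩, 0⟩ 0 0)) (.pos 79 .pm ⟨0, 0, 26037257, 0, 0, 0, 0, 0, 0, ⟨0, 0⟩, 0⟩ 0 0)) (.pos 65 .pm ⟨0, 0, 41907697, 0, 0, 0, 0, 0, 0, ⟨0, 0⟩, 0⟩ 0 0)) (.pos 49 .pm ⟨0, 0, 81149916, 0, 0, 0, 0, 0, 0, ⟨0, 0⟩, 0⟩ 0 0)) (.pos 5 .pm ⟨0, 0, 182955082,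 0, 0, 0, 0, 0, 0, ⟨0, 0⟩, 0⟩ 0 0)) (.pos 3 .pm ⟨0, 0, 342530902, 0, 0, 0, 0, 0, 0, ⟨0, 0⟩, 0⟩ 0 0)) (.cut .v 268435456 (.cut .v 67108864 (.pos 9 .pp ⟨801464027, 0, 0, 0, 0, 0, 0, 0, 0, ⟨0, 0⟩, 0⟩ 0 0) (.cut .v 134217728 (.cut .d 948278 (.cut .d 474139 (.cut .v 100663296 (.pos 68 .pp ⟨13691636001, 0, 0, 0, 0, 0, 0, 0, 0, ⟨0, 0⟩, 0⟩ 0 0) (.cut .v 117440512 (.pos 80 .pp ⟨23408756053, 11650124869, 0, 0, 0, 0, 0, 0, 0, ⟨0, 0⟩, 0⟩ 0 0) (.void 81 ⟨35137, 64863, 0, 0, 0, 0, 0, 0, 0, ⟨0, 0⟩, 0⟩ 0 0))) (.pos 35 .pp ⟨0, 4482356790, 0, 0, 0, 0, 0, 0, 0, ⟨0, 0⟩, 0⟩ 0 0)) (.void 35 ⟨0, 0, 0, 100000, 0, 0, 0, 0, 0, ⟨0, 0⟩, 0⟩ 0 0)) (.void 36 ⟨0, 0, 0, 100000, 0, 0, 0, 0,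 0, ⟨0, 0⟩, 0⟩ 0 0))) (.void 39 ⟨0, 0, 0, 100000, 0, 0, 0, 0, 0, ⟨0, 0⟩, 0⟩ 0 0)))),
    by decide +kernel⟩

def covers26 : cell.Covers table row26.1 :=
  ⟨(.cut .d 0 (.cut .v 16777216 (.cut .d (-8388608) (.void 1 ⟨0, 0, 0, 0, 0, 100000, 0, 0, 0, ⟨0, 0⟩, 0⟩ 0 0) (.cut .d (-4194304) (.void 1 ⟨0, 0, 0, 0, 0, 100000, 0, 0, 0, ⟨0, 0⟩, 0⟩ 0 0) (.cut .v 8388608 (.void 2 ⟨0, 0, 100000, 0, 0, 0, 0, 0, 0, ⟨0, 0⟩, 0⟩ 0 0) (.cut .d (-2097152) (.void 3 ⟨100000, 0, 0, 0, 0, 0, 0, 0, 0, ⟨0, 0⟩, 0⟩ 0 0) (.cut .d (-1048576) (.void 3 ⟨78154, 0, 21846, 0, 0, 0, 0, 0, 0, ⟨0, 0⟩, 0⟩ 0 0) (.cut .d (-524288) (.cut .v 12582912 (.pos 6 .mm ⟨1961131897, 0, 846059132, 0, 0, 0, 0, 0,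 0, ⟨0, 0⟩, 0⟩ 0 0) (.pos 7 .mm ⟨2883896213, 0, 0, 0, 0, 0, 0, 0, 0, ⟨0, 0⟩, 0⟩ 0 0)) (.cut .v 12582912 (.cut .v 10485760 (.pos 42 .mm ⟨0, 0, 909958898, 0, 0, 1278895054, 0, 0, 0, ⟨0, 0⟩, 0⟩ 0 0) (.cut .d (-262144) (.cut .v 11534336 (.cut .s 15400960 (.cut .d (-393216) (.cut .l 17382394 (.cut .v 11010048 (.pos 62 .mm ⟨848119048, 0, 403007391, 0, 0, 684360472, 0, 0, 0, ⟨0, 0⟩, 0⟩ 0 0) (.pos 63 .mm ⟨1328337479, 0, 0, 0, 0, 247078000, 0, 0, 0, ⟨0, 0⟩, 0⟩ 0 0)) (.pos 50 .mm ⟨1244724653, 0, 509192546, 0, 0, 0, 0, 0, 0, ⟨0, 0⟩, 0⟩ 0 0)) (.pos 50 .mm ⟨249422453, 0, 0, 0, 0, 1110097714, 0, 0, 0, ⟨0, 0⟩, 0⟩ 0 0)) (.pos 50 .mm ⟨1408784742, 0, 130042596, 0, 0, 6079697,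 0, 0, 0, ⟨0, 0⟩, 0⟩ 0 0)) (.pos 51 .mm ⟨1366596053, 0, 0, 0, 0, 229989879, 0, 0, 0, ⟨0, 0⟩, 0⟩ 0 0)) (.pos 43 .mm ⟨0, 0, 0, 0, 0, 1356461795, 0, 0, 0, ⟨0, 0⟩, 0⟩ 0 0))) (.pos 7 .mm ⟨1301086992, 0, 0, 0, 0, 504075349, 0, 0, 0, ⟨0, 0⟩, 0⟩ 0 0)))))))) (.cut .v 268435456 (.cut .d (-8388608) (.void 8 ⟨100000, 0, 0, 0, 0, 0, 0, 0, 0, ⟨0, 0⟩, 0⟩ 0 0) (.cut .d (-4194304) (.void 8 ⟨100000, 0, 0, 0, 0, 0, 0, 0, 0, ⟨0, 0⟩, 0⟩ 0 0) (.cut .d (-2097152) (.void 8 ⟨100000, 0, 0, 0, 0, 0, 0, 0, 0, ⟨0, 0⟩, 0⟩ 0 0) (.cut .d (-1048576) (.void 8 ⟨100000, 0, 0, 0, 0, 0, 0, 0, 0, ⟨0, 0⟩, 0⟩ 0 0) (.cut .d (-524288) (.void 8 ⟨100000, 0, 0, 0, 0, 0, 0, 0, 0, ⟨0, 0⟩, 0⟩ 0 0) (.cut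 .v 67108864 (.cut .v 33554432 (.cut .d (-262144) (.pos 11 .mp ⟨3307035050, 0, 0, 0, 0, 0, 0, 0, 0, ⟨0, 0⟩, 0⟩ 0 0) (.pos 11 .mp ⟨1900021924, 0, 0, 0, 0, 0, 0, 0, 0, ⟨0, 0⟩, 0⟩ 0 0)) (.pos 12 .mp ⟨9928492432, 0, 0, 0, 0, 0, 0, 0, 0, ⟨0, 0⟩, 0⟩ 0 0)) (.cut .v 134217728 (.pos 35 .mp ⟨48904329698, 0, 0, 0, 0, 0, 0, 0, 0, ⟨0, 0⟩, 0⟩ 0 0) (.void 36 ⟨89166, 0, 0, 10834, 0, 0, 0, 0, 0, ⟨0, 0⟩, 0⟩ 0 0)))))))) (.void 39 ⟨94187, 0, 0, 5813, 0, 0, 0, 0, 0, ⟨0, 0⟩, 0⟩ 0 0))) (.cut .v 16777216 (.cut .v 8388608 (.cut .v 4194304 (.cut .v 2097152 (.cut .v 1048576 (.cut .v 524288 (.cut .v 262144 (.cut .v 131072 (.pos 86 .pm ⟨0, 0, 2371239, 0, 0, 0, 0, 0, 0, ⟨0, 0⟩, 0⟩ 0 0)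 (.pos 87 .pm ⟨0, 0, 10684817, 0, 0, 0, 0, 0, 0, ⟨0, 0⟩, 0⟩ 0 0)) (.pos 85 .pm ⟨0, 0, 19606256, 0, 0, 0, 0, 0, 0, ⟨0, 0⟩, 0⟩ 0 0)) (.pos 79 .pm ⟨0, 0, 29946148, 0, 0, 0, 0, 0, 0, ⟨0, 0⟩, 0⟩ 0 0)) (.pos 65 .pm ⟨0, 0, 53252457, 0, 0, 0, 0, 0, 0, ⟨0, 0⟩, 0⟩ 0 0)) (.pos 49 .pm ⟨0, 0, 108572957, 0, 0, 0, 0, 0, 0, ⟨0, 0⟩, 0⟩ 0 0)) (.pos 5 .pm ⟨0, 0, 244150318, 0, 0, 0, 0, 0, 0, ⟨0, 0⟩, 0⟩ 0 0)) (.pos 3 .pm ⟨0, 0, 347698607, 0, 0, 0, 0, 0, 0, ⟨0, 0⟩, 0⟩ 0 0)) (.cut .v 268435456 (.cut .v 67108864 (.pos 9 .pp ⟨892441470, 0, 0, 0, 0, 0, 0, 0, 0, ⟨0, 0⟩, 0⟩ 0 0) (.cut .v 134217728 (.cut .d 828061 (.cut .d 414030 (.cut .v 100663296 (.pos 68 .pp ⟨14950220515, 0, 0, 0,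 0, 0, 0, 0, 0, ⟨0, 0⟩, 0⟩ 0 0) (.pos 69 .pp ⟨27976126146, 16743183505, 0, 0, 0, 0, 0, 0, 0, ⟨0, 0⟩, 0⟩ 0 0)) (.pos 35 .pp ⟨0, 5107866991, 0, 0, 0, 0, 0, 0, 0, ⟨0, 0⟩, 0⟩ 0 0)) (.void 35 ⟨0, 0, 0, 100000, 0, 0, 0, 0, 0, ⟨0, 0⟩, 0⟩ 0 0)) (.void 36 ⟨0, 0, 0, 100000, 0, 0, 0, 0, 0, ⟨0, 0⟩, 0⟩ 0 0))) (.void 39 ⟨0, 0, 0, 100000, 0, 0, 0, 0, 0, ⟨0, 0⟩, 0⟩ 0 0)))),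
    by decide +kernel⟩

def covers27 : cell.Covers table row27.1 :=
  ⟨(.cut .d 0 (.cut .v 16777216 (.cut .d (-8388608) (.void 1 ⟨0, 0, 0, 0, 0, 100000, 0, 0, 0, ⟨0, 0⟩, 0⟩ 0 0) (.cut .d (-4194304) (.pos 1 .mm ⟨0, 0, 0, 0, 0, 167772160000, 0, 0, 0, ⟨0, 0⟩, 0⟩ 0 0) (.cut .v 8388608 (.void 2 ⟨0, 0, 100000, 0, 0, 0, 0, 0, 0, ⟨0, 0⟩, 0⟩ 0 0) (.cut .d (-2097152) (.void 3 ⟨100000, 0, 0, 0, 0, 0, 0, 0, 0, ⟨0, 0⟩, 0⟩ 0 0) (.cut .d (-1048576) (.void 3 ⟨77902, 0, 22098, 0, 0, 0, 0, 0, 0, ⟨0, 0⟩, 0⟩ 0 0) (.cut .d (-524288) (.void 3 ⟨77902, 0, 22098, 0, 0, 0, 0, 0, 0, ⟨0, 0⟩, 0⟩ 0 0) (.cut .d (-262144) (.cut .v 12582912 (.cut .v 10485760 (.pos 42 .mm ⟨0, 0, 4998993049,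 0, 0, 1277909464, 0, 0, 0, ⟨0, 0⟩, 0⟩ 0 0) (.cut .d (-393216) (.pos 43 .mm ⟨2221970155, 0, 990433009, 0, 0, 0, 0, 0, 0, ⟨0, 0⟩, 0⟩ 0 0) (.cut .v 11534336 (.cut .l 17382394 (.cut .l 13484687 (.pos 50 .mm ⟨0, 0, 0, 0, 0, 6276071974, 0, 0, 0, ⟨0, 0⟩, 0⟩ 0 0) (.cut .l 15433540 (.pos 50 .mm ⟨1370429096, 0, 677296243, 0, 0, 904049395, 0, 0, 0, ⟨0, 0⟩, 0⟩ 0 0) (.pos 50 .mm ⟨1758189274, 0, 856292087, 0, 0, 0, 0, 0, 0, ⟨0, 0⟩, 0⟩ 0 0))) (.pos 50 .mm ⟨1600373285, 0, 980617811, 0, 0, 0, 0, 0, 0, ⟨0, 0⟩, 0⟩ 0 0)) (.pos 51 .mm ⟨2080217963, 0, 0, 0, 0, 0, 0, 0, 0, ⟨0, 0⟩, 0⟩ 0 0)))) (.pos 7 .mm ⟨2617122318, 0, 0, 0, 0, 0, 0, 0, 0, ⟨0, 0⟩, 0⟩ 0 0)) (.cut .l 17382394 (.cut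 .l 13484687 (.pos 3 .mm ⟨0, 0, 71175432, 0, 0, 2349692521, 0, 0, 0, ⟨0, 0⟩, 0⟩ 0 0) (.cut .v 12582912 (.cut .v 10485760 (.pos 42 .mm ⟨0, 0, 3003238623, 0, 0, 0, 0, 0, 0, ⟨0, 0⟩, 0⟩ 0 0) (.pos 43 .mm ⟨549270265, 0, 319124924, 0, 0, 1465718223, 0, 0, 0, ⟨0, 0⟩, 0⟩ 0 0)) (.pos 7 .mm ⟨1972945197, 0, 0, 0, 0, 0, 0, 0, 0, ⟨0, 0⟩, 0⟩ 0 0))) (.pos 3 .mm ⟨0, 0, 242470933, 0, 0, 0, 0, 0, 0, ⟨0, 0⟩, 0⟩ 0 0))))))))) (.cut .v 268435456 (.cut .d (-8388608) (.void 8 ⟨100000, 0, 0, 0, 0, 0, 0, 0, 0, ⟨0, 0⟩, 0⟩ 0 0) (.cut .d (-4194304) (.void 8 ⟨100000, 0, 0, 0, 0, 0, 0, 0, 0, ⟨0, 0⟩, 0⟩ 0 0) (.cut .d (-2097152) (.void 8 ⟨100000, 0, 0, 0, 0, 0, 0, 0, 0, ⟨0, 0⟩, 0⟩ 0 0) (.cut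 .d (-1048576) (.void 8 ⟨100000, 0, 0, 0, 0, 0, 0, 0, 0, ⟨0, 0⟩, 0⟩ 0 0) (.cut .d (-524288) (.void 8 ⟨100000, 0, 0, 0, 0, 0, 0, 0, 0, ⟨0, 0⟩, 0⟩ 0 0) (.cut .v 67108864 (.cut .v 33554432 (.cut .d (-262144) (.pos 11 .mp ⟨5008884958, 0, 0, 0, 0, 0, 0, 0, 0, ⟨0, 0⟩, 0⟩ 0 0) (.pos 11 .mp ⟨2752167147, 0, 0, 0, 0, 0, 0, 0, 0, ⟨0, 0⟩, 0⟩ 0 0)) (.pos 12 .mp ⟨13039809215, 0, 0, 0, 0, 0, 0, 0, 0, ⟨0, 0⟩, 0⟩ 0 0)) (.cut .v 134217728 (.pos 35 .mp ⟨55016384388, 0, 0, 0, 0, 0, 0, 0, 0, ⟨0, 0⟩, 0⟩ 0 0) (.void 36 ⟨89013, 0, 0, 10987, 0, 0, 0, 0, 0, ⟨0, 0⟩, 0⟩ 0 0)))))))) (.void 39 ⟨94100, 0, 0, 5900, 0, 0, 0, 0, 0, ⟨0, 0⟩, 0⟩ 0 0))) (.cut .v 16777216 (.cut .v 8388608 (.cut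 .v 4194304 (.cut .v 2097152 (.cut .v 1048576 (.cut .v 524288 (.cut .v 262144 (.cut .v 131072 (.pos 86 .pm ⟨0, 0, 4802345, 0, 0, 0, 0, 0, 0, ⟨0, 0⟩, 0⟩ 0 0) (.pos 87 .pm ⟨0, 0, 18894415, 0, 0, 0, 0, 0, 0, ⟨0, 0⟩, 0⟩ 0 0)) (.pos 85 .pm ⟨0, 0, 35445032, 0, 0, 0, 0, 0, 0, ⟨0, 0⟩, 0⟩ 0 0)) (.pos 79 .pm ⟨0, 0, 58977356, 0, 0, 0, 0, 0, 0, ⟨0, 0⟩, 0⟩ 0 0)) (.pos 65 .pm ⟨0, 0, 95025595, 0, 0, 0, 0, 0, 0, ⟨0, 0⟩, 0⟩ 0 0)) (.pos 49 .pm ⟨0, 0, 182348364, 0, 0, 0, 0, 0, 0, ⟨0, 0⟩, 0⟩ 0 0)) (.pos 5 .pm ⟨0, 0, 381242811, 0, 0, 0, 0, 0, 0, ⟨0, 0⟩, 0⟩ 0 0)) (.pos 3 .pm ⟨0, 0, 643969562, 0, 0, 0, 0, 0, 0, ⟨0, 0⟩, 0⟩ 0 0)) (.cut .v 268435456 (.cut .v 67108864 (.pos 9 .pp ⟨0,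 0, 0, 0, 0, 0, 0, 0, 0, ⟨0, 0⟩, 0⟩ 0 0) (.cut .v 134217728 (.cut .d 672505 (.cut .v 100663296 (.pos 68 .pp ⟨13946284101, 0, 0, 0, 0, 0, 0, 0, 0, ⟨0, 0⟩, 0⟩ 0 0) (.pos 69 .pp ⟨31820266639, 22037216608, 0, 0, 0, 0, 0, 0, 0, ⟨0, 0⟩, 0⟩ 0 0)) (.void 35 ⟨0, 0, 0, 100000, 0, 0, 0, 0, 0, ⟨0, 0⟩, 0⟩ 0 0)) (.void 36 ⟨0, 0, 0, 100000, 0, 0, 0, 0, 0, ⟨0, 0⟩, 0⟩ 0 0))) (.void 39 ⟨0, 0, 0, 100000, 0, 0, 0, 0, 0, ⟨0, 0⟩, 0⟩ 0 0)))),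
    by decide +kernel⟩

def covers28 : cell.Covers table row28.1 :=
  ⟨(.cut .d 0 (.cut .v 16777216 (.cut .d (-8388608) (.void 1 ⟨0, 0, 0, 0, 0, 100000, 0, 0, 0, ⟨0, 0⟩, 0⟩ 0 0) (.cut .d (-4194304) (.pos 1 .mm ⟨0, 0, 0, 0, 0, 167772160000, 0, 0, 0, ⟨0, 0⟩, 0⟩ 0 0) (.cut .v 8388608 (.pos 2 .mm ⟨0, 0, 167772160000, 0, 0, 0, 0, 0, 0, ⟨0, 0⟩, 0⟩ 0 0) (.cut .d (-2097152) (.void 3 ⟨100000, 0, 0, 0, 0, 0, 0, 0, 0, ⟨0, 0⟩, 0⟩ 0 0) (.cut .d (-1048576) (.void 3 ⟨77668, 0, 22332, 0, 0, 0, 0, 0, 0, ⟨0, 0⟩, 0⟩ 0 0) (.cut .d (-524288) (.void 3 ⟨77668, 0, 22332, 0, 0, 0, 0, 0, 0, ⟨0, 0⟩, 0⟩ 0 0) (.cut .d (-262144) (.cut .v 12582912 (.cut .v 10485760 (.void 42 ⟨0, 0, 100000,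 0, 0, 0, 0, 0, 0, ⟨0, 0⟩, 0⟩ 0 0) (.cut .d (-393216) (.pos 43 .mm ⟨128514979283, 0, 39257180717, 0, 0, 0, 0, 0, 0, ⟨0, 0⟩, 0⟩ 0 0) (.cut .v 11534336 (.cut .l 17382394 (.pos 50 .mm ⟨2342142495, 0, 1021709422, 0, 0, 0, 0, 0, 0, ⟨0, 0⟩, 0⟩ 0 0) (.pos 50 .mm ⟨2024158518, 0, 1077198837, 0, 0, 0, 0, 0, 0, ⟨0, 0⟩, 0⟩ 0 0)) (.pos 51 .mm ⟨2326218101, 0, 535039619, 0, 0, 0, 0, 0, 0, ⟨0, 0⟩, 0⟩ 0 0)))) (.pos 7 .mm ⟨3312892035, 0, 0, 0, 0, 0, 0, 0, 0, ⟨0, 0⟩, 0⟩ 0 0)) (.cut .v 12582912 (.cut .v 10485760 (.pos 42 .mm ⟨0, 0, 1484632276, 0, 0, 1770152471, 0, 0, 0, ⟨0, 0⟩, 0⟩ 0 0) (.cut .s 15876096 (.cut .l 17382394 (.cut .l 13484687 (.pos 43 .mm ⟨0, 0, 141537437, 0, 0,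 3145265185, 0, 0, 0, ⟨0, 0⟩, 0⟩ 0 0) (.pos 43 .mm ⟨1062625185, 0, 447800601, 0, 0, 838823880, 0, 0, 0, ⟨0, 0⟩, 0⟩ 0 0)) (.pos 43 .mm ⟨1413386420, 0, 688131765, 0, 0, 0, 0, 0, 0, ⟨0, 0⟩, 0⟩ 0 0)) (.pos 43 .mm ⟨1562916943, 0, 423649203, 0, 0, 312764235, 0, 0, 0, ⟨0, 0⟩, 0⟩ 0 0))) (.pos 7 .mm ⟨1947887077, 0, 0, 0, 0, 342546423, 0, 0, 0, ⟨0, 0⟩, 0⟩ 0 0))))))))) (.cut .v 268435456 (.cut .d (-8388608) (.void 8 ⟨100000, 0, 0, 0, 0, 0, 0, 0, 0, ⟨0, 0⟩, 0⟩ 0 0) (.cut .d (-4194304) (.void 8 ⟨100000, 0, 0, 0, 0, 0, 0, 0, 0, ⟨0, 0⟩, 0⟩ 0 0) (.cut .d (-2097152) (.void 8 ⟨100000, 0, 0, 0, 0, 0, 0, 0, 0, ⟨0, 0⟩, 0⟩ 0 0) (.cut .d (-1048576) (.void 8 ⟨100000, 0, 0, 0, 0,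 0, 0, 0, 0, ⟨0, 0⟩, 0⟩ 0 0) (.cut .d (-524288) (.void 8 ⟨100000, 0, 0, 0, 0, 0, 0, 0, 0, ⟨0, 0⟩, 0⟩ 0 0) (.cut .v 67108864 (.cut .v 33554432 (.cut .d (-262144) (.pos 11 .mp ⟨6447379562, 0, 0, 0, 0, 0, 0, 0, 0, ⟨0, 0⟩, 0⟩ 0 0) (.pos 11 .mp ⟨2944189222, 0, 0, 0, 0, 0, 0, 0, 0, ⟨0, 0⟩, 0⟩ 0 0)) (.pos 12 .mp ⟨15674720961, 0, 0, 0, 0, 0, 0, 0, 0, ⟨0, 0⟩, 0⟩ 0 0)) (.cut .v 134217728 (.pos 35 .mp ⟨63061500839, 0, 0, 0, 0, 0, 0, 0, 0, ⟨0, 0⟩, 0⟩ 0 0) (.void 36 ⟨88891, 0, 0, 11109, 0, 0, 0, 0, 0, ⟨0, 0⟩, 0⟩ 0 0)))))))) (.void 39 ⟨94031, 0, 0, 5969, 0, 0, 0, 0, 0, ⟨0, 0⟩, 0⟩ 0 0))) (.cut .v 16777216 (.cut .v 8388608 (.cut .v 4194304 (.cut .v 2097152 (.cut .v 1048576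 (.cut .v 524288 (.cut .v 262144 (.cut .v 131072 (.pos 86 .pm ⟨0, 0, 9491978, 0, 0, 0, 0, 0, 0, ⟨0, 0⟩, 0⟩ 0 0) (.pos 87 .pm ⟨0, 0, 31017582, 0, 0, 0, 0, 0, 0, ⟨0, 0⟩, 0⟩ 0 0)) (.pos 85 .pm ⟨0, 0, 55233604, 0, 0, 0, 0, 0, 0, ⟨0, 0⟩, 0⟩ 0 0)) (.pos 79 .pm ⟨0, 0, 92472835, 0, 0, 0, 0, 0, 0, ⟨0, 0⟩, 0⟩ 0 0)) (.pos 65 .pm ⟨0, 0, 157669860, 0, 0, 0, 0, 0, 0, ⟨0, 0⟩, 0⟩ 0 0)) (.pos 49 .pm ⟨0, 0, 287696021, 0, 0, 0, 0, 0, 0, ⟨0, 0⟩, 0⟩ 0 0)) (.pos 5 .pm ⟨0, 0, 560134063, 0, 0, 0, 0, 0, 0, ⟨0, 0⟩, 0⟩ 0 0)) (.pos 3 .pm ⟨0, 0, 643910819, 0, 0, 0, 0, 0, 0, ⟨0, 0⟩, 0⟩ 0 0)) (.cut .v 268435456 (.cut .v 67108864 (.pos 9 .pp ⟨0, 0, 0, 0, 0, 0, 0, 0, 0, ⟨0, 0⟩, 0⟩ 0 0) (.cut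 .v 134217728 (.cut .v 100663296 (.pos 68 .pp ⟨12326332206, 0, 0, 0, 0, 0, 0, 0, 0, ⟨0, 0⟩, 0⟩ 0 0) (.pos 69 .pp ⟨33270726247, 25430076769, 0, 0, 0, 0, 0, 0, 0, ⟨0, 0⟩, 0⟩ 0 0)) (.void 36 ⟨0, 0, 0, 100000, 0, 0, 0, 0, 0, ⟨0, 0⟩, 0⟩ 0 0))) (.void 39 ⟨0, 0, 0, 100000, 0, 0, 0, 0, 0, ⟨0, 0⟩, 0⟩ 0 0)))),
    by decide +kernel⟩

def covers29 : cell.Covers table row29.1 :=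
  ⟨(.cut .d 0 (.cut .v 16777216 (.cut .d (-8388608) (.pos 1 .mm ⟨0, 0, 0, 0, 0, 167772160000, 0, 0, 0, ⟨0, 0⟩, 0⟩ 0 0) (.cut .d (-4194304) (.pos 1 .mm ⟨0, 0, 0, 0, 0, 167772160000, 0, 0, 0, ⟨0, 0⟩, 0⟩ 0 0) (.cut .v 8388608 (.pos 2 .mm ⟨0, 0, 167772160000, 0, 0, 0, 0, 0, 0, ⟨0, 0⟩, 0⟩ 0 0) (.cut .d (-2097152) (.void 3 ⟨100000, 0, 0, 0, 0, 0, 0, 0, 0, ⟨0, 0⟩, 0⟩ 0 0) (.cut .d (-1048576) (.void 3 ⟨100000, 0, 0, 0, 0, 0, 0, 0, 0, ⟨0, 0⟩, 0⟩ 0 0) (.cut .d (-524288) (.void 3 ⟨77480, 0, 22520, 0, 0, 0, 0, 0, 0, ⟨0, 0⟩, 0⟩ 0 0) (.cut .d (-262144) (.cut .v 12582912 (.pos 6 .mm ⟨3499385754, 0, 1784692826, 0, 0, 0, 0, 0, 0, ⟨0, 0⟩, 0⟩ 0 0) (.pos 7 .mm ⟨5028463422, 0,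 0, 0, 0, 0, 0, 0, 0, ⟨0, 0⟩, 0⟩ 0 0)) (.cut .v 12582912 (.cut .d (-131072) (.cut .v 10485760 (.cut .s 16056320 (.pos 42 .mm ⟨0, 0, 2891851431, 0, 0, 2180772556, 0, 0, 0, ⟨0, 0⟩, 0⟩ 0 0) (.pos 42 .mm ⟨0, 0, 8567950697, 0, 0, 2575404225, 0, 0, 0, ⟨0, 0⟩, 0⟩ 0 0)) (.cut .l 17382394 (.cut .d (-196608) (.pos 43 .mm ⟨3825662654, 0, 1692021764, 0, 0, 0, 0, 0, 0, ⟨0, 0⟩, 0⟩ 0 0) (.cut .l 13484687 (.pos 43 .mm ⟨0, 0, 531241722, 0, 0, 5971206444, 0, 0, 0, ⟨0, 0⟩, 0⟩ 0 0) (.cut .s 16056320 (.pos 43 .mm ⟨1544856723, 0, 779640026, 0, 0, 1100224336, 0, 0, 0, ⟨0, 0⟩, 0⟩ 0 0) (.cut .v 11534336 (.cut .l 15433540 (.cut .d (-163840) (.pos 50 .mm ⟨1640975479, 0, 1107241037,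 0, 0, 2211592482, 0, 0, 0, ⟨0, 0⟩, 0⟩ 0 0) (.pos 50 .mm ⟨350069411, 0, 722270877, 0, 0, 3851979524, 0, 0, 0, ⟨0, 0⟩, 0⟩ 0 0)) (.cut .d (-163840) (.pos 50 .mm ⟨2511084579, 0, 1366904188, 0, 0, 0, 0, 0, 0, ⟨0, 0⟩, 0⟩ 0 0) (.pos 50 .mm ⟨2097477289, 0, 1244822634, 0, 0, 0, 0, 0, 0, ⟨0, 0⟩, 0⟩ 0 0))) (.pos 51 .mm ⟨3319373504, 0, 0, 0, 0, 0, 0, 0, 0, ⟨0, 0⟩, 0⟩ 0 0))))) (.cut .s 16056320 (.pos 43 .mm ⟨2149854373, 0, 753730809, 0, 0, 0, 0, 0, 0, ⟨0, 0⟩, 0⟩ 0 0) (.cut .d (-196608) (.pos 43 .mm ⟨2845787687, 0, 1490781357, 0, 0, 0, 0, 0, 0, ⟨0, 0⟩, 0⟩ 0 0) (.pos 43 .mm ⟨2114724104, 0, 1134512750, 0, 0, 0, 0, 0, 0, ⟨0, 0⟩, 0⟩ 0 0))))) (.cut .l 17382394 (.cut .l 13484687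 (.pos 6 .mm ⟨0, 0, 463197143, 0, 0, 3352676407, 0, 0, 0, ⟨0, 0⟩, 0⟩ 0 0) (.pos 6 .mm ⟨0, 0, 758413096, 0, 0, 2819855723, 0, 0, 0, ⟨0, 0⟩, 0⟩ 0 0)) (.pos 6 .mm ⟨0, 0, 1053629050, 0, 0, 0, 0, 0, 0, ⟨0, 0⟩, 0⟩ 0 0))) (.cut .d (-131072) (.pos 7 .mm ⟨3480504208, 0, 0, 0, 0, 0, 0, 0, 0, ⟨0, 0⟩, 0⟩ 0 0) (.pos 7 .mm ⟨1702687140, 0, 0, 0, 0, 1608185850, 0, 0, 0, ⟨0, 0⟩, 0⟩ 0 0)))))))))) (.cut .v 268435456 (.cut .d (-8388608) (.void 8 ⟨100000, 0, 0, 0, 0, 0, 0, 0, 0, ⟨0, 0⟩, 0⟩ 0 0) (.cut .d (-4194304) (.void 8 ⟨100000, 0, 0, 0, 0, 0, 0, 0, 0, ⟨0, 0⟩, 0⟩ 0 0) (.cut .d (-2097152) (.void 8 ⟨100000, 0, 0, 0, 0, 0, 0, 0, 0, ⟨0, 0⟩, 0⟩ 0 0) (.cut .d (-1048576) (.void 8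 ⟨100000, 0, 0, 0, 0, 0, 0, 0, 0, ⟨0, 0⟩, 0⟩ 0 0) (.cut .d (-524288) (.void 8 ⟨100000, 0, 0, 0, 0, 0, 0, 0, 0, ⟨0, 0⟩, 0⟩ 0 0) (.cut .d (-262144) (.void 8 ⟨100000, 0, 0, 0, 0, 0, 0, 0, 0, ⟨0, 0⟩, 0⟩ 0 0) (.cut .v 67108864 (.cut .v 33554432 (.pos 11 .mp ⟨5162142175, 0, 0, 0, 0, 0, 0, 0, 0, ⟨0, 0⟩, 0⟩ 0 0) (.pos 12 .mp ⟨16505708368, 0, 0, 0, 0, 0, 0, 0, 0, ⟨0, 0⟩, 0⟩ 0 0)) (.cut .v 134217728 (.pos 35 .mp ⟨68786353716, 0, 0, 0, 0, 0, 0, 0, 0, ⟨0, 0⟩, 0⟩ 0 0) (.void 36 ⟨88711, 0, 0, 11289, 0, 0, 0, 0, 0, ⟨0, 0⟩, 0⟩ 0 0))))))))) (.void 39 ⟨93974, 0, 0, 6026, 0, 0, 0, 0, 0, ⟨0, 0⟩, 0⟩ 0 0))) (.cut .v 16777216 (.cut .v 8388608 (.cut .v 4194304 (.cut .v 2097152 (.cut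 .v 1048576 (.cut .v 524288 (.cut .v 262144 (.cut .v 131072 (.cut .v 65536 (.pos 88 .pm ⟨0, 0, 7196557, 0, 0, 0, 0, 0, 0, ⟨0, 0⟩, 0⟩ 0 0) (.pos 89 .pm ⟨0, 0, 27452056, 0, 0, 0, 0, 0, 0, ⟨0, 0⟩, 0⟩ 0 0)) (.pos 87 .pm ⟨0, 0, 53735073, 0, 0, 0, 0, 0, 0, ⟨0, 0⟩, 0⟩ 0 0)) (.pos 85 .pm ⟨0, 0, 97147790, 0, 0, 0, 0, 0, 0, ⟨0, 0⟩, 0⟩ 0 0)) (.pos 79 .pm ⟨0, 0, 169161992, 0, 0, 0, 0, 0, 0, ⟨0, 0⟩, 0⟩ 0 0)) (.pos 65 .pm ⟨0, 0, 290009274, 0, 0, 0, 0, 0, 0, ⟨0, 0⟩, 0⟩ 0 0)) (.pos 49 .pm ⟨0, 0, 530156453, 0, 0, 0, 0, 0, 0, ⟨0, 0⟩, 0⟩ 0 0)) (.pos 5 .pm ⟨0, 0, 1025368241, 0, 0, 0, 0, 0, 0, ⟨0, 0⟩, 0⟩ 0 0)) (.pos 3 .pm ⟨0, 0, 1106911668, 0, 0, 0, 0, 0, 0, ⟨0, 0⟩, 0⟩ 0 0)) (.cut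 .v 268435456 (.cut .v 67108864 (.pos 9 .pp ⟨0, 0, 0, 0, 0, 0, 0, 0, 0, ⟨0, 0⟩, 0⟩ 0 0) (.cut .v 134217728 (.cut .v 100663296 (.pos 68 .pp ⟨15910519736, 0, 0, 0, 0, 0, 0, 0, 0, ⟨0, 0⟩, 0⟩ 0 0) (.pos 69 .pp ⟨44506957511, 39580942765, 0, 0, 0, 0, 0, 0, 0, ⟨0, 0⟩, 0⟩ 0 0)) (.void 36 ⟨0, 0, 0, 100000, 0, 0, 0, 0, 0, ⟨0, 0⟩, 0⟩ 0 0))) (.void 39 ⟨0, 0, 0, 100000, 0, 0, 0, 0, 0, ⟨0, 0⟩, 0⟩ 0 0)))),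
    by decide +kernel⟩

def covers30 : cell.Covers table row30.1 :=
  ⟨(.cut .d 0 (.cut .v 16777216 (.cut .d (-8388608) (.pos 1 .mm ⟨0, 0, 0, 0, 0, 167772160000, 0, 0, 0, ⟨0, 0⟩, 0⟩ 0 0) (.cut .d (-4194304) (.pos 1 .mm ⟨0, 0, 0, 0, 0, 167772160000, 0, 0, 0, ⟨0, 0⟩, 0⟩ 0 0) (.cut .v 8388608 (.pos 2 .mm ⟨0, 0, 167772160000, 0, 0, 0, 0, 0, 0, ⟨0, 0⟩, 0⟩ 0 0) (.cut .d (-2097152) (.void 3 ⟨100000, 0, 0, 0, 0, 0, 0, 0, 0, ⟨0, 0⟩, 0⟩ 0 0) (.cut .d (-1048576) (.void 3 ⟨100000, 0, 0, 0, 0, 0, 0, 0, 0, ⟨0, 0⟩, 0⟩ 0 0) (.cut .d (-524288) (.void 3 ⟨77325, 0, 22675, 0, 0, 0, 0, 0, 0, ⟨0, 0⟩, 0⟩ 0 0) (.cut .d (-262144) (.void 3 ⟨77325, 0, 22675, 0, 0, 0, 0, 0, 0, ⟨0, 0⟩,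 0⟩ 0 0) (.cut .v 12582912 (.cut .d (-131072) (.cut .v 10485760 (.void 42 ⟨0, 0, 100000, 0, 0, 0, 0, 0, 0, ⟨0, 0⟩, 0⟩ 0 0) (.cut .d (-196608) (.pos 43 .mm ⟨4338235475, 0, 2159017011, 0, 0, 0, 0, 0, 0, ⟨0, 0⟩, 0⟩ 0 0) (.cut .l 17382394 (.cut .l 13484687 (.void 43 ⟨0, 0, 0, 0, 0, 100000, 0, 0, 0, ⟨0, 0⟩, 0⟩ 0 0) (.cut .d (-163840) (.pos 43 .mm ⟨4030885745, 0, 1625051368, 0, 0, 0, 0, 0, 0, ⟨0, 0⟩, 0⟩ 0 0) (.cut .v 11534336 (.cut .s 16203776 (.cut .l 15433540 (.cut .d (-147456) (.cut .s 16171008 (.pos 50 .mm ⟨1512773568, 0, 1168562303, 0, 0, 2598239225, 0, 0, 0, ⟨0, 0⟩, 0⟩ 0 0) (.pos 50 .mm ⟨1901363857, 0, 1281795040, 0, 0, 1926848602, 0, 0, 0, ⟨0, 0⟩, 0⟩ 0 0))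 (.pos 50 .mm ⟨1016323589, 0, 1031441590, 0, 0, 2757639466, 0, 0, 0, ⟨0, 0⟩, 0⟩ 0 0)) (.cut .d (-147456) (.pos 50 .mm ⟨2705099678, 0, 1537396743, 0, 0, 0, 0, 0, 0, ⟨0, 0⟩, 0⟩ 0 0) (.pos 50 .mm ⟨2260693230, 0, 1404253141, 0, 0, 0, 0, 0, 0, ⟨0, 0⟩, 0⟩ 0 0))) (.pos 50 .mm ⟨2674859010, 0, 1560014167, 0, 0, 518661653, 0, 0, 0, ⟨0, 0⟩, 0⟩ 0 0)) (.pos 51 .mm ⟨3466802210, 0, 0, 0, 0, 0, 0, 0, 0, ⟨0, 0⟩, 0⟩ 0 0)))) (.cut .d (-163840) (.pos 43 .mm ⟨3376808500, 0, 1912320196, 0, 0, 0, 0, 0, 0, ⟨0, 0⟩, 0⟩ 0 0) (.pos 43 .mm ⟨2604059860, 0, 1440901466, 0, 0, 0, 0, 0, 0, ⟨0, 0⟩, 0⟩ 0 0))))) (.cut .v 10485760 (.pos 42 .mm ⟨0, 0, 2106538982, 0, 0, 3138318882, 0, 0, 0, ⟨0,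 0⟩, 0⟩ 0 0) (.cut .s 16203776 (.pos 43 .mm ⟨0, 0, 396655550, 0, 0, 3223038937, 0, 0, 0, ⟨0, 0⟩, 0⟩ 0 0) (.pos 43 .mm ⟨0, 0, 497353327, 0, 0, 2735623033, 0, 0, 0, ⟨0, 0⟩, 0⟩ 0 0)))) (.cut .d (-131072) (.pos 7 .mm ⟨4826045021, 0, 0, 0, 0, 0, 0, 0, 0, ⟨0, 0⟩, 0⟩ 0 0) (.pos 7 .mm ⟨2623135263, 0, 0, 0, 0, 1350166941, 0, 0, 0, ⟨0, 0⟩, 0⟩ 0 0)))))))))) (.cut .v 268435456 (.cut .d (-8388608) (.void 8 ⟨100000, 0, 0, 0, 0, 0, 0, 0, 0, ⟨0, 0⟩, 0⟩ 0 0) (.cut .d (-4194304) (.void 8 ⟨100000, 0, 0, 0, 0, 0, 0, 0, 0, ⟨0, 0⟩, 0⟩ 0 0) (.cut .d (-2097152) (.void 8 ⟨100000, 0, 0, 0, 0, 0, 0, 0, 0, ⟨0, 0⟩, 0⟩ 0 0) (.cut .d (-1048576) (.void 8 ⟨100000, 0, 0, 0, 0, 0, 0, 0, 0,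 ⟨0, 0⟩, 0⟩ 0 0) (.cut .d (-524288) (.void 8 ⟨100000, 0, 0, 0, 0, 0, 0, 0, 0, ⟨0, 0⟩, 0⟩ 0 0) (.cut .d (-262144) (.void 8 ⟨100000, 0, 0, 0, 0, 0, 0, 0, 0, ⟨0, 0⟩, 0⟩ 0 0) (.cut .v 67108864 (.cut .v 33554432 (.pos 11 .mp ⟨6763691770, 0, 0, 0, 0, 0, 0, 0, 0, ⟨0, 0⟩, 0⟩ 0 0) (.pos 12 .mp ⟨20611148572, 0, 0, 0, 0, 0, 0, 0, 0, ⟨0, 0⟩, 0⟩ 0 0)) (.cut .v 134217728 (.pos 35 .mp ⟨103787250690, 0, 0, 0, 0, 0, 0, 0, 0, ⟨0, 0⟩, 0⟩ 0 0) (.void 36 ⟨88630, 0, 0, 11370, 0, 0, 0, 0, 0, ⟨0, 0⟩, 0⟩ 0 0))))))))) (.void 39 ⟨93928, 0, 0, 6072, 0, 0, 0, 0, 0, ⟨0, 0⟩, 0⟩ 0 0))) (.cut .v 16777216 (.cut .v 8388608 (.cut .v 4194304 (.cut .v 2097152 (.cut .v 1048576 (.cut .v 524288 (.cut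 .v 262144 (.cut .v 131072 (.cut .v 65536 (.pos 88 .pm ⟨0, 0, 13538064, 0, 0, 0, 0, 0, 0, ⟨0, 0⟩, 0⟩ 0 0) (.pos 89 .pm ⟨0, 0, 43834969, 0, 0, 0, 0, 0, 0, ⟨0, 0⟩, 0⟩ 0 0)) (.pos 87 .pm ⟨0, 0, 81225671, 0, 0, 0, 0, 0, 0, ⟨0, 0⟩, 0⟩ 0 0)) (.pos 85 .pm ⟨0, 0, 145451020, 0, 0, 0, 0, 0, 0, ⟨0, 0⟩, 0⟩ 0 0)) (.pos 79 .pm ⟨0, 0, 243190606, 0, 0, 0, 0, 0, 0, ⟨0, 0⟩, 0⟩ 0 0)) (.pos 65 .pm ⟨0, 0, 393707247, 0, 0, 0, 0, 0, 0, ⟨0, 0⟩, 0⟩ 0 0)) (.pos 49 .pm ⟨0, 0, 695693151, 0, 0, 0, 0, 0, 0, ⟨0, 0⟩, 0⟩ 0 0)) (.pos 5 .pm ⟨0, 0, 1362389363, 0, 0, 0, 0, 0, 0, ⟨0, 0⟩, 0⟩ 0 0)) (.pos 3 .pm ⟨0, 0, 1106735875, 0, 0, 0, 0, 0, 0, ⟨0, 0⟩, 0⟩ 0 0)) (.cut .v 268435456 (.cut .v 67108864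 (.pos 9 .pp ⟨0, 0, 0, 0, 0, 0, 0, 0, 0, ⟨0, 0⟩, 0⟩ 0 0) (.cut .v 134217728 (.cut .v 100663296 (.pos 68 .pp ⟨19276616187, 0, 0, 0, 0, 0, 0, 0, 0, ⟨0, 0⟩, 0⟩ 0 0) (.pos 69 .pp ⟨53614606764, 43844982480, 0, 0, 0, 0, 0, 0, 0, ⟨0, 0⟩, 0⟩ 0 0)) (.void 36 ⟨0, 0, 0, 100000, 0, 0, 0, 0, 0, ⟨0, 0⟩, 0⟩ 0 0))) (.void 39 ⟨0, 0, 0, 100000, 0, 0, 0, 0, 0, ⟨0, 0⟩, 0⟩ 0 0)))),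
    by decide +kernel⟩

def covers31 : cell.Covers table row31.1 :=
  ⟨(.cut .d 0 (.cut .v 16777216 (.cut .d (-8388608) (.pos 1 .mm ⟨0, 0, 0, 0, 0, 167772160000, 0, 0, 0, ⟨0, 0⟩, 0⟩ 0 0) (.cut .d (-4194304) (.pos 1 .mm ⟨0, 0, 0, 0, 0, 167772160000, 0, 0, 0, ⟨0, 0⟩, 0⟩ 0 0) (.cut .v 8388608 (.pos 2 .mm ⟨0, 0, 167772160000, 0, 0, 0, 0, 0, 0, ⟨0, 0⟩, 0⟩ 0 0) (.cut .d (-2097152) (.void 3 ⟨100000, 0, 0, 0, 0, 0, 0, 0, 0, ⟨0, 0⟩, 0⟩ 0 0) (.cut .d (-1048576) (.void 3 ⟨100000, 0, 0, 0, 0, 0, 0, 0, 0, ⟨0, 0⟩, 0⟩ 0 0) (.cut .d (-524288) (.void 3 ⟨100000, 0, 0, 0, 0, 0, 0, 0, 0, ⟨0, 0⟩, 0⟩ 0 0) (.cut .d (-262144) (.void 3 ⟨77201, 0, 22799, 0, 0, 0, 0, 0, 0, ⟨0, 0⟩,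 0⟩ 0 0) (.cut .v 12582912 (.cut .d (-131072) (.cut .d (-196608) (.void 6 ⟨73903, 0, 26097, 0, 0, 0, 0, 0, 0, ⟨0, 0⟩, 0⟩ 0 0) (.cut .d (-163840) (.pos 6 .mm ⟨3727962174, 0, 2412735600, 0, 0, 0, 0, 0, 0, ⟨0, 0⟩, 0⟩ 0 0) (.pos 6 .mm ⟨3278533239, 0, 2608218697, 0, 0, 0, 0, 0, 0, ⟨0, 0⟩, 0⟩ 0 0))) (.pos 6 .mm ⟨1126943491, 0, 1659665789, 0, 0, 1794695215, 0, 0, 0, ⟨0, 0⟩, 0⟩ 0 0)) (.pos 7 .mm ⟨4760860579, 0, 0, 0, 0, 0, 0, 0, 0, ⟨0, 0⟩, 0⟩ 0 0))))))))) (.cut .v 4294967296 (.cut .v 268435456 (.cut .d (-8388608) (.void 8 ⟨100000, 0, 0, 0, 0, 0, 0, 0, 0, ⟨0, 0⟩, 0⟩ 0 0) (.cut .d (-4194304) (.void 8 ⟨100000, 0, 0, 0, 0, 0, 0, 0, 0, ⟨0, 0⟩, 0⟩ 0 0) (.cut .d (-2097152)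 (.void 8 ⟨100000, 0, 0, 0, 0, 0, 0, 0, 0, ⟨0, 0⟩, 0⟩ 0 0) (.cut .d (-1048576) (.void 8 ⟨100000, 0, 0, 0, 0, 0, 0, 0, 0, ⟨0, 0⟩, 0⟩ 0 0) (.cut .d (-524288) (.void 8 ⟨100000, 0, 0, 0, 0, 0, 0, 0, 0, ⟨0, 0⟩, 0⟩ 0 0) (.cut .d (-262144) (.void 8 ⟨100000, 0, 0, 0, 0, 0, 0, 0, 0, ⟨0, 0⟩, 0⟩ 0 0) (.cut .v 67108864 (.cut .v 33554432 (.pos 11 .mp ⟨7156920826, 0, 0, 0, 0, 0, 0, 0, 0, ⟨0, 0⟩, 0⟩ 0 0) (.pos 12 .mp ⟨21366474025, 0, 0, 0, 0, 0, 0, 0, 0, ⟨0, 0⟩, 0⟩ 0 0)) (.cut .v 134217728 (.pos 35 .mp ⟨109368081644, 0, 0, 0, 0, 0, 0, 0, 0, ⟨0, 0⟩, 0⟩ 0 0) (.void 36 ⟨88569, 0, 0, 11431, 0, 0, 0, 0, 0, ⟨0, 0⟩, 0⟩ 0 0))))))))) (.void 39 ⟨93893, 0, 0, 6107, 0, 0, 0, 0, 0, ⟨0,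 0⟩, 0⟩ 0 0)) (.void 92 ⟨93893, 0, 0, 6107, 0, 0, 0, 0, 0, ⟨0, 0⟩, 0⟩ 0 0))) (.cut .v 16777216 (.cut .v 8388608 (.cut .v 4194304 (.cut .v 2097152 (.cut .v 1048576 (.cut .v 524288 (.cut .v 262144 (.cut .v 131072 (.cut .v 65536 (.pos 88 .pm ⟨0, 0, 15353253, 0, 0, 0, 0, 0, 0, ⟨0, 0⟩, 0⟩ 0 0) (.pos 89 .pm ⟨0, 0, 51326002, 0, 0, 0, 0, 0, 0, ⟨0, 0⟩, 0⟩ 0 0)) (.pos 87 .pm ⟨0, 0, 96441914, 0, 0, 0, 0, 0, 0, ⟨0, 0⟩, 0⟩ 0 0)) (.pos 85 .pm ⟨0, 0, 170928612, 0, 0, 0, 0, 0, 0, ⟨0, 0⟩, 0⟩ 0 0)) (.pos 79 .pm ⟨0, 0, 296064147, 0, 0, 0, 0, 0, 0, ⟨0, 0⟩, 0⟩ 0 0)) (.pos 65 .pm ⟨0, 0, 507095923, 0, 0, 0, 0, 0, 0, ⟨0, 0⟩, 0⟩ 0 0)) (.pos 49 .pm ⟨0, 0, 961726412, 0, 0, 0, 0, 0,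 0, ⟨0, 0⟩, 0⟩ 0 0)) (.pos 5 .pm ⟨0, 0, 1973509207, 0, 0, 0, 0, 0, 0, ⟨0, 0⟩, 0⟩ 0 0)) (.pos 3 .pm ⟨0, 0, 1904329260, 0, 0, 0, 0, 0, 0, ⟨0, 0⟩, 0⟩ 0 0)) (.cut .v 4294967296 (.cut .v 268435456 (.cut .v 67108864 (.pos 9 .pp ⟨0, 0, 0, 0, 0, 0, 0, 0, 0, ⟨0, 0⟩, 0⟩ 0 0) (.cut .v 134217728 (.cut .v 100663296 (.pos 68 .pp ⟨24642063540, 0, 0, 0, 0, 0, 0, 0, 0, ⟨0, 0⟩, 0⟩ 0 0) (.pos 69 .pp ⟨61441288275, 44650437265, 0, 0, 0, 0, 0, 0, 0, ⟨0, 0⟩, 0⟩ 0 0)) (.void 36 ⟨0, 0, 0, 100000, 0, 0, 0, 0, 0, ⟨0, 0⟩, 0⟩ 0 0))) (.void 39 ⟨0, 0, 0, 100000, 0, 0, 0, 0, 0, ⟨0, 0⟩, 0⟩ 0 0)) (.void 92 ⟨0, 0, 0, 100000, 0, 0, 0, 0, 0, ⟨0, 0⟩, 0⟩ 0 0)))),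
    by decide +kernel⟩

def covers32 : cell.Covers table row32.1 :=
  ⟨(.cut .d 0 (.cut .v 16777216 (.cut .v 8388608 (.pos 2 .mm ⟨0, 0, 167772160000, 0, 0, 0, 0, 0, 0, ⟨0, 0⟩, 0⟩ 0 0) (.cut .d (-8388608) (.cut .s 16408576 (.void 3 ⟨0, 0, 0, 0, 0, 1000000000, 0, 0, 0, ⟨0, 0⟩, 0⟩ 0 0) (.void 3 ⟨100000, 0, 0, 0, 0, 0, 0, 0, 0, ⟨0, 0⟩, 0⟩ 0 0)) (.cut .d (-4194304) (.void 3 ⟨100000, 0, 0, 0, 0, 0, 0, 0, 0, ⟨0, 0⟩, 0⟩ 0 0) (.cut .v 12582912 (.pos 6 .mm ⟨0, 0, 11689585636, 0, 0, 32983879184, 0, 0, 0, ⟨0, 0⟩, 0⟩ 0 0) (.pos 7 .mm ⟨17450842946, 0, 0, 0, 0, 29326527798, 0, 0, 0, ⟨0, 0⟩, 0⟩ 0 0))))) (.cut .v 4294967296 (.cut .v 268435456 (.cut .d (-8388608) (.void 8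 ⟨100000, 0, 0, 0, 0, 0, 0, 0, 0, ⟨0, 0⟩, 0⟩ 0 0) (.cut .d (-4194304) (.void 8 ⟨100000, 0, 0, 0, 0, 0, 0, 0, 0, ⟨0, 0⟩, 0⟩ 0 0) (.cut .d (-2097152) (.void 8 ⟨100000, 0, 0, 0, 0, 0, 0, 0, 0, ⟨0, 0⟩, 0⟩ 0 0) (.cut .d (-1048576) (.void 8 ⟨100000, 0, 0, 0, 0, 0, 0, 0, 0, ⟨0, 0⟩, 0⟩ 0 0) (.cut .d (-524288) (.void 8 ⟨100000, 0, 0, 0, 0, 0, 0, 0, 0, ⟨0, 0⟩, 0⟩ 0 0) (.cut .d (-262144) (.void 8 ⟨100000, 0, 0, 0, 0, 0, 0, 0, 0, ⟨0, 0⟩, 0⟩ 0 0) (.cut .d (-131072) (.void 8 ⟨100000, 0, 0, 0, 0, 0, 0, 0, 0, ⟨0, 0⟩, 0⟩ 0 0) (.cut .v 67108864 (.pos 9 .mp ⟨8162601710, 0, 0, 0, 0, 0, 0, 0, 0, ⟨0, 0⟩, 0⟩ 0 0) (.cut .d (-65536) (.void 10 ⟨100000, 0, 0, 0, 0, 0, 0, 0, 0, ⟨0, 0⟩,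 0⟩ 0 0) (.pos 10 .mp ⟨157103181579, 0, 0, 10668978421, 0, 0, 0, 0, 0, ⟨0, 0⟩, 0⟩ 0 0)))))))))) (.void 39 ⟨93865, 0, 0, 6135, 0, 0, 0, 0, 0, ⟨0, 0⟩, 0⟩ 0 0)) (.void 92 ⟨93865, 0, 0, 6135, 0, 0, 0, 0, 0, ⟨0, 0⟩, 0⟩ 0 0))) (.cut .v 16777216 (.cut .v 8388608 (.cut .v 4194304 (.cut .v 2097152 (.cut .v 1048576 (.cut .v 524288 (.cut .v 262144 (.cut .v 131072 (.cut .v 65536 (.cut .v 32768 (.pos 93 .pm ⟨0, 0, 8761263, 0, 0, 0, 0, 0, 0, ⟨0, 0⟩, 0⟩ 0 0) (.pos 94 .pm ⟨0, 0, 27685278, 0, 0, 0, 0, 0, 0, ⟨0, 0⟩, 0⟩ 0 0)) (.pos 89 .pm ⟨0, 0, 54846808, 0, 0, 0, 0, 0, 0, ⟨0, 0⟩, 0⟩ 0 0)) (.pos 87 .pm ⟨0, 0, 105965252, 0, 0, 0, 0, 0, 0, ⟨0, 0⟩, 0⟩ 0 0)) (.pos 85 .pm ⟨0, 0,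 197704083, 0, 0, 0, 0, 0, 0, ⟨0, 0⟩, 0⟩ 0 0)) (.pos 79 .pm ⟨0, 0, 374151999, 0, 0, 0, 0, 0, 0, ⟨0, 0⟩, 0⟩ 0 0)) (.pos 65 .pm ⟨0, 0, 710078957, 0, 0, 0, 0, 0, 0, ⟨0, 0⟩, 0⟩ 0 0)) (.pos 49 .pm ⟨0, 0, 1377403892, 0, 0, 0, 0, 0, 0, ⟨0, 0⟩, 0⟩ 0 0)) (.pos 5 .pm ⟨0, 0, 2778030991, 0, 0, 0, 0, 0, 0, ⟨0, 0⟩, 0⟩ 0 0)) (.pos 3 .pm ⟨0, 0, 5679825113, 0, 0, 0, 0, 0, 0, ⟨0, 0⟩, 0⟩ 0 0)) (.cut .v 4294967296 (.cut .v 268435456 (.cut .v 67108864 (.pos 9 .pp ⟨0, 0, 0, 0, 0, 0, 0, 0, 0, ⟨0, 0⟩, 0⟩ 0 0) (.pos 10 .pp ⟨90489798613, 74242650655, 0, 3039710732, 0, 0, 0, 0, 0, ⟨0, 0⟩, 0⟩ 0 0)) (.void 39 ⟨0, 0, 0, 100000, 0, 0, 0, 0, 0, ⟨0, 0⟩, 0⟩ 0 0)) (.void 92 ⟨0, 0, 0, 100000,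 0, 0, 0, 0, 0, ⟨0, 0⟩, 0⟩ 0 0)))),
    by decide +kernel⟩

def covers33 : cell.Covers table row33.1 :=
  ⟨(.cut .d 0 (.cut .v 16777216 (.cut .d (-8388608) (.void 1 ⟨0, 0, 0, 0, 0, 100000, 0, 0, 0, ⟨0, 0⟩, 0⟩ 0 0) (.cut .v 8388608 (.pos 2 .mm ⟨0, 0, 167772160000, 0, 0, 0, 0, 0, 0, ⟨0, 0⟩, 0⟩ 0 0) (.cut .d (-4194304) (.void 3 ⟨100000, 0, 0, 0, 0, 0, 0, 0, 0, ⟨0, 0⟩, 0⟩ 0 0) (.pos 3 .mm ⟨20516816327, 0, 19958530233, 0, 0, 24949244007, 0, 0, 0, ⟨0, 0⟩, 0⟩ 0 0)))) (.cut .v 4294967296 (.cut .v 268435456 (.cut .d (-8388608) (.void 8 ⟨100000, 0, 0, 0, 0, 0, 0, 0, 0, ⟨0, 0⟩, 0⟩ 0 0) (.cut .d (-4194304) (.void 8 ⟨100000, 0, 0, 0, 0, 0, 0, 0, 0, ⟨0, 0⟩, 0⟩ 0 0) (.cut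 .d (-2097152) (.void 8 ⟨100000, 0, 0, 0, 0, 0, 0, 0, 0, ⟨0, 0⟩, 0⟩ 0 0) (.cut .d (-1048576) (.void 8 ⟨100000, 0, 0, 0, 0, 0, 0, 0, 0, ⟨0, 0⟩, 0⟩ 0 0) (.cut .d (-524288) (.void 8 ⟨100000, 0, 0, 0, 0, 0, 0, 0, 0, ⟨0, 0⟩, 0⟩ 0 0) (.cut .d (-262144) (.void 8 ⟨100000, 0, 0, 0, 0, 0, 0, 0, 0, ⟨0, 0⟩, 0⟩ 0 0) (.cut .d (-131072) (.void 8 ⟨100000, 0, 0, 0, 0, 0, 0, 0, 0, ⟨0, 0⟩, 0⟩ 0 0) (.cut .v 67108864 (.pos 9 .mp ⟨11351663468, 0, 0, 0, 0, 0, 0, 0, 0, ⟨0, 0⟩, 0⟩ 0 0) (.cut .v 134217728 (.pos 35 .mp ⟨167772160000, 0, 0, 0, 0, 0, 0, 0, 0, ⟨0, 0⟩, 0⟩ 0 0) (.void 36 ⟨88438, 0, 0, 11562, 0, 0, 0, 0, 0, ⟨0, 0⟩, 0⟩ 0 0)))))))))) (.void 39 ⟨93842, 0, 0, 6158, 0, 0, 0, 0,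 0, ⟨0, 0⟩, 0⟩ 0 0)) (.void 92 ⟨93842, 0, 0, 6158, 0, 0, 0, 0, 0, ⟨0, 0⟩, 0⟩ 0 0))) (.cut .v 16777216 (.cut .v 8388608 (.cut .v 4194304 (.cut .v 2097152 (.cut .v 1048576 (.cut .v 524288 (.cut .v 262144 (.cut .v 131072 (.cut .v 65536 (.cut .v 32768 (.pos 93 .pm ⟨0, 0, 14392103, 0, 0, 0, 0, 0, 0, ⟨0, 0⟩, 0⟩ 0 0) (.pos 94 .pm ⟨0, 0, 43077009, 0, 0, 0, 0, 0, 0, ⟨0, 0⟩, 0⟩ 0 0)) (.pos 89 .pm ⟨0, 0, 83541172, 0, 0, 0, 0, 0, 0, ⟨0, 0⟩, 0⟩ 0 0)) (.pos 87 .pm ⟨0, 0, 157797909, 0, 0, 0, 0, 0, 0, ⟨0, 0⟩, 0⟩ 0 0)) (.pos 85 .pm ⟨0, 0, 299098697, 0, 0, 0, 0, 0, 0, ⟨0, 0⟩, 0⟩ 0 0)) (.pos 79 .pm ⟨0, 0, 571461395, 0, 0, 0, 0, 0, 0, ⟨0, 0⟩, 0⟩ 0 0)) (.pos 65 .pm ⟨0, 0, 1090870516,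 0, 0, 0, 0, 0, 0, ⟨0, 0⟩, 0⟩ 0 0)) (.pos 49 .pm ⟨0, 0, 2112979753, 0, 0, 0, 0, 0, 0, ⟨0, 0⟩, 0⟩ 0 0)) (.pos 5 .pm ⟨0, 0, 4237873076, 0, 0, 0, 0, 0, 0, ⟨0, 0⟩, 0⟩ 0 0)) (.pos 3 .pm ⟨0, 0, 8603637438, 0, 0, 0, 0, 0, 0, ⟨0, 0⟩, 0⟩ 0 0)) (.cut .v 4294967296 (.cut .v 268435456 (.cut .v 67108864 (.pos 9 .pp ⟨0, 0, 0, 0, 0, 0, 0, 0, 0, ⟨0, 0⟩, 0⟩ 0 0) (.pos 10 .pp ⟨132089245529, 25458312772, 0, 10224601699, 0, 0, 0, 0, 0, ⟨0, 0⟩, 0⟩ 0 0)) (.void 39 ⟨0, 0, 0, 100000, 0, 0, 0, 0, 0, ⟨0, 0⟩, 0⟩ 0 0)) (.void 92 ⟨0, 0, 0, 100000, 0, 0, 0, 0, 0, ⟨0, 0⟩, 0⟩ 0 0)))),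
    by decide +kernel⟩

def covers34 : cell.Covers table row34.1 :=
  ⟨(.cut .d 0 (.cut .v 16777216 (.cut .v 8388608 (.void 2 ⟨0, 0, 100384, 0, 0, 0, 0, 0, 0, ⟨0, 0⟩, 0⟩ 0 0) (.cut .d (-8388608) (.void 3 ⟨100045, 0, 0, 0, 0, 0, 0, 0, 0, ⟨0, 0⟩, 0⟩ 0 0) (.cut .d (-4194304) (.void 3 ⟨100000, 0, 0, 0, 0, 0, 0, 0, 0, ⟨0, 0⟩, 0⟩ 0 0) (.pos 3 .mm ⟨18630167399, 0, 25969799323, 0, 0, 47816340943, 0, 0, 0, ⟨0, 0⟩, 0⟩ 0 0)))) (.cut .v 4294967296 (.cut .v 268435456 (.cut .d (-8388608) (.void 8 ⟨100000, 0, 0, 0, 0, 0, 0, 0, 0, ⟨0, 0⟩, 0⟩ 0 0) (.cut .d (-4194304) (.void 8 ⟨100000, 0, 0, 0, 0, 0, 0, 0, 0, ⟨0, 0⟩, 0⟩ 0 0) (.cut .d (-2097152) (.void 8 ⟨100000, 0, 0, 0, 0,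 0, 0, 0, 0, ⟨0, 0⟩, 0⟩ 0 0) (.cut .d (-1048576) (.void 8 ⟨100000, 0, 0, 0, 0, 0, 0, 0, 0, ⟨0, 0⟩, 0⟩ 0 0) (.cut .d (-524288) (.void 8 ⟨100000, 0, 0, 0, 0, 0, 0, 0, 0, ⟨0, 0⟩, 0⟩ 0 0) (.cut .d (-262144) (.void 8 ⟨100000, 0, 0, 0, 0, 0, 0, 0, 0, ⟨0, 0⟩, 0⟩ 0 0) (.cut .d (-131072) (.void 8 ⟨100000, 0, 0, 0, 0, 0, 0, 0, 0, ⟨0, 0⟩, 0⟩ 0 0) (.cut .v 67108864 (.pos 9 .mp ⟨16698730807, 0, 0, 0, 0, 0, 0, 0, 0, ⟨0, 0⟩, 0⟩ 0 0) (.cut .v 134217728 (.pos 35 .mp ⟨167772160000, 0, 0, 0, 0, 0, 0, 0, 0, ⟨0, 0⟩, 0⟩ 0 0) (.void 36 ⟨88407, 0, 0, 11593, 0, 0, 0, 0, 0, ⟨0, 0⟩, 0⟩ 0 0)))))))))) (.void 39 ⟨0, 0, 0, 6293, 0, 93707, 0, 0, 0, ⟨0, 0⟩, 0⟩ 0 0)) (.void 92 ⟨93835, 0, 0,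 6165, 0, 0, 0, 0, 0, ⟨0, 0⟩, 0⟩ 0 0))) (.cut .v 16777216 (.cut .v 8388608 (.cut .v 4194304 (.cut .v 2097152 (.cut .v 1048576 (.cut .v 524288 (.cut .v 262144 (.cut .v 131072 (.cut .v 65536 (.cut .v 32768 (.pos 93 .pm ⟨0, 0, 22068222, 0, 0, 0, 0, 0, 0, ⟨0, 0⟩, 0⟩ 0 0) (.pos 94 .pm ⟨0, 0, 63824722, 0, 0, 0, 0, 0, 0, ⟨0, 0⟩, 0⟩ 0 0)) (.pos 89 .pm ⟨0, 0, 123362771, 0, 0, 0, 0, 0, 0, ⟨0, 0⟩, 0⟩ 0 0)) (.pos 87 .pm ⟨0, 0, 234580199, 0, 0, 0, 0, 0, 0, ⟨0, 0⟩, 0⟩ 0 0)) (.pos 85 .pm ⟨0, 0, 451304178, 0, 0, 0, 0, 0, 0, ⟨0, 0⟩, 0⟩ 0 0)) (.pos 79 .pm ⟨0, 0, 871156800, 0, 0, 0, 0, 0, 0, ⟨0, 0⟩, 0⟩ 0 0)) (.pos 65 .pm ⟨0, 0, 1676434210, 0, 0, 0, 0, 0, 0, ⟨0, 0⟩, 0⟩ 0 0))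 (.pos 49 .pm ⟨0, 0, 3235281432, 0, 0, 0, 0, 0, 0, ⟨0, 0⟩, 0⟩ 0 0)) (.pos 5 .pm ⟨0, 0, 6447271291, 0, 0, 0, 0, 0, 0, ⟨0, 0⟩, 0⟩ 0 0)) (.pos 3 .pm ⟨0, 0, 13025822234, 0, 0, 0, 0, 0, 0, ⟨0, 0⟩, 0⟩ 0 0)) (.cut .v 4294967296 (.cut .v 268435456 (.cut .v 67108864 (.pos 9 .pp ⟨0, 0, 0, 0, 0, 0, 0, 0, 0, ⟨0, 0⟩, 0⟩ 0 0) (.pos 10 .pp ⟨149434584556, 0, 0, 18337575444, 0, 0, 0, 0, 0, ⟨0, 0⟩, 0⟩ 0 0)) (.void 39 ⟨0, 0, 0, 100000, 0, 0, 0, 0, 0, ⟨0, 0⟩, 0⟩ 0 0)) (.void 92 ⟨0, 0, 0, 100000, 0, 0, 0, 0, 0, ⟨0, 0⟩, 0⟩ 0 0)))),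
    by decide +kernel⟩

def covers35 : cell.Covers table row35.1 :=
  ⟨(.cut .d 0 (.cut .v 16777216 (.cut .d (-8388608) (.void 1 ⟨0, 0, 0, 0, 0, 100000, 0, 0, 0, ⟨0, 0⟩, 0⟩ 0 0) (.cut .d (-4194304) (.void 1 ⟨0, 0, 0, 1338, 0, 57419, 0, 188, 0, ⟨4800617, 960220⟩, 0⟩ 126 191) (.cut .v 8388608 (.pos 2 .mm ⟨0, 0, 167772160000, 0, 0, 0, 0, 0, 0, ⟨0, 0⟩, 0⟩ 0 0) (.pos 3 .mm ⟨27836352331, 0, 36764716322, 0, 0, 65869436462, 0, 0, 0, ⟨0, 0⟩, 0⟩ 0 0)))) (.cut .v 4294967296 (.cut .v 268435456 (.cut .d (-8388608) (.void 8 ⟨100000, 0, 0, 0, 0, 0, 0, 0, 0, ⟨0, 0⟩, 0⟩ 0 0) (.cut .d (-4194304) (.void 8 ⟨100000, 0, 0, 0, 0, 0, 0, 0, 0, ⟨0, 0⟩, 0⟩ 0 0) (.cut .d (-2097152)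 (.void 8 ⟨100000, 0, 0, 0, 0, 0, 0, 0, 0, ⟨0, 0⟩, 0⟩ 0 0) (.cut .d (-1048576) (.void 8 ⟨100000, 0, 0, 0, 0, 0, 0, 0, 0, ⟨0, 0⟩, 0⟩ 0 0) (.cut .d (-524288) (.void 8 ⟨100000, 0, 0, 0, 0, 0, 0, 0, 0, ⟨0, 0⟩, 0⟩ 0 0) (.cut .d (-262144) (.void 8 ⟨100000, 0, 0, 0, 0, 0, 0, 0, 0, ⟨0, 0⟩, 0⟩ 0 0) (.cut .d (-131072) (.void 8 ⟨100000, 0, 0, 0, 0, 0, 0, 0, 0, ⟨0, 0⟩, 0⟩ 0 0) (.cut .d (-65536) (.void 8 ⟨100000, 0, 0, 0, 0, 0, 0, 0, 0, ⟨0, 0⟩, 0⟩ 0 0) (.cut .v 67108864 (.pos 9 .mp ⟨21949686267, 0, 0, 0, 0, 0, 0, 0, 0, ⟨0, 0⟩, 0⟩ 0 0) (.cut .v 134217728 (.pos 35 .mp ⟨167772160000, 0, 0, 0, 0, 0, 0, 0, 0, ⟨0, 0⟩, 0⟩ 0 0) (.void 36 ⟨88357, 0, 0, 11643, 0, 0, 0, 0, 0, ⟨0,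 0⟩, 0⟩ 0 0))))))))))) (.void 39 ⟨0, 0, 0, 6258, 0, 93742, 0, 0, 0, ⟨0, 0⟩, 0⟩ 0 0)) (.void 92 ⟨93807, 0, 0, 6193, 0, 0, 0, 0, 0, ⟨0, 0⟩, 0⟩ 0 0))) (.cut .v 16777216 (.cut .v 8388608 (.cut .v 4194304 (.cut .v 2097152 (.cut .v 1048576 (.cut .v 524288 (.cut .v 262144 (.cut .v 131072 (.cut .v 65536 (.cut .v 32768 (.cut .v 16384 (.pos 95 .pm ⟨0, 0, 18037538, 0, 0, 0, 0, 0, 0, ⟨0, 0⟩, 0⟩ 0 0) (.pos 96 .pm ⟨0, 0, 51223510, 0, 0, 0, 0, 0, 0, ⟨0, 0⟩, 0⟩ 0 0)) (.pos 94 .pm ⟨0, 0, 98860493, 0, 0, 0, 0, 0, 0, ⟨0, 0⟩, 0⟩ 0 0)) (.pos 89 .pm ⟨0, 0, 188100583, 0, 0, 0, 0, 0, 0, ⟨0, 0⟩, 0⟩ 0 0)) (.pos 87 .pm ⟨0, 0, 356720079, 0, 0, 0, 0, 0, 0, ⟨0, 0⟩, 0⟩ 0 0)) (.pos 85 .pm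 ⟨0, 0, 683210161, 0, 0, 0, 0, 0, 0, ⟨0, 0⟩, 0⟩ 0 0)) (.pos 79 .pm ⟨0, 0, 1310388046, 0, 0, 0, 0, 0, 0, ⟨0, 0⟩, 0⟩ 0 0)) (.pos 65 .pm ⟨0, 0, 2498913780, 0, 0, 0, 0, 0, 0, ⟨0, 0⟩, 0⟩ 0 0)) (.pos 49 .pm ⟨0, 0, 4781889676, 0, 0, 0, 0, 0, 0, ⟨0, 0⟩, 0⟩ 0 0)) (.pos 5 .pm ⟨0, 0, 9450973543, 0, 0, 0, 0, 0, 0, ⟨0, 0⟩, 0⟩ 0 0)) (.pos 3 .pm ⟨0, 0, 19035819201, 0, 0, 0, 0, 0, 0, ⟨0, 0⟩, 0⟩ 0 0)) (.cut .v 4294967296 (.cut .v 268435456 (.cut .v 67108864 (.pos 9 .pp ⟨0, 0, 0, 0, 0, 0, 0, 0, 0, ⟨0, 0⟩, 0⟩ 0 0) (.cut .s 16588800 (.pos 10 .pp ⟨143052146647, 0, 0, 24720013353, 0, 0, 0, 0, 0, ⟨0, 0⟩, 0⟩ 0 0) (.pos 10 .pp ⟨134847771690, 0, 0, 32924388310, 0, 0, 0, 0, 0, ⟨0, 0⟩,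 0⟩ 0 0))) (.void 39 ⟨0, 0, 0, 100000, 0, 0, 0, 0, 0, ⟨0, 0⟩, 0⟩ 0 0)) (.void 92 ⟨0, 0, 0, 100000, 0, 0, 0, 0, 0, ⟨0, 0⟩, 0⟩ 0 0)))),
    by decide +kernel⟩

def covers36 : cell.Covers table row36.1 :=
  ⟨(.cut .d 0 (.cut .v 16777216 (.cut .d (-8388608) (.void 1 ⟨0, 0, 0, 0, 0, 100630, 0, 0, 0, ⟨0, 0⟩, 0⟩ 0 0) (.cut .d (-4194304) (.void 1 ⟨0, 0, 82223, 0, 0, 17967, 0, 0, 0, ⟨0, 0⟩, 0⟩ 0 0) (.cut .v 8388608 (.void 2 ⟨0, 0, 100000, 0, 0, 0, 0, 0, 0, ⟨0, 0⟩, 0⟩ 0 0) (.pos 3 .mm ⟨49776726054, 0, 55627823265, 0, 0, 62367610681, 0, 0, 0, ⟨0, 0⟩, 0⟩ 0 0)))) (.cut .v 4294967296 (.cut .d (-8388608) (.void 38 ⟨1000000000, 0, 0, 0, 0, 0, 0, 0, 0, ⟨0, 0⟩, 0⟩ 0 0) (.cut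 .v 268435456 (.cut .d (-4194304) (.void 8 ⟨1000000000, 0, 0, 0, 0, 0, 0, 0, 0, ⟨0, 0⟩, 0⟩ 0 0) (.cut .d (-2097152) (.void 8 ⟨1000000000, 0, 0, 0, 0, 0, 0, 0, 0, ⟨0, 0⟩, 0⟩ 0 0) (.cut .d (-1048576) (.void 8 ⟨1000000000, 0, 0, 0, 0, 0, 0, 0, 0, ⟨0, 0⟩, 0⟩ 0 0) (.cut .d (-524288) (.void 8 ⟨1000000000, 0, 0, 0, 0, 0, 0, 0, 0, ⟨0, 0⟩, 0⟩ 0 0) (.cut .d (-262144) (.void 8 ⟨1000000000, 0, 0, 0, 0, 0, 0, 0, 0, ⟨0, 0⟩, 0⟩ 0 0) (.cut .d (-131072) (.void 8 ⟨1000000000, 0, 0, 0, 0, 0, 0, 0, 0, ⟨0, 0⟩, 0⟩ 0 0) (.cut .d (-65536) (.void 8 ⟨1000000000, 0, 0, 0, 0, 0, 0, 0, 0, ⟨0, 0⟩, 0⟩ 0 0) (.cut .v 67108864 (.cut .v 33554432 (.pos 11 .mp ⟨33880614601, 0, 0, 0, 0, 0, 0,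 0, 0, ⟨0, 0⟩, 0⟩ 0 0) (.pos 12 .mp ⟨167772160000, 0, 0, 0, 0, 0, 0, 0, 0, ⟨0, 0⟩, 0⟩ 0 0)) (.cut .v 134217728 (.pos 35 .mp ⟨167772160000, 0, 0, 0, 0, 0, 0, 0, 0, ⟨0, 0⟩, 0⟩ 0 0) (.void 36 ⟨88337, 0, 0, 11663, 0, 0, 0, 0, 0, ⟨0, 0⟩, 0⟩ 0 0)))))))))) (.cut .s 16629760 (.void 39 ⟨90992, 0, 0, 9008, 0, 0, 0, 0, 0, ⟨0, 0⟩, 0⟩ 0 0) (.void 39 ⟨90992, 0, 0, 9008, 0, 0, 0, 0, 0, ⟨0, 0⟩, 0⟩ 0 0)))) (.void 92 ⟨93595, 0, 0, 6396, 0, 0, 0, 0, 0, ⟨0, 0⟩, 0⟩ 0 0))) (.cut .v 16777216 (.cut .v 8388608 (.cut .v 4194304 (.cut .v 2097152 (.cut .v 1048576 (.cut .v 524288 (.cut .v 262144 (.cut .v 131072 (.cut .v 65536 (.cut .v 32768 (.cut .v 16384 (.pos 95 .pm ⟨0, 0, 28041599,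 0, 0, 0, 0, 0, 0, ⟨0, 0⟩, 0⟩ 0 0) (.pos 96 .pm ⟨0, 0, 77734320, 0, 0, 0, 0, 0, 0, ⟨0, 0⟩, 0⟩ 0 0)) (.pos 94 .pm ⟨0, 0, 150960260, 0, 0, 0, 0, 0, 0, ⟨0, 0⟩, 0⟩ 0 0)) (.pos 89 .pm ⟨0, 0, 288820255, 0, 0, 0, 0, 0, 0, ⟨0, 0⟩, 0⟩ 0 0)) (.pos 87 .pm ⟨0, 0, 558817278, 0, 0, 0, 0, 0, 0, ⟨0, 0⟩, 0⟩ 0 0)) (.pos 85 .pm ⟨0, 0, 1085577381, 0, 0, 0, 0, 0, 0, ⟨0, 0⟩, 0⟩ 0 0)) (.pos 79 .pm ⟨0, 0, 2106752874, 0, 0, 0, 0, 0, 0, ⟨0, 0⟩, 0⟩ 0 0)) (.pos 65 .pm ⟨0, 0, 4064379958, 0, 0, 0, 0, 0, 0, ⟨0, 0⟩, 0⟩ 0 0)) (.pos 49 .pm ⟨0, 0, 7758994047, 0, 0, 0, 0, 0, 0, ⟨0, 0⟩, 0⟩ 0 0)) (.pos 5 .pm ⟨0, 0, 15277462376, 0, 0, 0, 0, 0, 0, ⟨0, 0⟩, 0⟩ 0 0)) (.pos 3 .pm ⟨0, 0, 30691433986,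 0, 0, 0, 0, 0, 0, ⟨0, 0⟩, 0⟩ 0 0)) (.cut .v 4294967296 (.cut .v 268435456 (.cut .v 67108864 (.pos 9 .pp ⟨0, 0, 0, 0, 0, 0, 0, 0, 0, ⟨0, 0⟩, 0⟩ 0 0) (.cut .v 134217728 (.pos 35 .pp ⟨130844698134, 0, 0, 0, 0, 0, 0, 0, 0, ⟨0, 0⟩, 0⟩ 0 0) (.void 36 ⟨0, 0, 0, 100000, 0, 0, 0, 0, 0, ⟨0, 0⟩, 0⟩ 0 0))) (.void 39 ⟨0, 0, 0, 100000, 0, 0, 0, 0, 0, ⟨0, 0⟩, 0⟩ 0 0)) (.void 92 ⟨0, 0, 0, 100000, 0, 0, 0, 0, 0, ⟨0, 0⟩, 0⟩ 0 0)))),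
    by decide +kernel⟩

def covers37 : cell.Covers table row37.1 :=
  ⟨(.cut .d 0 (.cut .v 16777216 (.cut .d (-8388608) (.cut .d (-12582912) (.void 1 ⟨0, 0, 0, 0, 0, 99785, 0, 0, 0, ⟨0, 0⟩, 0⟩ 0 0) (.void 1 ⟨0, 0, 0, 0, 0, 99978, 0, 0, 0, ⟨0, 0⟩, 0⟩ 0 0)) (.cut .d (-4194304) (.void 1 ⟨0, 0, 0, 0, 0, 99787, 0, 0, 0, ⟨0, 0⟩, 0⟩ 0 0) (.cut .v 8388608 (.void 2 ⟨0, 0, 100000, 0, 0, 0, 0, 0, 0, ⟨0, 0⟩, 0⟩ 0 0) (.pos 3 .mm ⟨104595166753, 0, 63176993247, 0, 0, 0, 0, 0, 0, ⟨0, 0⟩, 0⟩ 0 0)))) (.cut .v 4294967296 (.cut .d (-8388608) (.void 38 ⟨1000000000, 0, 0, 0, 0, 0, 0, 0, 0, ⟨0, 0⟩, 0⟩ 0 0) (.cut .v 268435456 (.cut .d (-4194304) (.void 8 ⟨1000000000, 0, 0, 0, 0,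 0, 0, 0, 0, ⟨0, 0⟩, 0⟩ 0 0) (.cut .d (-2097152) (.void 8 ⟨1000000000, 0, 0, 0, 0, 0, 0, 0, 0, ⟨0, 0⟩, 0⟩ 0 0) (.cut .d (-1048576) (.void 8 ⟨1000000000, 0, 0, 0, 0, 0, 0, 0, 0, ⟨0, 0⟩, 0⟩ 0 0) (.cut .d (-524288) (.void 8 ⟨1000000000, 0, 0, 0, 0, 0, 0, 0, 0, ⟨0, 0⟩, 0⟩ 0 0) (.cut .d (-262144) (.void 8 ⟨1000000000, 0, 0, 0, 0, 0, 0, 0, 0, ⟨0, 0⟩, 0⟩ 0 0) (.cut .d (-131072) (.void 8 ⟨1000000000, 0, 0, 0, 0, 0, 0, 0, 0, ⟨0, 0⟩, 0⟩ 0 0) (.cut .d (-65536) (.void 8 ⟨1000000000, 0, 0, 0, 0, 0, 0, 0, 0, ⟨0, 0⟩, 0⟩ 0 0) (.cut .v 67108864 (.pos 9 .mp ⟨51166504874, 0, 0, 0, 0, 0, 0, 0, 0, ⟨0, 0⟩, 0⟩ 0 0) (.cut .v 134217728 (.pos 35 .mp ⟨167772160000, 0, 0, 0, 0, 0, 0,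 0, 0, ⟨0, 0⟩, 0⟩ 0 0) (.void 36 ⟨88326, 0, 0, 11674, 0, 0, 0, 0, 0, ⟨0, 0⟩, 0⟩ 0 0)))))))))) (.cut .s 16654336 (.void 39 ⟨90905, 0, 0, 9095, 0, 0, 0, 0, 0, ⟨0, 0⟩, 0⟩ 0 0) (.void 39 ⟨90905, 0, 0, 9095, 0, 0, 0, 0, 0, ⟨0, 0⟩, 0⟩ 0 0)))) (.void 92 ⟨93695, 0, 0, 6305, 0, 0, 0, 0, 0, ⟨0, 0⟩, 0⟩ 0 0))) (.cut .v 16777216 (.cut .v 8388608 (.cut .v 4194304 (.cut .v 2097152 (.cut .v 1048576 (.cut .v 524288 (.cut .v 262144 (.cut .v 131072 (.cut .v 65536 (.cut .v 32768 (.cut .v 16384 (.pos 95 .pm ⟨0, 0, 36292945, 0, 0, 0, 0, 0, 0, ⟨0, 0⟩, 0⟩ 0 0) (.pos 96 .pm ⟨0, 0, 103191613, 0, 0, 0, 0, 0, 0, ⟨0, 0⟩, 0⟩ 0 0)) (.pos 94 .pm ⟨0, 0, 201688547, 0, 0, 0, 0, 0, 0, ⟨0, 0⟩,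 0⟩ 0 0)) (.pos 89 .pm ⟨0, 0, 396750448, 0, 0, 0, 0, 0, 0, ⟨0, 0⟩, 0⟩ 0 0)) (.pos 87 .pm ⟨0, 0, 782549544, 0, 0, 0, 0, 0, 0, ⟨0, 0⟩, 0⟩ 0 0)) (.pos 85 .pm ⟨0, 0, 1544046434, 0, 0, 0, 0, 0, 0, ⟨0, 0⟩, 0⟩ 0 0)) (.pos 79 .pm ⟨0, 0, 3041916556, 0, 0, 0, 0, 0, 0, ⟨0, 0⟩, 0⟩ 0 0)) (.pos 65 .pm ⟨0, 0, 5969968810, 0, 0, 0, 0, 0, 0, ⟨0, 0⟩, 0⟩ 0 0)) (.pos 49 .pm ⟨0, 0, 11628085195, 0, 0, 0, 0, 0, 0, ⟨0, 0⟩, 0⟩ 0 0)) (.pos 5 .pm ⟨0, 0, 22821183921, 0, 0, 0, 0, 0, 0, ⟨0, 0⟩, 0⟩ 0 0)) (.pos 3 .pm ⟨0, 0, 45780660335, 0, 0, 0, 0, 0, 0, ⟨0, 0⟩, 0⟩ 0 0)) (.cut .v 4294967296 (.cut .v 268435456 (.cut .v 67108864 (.pos 9 .pp ⟨0, 0, 0, 0, 0, 0, 0, 0, 0, ⟨0, 0⟩, 0⟩ 0 0) (.cut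 .v 134217728 (.pos 35 .pp ⟨167772160000, 0, 0, 0, 0, 0, 0, 0, 0, ⟨0, 0⟩, 0⟩ 0 0) (.void 36 ⟨0, 0, 0, 100000, 0, 0, 0, 0, 0, ⟨0, 0⟩, 0⟩ 0 0))) (.void 39 ⟨0, 0, 0, 100000, 0, 0, 0, 0, 0, ⟨0, 0⟩, 0⟩ 0 0)) (.void 92 ⟨0, 0, 0, 100000, 0, 0, 0, 0, 0, ⟨0, 0⟩, 0⟩ 0 0)))),
    by decide +kernel⟩

def covers38 : cell.Covers table row38.1 :=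
  ⟨(.cut .d 0 (.cut .v 16777216 (.cut .d (-8388608) (.void 1 ⟨0, 0, 0, 0, 0, 100000, 0, 0, 0, ⟨0, 0⟩, 0⟩ 0 0) (.cut .v 8388608 (.void 2 ⟨0, 0, 100000, 0, 0, 0, 0, 0, 0, ⟨0, 0⟩, 0⟩ 0 0) (.cut .d (-4194304) (.void 3 ⟨1000000000, 0, 0, 0, 0, 0, 0, 0, 0, ⟨0, 0⟩, 0⟩ 0 0) (.cut .d (-2097152) (.void 3 ⟨1000000000, 0, 0, 0, 0, 0, 0, 0, 0, ⟨0, 0⟩, 0⟩ 0 0) (.pos 3 .mm ⟨147536581730, 0, 20235578270, 0, 0, 0, 0, 0, 0, ⟨0, 0⟩, 0⟩ 0 0))))) (.cut .v 4294967296 (.cut .d (-8388608) (.void 38 ⟨1000000000, 0, 0, 0, 0, 0, 0, 0, 0, ⟨0, 0⟩, 0⟩ 0 0) (.cut .d (-4194304) (.void 38 ⟨1000000000, 0, 0, 0, 0, 0, 0, 0, 0, ⟨0, 0⟩, 0⟩ 0 0) (.cut .v 268435456 (.cut .d (-2097152) (.void 8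 ⟨1000000000, 0, 0, 0, 0, 0, 0, 0, 0, ⟨0, 0⟩, 0⟩ 0 0) (.cut .d (-1048576) (.void 8 ⟨1000000000, 0, 0, 0, 0, 0, 0, 0, 0, ⟨0, 0⟩, 0⟩ 0 0) (.cut .d (-524288) (.void 8 ⟨1000000000, 0, 0, 0, 0, 0, 0, 0, 0, ⟨0, 0⟩, 0⟩ 0 0) (.cut .d (-262144) (.void 8 ⟨1000000000, 0, 0, 0, 0, 0, 0, 0, 0, ⟨0, 0⟩, 0⟩ 0 0) (.cut .d (-131072) (.void 8 ⟨1000000000, 0, 0, 0, 0, 0, 0, 0, 0, ⟨0, 0⟩, 0⟩ 0 0) (.cut .d (-65536) (.void 8 ⟨1000000000, 0, 0, 0, 0, 0, 0, 0, 0, ⟨0, 0⟩, 0⟩ 0 0) (.cut .d (-32768) (.void 8 ⟨100000, 0, 0, 0, 0, 0, 0, 0, 0, ⟨0, 0⟩, 0⟩ 0 0) (.cut .v 67108864 (.pos 9 .mp ⟨61389054222, 0, 0, 0, 0, 0, 0, 0, 0, ⟨0, 0⟩, 0⟩ 0 0) (.cut .v 134217728 (.pos 35 .mp ⟨167772160000,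 0, 0, 0, 0, 0, 0, 0, 0, ⟨0, 0⟩, 0⟩ 0 0) (.void 36 ⟨1000000000, 0, 0, 0, 0, 0, 0, 0, 0, ⟨0, 0⟩, 0⟩ 0 0)))))))))) (.void 39 ⟨1000000000, 0, 0, 0, 0, 0, 0, 0, 0, ⟨0, 0⟩, 0⟩ 0 0)))) (.void 92 ⟨1000000000, 0, 0, 0, 0, 0, 0, 0, 0, ⟨0, 0⟩, 0⟩ 0 0))) (.cut .v 16777216 (.cut .v 8388608 (.cut .v 4194304 (.cut .v 2097152 (.cut .v 1048576 (.cut .v 524288 (.cut .v 262144 (.cut .v 131072 (.cut .v 65536 (.cut .v 32768 (.cut .v 16384 (.cut .v 8192 (.pos 99 .pm ⟨0, 0, 32605082, 0, 0, 0, 0, 0, 0, ⟨0, 0⟩, 0⟩ 0 0) (.pos 100 .pm ⟨0, 0, 83481108, 0, 0, 0, 0, 0, 0, ⟨0, 0⟩, 0⟩ 0 0)) (.pos 96 .pm ⟨0, 0, 160285234, 0, 0, 0, 0, 0, 0, ⟨0, 0⟩, 0⟩ 0 0)) (.pos 94 .pm ⟨0, 0, 309508472,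 0, 0, 0, 0, 0, 0, ⟨0, 0⟩, 0⟩ 0 0)) (.pos 89 .pm ⟨0, 0, 0, 0, 0, 0, 0, 0, 0, ⟨0, 0⟩, 0⟩ 0 0)) (.pos 87 .pm ⟨0, 0, 0, 0, 0, 0, 0, 0, 0, ⟨0, 0⟩, 0⟩ 0 0)) (.pos 85 .pm ⟨0, 0, 0, 0, 0, 0, 0, 0, 0, ⟨0, 0⟩, 0⟩ 0 0)) (.pos 79 .pm ⟨0, 0, 0, 0, 0, 0, 0, 0, 0, ⟨0, 0⟩, 0⟩ 0 0)) (.pos 65 .pm ⟨0, 0, 0, 0, 0, 0, 0, 0, 0, ⟨0, 0⟩, 0⟩ 0 0)) (.pos 49 .pm ⟨0, 0, 0, 0, 0, 0, 0, 0, 0, ⟨0, 0⟩, 0⟩ 0 0)) (.pos 5 .pm ⟨0, 0, 28625980858, 0, 0, 0, 0, 0, 0, ⟨0, 0⟩, 0⟩ 0 0)) (.pos 3 .pm ⟨0, 0, 57391153479, 0, 0, 0, 0, 0, 0, ⟨0, 0⟩, 0⟩ 0 0)) (.cut .v 4294967296 (.cut .v 268435456 (.cut .d 57740 (.cut .v 67108864 (.pos 9 .pp ⟨0, 0, 0, 0, 0, 0, 0, 0, 0, ⟨0, 0⟩, 0⟩ 0 0) (.cut .v 134217728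 (.pos 35 .pp ⟨167772160000, 0, 0, 0, 0, 0, 0, 0, 0, ⟨0, 0⟩, 0⟩ 0 0) (.void 36 ⟨0, 0, 0, 74283, 0, 14358, 0, 27, 0, ⟨5520208, 0⟩, 0⟩ 345 353))) (.cut .v 67108864 (.pos 9 .pp ⟨0, 0, 0, 0, 0, 0, 0, 0, 0, ⟨0, 0⟩, 0⟩ 0 0) (.void 10 ⟨0, 0, 0, 100000, 0, 0, 0, 0, 0, ⟨0, 0⟩, 0⟩ 0 0))) (.void 39 ⟨0, 0, 0, 100000, 0, 0, 0, 0, 0, ⟨0, 0⟩, 0⟩ 0 0)) (.void 92 ⟨0, 0, 0, 100000, 0, 0, 0, 0, 0, ⟨0, 0⟩, 0⟩ 0 0)))),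
    by decide +kernel⟩

def covers39 : cell.Covers table row39.1 :=
  ⟨(.cut .d 0 (.cut .v 16777216 (.cut .d (-8388608) (.void 1 ⟨0, 0, 0, 0, 0, 1000000000, 0, 0, 0, ⟨0, 0⟩, 0⟩ 0 0) (.cut .d (-4194304) (.void 1 ⟨0, 0, 0, 0, 0, 1000000000, 0, 0, 0, ⟨0, 0⟩, 0⟩ 0 0) (.cut .d (-2097152) (.void 1 ⟨0, 0, 0, 0, 0, 1000000000, 0, 0, 0, ⟨0, 0⟩, 0⟩ 0 0) (.cut .d (-1048576) (.void 1 ⟨0, 0, 0, 0, 0, 1000000000, 0, 0, 0, ⟨0, 0⟩, 0⟩ 0 0) (.cut .v 8388608 (.void 2 ⟨0, 0, 100000, 0, 0, 0, 0, 0, 0, ⟨0, 0⟩, 0⟩ 0 0) (.cut .d (-524288) (.void 3 ⟨1000000000, 0, 0, 0, 0, 0, 0, 0, 0, ⟨0, 0⟩, 0⟩ 0 0) (.pos 3 .mm ⟨145939061263, 0, 21833098737, 0, 0, 0, 0, 0, 0, ⟨0, 0⟩, 0⟩ 0 0)))))))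 (.cut .v 4294967296 (.cut .d (-8388608) (.void 38 ⟨1000000000, 0, 0, 0, 0, 0, 0, 0, 0, ⟨0, 0⟩, 0⟩ 0 0) (.cut .v 268435456 (.cut .d (-4194304) (.void 8 ⟨1000000000, 0, 0, 0, 0, 0, 0, 0, 0, ⟨0, 0⟩, 0⟩ 0 0) (.cut .d (-2097152) (.void 8 ⟨1000000000, 0, 0, 0, 0, 0, 0, 0, 0, ⟨0, 0⟩, 0⟩ 0 0) (.cut .d (-1048576) (.void 8 ⟨1000000000, 0, 0, 0, 0, 0, 0, 0, 0, ⟨0, 0⟩, 0⟩ 0 0) (.cut .d (-524288) (.void 8 ⟨1000000000, 0, 0, 0, 0, 0, 0, 0, 0, ⟨0, 0⟩, 0⟩ 0 0) (.cut .d (-262144) (.void 8 ⟨1000000000, 0, 0, 0, 0, 0, 0, 0, 0, ⟨0, 0⟩, 0⟩ 0 0) (.cut .d (-131072) (.void 8 ⟨1000000000, 0, 0, 0, 0, 0, 0, 0, 0, ⟨0, 0⟩, 0⟩ 0 0) (.cut .d (-65536) (.void 8 ⟨1000000000, 0, 0, 0, 0,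 0, 0, 0, 0, ⟨0, 0⟩, 0⟩ 0 0) (.cut .d (-32768) (.void 8 ⟨1000000000, 0, 0, 0, 0, 0, 0, 0, 0, ⟨0, 0⟩, 0⟩ 0 0) (.cut .v 67108864 (.pos 9 .mp ⟨111003568365, 0, 0, 0, 0, 0, 0, 0, 0, ⟨0, 0⟩, 0⟩ 0 0) (.cut .v 134217728 (.cut .d (-16384) (.void 35 ⟨100000, 0, 0, 0, 0, 0, 0, 0, 0, ⟨0, 0⟩, 0⟩ 0 0) (.pos 35 .mp ⟨167772160000, 0, 0, 0, 0, 0, 0, 0, 0, ⟨0, 0⟩, 0⟩ 0 0)) (.void 36 ⟨1000000000, 0, 0, 0, 0, 0, 0, 0, 0, ⟨0, 0⟩, 0⟩ 0 0))))))))))) (.void 39 ⟨1000000000, 0, 0, 0, 0, 0, 0, 0, 0, ⟨0, 0⟩, 0⟩ 0 0))) (.void 92 ⟨93773, 0, 0, 6227, 0, 0, 0, 0, 0, ⟨0, 0⟩, 0⟩ 0 0))) (.cut .v 16777216 (.cut .v 8388608 (.cut .v 4194304 (.cut .v 2097152 (.cut .v 1048576 (.cut .v 524288 (.cut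 .v 262144 (.cut .v 131072 (.cut .v 65536 (.cut .v 32768 (.cut .v 16384 (.cut .v 8192 (.pos 99 .pm ⟨0, 0, 49243975, 0, 0, 0, 0, 0, 0, ⟨0, 0⟩, 0⟩ 0 0) (.pos 100 .pm ⟨0, 0, 130985235, 0, 0, 0, 0, 0, 0, ⟨0, 0⟩, 0⟩ 0 0)) (.pos 96 .pm ⟨0, 0, 254369326, 0, 0, 0, 0, 0, 0, ⟨0, 0⟩, 0⟩ 0 0)) (.pos 94 .pm ⟨0, 0, 494200909, 0, 0, 0, 0, 0, 0, ⟨0, 0⟩, 0⟩ 0 0)) (.pos 89 .pm ⟨0, 0, 966464791, 0, 0, 0, 0, 0, 0, ⟨0, 0⟩, 0⟩ 0 0)) (.pos 87 .pm ⟨0, 0, 1894304056, 0, 0, 0, 0, 0, 0, ⟨0, 0⟩, 0⟩ 0 0)) (.pos 85 .pm ⟨0, 0, 3710586891, 0, 0, 0, 0, 0, 0, ⟨0, 0⟩, 0⟩ 0 0)) (.pos 79 .pm ⟨0, 0, 7243967585, 0, 0, 0, 0, 0, 0, ⟨0, 0⟩, 0⟩ 0 0)) (.pos 65 .pm ⟨0, 0, 14041169390, 0, 0, 0, 0, 0,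 0, ⟨0, 0⟩, 0⟩ 0 0)) (.pos 49 .pm ⟨0, 0, 26850155399, 0, 0, 0, 0, 0, 0, ⟨0, 0⟩, 0⟩ 0 0)) (.pos 5 .pm ⟨0, 0, 51668823774, 0, 0, 0, 0, 0, 0, ⟨0, 0⟩, 0⟩ 0 0)) (.pos 3 .pm ⟨0, 0, 103478653251, 0, 0, 0, 0, 0, 0, ⟨0, 0⟩, 0⟩ 0 0)) (.cut .v 4294967296 (.cut .v 268435456 (.cut .v 67108864 (.pos 9 .pp ⟨0, 0, 0, 0, 0, 0, 0, 0, 0, ⟨0, 0⟩, 0⟩ 0 0) (.cut .v 134217728 (.pos 35 .pp ⟨164121563544, 0, 0, 3650596456, 0, 0, 0, 0, 0, ⟨0, 0⟩, 0⟩ 0 0) (.void 36 ⟨0, 0, 0, 100000, 0, 0, 0, 0, 0, ⟨0, 0⟩, 0⟩ 0 0))) (.void 39 ⟨0, 0, 0, 100000, 0, 0, 0, 0, 0, ⟨0, 0⟩, 0⟩ 0 0)) (.void 92 ⟨0, 0, 0, 100000, 0, 0, 0, 0, 0, ⟨0, 0⟩, 0⟩ 0 0)))),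
    by decide +kernel⟩

def covers40 : cell.Covers table row40.1 :=
  ⟨(.cut .d 0 (.cut .v 16777216 (.cut .d (-8388608) (.void 1 ⟨0, 0, 114222, 0, 0, 0, 0, 0, 0, ⟨0, 0⟩, 0⟩ 0 0) (.cut .d (-4194304) (.void 1 ⟨0, 0, 94769, 0, 0, 0, 0, 0, 0, ⟨0, 0⟩, 0⟩ 0 0) (.cut .d (-2097152) (.void 1 ⟨0, 0, 100000, 0, 0, 0, 0, 0, 0, ⟨0, 0⟩, 0⟩ 0 0) (.cut .d (-1048576) (.void 1 ⟨0, 0, 100000, 0, 0, 0, 0, 0, 0, ⟨0, 0⟩, 0⟩ 0 0) (.cut .d (-524288) (.void 1 ⟨0, 0, 100000, 0, 0, 0, 0, 0, 0, ⟨0, 0⟩, 0⟩ 0 0) (.cut .d (-262144) (.void 1 ⟨0, 0, 100000, 0, 0, 0, 0, 0, 0, ⟨0, 0⟩, 0⟩ 0 0) (.cut .v 8388608 (.void 2 ⟨0, 0, 100000, 0, 0, 0, 0, 0, 0, ⟨0, 0⟩, 0⟩ 0 0) (.cut .d (-131072) (.void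 3 ⟨1000000000, 0, 0, 0, 0, 0, 0, 0, 0, ⟨0, 0⟩, 0⟩ 0 0) (.pos 3 .mm ⟨167772160000, 0, 0, 0, 0, 0, 0, 0, 0, ⟨0, 0⟩, 0⟩ 0 0))))))))) (.cut .v 4294967296 (.cut .d (-8388608) (.void 38 ⟨1000000000, 0, 0, 0, 0, 0, 0, 0, 0, ⟨0, 0⟩, 0⟩ 0 0) (.cut .v 268435456 (.cut .d (-4194304) (.void 8 ⟨1000000000, 0, 0, 0, 0, 0, 0, 0, 0, ⟨0, 0⟩, 0⟩ 0 0) (.cut .d (-2097152) (.void 8 ⟨1000000000, 0, 0, 0, 0, 0, 0, 0, 0, ⟨0, 0⟩, 0⟩ 0 0) (.cut .d (-1048576) (.void 8 ⟨1000000000, 0, 0, 0, 0, 0, 0, 0, 0, ⟨0, 0⟩, 0⟩ 0 0) (.cut .d (-524288) (.void 8 ⟨1000000000, 0, 0, 0, 0, 0, 0, 0, 0, ⟨0, 0⟩, 0⟩ 0 0) (.cut .d (-262144) (.void 8 ⟨1000000000, 0, 0, 0, 0, 0, 0, 0, 0, ⟨0, 0⟩, 0⟩ 0 0) (.cut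 .d (-131072) (.void 8 ⟨1000000000, 0, 0, 0, 0, 0, 0, 0, 0, ⟨0, 0⟩, 0⟩ 0 0) (.cut .d (-65536) (.void 8 ⟨1000000000, 0, 0, 0, 0, 0, 0, 0, 0, ⟨0, 0⟩, 0⟩ 0 0) (.cut .d (-32768) (.void 8 ⟨1000000000, 0, 0, 0, 0, 0, 0, 0, 0, ⟨0, 0⟩, 0⟩ 0 0) (.cut .v 67108864 (.pos 9 .mp ⟨167772160000, 0, 0, 0, 0, 0, 0, 0, 0, ⟨0, 0⟩, 0⟩ 0 0) (.cut .v 134217728 (.cut .d (-16384) (.void 35 ⟨100000, 0, 0, 0, 0, 0, 0, 0, 0, ⟨0, 0⟩, 0⟩ 0 0) (.pos 35 .mp ⟨167772160000, 0, 0, 0, 0, 0, 0, 0, 0, ⟨0, 0⟩, 0⟩ 0 0)) (.void 36 ⟨92240, 0, 0, 7760, 0, 0, 0, 0, 0, ⟨0, 0⟩, 0⟩ 0 0))))))))))) (.void 39 ⟨92240, 0, 0, 7760, 0, 0, 0, 0, 0, ⟨0, 0⟩, 0⟩ 0 0))) (.void 92 ⟨93767, 0, 0, 6233, 0, 0, 0, 0, 0,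 ⟨0, 0⟩, 0⟩ 0 0))) (.cut .v 16777216 (.cut .v 8388608 (.cut .v 4194304 (.cut .v 2097152 (.cut .v 1048576 (.cut .v 524288 (.cut .v 262144 (.cut .v 131072 (.cut .v 65536 (.cut .v 32768 (.cut .v 16384 (.cut .v 8192 (.cut .v 4096 (.pos 101 .pm ⟨0, 0, 40418448, 0, 0, 0, 0, 0, 0, ⟨0, 0⟩, 0⟩ 0 0) (.pos 102 .pm ⟨0, 0, 105264138, 0, 0, 0, 0, 0, 0, ⟨0, 0⟩, 0⟩ 0 0)) (.pos 100 .pm ⟨0, 0, 202340476, 0, 0, 0, 0, 0, 0, ⟨0, 0⟩, 0⟩ 0 0)) (.pos 96 .pm ⟨0, 0, 392570895, 0, 0, 0, 0, 0, 0, ⟨0, 0⟩, 0⟩ 0 0)) (.pos 94 .pm ⟨0, 0, 760479887, 0, 0, 0, 0, 0, 0, ⟨0, 0⟩, 0⟩ 0 0)) (.pos 89 .pm ⟨0, 0, 1481782161, 0, 0, 0, 0, 0, 0, ⟨0, 0⟩, 0⟩ 0 0)) (.pos 87 .pm ⟨0, 0, 2891581890, 0, 0, 0,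 0, 0, 0, ⟨0, 0⟩, 0⟩ 0 0)) (.pos 85 .pm ⟨0, 0, 5633578950, 0, 0, 0, 0, 0, 0, ⟨0, 0⟩, 0⟩ 0 0)) (.pos 79 .pm ⟨0, 0, 10922068506, 0, 0, 0, 0, 0, 0, ⟨0, 0⟩, 0⟩ 0 0)) (.pos 65 .pm ⟨0, 0, 20969815799, 0, 0, 0, 0, 0, 0, ⟨0, 0⟩, 0⟩ 0 0)) (.pos 49 .pm ⟨0, 0, 39544205925, 0, 0, 0, 0, 0, 0, ⟨0, 0⟩, 0⟩ 0 0)) (.pos 5 .pm ⟨0, 0, 75304493979, 0, 0, 0, 0, 0, 0, ⟨0, 0⟩, 0⟩ 0 0)) (.pos 3 .pm ⟨0, 0, 150750908393, 0, 0, 0, 0, 0, 0, ⟨0, 0⟩, 0⟩ 0 0)) (.cut .v 4294967296 (.cut .v 268435456 (.cut .v 67108864 (.pos 9 .pp ⟨0, 0, 0, 0, 0, 0, 0, 0, 0, ⟨0, 0⟩, 0⟩ 0 0) (.cut .v 134217728 (.pos 35 .pp ⟨153274937097, 0, 0, 14497222903, 0, 0, 0, 0, 0, ⟨0, 0⟩, 0⟩ 0 0) (.void 36 ⟨0, 0, 0, 100000,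 0, 0, 0, 0, 0, ⟨0, 0⟩, 0⟩ 0 0))) (.void 39 ⟨0, 0, 0, 100000, 0, 0, 0, 0, 0, ⟨0, 0⟩, 0⟩ 0 0)) (.void 92 ⟨0, 0, 0, 100000, 0, 0, 0, 0, 0, ⟨0, 0⟩, 0⟩ 0 0)))),
    by decide +kernel⟩

def covers41 : cell.Covers table row41.1 :=
  ⟨(.cut .d 0 (.cut .v 16777216 (.cut .d (-8388608) (.void 1 ⟨0, 0, 100000, 0, 0, 0, 0, 0, 0, ⟨0, 0⟩, 0⟩ 0 0) (.cut .d (-4194304) (.void 1 ⟨0, 0, 100000, 0, 0, 0, 0, 0, 0, ⟨0, 0⟩, 0⟩ 0 0) (.cut .d (-2097152) (.void 1 ⟨0, 0, 100000, 0, 0, 0, 0, 0, 0, ⟨0, 0⟩, 0⟩ 0 0) (.cut .d (-1048576) (.void 1 ⟨0, 0, 100000, 0, 0, 0, 0, 0, 0, ⟨0, 0⟩, 0⟩ 0 0) (.cut .d (-524288) (.void 1 ⟨0, 0, 100000, 0, 0, 0, 0, 0, 0, ⟨0, 0⟩, 0⟩ 0 0) (.cut .d (-262144)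 (.void 1 ⟨0, 0, 100000, 0, 0, 0, 0, 0, 0, ⟨0, 0⟩, 0⟩ 0 0) (.cut .d (-131072) (.void 1 ⟨0, 0, 0, 0, 0, 100000, 0, 0, 0, ⟨0, 0⟩, 0⟩ 0 0) (.cut .d (-65536) (.void 1 ⟨0, 0, 0, 0, 0, 100000, 0, 0, 0, ⟨0, 0⟩, 0⟩ 0 0) (.cut .d (-32768) (.cut .v 8388608 (.void 2 ⟨0, 0, 0, 0, 0, 1000000000, 0, 0, 0, ⟨0, 0⟩, 0⟩ 0 0) (.cut .s 16736256 (.void 3 ⟨76798, 0, 23202, 0, 0, 0, 0, 0, 0, ⟨0, 0⟩, 0⟩ 0 0) (.void 3 ⟨76798, 0, 23202, 0, 0, 0, 0, 0, 0, ⟨0, 0⟩, 0⟩ 0 0))) (.cut .v 8388608 (.void 2 ⟨0, 0, 100000, 0, 0, 0, 0, 0, 0, ⟨0, 0⟩, 0⟩ 0 0) (.pos 3 .mm ⟨167772160000, 0, 0, 0, 0, 0, 0, 0, 0, ⟨0, 0⟩, 0⟩ 0 0))))))))))) (.cut .v 4294967296 (.cut .v 268435456 (.cut .v 67108864 (.cut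 .d (-8388608) (.cut .s 16736256 (.void 9 ⟨96799, 0, 0, 3309, 0, 0, 0, 0, 0, ⟨0, 0⟩, 0⟩ 0 0) (.void 9 ⟨96772, 0, 0, 3228, 0, 0, 0, 0, 0, ⟨0, 0⟩, 0⟩ 0 0)) (.cut .d (-4194304) (.void 9 ⟨1000000000, 0, 0, 0, 0, 0, 0, 0, 0, ⟨0, 0⟩, 0⟩ 0 0) (.cut .d (-2097152) (.void 9 ⟨1000000000, 0, 0, 0, 0, 0, 0, 0, 0, ⟨0, 0⟩, 0⟩ 0 0) (.cut .d (-1048576) (.void 9 ⟨1000000000, 0, 0, 0, 0, 0, 0, 0, 0, ⟨0, 0⟩, 0⟩ 0 0) (.cut .d (-524288) (.void 9 ⟨1000000000, 0, 0, 0, 0, 0, 0, 0, 0, ⟨0, 0⟩, 0⟩ 0 0) (.cut .d (-262144) (.void 9 ⟨1000000000, 0, 0, 0, 0, 0, 0, 0, 0, ⟨0, 0⟩, 0⟩ 0 0) (.cut .d (-131072) (.void 9 ⟨1000000000, 0, 0, 0, 0, 0, 0, 0, 0, ⟨0, 0⟩, 0⟩ 0 0) (.cut .d (-65536) (.void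 9 ⟨1000000000, 0, 0, 0, 0, 0, 0, 0, 0, ⟨0, 0⟩, 0⟩ 0 0) (.cut .d (-32768) (.void 9 ⟨1000000000, 0, 0, 0, 0, 0, 0, 0, 0, ⟨0, 0⟩, 0⟩ 0 0) (.cut .d (-16384) (.void 9 ⟨100000, 0, 0, 0, 0, 0, 0, 0, 0, ⟨0, 0⟩, 0⟩ 0 0) (.pos 9 .mp ⟨167772160000, 0, 0, 0, 0, 0, 0, 0, 0, ⟨0, 0⟩, 0⟩ 0 0))))))))))) (.cut .d (-8388608) (.cut .s 16736256 (.void 10 ⟨96734, 0, 0, 3266, 0, 0, 0, 0, 0, ⟨0, 0⟩, 0⟩ 0 0) (.void 10 ⟨96565, 0, 0, 3198, 0, 0, 0, 237, 0, ⟨(-1), 10588244⟩, 0⟩ 0 128)) (.cut .d (-4194304) (.void 10 ⟨1000000000, 0, 0, 0, 0, 0, 0, 0, 0, ⟨0, 0⟩, 0⟩ 0 0) (.cut .d (-2097152) (.void 10 ⟨1000000000, 0, 0, 0, 0, 0, 0, 0, 0, ⟨0, 0⟩, 0⟩ 0 0) (.cut .d (-1048576) (.void 10 ⟨1000000000,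 0, 0, 0, 0, 0, 0, 0, 0, ⟨0, 0⟩, 0⟩ 0 0) (.cut .v 134217728 (.cut .d (-524288) (.void 35 ⟨1000000000, 0, 0, 0, 0, 0, 0, 0, 0, ⟨0, 0⟩, 0⟩ 0 0) (.cut .d (-262144) (.void 35 ⟨1000000000, 0, 0, 0, 0, 0, 0, 0, 0, ⟨0, 0⟩, 0⟩ 0 0) (.cut .d (-131072) (.void 35 ⟨1000000000, 0, 0, 0, 0, 0, 0, 0, 0, ⟨0, 0⟩, 0⟩ 0 0) (.cut .d (-65536) (.void 35 ⟨1000000000, 0, 0, 0, 0, 0, 0, 0, 0, ⟨0, 0⟩, 0⟩ 0 0) (.cut .d (-32768) (.void 35 ⟨1000000000, 0, 0, 0, 0, 0, 0, 0, 0, ⟨0, 0⟩, 0⟩ 0 0) (.cut .l 17382394 (.void 35 ⟨100000, 0, 0, 0, 0, 0, 0, 0, 0, ⟨0, 0⟩, 0⟩ 0 0) (.pos 35 .mp ⟨167772160000, 0, 0, 0, 0, 0, 0, 0, 0, ⟨0, 0⟩, 0⟩ 0 0))))))) (.void 36 ⟨1000000000, 0, 0, 0, 0, 0, 0, 0, 0,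 ⟨0, 0⟩, 0⟩ 0 0))))))) (.cut .d (-8388608) (.cut .s 16736256 (.void 39 ⟨91295, 0, 3306, 3505, 0, 0, 0, 1694, 0, ⟨(-1), 10588244⟩, 0⟩ 0 128) (.void 39 ⟨96743, 0, 0, 2009, 0, 0, 0, 3257, 0, ⟨(-1), 10588244⟩, 0⟩ 0 128)) (.void 39 ⟨91724, 0, 0, 8276, 0, 0, 0, 0, 0, ⟨0, 0⟩, 0⟩ 0 0))) (.cut .v 68719476736 (.cut .d (-8388608) (.void 103 ⟨144504, 0, 0, 0, 0, 0, 0, 0, 0, ⟨0, 0⟩, 0⟩ 0 0) (.void 103 ⟨144504, 0, 0, 0, 0, 0, 0, 0, 0, ⟨0, 0⟩, 0⟩ 0 0)) (.void 104 ⟨0, 0, 0, 100000, 0, 0, 0, 0, 0, ⟨0, 0⟩, 0⟩ 0 0)))) (.cut .v 16777216 (.cut .v 8388608 (.cut .v 4194304 (.cut .v 2097152 (.cut .v 1048576 (.cut .v 524288 (.cut .v 262144 (.cut .v 131072 (.cut .v 65536 (.cut .v 32768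 (.cut .v 16384 (.cut .v 8192 (.cut .v 4096 (.pos 101 .pm ⟨0, 0, 79237885, 0, 0, 0, 0, 0, 0, ⟨0, 0⟩, 0⟩ 0 0) (.pos 102 .pm ⟨0, 0, 181851171, 0, 0, 0, 0, 0, 0, ⟨0, 0⟩, 0⟩ 0 0)) (.pos 100 .pm ⟨0, 0, 351281512, 0, 0, 0, 0, 0, 0, ⟨0, 0⟩, 0⟩ 0 0)) (.pos 96 .pm ⟨0, 0, 0, 0, 0, 0, 0, 0, 0, ⟨0, 0⟩, 0⟩ 0 0)) (.pos 94 .pm ⟨0, 0, 0, 0, 0, 0, 0, 0, 0, ⟨0, 0⟩, 0⟩ 0 0)) (.pos 89 .pm ⟨0, 0, 0, 0, 0, 0, 0, 0, 0, ⟨0, 0⟩, 0⟩ 0 0)) (.pos 87 .pm ⟨0, 0, 0, 0, 0, 0, 0, 0, 0, ⟨0, 0⟩, 0⟩ 0 0)) (.pos 85 .pm ⟨0, 0, 0, 0, 0, 0, 0, 0, 0, ⟨0, 0⟩, 0⟩ 0 0)) (.pos 79 .pm ⟨0, 0, 0, 0, 0, 0, 0, 0, 0, ⟨0, 0⟩, 0⟩ 0 0)) (.pos 65 .pm ⟨0, 0, 0, 0, 0, 0, 0, 0, 0, ⟨0, 0⟩, 0⟩ 0 0)) (.pos 49 .pm ⟨0,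 0, 0, 0, 0, 0, 0, 0, 0, ⟨0, 0⟩, 0⟩ 0 0)) (.pos 5 .pm ⟨0, 0, 0, 0, 0, 0, 0, 0, 0, ⟨0, 0⟩, 0⟩ 0 0)) (.pos 3 .pm ⟨0, 0, 167772160000, 0, 0, 0, 0, 0, 0, ⟨0, 0⟩, 0⟩ 0 0)) (.cut .v 4294967296 (.cut .v 268435456 (.cut .d 24649 (.cut .v 67108864 (.pos 9 .pp ⟨0, 0, 0, 0, 0, 0, 0, 0, 0, ⟨0, 0⟩, 0⟩ 0 0) (.cut .v 134217728 (.pos 35 .pp ⟨128137410305, 0, 0, 39634749695, 0, 0, 0, 0, 0, ⟨0, 0⟩, 0⟩ 0 0) (.void 36 ⟨763758482, 0, 0, 236241518, 0, 0, 0, 0, 0, ⟨0, 0⟩, 0⟩ 0 0))) (.cut .v 67108864 (.pos 9 .pp ⟨0, 0, 0, 0, 0, 0, 0, 0, 0, ⟨0, 0⟩, 0⟩ 0 0) (.void 10 ⟨0, 0, 0, 100000, 0, 0, 0, 0, 0, ⟨0, 0⟩, 0⟩ 0 0))) (.void 39 ⟨0, 0, 0, 100000, 0, 0, 0, 0, 0, ⟨0, 0⟩, 0⟩ 0 0)) (.void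 92 ⟨0, 0, 0, 100000, 0, 0, 0, 0, 0, ⟨0, 0⟩, 0⟩ 0 0)))),
    by decide +kernel⟩

def covers42 : cell.Covers table row42.1 :=
  ⟨(.cut .d 0 (.cut .v 16777216 (.cut .d (-8388608) (.void 1 ⟨0, 0, 6417, 0, 0, 93583, 0, 0, 0, ⟨0, 0⟩, 0⟩ 0 0) (.cut .d (-4194304) (.void 1 ⟨0, 0, 4756, 0, 0, 95244, 0, 0, 0, ⟨0, 0⟩, 0⟩ 0 0) (.cut .d (-2097152) (.void 1 ⟨0, 0, 3926, 0, 0, 96074, 0, 0, 0, ⟨0, 0⟩, 0⟩ 0 0) (.cut .d (-1048576) (.void 1 ⟨0, 0, 3511, 0, 0, 96489, 0, 0, 0, ⟨0, 0⟩, 0⟩ 0 0) (.cut .d (-524288) (.void 1 ⟨0, 0, 3303, 0, 0, 96697, 0, 0, 0, ⟨0, 0⟩, 0⟩ 0 0) (.cut .d (-262144) (.void 1 ⟨0, 0, 3200, 0, 0, 96800, 0, 0, 0, ⟨0, 0⟩, 0⟩ 0 0) (.cut .d (-131072) (.void 1 ⟨0,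 0, 3148, 0, 0, 96852, 0, 0, 0, ⟨0, 0⟩, 0⟩ 0 0) (.cut .d (-65536) (.void 1 ⟨0, 0, 0, 0, 0, 100000, 0, 0, 0, ⟨0, 0⟩, 0⟩ 0 0) (.cut .d (-32768) (.void 1 ⟨0, 0, 3109, 0, 0, 96891, 0, 0, 0, ⟨0, 0⟩, 0⟩ 0 0) (.cut .v 8388608 (.void 2 ⟨0, 0, 100000, 0, 0, 0, 0, 0, 0, ⟨0, 0⟩, 0⟩ 0 0) (.cut .d (-16384) (.void 3 ⟨76800, 0, 23200, 0, 0, 0, 0, 0, 0, ⟨0, 0⟩, 0⟩ 0 0) (.pos 3 .mm ⟨167772160000, 0, 0, 0, 0, 0, 0, 0, 0, ⟨0, 0⟩, 0⟩ 0 0)))))))))))) (.cut .v 4294967296 (.cut .v 268435456 (.cut .d (-8388608) (.void 8 ⟨100000, 0, 0, 0, 0, 0, 0, 0, 0, ⟨0, 0⟩, 0⟩ 0 0) (.cut .d (-4194304) (.void 8 ⟨100000, 0, 0, 0, 0, 0, 0, 0, 0, ⟨0, 0⟩, 0⟩ 0 0) (.cut .d (-2097152) (.void 8 ⟨100000,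 0, 0, 0, 0, 0, 0, 0, 0, ⟨0, 0⟩, 0⟩ 0 0) (.cut .d (-1048576) (.void 8 ⟨100000, 0, 0, 0, 0, 0, 0, 0, 0, ⟨0, 0⟩, 0⟩ 0 0) (.cut .d (-524288) (.void 8 ⟨100000, 0, 0, 0, 0, 0, 0, 0, 0, ⟨0, 0⟩, 0⟩ 0 0) (.cut .d (-262144) (.void 8 ⟨100000, 0, 0, 0, 0, 0, 0, 0, 0, ⟨0, 0⟩, 0⟩ 0 0) (.cut .d (-131072) (.void 8 ⟨100000, 0, 0, 0, 0, 0, 0, 0, 0, ⟨0, 0⟩, 0⟩ 0 0) (.cut .d (-65536) (.void 8 ⟨100000, 0, 0, 0, 0, 0, 0, 0, 0, ⟨0, 0⟩, 0⟩ 0 0) (.cut .d (-32768) (.void 8 ⟨100000, 0, 0, 0, 0, 0, 0, 0, 0, ⟨0, 0⟩, 0⟩ 0 0) (.cut .v 67108864 (.cut .d (-16384) (.void 9 ⟨100000, 0, 0, 0, 0, 0, 0, 0, 0, ⟨0, 0⟩, 0⟩ 0 0) (.cut .s 16750592 (.pos 9 .mp ⟨167772160000, 0, 0, 0, 0, 0, 0, 0, 0,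 ⟨0, 0⟩, 0⟩ 0 0) (.cut .d (-8192) (.void 9 ⟨100000, 0, 0, 0, 0, 0, 0, 0, 0, ⟨0, 0⟩, 0⟩ 0 0) (.pos 9 .mp ⟨167772160000, 0, 0, 0, 0, 0, 0, 0, 0, ⟨0, 0⟩, 0⟩ 0 0)))) (.cut .v 134217728 (.cut .d (-16384) (.void 35 ⟨100000, 0, 0, 0, 0, 0, 0, 0, 0, ⟨0, 0⟩, 0⟩ 0 0) (.cut .l 17382394 (.void 35 ⟨100000, 0, 0, 0, 0, 0, 0, 0, 0, ⟨0, 0⟩, 0⟩ 0 0) (.pos 35 .mp ⟨167772160000, 0, 0, 0, 0, 0, 0, 0, 0, ⟨0, 0⟩, 0⟩ 0 0))) (.void 36 ⟨88262, 0, 0, 11738, 0, 0, 0, 0, 0, ⟨0, 0⟩, 0⟩ 0 0)))))))))))) (.void 39 ⟨93757, 0, 0, 6243, 0, 0, 0, 0, 0, ⟨0, 0⟩, 0⟩ 0 0)) (.void 92 ⟨93759, 0, 0, 6241, 0, 0, 0, 0, 0, ⟨0, 0⟩, 0⟩ 0 0))) (.cut .v 16777216 (.cut .v 8388608 (.cut .v 4194304 (.cut .v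 2097152 (.cut .v 1048576 (.cut .v 524288 (.cut .v 262144 (.cut .v 131072 (.cut .v 65536 (.cut .v 32768 (.cut .v 16384 (.cut .v 8192 (.cut .v 4096 (.cut .v 2048 (.cut .v 1024 (.pos 109 .pm ⟨0, 0, 39951851, 0, 0, 0, 0, 0, 0, ⟨0, 0⟩, 0⟩ 0 0) (.pos 110 .pm ⟨0, 0, 105276851, 0, 0, 0, 0, 0, 0, ⟨0, 0⟩, 0⟩ 0 0)) (.pos 108 .pm ⟨0, 0, 187942180, 0, 0, 0, 0, 0, 0, ⟨0, 0⟩, 0⟩ 0 0)) (.pos 102 .pm ⟨0, 0, 354711142, 0, 0, 0, 0, 0, 0, ⟨0, 0⟩, 0⟩ 0 0)) (.pos 100 .pm ⟨0, 0, 694043418, 0, 0, 0, 0, 0, 0, ⟨0, 0⟩, 0⟩ 0 0)) (.pos 96 .pm ⟨0, 0, 1120842071, 0, 0, 0, 0, 0, 0, ⟨0, 0⟩, 0⟩ 0 0)) (.pos 94 .pm ⟨0, 0, 2245789458, 0, 0, 0, 0, 0, 0, ⟨0, 0⟩, 0⟩ 0 0)) (.pos 89 .pm ⟨0, 0, 4495690642,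 0, 0, 0, 0, 0, 0, ⟨0, 0⟩, 0⟩ 0 0)) (.pos 87 .pm ⟨0, 0, 8995518646, 0, 0, 0, 0, 0, 0, ⟨0, 0⟩, 0⟩ 0 0)) (.pos 85 .pm ⟨0, 0, 17995277193, 0, 0, 0, 0, 0, 0, ⟨0, 0⟩, 0⟩ 0 0)) (.pos 79 .pm ⟨0, 0, 35995204449, 0, 0, 0, 0, 0, 0, ⟨0, 0⟩, 0⟩ 0 0)) (.pos 65 .pm ⟨0, 0, 71996699609, 0, 0, 0, 0, 0, 0, ⟨0, 0⟩, 0⟩ 0 0)) (.pos 49 .pm ⟨0, 0, 144006252520, 0, 0, 0, 0, 0, 0, ⟨0, 0⟩, 0⟩ 0 0)) (.pos 5 .pm ⟨0, 0, 167772160000, 0, 0, 0, 0, 0, 0, ⟨0, 0⟩, 0⟩ 0 0)) (.pos 3 .pm ⟨0, 0, 167772160000, 0, 0, 0, 0, 0, 0, ⟨0, 0⟩, 0⟩ 0 0)) (.cut .v 4294967296 (.cut .v 268435456 (.cut .v 67108864 (.pos 9 .pp ⟨0, 0, 0, 0, 0, 0, 0, 0, 0, ⟨0, 0⟩, 0⟩ 0 0) (.cut .v 134217728 (.pos 35 .pp ⟨56502253602,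 0, 0, 111269906398, 0, 0, 0, 0, 0, ⟨0, 0⟩, 0⟩ 0 0) (.void 36 ⟨0, 0, 0, 100000, 0, 0, 0, 0, 0, ⟨0, 0⟩, 0⟩ 0 0))) (.void 39 ⟨0, 0, 0, 100000, 0, 0, 0, 0, 0, ⟨0, 0⟩, 0⟩ 0 0)) (.void 92 ⟨0, 0, 0, 100000, 0, 0, 0, 0, 0, ⟨0, 0⟩, 0⟩ 0 0)))),
    by decide +kernel⟩

def covers43 : cell.Covers table row43.1 :=
  ⟨(.cut .d 0 (.cut .v 16777216 (.cut .d (-8388608) (.void 1 ⟨0, 0, 5769, 0, 0, 94231, 0, 0, 0, ⟨0, 0⟩, 0⟩ 0 0) (.cut .d (-4194304) (.void 1 ⟨0, 0, 100000, 0, 0, 0, 0, 0, 0, ⟨0, 0⟩, 0⟩ 0 0) (.cut .d (-2097152) (.void 1 ⟨0, 0, 3532, 0, 0, 96468, 0, 0, 0, ⟨0, 0⟩, 0⟩ 0 0) (.cut .d (-1048576) (.void 1 ⟨0, 0, 3160, 0, 0, 96840, 0, 0, 0, ⟨0, 0⟩, 0⟩ 0 0) (.cut .d (-524288)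 (.void 1 ⟨0, 0, 2973, 0, 0, 97027, 0, 0, 0, ⟨0, 0⟩, 0⟩ 0 0) (.cut .d (-262144) (.void 1 ⟨0, 0, 2880, 0, 0, 97120, 0, 0, 0, ⟨0, 0⟩, 0⟩ 0 0) (.cut .d (-131072) (.void 1 ⟨0, 0, 0, 0, 0, 100000, 0, 0, 0, ⟨0, 0⟩, 0⟩ 0 0) (.cut .d (-65536) (.void 1 ⟨0, 0, 3175, 0, 0, 96825, 0, 0, 0, ⟨0, 0⟩, 0⟩ 0 0) (.cut .d (-32768) (.void 1 ⟨0, 0, 0, 0, 0, 100000, 0, 0, 0, ⟨0, 0⟩, 0⟩ 0 0) (.cut .d (-16384) (.void 1 ⟨0, 0, 2793, 0, 0, 97207, 0, 0, 0, ⟨0, 0⟩, 0⟩ 0 0) (.cut .v 8388608 (.void 2 ⟨0, 0, 100000, 0, 0, 0, 0, 0, 0, ⟨0, 0⟩, 0⟩ 0 0) (.cut .d (-8192) (.void 3 ⟨76810, 0, 23190, 0, 0, 0, 0, 0, 0, ⟨0, 0⟩, 0⟩ 0 0) (.pos 3 .mm ⟨0, 0, 167772160000, 0, 0, 0, 0, 0, 0, ⟨0, 0⟩, 0⟩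 0 0))))))))))))) (.cut .v 4294967296 (.cut .v 268435456 (.cut .d (-8388608) (.void 8 ⟨100000, 0, 0, 0, 0, 0, 0, 0, 0, ⟨0, 0⟩, 0⟩ 0 0) (.cut .d (-4194304) (.void 8 ⟨98123, 0, 0, 0, 0, 0, 0, 0, 0, ⟨0, 0⟩, 0⟩ 0 0) (.cut .d (-2097152) (.void 8 ⟨100000, 0, 0, 0, 0, 0, 0, 0, 0, ⟨0, 0⟩, 0⟩ 0 0) (.cut .d (-1048576) (.void 8 ⟨100000, 0, 0, 0, 0, 0, 0, 0, 0, ⟨0, 0⟩, 0⟩ 0 0) (.cut .d (-524288) (.void 8 ⟨100000, 0, 0, 0, 0, 0, 0, 0, 0, ⟨0, 0⟩, 0⟩ 0 0) (.cut .d (-262144) (.void 8 ⟨100000, 0, 0, 0, 0, 0, 0, 0, 0, ⟨0, 0⟩, 0⟩ 0 0) (.cut .d (-131072) (.void 8 ⟨100000, 0, 0, 0, 0, 0, 0, 0, 0, ⟨0, 0⟩, 0⟩ 0 0) (.cut .d (-65536) (.void 8 ⟨100000, 0, 0, 0, 0, 0, 0, 0, 0, ⟨0, 0⟩,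 0⟩ 0 0) (.cut .v 67108864 (.cut .d (-32768) (.void 9 ⟨100000, 0, 0, 0, 0, 0, 0, 0, 0, ⟨0, 0⟩, 0⟩ 0 0) (.cut .d (-16384) (.void 9 ⟨100000, 0, 0, 0, 0, 0, 0, 0, 0, ⟨0, 0⟩, 0⟩ 0 0) (.cut .d (-8192) (.void 9 ⟨100000, 0, 0, 0, 0, 0, 0, 0, 0, ⟨0, 0⟩, 0⟩ 0 0) (.pos 9 .mp ⟨167772160000, 0, 0, 0, 0, 0, 0, 0, 0, ⟨0, 0⟩, 0⟩ 0 0)))) (.cut .v 134217728 (.cut .d (-32768) (.void 35 ⟨100000, 0, 0, 0, 0, 0, 0, 0, 0, ⟨0, 0⟩, 0⟩ 0 0) (.cut .d (-16384) (.void 35 ⟨100000, 0, 0, 0, 0, 0, 0, 0, 0, ⟨0, 0⟩, 0⟩ 0 0) (.cut .d (-8192) (.void 35 ⟨100000, 0, 0, 0, 0, 0, 0, 0, 0, ⟨0, 0⟩, 0⟩ 0 0) (.cut .d (-4096) (.void 35 ⟨100000, 0, 0, 0, 0, 0, 0, 0, 0, ⟨0, 0⟩, 0⟩ 0 0) (.pos 35 .mp ⟨167772160000,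 0, 0, 0, 0, 0, 0, 0, 0, ⟨0, 0⟩, 0⟩ 0 0))))) (.void 36 ⟨89008, 0, 0, 10992, 0, 0, 0, 0, 0, ⟨0, 0⟩, 0⟩ 0 0))))))))))) (.void 39 ⟨93758, 0, 0, 6242, 0, 0, 0, 0, 0, ⟨0, 0⟩, 0⟩ 0 0)) (.void 92 ⟨93756, 0, 0, 6244, 0, 0, 0, 0, 0, ⟨0, 0⟩, 0⟩ 0 0))) (.cut .v 16777216 (.cut .v 8388608 (.cut .v 4194304 (.cut .v 2097152 (.cut .v 1048576 (.cut .v 524288 (.cut .v 262144 (.cut .v 131072 (.cut .v 65536 (.cut .v 32768 (.cut .v 16384 (.cut .v 8192 (.cut .v 4096 (.cut .v 2048 (.cut .v 1024 (.pos 109 .pm ⟨0, 0, 56794694, 0, 0, 0, 0, 0, 0, ⟨0, 0⟩, 0⟩ 0 0) (.pos 110 .pm ⟨0, 0, 154192469, 0, 0, 0, 0, 0, 0, ⟨0, 0⟩, 0⟩ 0 0)) (.pos 108 .pm ⟨0, 0, 271688248, 0, 0, 0, 0, 0, 0, ⟨0, 0⟩,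 0⟩ 0 0)) (.pos 102 .pm ⟨0, 0, 497593619, 0, 0, 0, 0, 0, 0, ⟨0, 0⟩, 0⟩ 0 0)) (.pos 100 .pm ⟨0, 0, 958363572, 0, 0, 0, 0, 0, 0, ⟨0, 0⟩, 0⟩ 0 0)) (.pos 96 .pm ⟨0, 0, 1920848825, 0, 0, 0, 0, 0, 0, ⟨0, 0⟩, 0⟩ 0 0)) (.pos 94 .pm ⟨0, 0, 3845820937, 0, 0, 0, 0, 0, 0, ⟨0, 0⟩, 0⟩ 0 0)) (.pos 89 .pm ⟨0, 0, 7695771586, 0, 0, 0, 0, 0, 0, ⟨0, 0⟩, 0⟩ 0 0)) (.pos 87 .pm ⟨0, 0, 15395698581, 0, 0, 0, 0, 0, 0, ⟨0, 0⟩, 0⟩ 0 0)) (.pos 85 .pm ⟨0, 0, 30795655360, 0, 0, 0, 0, 0, 0, ⟨0, 0⟩, 0⟩ 0 0)) (.pos 79 .pm ⟨0, 0, 61595980076, 0, 0, 0, 0, 0, 0, ⟨0, 0⟩, 0⟩ 0 0)) (.pos 65 .pm ⟨0, 0, 123198274138, 0, 0, 0, 0, 0, 0, ⟨0, 0⟩, 0⟩ 0 0)) (.pos 49 .pm ⟨0, 0, 167772160000, 0, 0, 0, 0,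 0, 0, ⟨0, 0⟩, 0⟩ 0 0)) (.pos 5 .pm ⟨0, 0, 167772160000, 0, 0, 0, 0, 0, 0, ⟨0, 0⟩, 0⟩ 0 0)) (.pos 3 .pm ⟨0, 0, 167772160000, 0, 0, 0, 0, 0, 0, ⟨0, 0⟩, 0⟩ 0 0)) (.cut .v 4294967296 (.cut .v 268435456 (.cut .v 67108864 (.pos 9 .pp ⟨0, 0, 0, 0, 0, 0, 0, 0, 0, ⟨0, 0⟩, 0⟩ 0 0) (.cut .v 134217728 (.pos 35 .pp ⟨0, 0, 0, 167772160000, 0, 0, 0, 0, 0, ⟨0, 0⟩, 0⟩ 0 0) (.void 36 ⟨0, 0, 0, 100000, 0, 0, 0, 0, 0, ⟨0, 0⟩, 0⟩ 0 0))) (.void 39 ⟨0, 0, 0, 100000, 0, 0, 0, 0, 0, ⟨0, 0⟩, 0⟩ 0 0)) (.void 92 ⟨0, 0, 0, 100000, 0, 0, 0, 0, 0, ⟨0, 0⟩, 0⟩ 0 0)))),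
    by decide +kernel⟩

def covers44 : cell.Covers table row44.1 :=
  ⟨(.cut .d 0 (.cut .v 16777216 (.cut .d (-8388608) (.void 1 ⟨0, 0, 0, 0, 0, 1000000000, 0, 0, 0, ⟨0, 0⟩, 0⟩ 0 0) (.cut .d (-4194304) (.void 1 ⟨0, 0, 100000, 0, 0, 0, 0, 0, 0, ⟨0, 0⟩, 0⟩ 0 0) (.cut .d (-2097152) (.void 1 ⟨0, 0, 100000, 0, 0, 0, 0, 0, 0, ⟨0, 0⟩, 0⟩ 0 0) (.cut .d (-1048576) (.void 1 ⟨0, 0, 100000, 0, 0, 0, 0, 0, 0, ⟨0, 0⟩, 0⟩ 0 0) (.cut .d (-524288) (.void 1 ⟨0, 0, 100000, 0, 0, 0, 0, 0, 0, ⟨0, 0⟩, 0⟩ 0 0) (.cut .d (-262144) (.void 1 ⟨0, 0, 100000, 0, 0, 0, 0, 0, 0, ⟨0, 0⟩, 0⟩ 0 0) (.cut .d (-131072) (.void 1 ⟨0, 0, 100000, 0, 0, 0, 0, 0, 0, ⟨0, 0⟩, 0⟩ 0 0) (.cut .d (-65536)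 (.void 1 ⟨0, 0, 100000, 0, 0, 0, 0, 0, 0, ⟨0, 0⟩, 0⟩ 0 0) (.cut .d (-32768) (.void 1 ⟨0, 0, 100000, 0, 0, 0, 0, 0, 0, ⟨0, 0⟩, 0⟩ 0 0) (.cut .d (-16384) (.void 1 ⟨0, 0, 100000, 0, 0, 0, 0, 0, 0, ⟨0, 0⟩, 0⟩ 0 0) (.cut .v 8388608 (.void 2 ⟨0, 0, 100000, 0, 0, 0, 0, 0, 0, ⟨0, 0⟩, 0⟩ 0 0) (.cut .d (-8192) (.void 3 ⟨1000000000, 0, 0, 0, 0, 0, 0, 0, 0, ⟨0, 0⟩, 0⟩ 0 0) (.pos 3 .mm ⟨167772160000, 0, 0, 0, 0, 0, 0, 0, 0, ⟨0, 0⟩, 0⟩ 0 0))))))))))))) (.cut .v 4294967296 (.cut .d (-8388608) (.void 38 ⟨1000000000, 0, 0, 0, 0, 0, 0, 0, 0, ⟨0, 0⟩, 0⟩ 0 0) (.cut .v 268435456 (.cut .d (-4194304) (.void 8 ⟨1000000000, 0, 0, 0, 0, 0, 0, 0, 0, ⟨0, 0⟩, 0⟩ 0 0) (.cut .d (-2097152)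 (.void 8 ⟨1000000000, 0, 0, 0, 0, 0, 0, 0, 0, ⟨0, 0⟩, 0⟩ 0 0) (.cut .d (-1048576) (.void 8 ⟨1000000000, 0, 0, 0, 0, 0, 0, 0, 0, ⟨0, 0⟩, 0⟩ 0 0) (.cut .d (-524288) (.void 8 ⟨1000000000, 0, 0, 0, 0, 0, 0, 0, 0, ⟨0, 0⟩, 0⟩ 0 0) (.cut .d (-262144) (.void 8 ⟨1000000000, 0, 0, 0, 0, 0, 0, 0, 0, ⟨0, 0⟩, 0⟩ 0 0) (.cut .d (-131072) (.void 8 ⟨1000000000, 0, 0, 0, 0, 0, 0, 0, 0, ⟨0, 0⟩, 0⟩ 0 0) (.cut .d (-65536) (.void 8 ⟨1000000000, 0, 0, 0, 0, 0, 0, 0, 0, ⟨0, 0⟩, 0⟩ 0 0) (.cut .d (-32768) (.void 8 ⟨1000000000, 0, 0, 0, 0, 0, 0, 0, 0, ⟨0, 0⟩, 0⟩ 0 0) (.cut .d (-16384) (.void 8 ⟨1000000000, 0, 0, 0, 0, 0, 0, 0, 0, ⟨0, 0⟩, 0⟩ 0 0) (.cut .d (-8192) (.void 8 ⟨1000000000,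 0, 0, 0, 0, 0, 0, 0, 0, ⟨0, 0⟩, 0⟩ 0 0) (.cut .d (-4096) (.void 8 ⟨100000, 0, 0, 0, 0, 0, 0, 0, 0, ⟨0, 0⟩, 0⟩ 0 0) (.cut .v 67108864 (.pos 9 .mp ⟨167772160000, 0, 0, 0, 0, 0, 0, 0, 0, ⟨0, 0⟩, 0⟩ 0 0) (.cut .v 134217728 (.pos 35 .mp ⟨167772160000, 0, 0, 0, 0, 0, 0, 0, 0, ⟨0, 0⟩, 0⟩ 0 0) (.void 36 ⟨1000000000, 0, 0, 0, 0, 0, 0, 0, 0, ⟨0, 0⟩, 0⟩ 0 0)))))))))))))) (.void 39 ⟨1000000000, 0, 0, 0, 0, 0, 0, 0, 0, ⟨0, 0⟩, 0⟩ 0 0))) (.void 92 ⟨1000000000, 0, 0, 0, 0, 0, 0, 0, 0, ⟨0, 0⟩, 0⟩ 0 0))) (.cut .v 16777216 (.cut .v 8388608 (.cut .v 4194304 (.cut .v 2097152 (.cut .v 1048576 (.cut .v 524288 (.cut .v 262144 (.cut .v 131072 (.cut .v 65536 (.cut .v 32768 (.cut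 .v 16384 (.cut .v 8192 (.cut .v 4096 (.cut .v 2048 (.cut .v 1024 (.pos 109 .pm ⟨0, 0, 59613495, 0, 0, 0, 0, 0, 0, ⟨0, 0⟩, 0⟩ 0 0) (.pos 110 .pm ⟨0, 0, 271296803, 0, 0, 0, 0, 0, 0, ⟨0, 0⟩, 0⟩ 0 0)) (.pos 108 .pm ⟨0, 0, 546727741, 0, 0, 0, 0, 0, 0, ⟨0, 0⟩, 0⟩ 0 0)) (.pos 102 .pm ⟨0, 0, 1097589642, 0, 0, 0, 0, 0, 0, ⟨0, 0⟩, 0⟩ 0 0)) (.pos 100 .pm ⟨0, 0, 2199313544, 0, 0, 0, 0, 0, 0, ⟨0, 0⟩, 0⟩ 0 0)) (.pos 96 .pm ⟨0, 0, 4402761751, 0, 0, 0, 0, 0, 0, ⟨0, 0⟩, 0⟩ 0 0)) (.pos 94 .pm ⟨0, 0, 8809659777, 0, 0, 0, 0, 0, 0, ⟨0, 0⟩, 0⟩ 0 0)) (.pos 89 .pm ⟨0, 0, 17623462274, 0, 0, 0, 0, 0, 0, ⟨0, 0⟩, 0⟩ 0 0)) (.pos 87 .pm ⟨0, 0, 35251093047, 0, 0, 0, 0, 0, 0, ⟨0, 0⟩, 0⟩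 0 0)) (.pos 85 .pm ⟨0, 0, 70506457715, 0, 0, 0, 0, 0, 0, ⟨0, 0⟩, 0⟩ 0 0)) (.pos 79 .pm ⟨0, 0, 141017599538, 0, 0, 0, 0, 0, 0, ⟨0, 0⟩, 0⟩ 0 0)) (.pos 65 .pm ⟨0, 0, 167772160000, 0, 0, 0, 0, 0, 0, ⟨0, 0⟩, 0⟩ 0 0)) (.pos 49 .pm ⟨0, 0, 167772160000, 0, 0, 0, 0, 0, 0, ⟨0, 0⟩, 0⟩ 0 0)) (.pos 5 .pm ⟨0, 0, 167772160000, 0, 0, 0, 0, 0, 0, ⟨0, 0⟩, 0⟩ 0 0)) (.pos 3 .pm ⟨0, 0, 167772160000, 0, 0, 0, 0, 0, 0, ⟨0, 0⟩, 0⟩ 0 0)) (.cut .v 4294967296 (.cut .v 268435456 (.cut .v 67108864 (.pos 9 .pp ⟨0, 0, 0, 0, 0, 0, 0, 0, 0, ⟨0, 0⟩, 0⟩ 0 0) (.cut .v 134217728 (.pos 35 .pp ⟨89736839786, 0, 0, 78035320214, 0, 0, 0, 0, 0, ⟨0, 0⟩, 0⟩ 0 0) (.void 36 ⟨0, 0, 0, 100000, 0, 0, 0,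 0, 0, ⟨0, 0⟩, 0⟩ 0 0))) (.void 39 ⟨0, 0, 0, 100000, 0, 0, 0, 0, 0, ⟨0, 0⟩, 0⟩ 0 0)) (.void 92 ⟨0, 0, 0, 100000, 0, 0, 0, 0, 0, ⟨0, 0⟩, 0⟩ 0 0)))),
    by decide +kernel⟩

def covers45 : cell.Covers table row45.1 :=
  ⟨(.cut .d 0 (.cut .v 16777216 (.cut .d (-8388608) (.void 1 ⟨0, 0, 100000, 0, 0, 0, 0, 0, 0, ⟨0, 0⟩, 0⟩ 0 0) (.cut .d (-4194304) (.void 1 ⟨0, 0, 0, 0, 0, 100000, 0, 0, 0, ⟨0, 0⟩, 0⟩ 0 0) (.cut .d (-2097152) (.void 1 ⟨0, 0, 0, 0, 0, 1000000000, 0, 0, 0, ⟨0, 0⟩, 0⟩ 0 0) (.cut .d (-1048576) (.void 1 ⟨0, 0, 0, 0, 0, 1000000000, 0, 0, 0, ⟨0, 0⟩, 0⟩ 0 0) (.cut .d (-524288) (.cut .s 16771072 (.void 1 ⟨0, 0, 0, 0, 0, 100000, 0, 0, 0, ⟨0, 0⟩, 0⟩ 0 0) (.void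 1 ⟨0, 0, 100000, 0, 0, 0, 0, 0, 0, ⟨0, 0⟩, 0⟩ 0 0)) (.cut .d (-262144) (.cut .s 16771072 (.void 1 ⟨0, 0, 0, 0, 0, 100000, 0, 0, 0, ⟨0, 0⟩, 0⟩ 0 0) (.void 1 ⟨0, 0, 100000, 0, 0, 0, 0, 0, 0, ⟨0, 0⟩, 0⟩ 0 0)) (.cut .d (-131072) (.void 1 ⟨0, 0, 0, 0, 0, 1000000000, 0, 0, 0, ⟨0, 0⟩, 0⟩ 0 0) (.cut .d (-65536) (.void 1 ⟨0, 0, 0, 0, 0, 1000000000, 0, 0, 0, ⟨0, 0⟩, 0⟩ 0 0) (.cut .d (-32768) (.void 1 ⟨0, 0, 0, 0, 0, 1000000000, 0, 0, 0, ⟨0, 0⟩, 0⟩ 0 0) (.cut .d (-16384) (.void 1 ⟨0, 0, 0, 0, 0, 1000000000, 0, 0, 0, ⟨0, 0⟩, 0⟩ 0 0) (.cut .d (-8192) (.void 1 ⟨0, 0, 1000000000, 0, 0, 0, 0, 0, 0, ⟨0, 0⟩, 0⟩ 0 0) (.cut .v 8388608 (.void 2 ⟨0, 0, 1000000000, 0, 0, 0, 0,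 0, 0, ⟨0, 0⟩, 0⟩ 0 0) (.cut .d (-4096) (.void 3 ⟨1000000000, 0, 0, 0, 0, 0, 0, 0, 0, ⟨0, 0⟩, 0⟩ 0 0) (.pos 3 .mm ⟨167772160000, 0, 0, 0, 0, 0, 0, 0, 0, ⟨0, 0⟩, 0⟩ 0 0)))))))))))))) (.cut .v 4294967296 (.cut .d (-8388608) (.void 38 ⟨96830, 0, 0, 3170, 0, 0, 0, 0, 0, ⟨0, 0⟩, 0⟩ 0 0) (.cut .v 268435456 (.cut .d (-4194304) (.void 8 ⟨1000000000, 0, 0, 0, 0, 0, 0, 0, 0, ⟨0, 0⟩, 0⟩ 0 0) (.cut .d (-2097152) (.void 8 ⟨1000000000, 0, 0, 0, 0, 0, 0, 0, 0, ⟨0, 0⟩, 0⟩ 0 0) (.cut .d (-1048576) (.void 8 ⟨1000000000, 0, 0, 0, 0, 0, 0, 0, 0, ⟨0, 0⟩, 0⟩ 0 0) (.cut .d (-524288) (.void 8 ⟨1000000000, 0, 0, 0, 0, 0, 0, 0, 0, ⟨0, 0⟩, 0⟩ 0 0) (.cut .d (-262144) (.void 8 ⟨1000000000,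 0, 0, 0, 0, 0, 0, 0, 0, ⟨0, 0⟩, 0⟩ 0 0) (.cut .d (-131072) (.void 8 ⟨1000000000, 0, 0, 0, 0, 0, 0, 0, 0, ⟨0, 0⟩, 0⟩ 0 0) (.cut .d (-65536) (.void 8 ⟨1000000000, 0, 0, 0, 0, 0, 0, 0, 0, ⟨0, 0⟩, 0⟩ 0 0) (.cut .d (-32768) (.void 8 ⟨1000000000, 0, 0, 0, 0, 0, 0, 0, 0, ⟨0, 0⟩, 0⟩ 0 0) (.cut .d (-16384) (.void 8 ⟨1000000000, 0, 0, 0, 0, 0, 0, 0, 0, ⟨0, 0⟩, 0⟩ 0 0) (.cut .d (-8192) (.void 8 ⟨1000000000, 0, 0, 0, 0, 0, 0, 0, 0, ⟨0, 0⟩, 0⟩ 0 0) (.cut .d (-4096) (.void 8 ⟨1000000000, 0, 0, 0, 0, 0, 0, 0, 0, ⟨0, 0⟩, 0⟩ 0 0) (.cut .v 67108864 (.pos 9 .mp ⟨167772160000, 0, 0, 0, 0, 0, 0, 0, 0, ⟨0, 0⟩, 0⟩ 0 0) (.cut .v 134217728 (.cut .d (-2048) (.void 35 ⟨100000, 0, 0,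 0, 0, 0, 0, 0, 0, ⟨0, 0⟩, 0⟩ 0 0) (.pos 35 .mp ⟨167772160000, 0, 0, 0, 0, 0, 0, 0, 0, ⟨0, 0⟩, 0⟩ 0 0)) (.void 36 ⟨1000000000, 0, 0, 0, 0, 0, 0, 0, 0, ⟨0, 0⟩, 0⟩ 0 0)))))))))))))) (.void 39 ⟨1000000000, 0, 0, 0, 0, 0, 0, 0, 0, ⟨0, 0⟩, 0⟩ 0 0))) (.void 92 ⟨1000000000, 0, 0, 0, 0, 0, 0, 0, 0, ⟨0, 0⟩, 0⟩ 0 0))) (.cut .v 16777216 (.cut .v 8388608 (.cut .v 4194304 (.cut .v 2097152 (.cut .v 1048576 (.cut .v 524288 (.cut .d 4099 (.cut .d 2049 (.pos 78 .pm ⟨0, 0, 167772160000, 0, 0, 0, 0, 0, 0, ⟨0, 0⟩, 0⟩ 0 0) (.pos 78 .pm ⟨0, 0, 0, 276109, 0, 0, 0, 0, 0, ⟨0, 0⟩, 0⟩ 0 0)) (.pos 78 .pm ⟨0, 0, 0, 3542377, 0, 0, 0, 0, 0, ⟨0, 0⟩, 0⟩ 0 0)) (.pos 79 .pm ⟨0, 0, 167772160000,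 0, 0, 0, 0, 0, 0, ⟨0, 0⟩, 0⟩ 0 0)) (.pos 65 .pm ⟨0, 0, 167772160000, 0, 0, 0, 0, 0, 0, ⟨0, 0⟩, 0⟩ 0 0)) (.pos 49 .pm ⟨0, 0, 167772160000, 0, 0, 0, 0, 0, 0, ⟨0, 0⟩, 0⟩ 0 0)) (.pos 5 .pm ⟨0, 0, 167772160000, 0, 0, 0, 0, 0, 0, ⟨0, 0⟩, 0⟩ 0 0)) (.pos 3 .pm ⟨0, 0, 167772160000, 0, 0, 0, 0, 0, 0, ⟨0, 0⟩, 0⟩ 0 0)) (.cut .v 4294967296 (.cut .v 268435456 (.cut .v 67108864 (.pos 9 .pp ⟨0, 0, 0, 0, 0, 0, 0, 0, 0, ⟨0, 0⟩, 0⟩ 0 0) (.cut .s 16771072 (.pos 10 .pp ⟨0, 0, 0, 167772160000, 0, 0, 0, 0, 0, ⟨0, 0⟩, 0⟩ 0 0) (.cut .v 134217728 (.pos 35 .pp ⟨167772160000, 0, 0, 0, 0, 0, 0, 0, 0, ⟨0, 0⟩, 0⟩ 0 0) (.void 36 ⟨0, 0, 0, 100000, 0, 0, 0, 0, 0, ⟨0, 0⟩, 0⟩ 0 0)))) (.void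 39 ⟨0, 0, 0, 100000, 0, 0, 0, 0, 0, ⟨0, 0⟩, 0⟩ 0 0)) (.void 92 ⟨0, 0, 0, 100000, 0, 0, 0, 0, 0, ⟨0, 0⟩, 0⟩ 0 0)))),
    by decide +kernel⟩

end Vale.Agent.P237.Petty.Cor.Grid.N14.High
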