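import Vale.Agent.P237.Petty.Cor.Grid.N14.LowCert

/-!
# P237: a cell in dimension 14, subdivisions
-/

namespace Vale.Agent.P237.Petty.Cor.Grid.N14.Low

def covers0 : cell.Covers table row0.1 :=
  ⟨(.cut .d 0 (.cut .v 16777216 (.cut .v 8388608 (.cut .v 4194304 (.cut .v 2097152 (.void 6 ⟨0, 0, 100000, 0, 0, 0, 0, 0, 0, ⟨0, 0⟩, 0⟩ 0 0) (.pos 7 .mm ⟨0, 0, 0, 0, 3668113, 0, 0, 0, 0, ⟨0, 0⟩, 0⟩ 0 0)) (.pos 5 .mm ⟨0, 0, 0, 0, 0, 34938, 0, 0, 0, ⟨0, 0⟩, 0⟩ 0 0)) (.cut .d (-8388608) (.cut .v 12582912 (.pos 8 .mm ⟨0, 0, 0, 0, 0, 0, 0, 0, 0, ⟨0, 0⟩, 0⟩ 0 0) (.pos 9 .mm ⟨0, 0, 0, 0, 0, 0, 0, 0, 0, ⟨0, 0⟩, 0⟩ 0 0)) (.cut .v 12582912 (.cut .d (-4194304) (.pos 8 .mm ⟨0,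 0, 0, 0, 0, 0, 0, 0, 0, ⟨0, 0⟩, 0⟩ 0 0) (.pos 8 .mm ⟨0, 0, 0, 0, 927711, 0, 0, 0, 0, ⟨0, 0⟩, 0⟩ 0 0)) (.cut .d (-4194304) (.cut .v 14680064 (.pos 12 .mm ⟨0, 0, 0, 0, 0, 0, 0, 0, 0, ⟨0, 0⟩, 0⟩ 0 0) (.pos 13 .mm ⟨0, 0, 0, 0, 0, 0, 0, 0, 0, ⟨0, 0⟩, 0⟩ 0 0)) (.cut .d (-2097152) (.cut .v 14680064 (.cut .d (-3145728) (.pos 12 .mm ⟨0, 0, 0, 0, 0, 0, 0, 0, 0, ⟨0, 0⟩, 0⟩ 0 0) (.pos 12 .mm ⟨0, 0, 0, 0, 0, 0, 0, 0, 0, ⟨0, 0⟩, 0⟩ 0 0)) (.cut .v 15728640 (.pos 16 .mm ⟨0, 0, 0, 0, 0, 0, 0, 0, 0, ⟨0, 0⟩, 0⟩ 0 0) (.pos 17 .mm ⟨0, 0, 0, 0, 0, 0, 0, 0, 0, ⟨0, 0⟩, 0⟩ 0 0))) (.cut .v 14680064 (.pos 12 .mm ⟨0, 0, 0, 0, 2258050, 128778, 0, 0, 0, ⟨0, 0⟩, 0⟩ 0 0) (.cut .d (-1048576)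 (.cut .v 15728640 (.cut .d (-1572864) (.pos 16 .mm ⟨0, 0, 0, 0, 0, 0, 0, 0, 0, ⟨0, 0⟩, 0⟩ 0 0) (.pos 16 .mm ⟨0, 0, 0, 0, 0, 0, 0, 0, 0, ⟨0, 0⟩, 0⟩ 0 0)) (.pos 17 .mm ⟨0, 0, 0, 0, 0, 0, 0, 0, 0, ⟨0, 0⟩, 0⟩ 0 0)) (.cut .v 15728640 (.pos 16 .mm ⟨0, 0, 0, 0, 0, 0, 0, 0, 0, ⟨0, 0⟩, 0⟩ 0 0) (.cut .d (-524288) (.cut .v 16252928 (.pos 20 .mm ⟨0, 0, 0, 0, 0, 49999, 0, 0, 0, ⟨0, 0⟩, 0⟩ 0 0) (.pos 21 .mm ⟨0, 0, 0, 0, 0, 0, 0, 0, 0, ⟨0, 0⟩, 0⟩ 0 0)) (.cut .v 16252928 (.pos 20 .mm ⟨0, 0, 0, 0, 0, 0, 0, 0, 0, ⟨0, 0⟩, 0⟩ 0 0) (.cut .d (-262144) (.pos 21 .mm ⟨0, 0, 0, 0, 0, 0, 0, 0, 0, ⟨0, 0⟩, 0⟩ 0 0) (.cut .d (-131072) (.pos 21 .mm ⟨0, 0, 0, 0, 0, 0, 0, 0, 0, ⟨0, 0⟩, 0⟩ 0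 0) (.pos 21 .mm ⟨0, 0, 0, 0, 0, 0, 0, 0, 0, ⟨0, 0⟩, 0⟩ 0 0))))))))))))) (.cut .v 25165824 (.cut .v 20971520 (.cut .v 18874368 (.cut .v 17825792 (.pos 31 .mp ⟨0, 0, 0, 0, 0, 36458, 140703, 0, 0, ⟨0, 0⟩, 0⟩ 0 0) (.pos 32 .mp ⟨2214042, 0, 0, 0, 0, 0, 0, 0, 0, ⟨0, 0⟩, 0⟩ 0 0)) (.void 30 ⟨100000, 0, 0, 0, 0, 0, 0, 0, 0, ⟨0, 0⟩, 0⟩ 0 0)) (.void 28 ⟨0, 0, 0, 0, 0, 0, 100000, 0, 0, ⟨0, 0⟩, 0⟩ 0 0)) (.void 26 ⟨0, 0, 0, 0, 0, 0, 100000, 0, 0, ⟨0, 0⟩, 0⟩ 0 0))) (.cut .v 16777216 (.cut .v 8388608 (.cut .v 4194304 (.pos 4 .pm ⟨0, 0, 37322008, 0, 0, 0, 0, 0, 0, ⟨0, 0⟩, 0⟩ 0 0) (.pos 5 .pm ⟨0, 0, 0, 0, 1621368, 0, 0, 0, 0, ⟨0, 0⟩, 0⟩ 0 0)) (.cut .s 851968 (.pos 3 .pm ⟨0,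 0, 0, 0, 0, 0, 0, 349811, 0, ⟨(-1), 16652970⟩, 0⟩ 0 15) (.cut .s 1277952 (.pos 3 .pm ⟨0, 0, 0, 0, 37574, 0, 0, 515070, 0, ⟨21335, 16263566⟩, 0⟩ 13 22) (.cut .d 1073945 (.cut .d 536972 (.cut .d 268486 (.cut .s 1490944 (.pos 3 .pm ⟨0, 0, 0, 0, 240823, 0, 0, 0, 0, ⟨0, 0⟩, 0⟩ 0 0) (.cut .d 134243 (.cut .d 67121 (.cut .d 33560 (.cut .v 12582912 (.void 8 ⟨0, 0, 0, 0, 100000, 0, 0, 0, 0, ⟨0, 0⟩, 0⟩ 0 0) (.cut .v 14680064 (.void 12 ⟨0, 0, 0, 0, 100000, 0, 0, 0, 0, ⟨0, 0⟩, 0⟩ 0 0) (.cut .v 15728640 (.void 16 ⟨0, 0, 0, 0, 100000, 0, 0, 0, 0, ⟨0, 0⟩, 0⟩ 0 0) (.pos 17 .pm ⟨0, 0, 0, 0, 0, 0, 0, 0, 0, ⟨0, 0⟩, 0⟩ 0 0)))) (.pos 3 .pm ⟨0, 0, 0, 0, 119568, 0, 0, 0, 0, ⟨0, 0⟩,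 0⟩ 0 0)) (.pos 3 .pm ⟨0, 0, 0, 0, 0, 0, 0, 0, 0, ⟨0, 0⟩, 0⟩ 0 0)) (.pos 3 .pm ⟨0, 0, 0, 0, 0, 0, 0, 0, 0, ⟨0, 0⟩, 0⟩ 0 0))) (.pos 3 .pm ⟨0, 0, 0, 0, 0, 0, 0, 0, 0, ⟨0, 0⟩, 0⟩ 0 0)) (.pos 3 .pm ⟨0, 0, 0, 0, 0, 0, 0, 2394565, 0, ⟨56527, 15833856⟩, 0⟩ 20 28)) (.void 3 ⟨0, 0, 0, 0, 100000, 0, 0, 0, 0, ⟨0, 0⟩, 0⟩ 0 0))))) (.cut .v 25165824 (.cut .v 20971520 (.cut .v 18874368 (.cut .d 1073945 (.cut .v 17825792 (.cut .d 536972 (.cut .v 17301504 (.cut .l 910763 (.cut .l 587202 (.cut .d 268486 (.cut .v 17039360 (.pos 35 .pp ⟨0, 0, 0, 0, 0, 0, 0, 0, 0, ⟨0, 0⟩, 0⟩ 0 0) (.pos 36 .pp ⟨521342, 0, 0, 0, 0, 0, 0, 0, 0, ⟨0, 0⟩, 0⟩ 0 0)) (.cut .v 17039360 (.pos 35 .pp ⟨0, 0,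 0, 0, 0, 0, 0, 369024, 0, ⟨(-1), 16380046⟩, 0⟩ 0 27) (.cut .s 851968 (.pos 36 .pp ⟨1463283, 0, 0, 0, 0, 0, 74679, 0, 0, ⟨0, 0⟩, 0⟩ 0 0) (.pos 36 .pp ⟨859962, 0, 0, 0, 0, 0, 0, 695925, 0, ⟨29741, 16098048⟩, 0⟩ 13 27)))) (.pos 33 .pp ⟨0, 0, 0, 0, 0, 0, 0, 0, 0, ⟨0, 0⟩, 0⟩ 0 0)) (.pos 33 .pp ⟨0, 0, 0, 0, 0, 0, 0, 0, 0, ⟨0, 0⟩, 0⟩ 0 0)) (.pos 34 .pp ⟨1718280, 0, 0, 0, 0, 0, 0, 0, 0, ⟨0, 0⟩, 0⟩ 0 0)) (.cut .v 17301504 (.pos 33 .pp ⟨1176046, 0, 0, 0, 0, 0, 0, 683495, 46111, ⟨(-1), 16350683⟩, 16906779⟩ 0 28) (.pos 34 .pp ⟨1744362, 0, 0, 0, 0, 0, 0, 0, 0, ⟨0, 0⟩, 0⟩ 0 0))) (.pos 32 .pp ⟨2063656, 0, 0, 0, 0, 0, 0, 0, 0, ⟨0, 0⟩, 0⟩ 0 0)) (.cut .v 17825792 (.pos 31 .pp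 ⟨1803073, 0, 0, 0, 0, 0, 0, 0, 0, ⟨0, 0⟩, 0⟩ 0 0) (.cut .l 910763 (.pos 32 .pp ⟨5012987, 0, 0, 0, 0, 0, 0, 1392961, 0, ⟨(-1), 16289015⟩, 0⟩ 0 30) (.cut .d 1610918 (.cut .v 18350080 (.pos 39 .pp ⟨2098851, 0, 0, 0, 0, 0, 0, 0, 0, ⟨0, 0⟩, 0⟩ 0 0) (.pos 40 .pp ⟨3051892, 0, 0, 0, 0, 0, 0, 0, 0, ⟨0, 0⟩, 0⟩ 0 0)) (.cut .d 1879404 (.cut .s 851968 (.pos 32 .pp ⟨4238339, 0, 0, 0, 0, 0, 0, 0, 0, ⟨0, 0⟩, 0⟩ 0 0) (.pos 32 .pp ⟨2715397, 0, 0, 0, 0, 0, 0, 1320364, 0, ⟨36851, 15995016⟩, 0⟩ 14 29)) (.pos 32 .pp ⟨4322684, 0, 0, 0, 0, 0, 0, 2436609, 0, ⟨(-1), 16289015⟩, 0⟩ 0 30)))))) (.void 30 ⟨81793, 0, 0, 0, 0, 0, 0, 18207, 0, ⟨(-1), 16289015⟩, 0⟩ 0 30)) (.void 28 ⟨0, 0, 0,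 0, 0, 0, 100000, 0, 0, ⟨0, 0⟩, 0⟩ 0 0)) (.void 26 ⟨0, 0, 0, 0, 0, 0, 100000, 0, 0, ⟨0, 0⟩, 0⟩ 0 0)))),
    by decide +kernel⟩

def covers1 : cell.Covers table row1.1 :=
  ⟨(.cut .d 0 (.cut .v 16777216 (.cut .v 8388608 (.void 2 ⟨0, 0, 0, 0, 50000, 50000, 0, 0, 0, ⟨0, 0⟩, 0⟩ 0 0) (.cut .d (-8388608) (.void 3 ⟨0, 0, 0, 0, 0, 100000, 0, 0, 0, ⟨0, 0⟩, 0⟩ 0 0) (.cut .d (-4194304) (.void 3 ⟨0, 0, 0, 0, 0, 100000, 0, 0, 0, ⟨0, 0⟩, 0⟩ 0 0) (.cut .v 12582912 (.pos 8 .mm ⟨0, 0, 0, 0, 9824984, 6524820, 0, 0, 0, ⟨0, 0⟩, 0⟩ 0 0) (.cut .d (-2097152) (.cut .v 14680064 (.pos 12 .mm ⟨0, 0, 0, 0, 0, 806485, 0, 0, 0, ⟨0, 0⟩, 0⟩ 0 0) (.pos 13 .mm ⟨0, 0, 0, 0, 0, 887133, 0, 0, 0,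 ⟨0, 0⟩, 0⟩ 0 0)) (.cut .v 14680064 (.pos 12 .mm ⟨0, 0, 0, 0, 0, 237611, 0, 0, 0, ⟨0, 0⟩, 0⟩ 0 0) (.cut .d (-1048576) (.cut .v 15728640 (.pos 16 .mm ⟨0, 0, 0, 0, 0, 887133, 0, 0, 0, ⟨0, 0⟩, 0⟩ 0 0) (.pos 17 .mm ⟨0, 0, 0, 0, 0, 927457, 0, 0, 0, ⟨0, 0⟩, 0⟩ 0 0)) (.cut .v 15728640 (.cut .d (-524288) (.pos 16 .mm ⟨0, 0, 0, 0, 0, 508334, 0, 0, 0, ⟨0, 0⟩, 0⟩ 0 0) (.pos 16 .mm ⟨0, 0, 0, 0, 0, 254584, 0, 0, 0, ⟨0, 0⟩, 0⟩ 0 0)) (.cut .d (-524288) (.cut .v 16252928 (.pos 20 .mm ⟨0, 0, 0, 0, 0, 450083, 0, 0, 0, ⟨0, 0⟩, 0⟩ 0 0) (.pos 21 .mm ⟨0, 0, 0, 0, 0, 0, 0, 0, 0, ⟨0, 0⟩, 0⟩ 0 0)) (.cut .v 16252928 (.cut .d (-262144) (.pos 20 .mm ⟨0, 0, 0, 0, 0, 67389, 0, 0, 0, ⟨0,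 0⟩, 0⟩ 0 0) (.pos 20 .mm ⟨0, 0, 0, 0, 0, 0, 0, 0, 0, ⟨0, 0⟩, 0⟩ 0 0)) (.cut .d (-262144) (.pos 21 .mm ⟨0, 0, 0, 0, 0, 0, 0, 0, 0, ⟨0, 0⟩, 0⟩ 0 0) (.cut .v 16515072 (.pos 22 .mm ⟨0, 0, 0, 0, 0, 0, 0, 0, 0, ⟨0, 0⟩, 0⟩ 0 0) (.pos 23 .mm ⟨0, 0, 0, 0, 0, 0, 0, 0, 0, ⟨0, 0⟩, 0⟩ 0 0))))))))))))) (.cut .v 25165824 (.cut .v 20971520 (.cut .v 18874368 (.pos 29 .mp ⟨173499, 0, 0, 0, 0, 0, 0, 0, 0, ⟨0, 0⟩, 0⟩ 0 0) (.void 30 ⟨100000, 0, 0, 0, 0, 0, 0, 0, 0, ⟨0, 0⟩, 0⟩ 0 0)) (.void 28 ⟨100000, 0, 0, 0, 0, 0, 0, 0, 0, ⟨0, 0⟩, 0⟩ 0 0)) (.void 26 ⟨0, 0, 0, 0, 0, 0, 100000, 0, 0, ⟨0, 0⟩, 0⟩ 0 0))) (.cut .v 16777216 (.cut .v 8388608 (.void 2 ⟨0, 0, 0, 0, 100000, 0, 0, 0, 0, ⟨0,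 0⟩, 0⟩ 0 0) (.cut .v 12582912 (.void 8 ⟨0, 0, 0, 0, 100000, 0, 0, 0, 0, ⟨0, 0⟩, 0⟩ 0 0) (.cut .d 1655774 (.cut .v 14680064 (.pos 12 .pm ⟨0, 0, 0, 0, 0, 0, 0, 0, 309890, ⟨0, 0⟩, 15100357⟩ 0 0) (.cut .d 827887 (.cut .v 15728640 (.pos 16 .pm ⟨0, 0, 0, 0, 0, 0, 0, 0, 0, ⟨0, 0⟩, 0⟩ 0 0) (.cut .d 413943 (.cut .v 16252928 (.pos 20 .pm ⟨0, 0, 0, 0, 0, 0, 0, 0, 0, ⟨0, 0⟩, 0⟩ 0 0) (.cut .d 206971 (.cut .s 2359296 (.pos 21 .pm ⟨0, 0, 0, 0, 0, 0, 0, 0, 0, ⟨0, 0⟩, 0⟩ 0 0) (.cut .v 16515072 (.pos 22 .pm ⟨0, 0, 0, 0, 0, 0, 0, 0, 0, ⟨0, 0⟩, 0⟩ 0 0) (.cut .d 103485 (.pos 23 .pm ⟨0, 0, 0, 0, 0, 0, 0, 0, 0, ⟨0, 0⟩, 0⟩ 0 0) (.pos 23 .pm ⟨0, 0, 0, 0, 0, 0, 0, 0, 0, ⟨0, 0⟩, 0⟩ 0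 0)))) (.pos 21 .pm ⟨0, 0, 0, 0, 0, 0, 0, 0, 0, ⟨0, 0⟩, 0⟩ 0 0))) (.pos 17 .pm ⟨0, 0, 0, 0, 0, 0, 0, 323211, 0, ⟨191635, 14521533⟩, 0⟩ 26 49))) (.pos 13 .pm ⟨0, 0, 0, 0, 0, 0, 0, 323211, 0, ⟨214057, 14350453⟩, 0⟩ 27 51))) (.void 9 ⟨0, 0, 0, 0, 0, 0, 0, 0, 100000, ⟨0, 0⟩, 15612959⟩ 0 0)))) (.cut .v 25165824 (.cut .v 20971520 (.cut .d 1655774 (.cut .v 18874368 (.cut .d 827887 (.cut .v 17825792 (.cut .d 413943 (.cut .v 17301504 (.cut .l 910763 (.cut .l 587202 (.cut .d 206971 (.cut .v 17039360 (.pos 35 .pp ⟨0, 0, 0, 0, 0, 0, 0, 0, 0, ⟨0, 0⟩, 0⟩ 0 0) (.pos 36 .pp ⟨0, 0, 0, 0, 0, 0, 0, 0, 0, ⟨0, 0⟩, 0⟩ 0 0)) (.cut .v 17039360 (.pos 35 .pp ⟨0, 0, 0, 0, 0, 0, 0, 0,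 0, ⟨0, 0⟩, 0⟩ 0 0) (.pos 36 .pp ⟨230653, 0, 0, 0, 0, 0, 0, 322241, 0, ⟨185669, 14580282⟩, 0⟩ 26 48))) (.pos 33 .pp ⟨0, 0, 0, 0, 0, 0, 0, 0, 0, ⟨0, 0⟩, 0⟩ 0 0)) (.pos 33 .pp ⟨0, 0, 0, 0, 0, 0, 0, 0, 0, ⟨0, 0⟩, 0⟩ 0 0)) (.pos 34 .pp ⟨616251, 0, 0, 0, 0, 0, 0, 0, 0, ⟨0, 0⟩, 0⟩ 0 0)) (.cut .v 17301504 (.cut .s 2359296 (.pos 33 .pp ⟨0, 0, 0, 0, 0, 0, 0, 1226491, 0, ⟨129879, 15129600⟩, 0⟩ 26 38) (.pos 33 .pp ⟨0, 0, 0, 0, 0, 0, 0, 328149, 0, ⟨296008, 13976241⟩, 0⟩ 36 49)) (.cut .s 2359296 (.pos 34 .pp ⟨936698, 0, 0, 0, 0, 0, 0, 202687, 0, ⟨129879, 15129600⟩, 0⟩ 26 38) (.pos 34 .pp ⟨214934, 0, 0, 0, 0, 0, 0, 173185, 0, ⟨296008, 13976241⟩, 0⟩ 36 49)))) (.pos 32 .pp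 ⟨892685, 0, 0, 0, 0, 0, 0, 0, 0, ⟨0, 0⟩, 0⟩ 0 0)) (.cut .v 17825792 (.cut .d 1241830 (.cut .s 2359296 (.pos 31 .pp ⟨0, 0, 0, 0, 0, 0, 0, 1414983, 0, ⟨142283, 15030976⟩, 0⟩ 27 39) (.pos 31 .pp ⟨0, 0, 0, 0, 0, 0, 0, 414750, 0, ⟨316370, 13854385⟩, 0⟩ 37 50)) (.pos 31 .pp ⟨0, 0, 0, 0, 0, 0, 0, 950807, 0, ⟨214057, 14350453⟩, 0⟩ 27 51)) (.cut .d 1241830 (.cut .s 2359296 (.pos 32 .pp ⟨1427548, 0, 0, 0, 0, 0, 0, 0, 0, ⟨0, 0⟩, 0⟩ 0 0) (.pos 32 .pp ⟨0, 0, 0, 0, 0, 0, 0, 724219, 0, ⟨316370, 13854385⟩, 0⟩ 37 50)) (.cut .s 2359296 (.pos 32 .pp ⟨689010, 0, 0, 0, 0, 0, 0, 1382265, 0, ⟨147851, 14978185⟩, 0⟩ 27 40) (.pos 32 .pp ⟨0, 0, 0, 0, 0, 0, 0, 909417, 0, ⟨337540, 13730619⟩,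 0⟩ 38 51))))) (.pos 30 .pp ⟨1794913, 0, 0, 0, 0, 0, 0, 0, 0, ⟨0, 0⟩, 0⟩ 0 0)) (.cut .d 2483661 (.cut .l 910763 (.void 27 ⟨0, 0, 0, 0, 0, 0, 0, 100000, 0, ⟨237995, 14174720⟩, 0⟩ 28 53) (.cut .v 18874368 (.cut .d 2069717 (.cut .v 17825792 (.pos 31 .pp ⟨0, 0, 0, 0, 0, 0, 0, 343411, 0, ⟨231223, 14236629⟩, 0⟩ 28 52) (.cut .s 2359296 (.cut .s 2031616 (.pos 32 .pp ⟨441135, 0, 0, 0, 0, 0, 0, 4625748, 0, ⟨127163, 15188041⟩, 0⟩ 28 35) (.pos 32 .pp ⟨0, 0, 0, 0, 0, 0, 0, 3665536, 0, ⟨210902, 14566217⟩, 0⟩ 34 41)) (.pos 32 .pp ⟨0, 0, 0, 0, 0, 0, 0, 1464734, 0, ⟨359519, 13605021⟩, 0⟩ 39 52))) (.pos 29 .pp ⟨938068, 0, 0, 0, 0, 0, 0, 1345555, 0, ⟨249173, 14120725⟩, 0⟩ 29 53))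 (.cut .v 19922944 (.cut .l 1234324 (.void 47 ⟨41057, 0, 0, 0, 0, 0, 0, 58943, 0, ⟨237995, 14174720⟩, 0⟩ 28 53) (.cut .s 2359296 (.cut .d 2069717 (.pos 47 .pp ⟨2601998, 0, 0, 0, 0, 0, 0, 2904099, 0, ⟨161300, 14875923⟩, 0⟩ 28 41) (.void 47 ⟨0, 0, 0, 0, 0, 0, 0, 100000, 0, ⟨175478, 14771278⟩, 0⟩ 29 42)) (.cut .d 2069717 (.cut .s 2686976 (.pos 47 .pp ⟨1249706, 0, 0, 0, 0, 0, 0, 2855945, 0, ⟨310924, 13924000⟩, 0⟩ 39 47) (.pos 47 .pp ⟨621898, 0, 0, 0, 0, 0, 0, 2339165, 0, ⟨436548, 13225801⟩, 0⟩ 45 52)) (.void 47 ⟨0, 0, 0, 0, 0, 0, 0, 100000, 0, ⟨382310, 13477651⟩, 0⟩ 40 53)))) (.void 48 ⟨67667, 0, 0, 0, 0, 0, 0, 32333, 0, ⟨237995, 14174720⟩, 0⟩ 28 53)))) (.void 27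 ⟨0, 0, 0, 0, 0, 0, 0, 100000, 0, ⟨270708, 13930628⟩, 0⟩ 29 56))) (.void 28 ⟨0, 0, 0, 0, 0, 0, 100000, 0, 0, ⟨0, 0⟩, 0⟩ 0 0)) (.void 26 ⟨0, 0, 0, 0, 0, 0, 100000, 0, 0, ⟨0, 0⟩, 0⟩ 0 0)))),
    by decide +kernel⟩

def covers2 : cell.Covers table row2.1 :=
  ⟨(.cut .d 0 (.cut .v 16777216 (.cut .v 8388608 (.void 2 ⟨0, 0, 0, 0, 50000, 50000, 0, 0, 0, ⟨0, 0⟩, 0⟩ 0 0) (.cut .v 12582912 (.pos 8 .mm ⟨0, 0, 0, 0, 0, 15559637, 0, 0, 0, ⟨0, 0⟩, 0⟩ 0 0) (.cut .d (-8388608) (.void 9 ⟨0, 0, 0, 0, 0, 100000, 0, 0, 0, ⟨0, 0⟩, 0⟩ 0 0) (.cut .d (-4194304) (.void 9 ⟨0, 0, 0, 0, 0, 100000, 0, 0, 0, ⟨0, 0⟩, 0⟩ 0 0) (.cut .d (-2097152) (.void 9 ⟨0, 0, 0, 0, 0, 100000, 0, 0, 0, ⟨0,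 0⟩, 0⟩ 0 0) (.cut .v 14680064 (.pos 12 .mm ⟨0, 0, 0, 0, 0, 241454, 0, 0, 0, ⟨0, 0⟩, 0⟩ 0 0) (.cut .d (-1048576) (.cut .v 15728640 (.pos 16 .mm ⟨0, 0, 0, 0, 0, 252951, 0, 0, 0, ⟨0, 0⟩, 0⟩ 0 0) (.pos 17 .mm ⟨0, 0, 0, 0, 0, 258700, 0, 0, 0, ⟨0, 0⟩, 0⟩ 0 0)) (.cut .v 15728640 (.cut .d (-524288) (.pos 16 .mm ⟨0, 0, 0, 0, 0, 258700, 0, 0, 0, ⟨0, 0⟩, 0⟩ 0 0) (.pos 16 .mm ⟨0, 0, 0, 0, 0, 225436, 0, 0, 0, ⟨0, 0⟩, 0⟩ 0 0)) (.cut .d (-524288) (.cut .v 16252928 (.pos 20 .mm ⟨0, 0, 0, 0, 0, 264449, 0, 0, 0, ⟨0, 0⟩, 0⟩ 0 0) (.pos 21 .mm ⟨0, 0, 0, 0, 0, 267324, 0, 0, 0, ⟨0, 0⟩, 0⟩ 0 0)) (.cut .v 16252928 (.cut .d (-262144) (.pos 20 .mm ⟨0, 0, 0, 0, 0, 251802, 0, 0, 0, ⟨0,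 0⟩, 0⟩ 0 0) (.pos 20 .mm ⟨0, 0, 0, 0, 0, 0, 0, 0, 0, ⟨0, 0⟩, 0⟩ 0 0)) (.cut .d (-262144) (.pos 21 .mm ⟨0, 0, 0, 0, 0, 0, 0, 0, 0, ⟨0, 0⟩, 0⟩ 0 0) (.cut .v 16515072 (.pos 22 .mm ⟨0, 0, 0, 0, 0, 0, 0, 0, 0, ⟨0, 0⟩, 0⟩ 0 0) (.pos 23 .mm ⟨0, 0, 0, 0, 0, 0, 0, 0, 0, ⟨0, 0⟩, 0⟩ 0 0))))))))))))) (.cut .v 25165824 (.cut .v 20971520 (.pos 27 .mp ⟨140622, 0, 0, 0, 0, 0, 0, 0, 0, ⟨0, 0⟩, 0⟩ 0 0) (.void 28 ⟨100000, 0, 0, 0, 0, 0, 0, 0, 0, ⟨0, 0⟩, 0⟩ 0 0)) (.void 26 ⟨100000, 0, 0, 0, 0, 0, 0, 0, 0, ⟨0, 0⟩, 0⟩ 0 0))) (.cut .v 16777216 (.cut .v 8388608 (.void 2 ⟨0, 0, 0, 0, 100000, 0, 0, 0, 0, ⟨0, 0⟩, 0⟩ 0 0) (.cut .v 12582912 (.void 8 ⟨0, 0, 0, 0, 100000, 0, 0, 0, 0, ⟨0,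 0⟩, 0⟩ 0 0) (.cut .d 2183223 (.cut .v 14680064 (.pos 12 .pm ⟨0, 0, 0, 0, 0, 0, 0, 0, 0, ⟨0, 0⟩, 0⟩ 0 0) (.cut .d 1091611 (.cut .d 545805 (.cut .v 15728640 (.pos 16 .pm ⟨0, 0, 0, 0, 0, 0, 0, 0, 0, ⟨0, 0⟩, 0⟩ 0 0) (.cut .v 16252928 (.pos 20 .pm ⟨0, 0, 0, 0, 0, 0, 0, 0, 0, ⟨0, 0⟩, 0⟩ 0 0) (.cut .d 272902 (.cut .v 16515072 (.pos 22 .pm ⟨0, 0, 0, 0, 0, 0, 0, 0, 0, ⟨0, 0⟩, 0⟩ 0 0) (.cut .d 136451 (.pos 23 .pm ⟨0, 0, 0, 0, 0, 0, 0, 0, 0, ⟨0, 0⟩, 0⟩ 0 0) (.pos 23 .pm ⟨0, 0, 0, 0, 0, 0, 0, 0, 0, ⟨0, 0⟩, 0⟩ 0 0))) (.pos 21 .pm ⟨0, 0, 0, 0, 0, 0, 0, 0, 0, ⟨0, 0⟩, 0⟩ 0 0)))) (.pos 13 .pm ⟨0, 0, 0, 0, 0, 0, 0, 221258, 0, ⟨590945, 12398779⟩, 0⟩ 47 62)) (.pos 13 .pm ⟨0, 0,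 0, 0, 0, 0, 0, 221258, 0, ⟨661816, 12040832⟩, 0⟩ 48 66))) (.void 9 ⟨0, 0, 0, 0, 0, 0, 0, 0, 100000, ⟨0, 0⟩, 15612959⟩ 0 0)))) (.cut .v 25165824 (.cut .v 20971520 (.cut .d 2183223 (.cut .v 18874368 (.cut .d 1091611 (.cut .v 17825792 (.cut .d 545805 (.cut .v 17301504 (.cut .d 272902 (.pos 33 .pp ⟨0, 0, 0, 0, 0, 0, 0, 0, 0, ⟨0, 0⟩, 0⟩ 0 0) (.cut .d 409353 (.cut .v 17039360 (.pos 35 .pp ⟨0, 0, 0, 0, 0, 0, 0, 60140, 0, ⟨548932, 12608877⟩, 0⟩ 46 60) (.pos 36 .pp ⟨0, 0, 0, 0, 0, 0, 0, 237664, 0, ⟨548932, 12608877⟩, 0⟩ 46 60)) (.pos 33 .pp ⟨0, 0, 0, 0, 0, 0, 0, 126991, 0, ⟨564812, 12541124⟩, 0⟩ 47 60))) (.pos 34 .pp ⟨0, 0, 0, 0, 0, 0, 0, 280207, 0, ⟨548932, 12608877⟩,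 0⟩ 46 60)) (.cut .v 17301504 (.pos 33 .pp ⟨0, 0, 0, 0, 0, 0, 0, 221385, 0, ⟨590945, 12398779⟩, 0⟩ 47 62) (.pos 34 .pp ⟨0, 0, 0, 0, 0, 0, 0, 278348, 0, ⟨590945, 12398779⟩, 0⟩ 47 62))) (.pos 32 .pp ⟨256064, 0, 0, 0, 0, 0, 0, 134010, 0, ⟨574433, 12466960⟩, 0⟩ 46 62)) (.cut .v 17825792 (.pos 31 .pp ⟨0, 0, 0, 0, 0, 0, 0, 228232, 0, ⟨661816, 12040832⟩, 0⟩ 48 66) (.cut .d 1637417 (.pos 32 .pp ⟨0, 0, 0, 0, 0, 0, 0, 355814, 0, ⟨634585, 12186064⟩, 0⟩ 48 64) (.pos 32 .pp ⟨0, 0, 0, 0, 0, 0, 0, 369499, 0, ⟨697967, 11900608⟩, 0⟩ 50 66)))) (.cut .d 1091611 (.pos 30 .pp ⟨444038, 0, 0, 0, 0, 0, 0, 0, 0, ⟨0, 0⟩, 0⟩ 0 0) (.cut .v 19922944 (.cut .d 1637417 (.pos 47 .pp ⟨0, 0,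 0, 0, 0, 0, 0, 369499, 0, ⟨634585, 12186064⟩, 0⟩ 48 64) (.pos 47 .pp ⟨0, 0, 0, 0, 0, 0, 0, 1167225, 0, ⟨697967, 11900608⟩, 0⟩ 50 66)) (.pos 48 .pp ⟨5071144, 0, 0, 0, 0, 0, 0, 717964, 0, ⟨661816, 12040832⟩, 0⟩ 48 66)))) (.cut .v 18874368 (.pos 29 .pp ⟨0, 0, 0, 0, 0, 0, 0, 1974082, 0, ⟨834469, 11236229⟩, 0⟩ 51 74) (.cut .s 3407872 (.void 30 ⟨0, 0, 0, 0, 0, 0, 0, 100000, 0, ⟨716206, 11829862⟩, 0⟩ 51 66) (.pos 30 .pp ⟨0, 0, 0, 0, 0, 0, 0, 8906687, 0, ⟨982637, 10723648⟩, 0⟩ 58 74)))) (.void 28 ⟨57433, 0, 0, 0, 0, 0, 0, 42567, 0, ⟨731690, 11591789⟩, 0⟩ 46 74)) (.void 26 ⟨0, 0, 0, 0, 0, 0, 100000, 0, 0, ⟨0, 0⟩, 0⟩ 0 0)))),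
    by decide +kernel⟩

def covers3 : cell.Covers table row3.1 :=
  ⟨(.cut .d 0 (.cut .v 16777216 (.cut .v 8388608 (.void 2 ⟨0, 0, 0, 0, 50000, 50000, 0, 0, 0, ⟨0, 0⟩, 0⟩ 0 0) (.cut .v 12582912 (.pos 8 .mm ⟨0, 0, 0, 0, 0, 10657032, 0, 0, 0, ⟨0, 0⟩, 0⟩ 0 0) (.cut .d (-8388608) (.void 9 ⟨0, 0, 0, 0, 0, 100000, 0, 0, 0, ⟨0, 0⟩, 0⟩ 0 0) (.cut .d (-4194304) (.void 9 ⟨0, 0, 0, 0, 0, 100000, 0, 0, 0, ⟨0, 0⟩, 0⟩ 0 0) (.cut .d (-2097152) (.void 9 ⟨0, 0, 0, 0, 0, 100000, 0, 0, 0, ⟨0, 0⟩, 0⟩ 0 0) (.cut .v 14680064 (.pos 12 .mm ⟨0, 0, 0, 0, 0, 222385, 0, 0, 0, ⟨0, 0⟩, 0⟩ 0 0) (.cut .d (-1048576) (.pos 13 .mm ⟨0, 0, 0, 0, 0, 232975, 0, 0, 0, ⟨0, 0⟩, 0⟩ 0 0) (.cut .v 15728640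 (.pos 16 .mm ⟨0, 0, 0, 0, 0, 211052, 0, 0, 0, ⟨0, 0⟩, 0⟩ 0 0) (.cut .d (-524288) (.pos 17 .mm ⟨0, 0, 0, 0, 0, 243565, 0, 0, 0, ⟨0, 0⟩, 0⟩ 0 0) (.cut .v 16252928 (.pos 20 .mm ⟨0, 0, 0, 0, 0, 171723, 0, 0, 0, ⟨0, 0⟩, 0⟩ 0 0) (.pos 21 .mm ⟨0, 0, 0, 0, 0, 0, 0, 0, 0, ⟨0, 0⟩, 0⟩ 0 0))))))))))) (.cut .v 25165824 (.cut .v 20971520 (.pos 27 .mp ⟨0, 0, 0, 0, 0, 0, 0, 0, 0, ⟨0, 0⟩, 0⟩ 0 0) (.void 28 ⟨100000, 0, 0, 0, 0, 0, 0, 0, 0, ⟨0, 0⟩, 0⟩ 0 0)) (.void 26 ⟨100000, 0, 0, 0, 0, 0, 0, 0, 0, ⟨0, 0⟩, 0⟩ 0 0))) (.cut .v 16777216 (.cut .v 8388608 (.void 2 ⟨0, 0, 0, 0, 100000, 0, 0, 0, 0, ⟨0, 0⟩, 0⟩ 0 0) (.cut .d 2848389 (.cut .v 12582912 (.pos 8 .pm ⟨0, 0, 0, 0, 0, 0, 0,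 0, 178235, ⟨0, 0⟩, 13128881⟩ 0 0) (.cut .d 1424194 (.cut .v 14680064 (.pos 12 .pm ⟨0, 0, 0, 0, 0, 0, 0, 0, 0, ⟨0, 0⟩, 0⟩ 0 0) (.cut .d 712097 (.cut .v 15728640 (.pos 16 .pm ⟨0, 0, 0, 0, 0, 0, 0, 0, 0, ⟨0, 0⟩, 0⟩ 0 0) (.cut .v 16252928 (.pos 20 .pm ⟨0, 0, 0, 0, 0, 0, 0, 0, 0, ⟨0, 0⟩, 0⟩ 0 0) (.cut .d 356048 (.cut .d 178024 (.cut .v 16515072 (.pos 22 .pm ⟨0, 0, 0, 0, 0, 0, 0, 0, 0, ⟨0, 0⟩, 0⟩ 0 0) (.pos 23 .pm ⟨0, 0, 0, 0, 0, 0, 0, 0, 0, ⟨0, 0⟩, 0⟩ 0 0)) (.cut .l 910763 (.cut .v 16515072 (.cut .s 4161536 (.pos 22 .pm ⟨0, 0, 0, 0, 0, 0, 0, 0, 0, ⟨0, 0⟩, 0⟩ 0 0) (.pos 22 .pm ⟨0, 0, 0, 0, 0, 0, 0, 0, 0, ⟨0, 0⟩, 0⟩ 0 0)) (.cut .s 4161536 (.cut .s 3981312 (.pos 23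 .pm ⟨0, 0, 0, 0, 0, 0, 0, 0, 0, ⟨0, 0⟩, 0⟩ 0 0) (.pos 23 .pm ⟨0, 0, 0, 0, 0, 0, 0, 0, 0, ⟨0, 0⟩, 0⟩ 0 0)) (.pos 23 .pm ⟨0, 0, 0, 0, 0, 0, 0, 0, 0, ⟨0, 0⟩, 0⟩ 0 0))) (.pos 21 .pm ⟨0, 0, 0, 0, 0, 0, 0, 0, 0, ⟨0, 0⟩, 0⟩ 0 0))) (.cut .s 4161536 (.pos 21 .pm ⟨0, 0, 0, 0, 0, 0, 0, 0, 0, ⟨0, 0⟩, 0⟩ 0 0) (.cut .v 16515072 (.pos 22 .pm ⟨0, 0, 0, 0, 0, 0, 0, 0, 0, ⟨0, 0⟩, 0⟩ 0 0) (.pos 23 .pm ⟨0, 0, 0, 0, 0, 0, 0, 23118, 0, ⟨1074573, 10426112⟩, 0⟩ 64 72)))))) (.pos 13 .pm ⟨0, 0, 0, 0, 0, 0, 0, 130384, 0, ⟨1043446, 10498952⟩, 0⟩ 60 75))) (.pos 9 .pm ⟨0, 0, 0, 0, 0, 0, 0, 130384, 0, ⟨1197716, 9893402⟩, 0⟩ 62 81))) (.void 3 ⟨0, 0, 0, 0, 0, 0, 0, 0, 100000, ⟨0, 0⟩, 14107901⟩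 0 0))) (.cut .v 25165824 (.cut .d 2848389 (.cut .v 20971520 (.cut .d 1424194 (.cut .v 18874368 (.cut .v 17825792 (.cut .d 712097 (.cut .d 356048 (.pos 31 .pp ⟨0, 0, 0, 0, 0, 0, 0, 0, 0, ⟨0, 0⟩, 0⟩ 0 0) (.cut .v 17301504 (.cut .d 534072 (.cut .s 4161536 (.pos 33 .pp ⟨0, 0, 0, 0, 0, 0, 0, 175977, 0, ⟨865553, 11250578⟩, 0⟩ 59 66) (.pos 33 .pp ⟨0, 0, 0, 0, 0, 0, 0, 172173, 0, ⟨1074573, 10426112⟩, 0⟩ 64 72)) (.pos 33 .pp ⟨0, 0, 0, 0, 0, 0, 0, 131742, 0, ⟨969309, 10800384⟩, 0⟩ 59 72)) (.pos 34 .pp ⟨0, 0, 0, 0, 0, 0, 0, 134458, 0, ⟨969309, 10800384⟩, 0⟩ 59 72))) (.cut .v 17301504 (.pos 33 .pp ⟨0, 0, 0, 0, 0, 0, 0, 131742, 0, ⟨1043446, 10498952⟩, 0⟩ 60 75) (.pos 34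 .pp ⟨0, 0, 0, 0, 0, 0, 0, 135817, 0, ⟨1043446, 10498952⟩, 0⟩ 60 75))) (.cut .d 712097 (.pos 32 .pp ⟨346255, 0, 0, 0, 0, 0, 0, 0, 0, ⟨0, 0⟩, 0⟩ 0 0) (.pos 32 .pp ⟨0, 0, 0, 0, 0, 0, 0, 198169, 0, ⟨1043446, 10498952⟩, 0⟩ 60 75))) (.pos 30 .pp ⟨0, 0, 0, 0, 0, 0, 0, 248880, 0, ⟨999765, 10648048⟩, 0⟩ 58 75)) (.cut .v 18874368 (.pos 29 .pp ⟨0, 0, 0, 0, 0, 0, 0, 135817, 0, ⟨1197716, 9893402⟩, 0⟩ 62 81) (.cut .d 2136291 (.pos 30 .pp ⟨0, 0, 0, 0, 0, 0, 0, 258098, 0, ⟨1142546, 10121200⟩, 0⟩ 62 78) (.pos 30 .pp ⟨0, 0, 0, 0, 0, 0, 0, 3291959, 0, ⟨1269485, 9666576⟩, 0⟩ 65 81)))) (.pos 28 .pp ⟨2121955, 0, 0, 0, 0, 0, 0, 8502992, 0, ⟨1102712, 10193664⟩, 0⟩ 58 81)) (.void 25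 ⟨0, 0, 0, 0, 0, 0, 0, 100000, 0, ⟨1553628, 8612608⟩, 0⟩ 67 93)) (.void 26 ⟨0, 0, 0, 0, 0, 0, 100000, 0, 0, ⟨0, 0⟩, 0⟩ 0 0)))),
    by decide +kernel⟩

def covers4 : cell.Covers table row4.1 :=
  ⟨(.cut .d 0 (.cut .v 16777216 (.cut .v 8388608 (.void 2 ⟨0, 0, 0, 0, 50000, 50000, 0, 0, 0, ⟨0, 0⟩, 0⟩ 0 0) (.cut .v 12582912 (.pos 8 .mm ⟨0, 0, 0, 0, 0, 7718696, 0, 0, 0, ⟨0, 0⟩, 0⟩ 0 0) (.cut .d (-8388608) (.void 9 ⟨0, 0, 0, 0, 0, 100000, 0, 0, 0, ⟨0, 0⟩, 0⟩ 0 0) (.cut .v 14680064 (.pos 12 .mm ⟨0, 0, 0, 0, 0, 4342814, 0, 0, 0, ⟨0, 0⟩, 0⟩ 0 0) (.cut .d (-4194304) (.void 13 ⟨0, 0, 0, 0, 0, 100000, 0, 0, 0, ⟨0, 0⟩, 0⟩ 0 0) (.cut .d (-2097152) (.void 13 ⟨0, 0, 0, 0, 0,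 100000, 0, 0, 0, ⟨0, 0⟩, 0⟩ 0 0) (.cut .d (-1048576) (.void 13 ⟨0, 0, 0, 0, 0, 100000, 0, 0, 0, ⟨0, 0⟩, 0⟩ 0 0) (.cut .v 15728640 (.cut .d (-524288) (.pos 16 .mm ⟨0, 0, 0, 0, 0, 331787, 0, 0, 0, ⟨0, 0⟩, 0⟩ 0 0) (.pos 16 .mm ⟨0, 0, 0, 0, 0, 216776, 0, 0, 0, ⟨0, 0⟩, 0⟩ 0 0)) (.cut .d (-524288) (.pos 17 .mm ⟨0, 0, 0, 0, 0, 339160, 0, 0, 0, ⟨0, 0⟩, 0⟩ 0 0) (.cut .v 16252928 (.cut .d (-262144) (.pos 20 .mm ⟨0, 0, 0, 0, 0, 246876, 0, 0, 0, ⟨0, 0⟩, 0⟩ 0 0) (.pos 20 .mm ⟨0, 0, 0, 0, 0, 130916, 0, 0, 0, ⟨0, 0⟩, 0⟩ 0 0)) (.cut .s 4882432 (.pos 21 .mm ⟨0, 0, 0, 0, 0, 0, 0, 0, 0, ⟨0, 0⟩, 0⟩ 0 0) (.pos 21 .mm ⟨0, 0, 0, 0, 0, 197234, 0, 0, 0, ⟨0, 0⟩, 0⟩ 0 0)))))))))))) (.cut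 .v 25165824 (.cut .v 20971520 (.pos 27 .mp ⟨0, 0, 0, 0, 0, 0, 0, 0, 0, ⟨0, 0⟩, 0⟩ 0 0) (.void 28 ⟨100000, 0, 0, 0, 0, 0, 0, 0, 0, ⟨0, 0⟩, 0⟩ 0 0)) (.void 26 ⟨100000, 0, 0, 0, 0, 0, 0, 0, 0, ⟨0, 0⟩, 0⟩ 0 0))) (.cut .v 16777216 (.cut .v 8388608 (.void 2 ⟨0, 0, 0, 0, 100000, 0, 0, 0, 0, ⟨0, 0⟩, 0⟩ 0 0) (.cut .d 3718300 (.cut .v 12582912 (.pos 8 .pm ⟨0, 0, 0, 0, 0, 0, 0, 0, 0, ⟨0, 0⟩, 0⟩ 0 0) (.cut .d 1859150 (.cut .v 14680064 (.pos 12 .pm ⟨0, 0, 0, 0, 0, 0, 0, 0, 0, ⟨0, 0⟩, 0⟩ 0 0) (.cut .d 929575 (.cut .v 15728640 (.pos 16 .pm ⟨0, 0, 0, 0, 0, 0, 0, 0, 0, ⟨0, 0⟩, 0⟩ 0 0) (.cut .d 464787 (.cut .v 16252928 (.cut .s 4882432 (.pos 20 .pm ⟨0, 0, 0, 0, 0, 0, 0, 0, 0,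 ⟨0, 0⟩, 0⟩ 0 0) (.pos 20 .pm ⟨0, 0, 0, 0, 0, 0, 0, 0, 0, ⟨0, 0⟩, 0⟩ 0 0)) (.cut .d 232393 (.cut .v 16515072 (.cut .s 4882432 (.pos 22 .pm ⟨0, 0, 0, 0, 0, 0, 0, 0, 0, ⟨0, 0⟩, 0⟩ 0 0) (.pos 22 .pm ⟨0, 0, 0, 0, 0, 0, 0, 0, 0, ⟨0, 0⟩, 0⟩ 0 0)) (.pos 23 .pm ⟨0, 0, 0, 0, 0, 0, 0, 0, 0, ⟨0, 0⟩, 0⟩ 0 0)) (.cut .s 4882432 (.cut .v 16515072 (.pos 22 .pm ⟨0, 0, 0, 0, 0, 0, 0, 0, 0, ⟨0, 0⟩, 0⟩ 0 0) (.pos 23 .pm ⟨0, 0, 0, 0, 0, 0, 0, 0, 0, ⟨0, 0⟩, 0⟩ 0 0)) (.pos 21 .pm ⟨0, 0, 0, 0, 0, 0, 0, 0, 0, ⟨0, 0⟩, 0⟩ 0 0)))) (.cut .s 4882432 (.pos 17 .pm ⟨0, 0, 0, 0, 0, 0, 0, 134621, 0, ⟨1348120, 9438691⟩, 0⟩ 70 79) (.pos 17 .pm ⟨0, 0, 0, 0, 0, 0, 0, 135213, 0, ⟨1623729, 8528355⟩,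 0⟩ 76 85)))) (.pos 13 .pm ⟨0, 0, 0, 0, 0, 0, 0, 77683, 0, ⟨1607381, 8531681⟩, 0⟩ 72 89))) (.pos 9 .pm ⟨0, 0, 0, 0, 0, 0, 0, 77683, 0, ⟨1908126, 7570385⟩, 0⟩ 76 98))) (.void 3 ⟨0, 0, 0, 0, 0, 0, 0, 0, 100000, ⟨0, 0⟩, 14107901⟩ 0 0))) (.cut .v 25165824 (.cut .d 3718300 (.cut .v 20971520 (.cut .d 1859150 (.cut .v 18874368 (.cut .d 929575 (.cut .d 464787 (.pos 29 .pp ⟨0, 0, 0, 0, 0, 0, 0, 87565, 0, ⟨1406490, 9211099⟩, 0⟩ 69 83) (.cut .v 17825792 (.cut .d 697181 (.pos 31 .pp ⟨0, 0, 0, 0, 0, 0, 0, 95002, 0, ⟨1451838, 9059382⟩, 0⟩ 70 84) (.pos 31 .pp ⟨0, 0, 0, 0, 0, 0, 0, 94343, 0, ⟨1497725, 8907849⟩, 0⟩ 71 85)) (.pos 32 .pp ⟨0, 0, 0, 0, 0, 0, 0, 194680, 0, ⟨1472493,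 8983842⟩, 0⟩ 70 85))) (.cut .v 17825792 (.pos 31 .pp ⟨0, 0, 0, 0, 0, 0, 0, 89126, 0, ⟨1607381, 8531681⟩, 0⟩ 72 89) (.pos 32 .pp ⟨0, 0, 0, 0, 0, 0, 0, 213225, 0, ⟨1607381, 8531681⟩, 0⟩ 72 89))) (.pos 30 .pp ⟨0, 0, 0, 0, 0, 0, 0, 225768, 0, ⟨1528321, 8759091⟩, 0⟩ 69 89)) (.cut .v 18874368 (.pos 29 .pp ⟨0, 0, 0, 0, 0, 0, 0, 217406, 0, ⟨1908126, 7570385⟩, 0⟩ 76 98) (.pos 30 .pp ⟨0, 0, 0, 0, 0, 0, 0, 3016184, 0, ⟨1908126, 7570385⟩, 0⟩ 76 98))) (.pos 28 .pp ⟨0, 0, 0, 0, 0, 0, 0, 1063985, 0, ⟨1707354, 8094852⟩, 0⟩ 69 98)) (.void 25 ⟨0, 0, 0, 0, 0, 0, 0, 100000, 0, ⟨2529725, 5774392⟩, 0⟩ 84 116)) (.void 26 ⟨0, 0, 0, 0, 0, 0, 100000, 0, 0, ⟨0, 0⟩, 0⟩ 0 0)))),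
    by decide +kernel⟩

def covers5 : cell.Covers table row5.1 :=
  ⟨(.cut .d 0 (.cut .v 16777216 (.cut .v 8388608 (.void 2 ⟨0, 0, 0, 0, 50000, 50000, 0, 0, 0, ⟨0, 0⟩, 0⟩ 0 0) (.cut .v 12582912 (.pos 8 .mm ⟨0, 0, 0, 0, 0, 6080283, 0, 0, 0, ⟨0, 0⟩, 0⟩ 0 0) (.cut .v 14680064 (.pos 12 .mm ⟨0, 0, 0, 0, 0, 4354286, 0, 0, 0, ⟨0, 0⟩, 0⟩ 0 0) (.cut .d (-8388608) (.void 13 ⟨0, 0, 0, 0, 0, 100000, 0, 0, 0, ⟨0, 0⟩, 0⟩ 0 0) (.cut .d (-4194304) (.void 13 ⟨0, 0, 0, 0, 0, 100000, 0, 0, 0, ⟨0, 0⟩, 0⟩ 0 0) (.cut .d (-2097152) (.void 13 ⟨0, 0, 0, 0, 0, 100000, 0, 0, 0, ⟨0, 0⟩, 0⟩ 0 0) (.cut .d (-1048576) (.void 13 ⟨0, 0, 0, 0, 0, 100000, 0, 0, 0, ⟨0, 0⟩, 0⟩ 0 0) (.cut .v 15728640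 (.cut .d (-524288) (.pos 16 .mm ⟨0, 0, 0, 0, 0, 1794791, 0, 0, 0, ⟨0, 0⟩, 0⟩ 0 0) (.cut .s 5636096 (.pos 16 .mm ⟨0, 0, 0, 0, 0, 568244, 0, 0, 0, ⟨0, 0⟩, 0⟩ 0 0) (.pos 16 .mm ⟨0, 0, 0, 0, 0, 1606241, 0, 0, 0, ⟨0, 0⟩, 0⟩ 0 0))) (.cut .d (-524288) (.cut .v 16252928 (.cut .s 5636096 (.pos 20 .mm ⟨0, 0, 0, 0, 0, 884132, 0, 0, 0, ⟨0, 0⟩, 0⟩ 0 0) (.pos 20 .mm ⟨0, 0, 0, 0, 0, 2167230, 0, 0, 0, ⟨0, 0⟩, 0⟩ 0 0)) (.pos 21 .mm ⟨0, 0, 0, 0, 0, 2013686, 0, 0, 0, ⟨0, 0⟩, 0⟩ 0 0)) (.cut .s 5636096 (.cut .v 16252928 (.cut .l 910763 (.cut .d (-262144) (.cut .s 5439488 (.pos 20 .mm ⟨0, 0, 0, 0, 0, 524390, 0, 0, 0, ⟨0, 0⟩, 0⟩ 0 0) (.pos 20 .mm ⟨0, 0, 0, 0, 0, 924055, 0, 0, 0,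 ⟨0, 0⟩, 0⟩ 0 0)) (.cut .d (-131072) (.cut .s 5439488 (.pos 20 .mm ⟨0, 0, 0, 0, 0, 435768, 0, 0, 0, ⟨0, 0⟩, 0⟩ 0 0) (.cut .s 5537792 (.pos 20 .mm ⟨0, 0, 0, 0, 0, 734441, 0, 0, 0, ⟨0, 0⟩, 0⟩ 0 0) (.pos 20 .mm ⟨0, 0, 0, 0, 0, 954517, 0, 0, 0, ⟨0, 0⟩, 0⟩ 0 0))) (.pos 20 .mm ⟨0, 0, 0, 0, 0, 394158, 0, 0, 0, ⟨0, 0⟩, 0⟩ 0 0))) (.pos 20 .mm ⟨0, 0, 0, 0, 0, 0, 0, 0, 0, ⟨0, 0⟩, 0⟩ 0 0)) (.cut .v 16515072 (.cut .l 910763 (.cut .d (-262144) (.pos 22 .mm ⟨0, 0, 0, 0, 0, 839040, 0, 0, 0, ⟨0, 0⟩, 0⟩ 0 0) (.cut .s 5439488 (.pos 22 .mm ⟨0, 0, 0, 0, 0, 374769, 0, 0, 0, ⟨0, 0⟩, 0⟩ 0 0) (.cut .s 5537792 (.pos 22 .mm ⟨0, 0, 0, 0, 0, 692957, 0, 0, 0, ⟨0, 0⟩, 0⟩ 0 0) (.pos 22 .mm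 ⟨0, 0, 0, 0, 0, 909965, 0, 0, 0, ⟨0, 0⟩, 0⟩ 0 0)))) (.pos 22 .mm ⟨0, 0, 0, 0, 0, 0, 0, 0, 0, ⟨0, 0⟩, 0⟩ 0 0)) (.pos 23 .mm ⟨0, 0, 0, 0, 0, 436504, 0, 0, 0, ⟨0, 0⟩, 0⟩ 0 0))) (.cut .s 5832704 (.cut .v 16252928 (.cut .l 910763 (.cut .d (-262144) (.pos 20 .mm ⟨0, 0, 0, 0, 0, 1472824, 0, 0, 0, ⟨0, 0⟩, 0⟩ 0 0) (.cut .s 5734400 (.pos 20 .mm ⟨0, 0, 0, 0, 0, 1158021, 0, 0, 0, ⟨0, 0⟩, 0⟩ 0 0) (.pos 20 .mm ⟨0, 0, 0, 0, 0, 1448478, 0, 0, 0, ⟨0, 0⟩, 0⟩ 0 0))) (.pos 20 .mm ⟨0, 0, 0, 0, 0, 724681, 0, 0, 0, ⟨0, 0⟩, 0⟩ 0 0)) (.cut .d (-262144) (.pos 21 .mm ⟨0, 0, 0, 0, 0, 1338801, 0, 0, 0, ⟨0, 0⟩, 0⟩ 0 0) (.cut .v 16515072 (.cut .s 5734400 (.pos 22 .mm ⟨0, 0, 0, 0, 0, 1162842,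 0, 0, 0, ⟨0, 0⟩, 0⟩ 0 0) (.pos 22 .mm ⟨0, 0, 0, 0, 0, 1449737, 0, 0, 0, ⟨0, 0⟩, 0⟩ 0 0)) (.pos 23 .mm ⟨0, 0, 0, 0, 0, 1131372, 0, 0, 0, ⟨0, 0⟩, 0⟩ 0 0)))) (.cut .v 16252928 (.cut .l 910763 (.cut .d (-262144) (.pos 20 .mm ⟨0, 0, 0, 0, 0, 2166904, 0, 0, 0, ⟨0, 0⟩, 0⟩ 0 0) (.cut .s 5931008 (.pos 20 .mm ⟨0, 0, 0, 0, 0, 1758082, 0, 0, 0, ⟨0, 0⟩, 0⟩ 0 0) (.pos 20 .mm ⟨0, 0, 0, 0, 0, 2118851, 0, 0, 0, ⟨0, 0⟩, 0⟩ 0 0))) (.pos 20 .mm ⟨0, 0, 0, 0, 0, 1511980, 0, 0, 0, ⟨0, 0⟩, 0⟩ 0 0)) (.cut .l 910763 (.cut .d (-262144) (.pos 21 .mm ⟨0, 0, 0, 0, 0, 2224375, 0, 0, 0, ⟨0, 0⟩, 0⟩ 0 0) (.cut .v 16515072 (.cut .s 5931008 (.pos 22 .mm ⟨0, 0, 0, 0, 0, 1781150, 0, 0, 0, ⟨0, 0⟩,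 0⟩ 0 0) (.pos 22 .mm ⟨0, 0, 0, 0, 0, 2132299, 0, 0, 0, ⟨0, 0⟩, 0⟩ 0 0)) (.pos 23 .mm ⟨0, 0, 0, 0, 0, 1812208, 0, 0, 0, ⟨0, 0⟩, 0⟩ 0 0))) (.pos 21 .mm ⟨0, 0, 0, 0, 0, 1410362, 0, 0, 0, ⟨0, 0⟩, 0⟩ 0 0)))))))))))))) (.cut .v 25165824 (.cut .v 20971520 (.cut .s 5636096 (.pos 27 .mp ⟨0, 0, 0, 0, 0, 431081, 0, 0, 0, ⟨0, 0⟩, 0⟩ 0 0) (.cut .s 5832704 (.pos 27 .mp ⟨0, 0, 0, 0, 0, 1193959, 0, 0, 0, ⟨0, 0⟩, 0⟩ 0 0) (.pos 27 .mp ⟨0, 0, 0, 0, 0, 2064507, 0, 0, 0, ⟨0, 0⟩, 0⟩ 0 0))) (.void 28 ⟨100000, 0, 0, 0, 0, 0, 0, 0, 0, ⟨0, 0⟩, 0⟩ 0 0)) (.void 26 ⟨100000, 0, 0, 0, 0, 0, 0, 0, 0, ⟨0, 0⟩, 0⟩ 0 0))) (.cut .v 16777216 (.cut .v 8388608 (.void 2 ⟨0, 0, 0, 0, 100000, 0, 0,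 0, 0, ⟨0, 0⟩, 0⟩ 0 0) (.cut .v 12582912 (.pos 8 .pm ⟨0, 0, 0, 0, 0, 0, 0, 0, 0, ⟨0, 0⟩, 0⟩ 0 0) (.cut .d 5053738 (.cut .v 14680064 (.pos 12 .pm ⟨0, 0, 0, 0, 0, 0, 0, 0, 0, ⟨0, 0⟩, 0⟩ 0 0) (.cut .d 2526869 (.cut .d 1263434 (.cut .v 15728640 (.pos 16 .pm ⟨0, 0, 0, 0, 0, 0, 0, 0, 0, ⟨0, 0⟩, 0⟩ 0 0) (.cut .s 5636096 (.cut .d 631717 (.cut .v 16252928 (.pos 20 .pm ⟨0, 0, 0, 0, 0, 0, 0, 0, 0, ⟨0, 0⟩, 0⟩ 0 0) (.pos 21 .pm ⟨0, 0, 0, 0, 0, 0, 0, 0, 0, ⟨0, 0⟩, 0⟩ 0 0)) (.pos 17 .pm ⟨0, 0, 0, 0, 0, 0, 0, 195441, 0, ⟨1989844, 7411840⟩, 0⟩ 83 93)) (.pos 17 .pm ⟨0, 0, 0, 0, 0, 0, 0, 0, 0, ⟨0, 0⟩, 0⟩ 0 0))) (.pos 13 .pm ⟨0, 0, 0, 0, 0, 0, 0, 195441, 0, ⟨2374817, 6283827⟩,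 0⟩ 86 106)) (.pos 13 .pm ⟨0, 0, 0, 0, 0, 0, 0, 195441, 0, ⟨2862908, 4989558⟩, 0⟩ 92 120))) (.void 9 ⟨0, 0, 0, 0, 0, 0, 0, 0, 100000, ⟨0, 0⟩, 15612959⟩ 0 0)))) (.cut .d 5053738 (.cut .v 25165824 (.cut .v 20971520 (.cut .d 2526869 (.cut .v 18874368 (.cut .d 1263434 (.cut .d 631717 (.pos 29 .pp ⟨0, 0, 0, 0, 0, 0, 0, 0, 0, ⟨0, 0⟩, 0⟩ 0 0) (.pos 29 .pp ⟨0, 0, 0, 0, 0, 0, 0, 203584, 0, ⟨2129113, 6982288⟩, 0⟩ 83 99)) (.pos 29 .pp ⟨0, 0, 0, 0, 0, 0, 0, 203584, 0, ⟨2374817, 6283827⟩, 0⟩ 86 106)) (.pos 30 .pp ⟨0, 0, 0, 0, 0, 0, 0, 219871, 0, ⟨2196363, 6714811⟩, 0⟩ 80 106)) (.pos 27 .pp ⟨0, 0, 0, 0, 0, 0, 0, 211727, 0, ⟨2862908, 4989558⟩, 0⟩ 92 120)) (.cut .d 2526869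 (.pos 28 .pp ⟨0, 0, 0, 0, 0, 0, 0, 244301, 0, ⟨2196363, 6714811⟩, 0⟩ 80 106) (.pos 28 .pp ⟨0, 0, 0, 0, 0, 0, 0, 10011349, 0, ⟨2862908, 4989558⟩, 0⟩ 92 120))) (.pos 26 .pp ⟨0, 0, 0, 0, 0, 0, 16223121, 9510324, 0, ⟨2480698, 5804940⟩, 0⟩ 80 120)) (.void 24 ⟨0, 0, 0, 0, 0, 0, 0, 100000, 0, ⟨3755334, 2909032⟩, 0⟩ 104 148)))),
    by decide +kernel⟩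

def covers6 : cell.Covers table row6.1 :=
  ⟨(.cut .d 0 (.cut .v 16777216 (.cut .d (-8388608) (.void 1 ⟨0, 0, 0, 0, 0, 100000, 0, 0, 0, ⟨0, 0⟩, 0⟩ 0 0) (.cut .d (-4194304) (.void 1 ⟨0, 0, 0, 0, 0, 100000, 0, 0, 0, ⟨0, 0⟩, 0⟩ 0 0) (.cut .d (-2097152) (.void 1 ⟨0, 0, 0, 0, 0, 100000, 0, 0, 0, ⟨0, 0⟩, 0⟩ 0 0) (.cut .d (-1048576) (.void 1 ⟨0, 0, 0, 0, 0, 100000, 0, 0, 0, ⟨0, 0⟩, 0⟩ 0 0) (.cut .v 8388608 (.cut .v 4194304 (.void 4 ⟨0, 0, 100000, 0, 0, 0, 0, 0, 0, ⟨0, 0⟩, 0⟩ 0 0) (.pos 5 .mm ⟨0, 0, 0, 0, 0, 7531284, 0, 0, 0, ⟨0, 0⟩, 0⟩ 0 0)) (.cut .v 12582912 (.pos 8 .mm ⟨0, 0, 0, 0, 0, 5373059, 0, 0, 0, ⟨0, 0⟩, 0⟩ 0 0) (.cut .v 14680064 (.pos 12 .mm ⟨0, 0, 0, 0,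 0, 5257389, 0, 0, 0, ⟨0, 0⟩, 0⟩ 0 0) (.cut .d (-524288) (.cut .v 15728640 (.pos 16 .mm ⟨0, 0, 0, 0, 0, 6703344, 0, 0, 0, ⟨0, 0⟩, 0⟩ 0 0) (.cut .s 6422528 (.cut .s 6225920 (.pos 17 .mm ⟨0, 0, 0, 0, 0, 3214863, 0, 0, 0, ⟨0, 0⟩, 0⟩ 0 0) (.pos 17 .mm ⟨0, 0, 0, 0, 0, 4541551, 0, 0, 0, ⟨0, 0⟩, 0⟩ 0 0)) (.void 17 ⟨0, 0, 0, 0, 0, 100000, 0, 0, 0, ⟨0, 0⟩, 0⟩ 0 0))) (.cut .s 6422528 (.cut .v 15728640 (.pos 16 .mm ⟨0, 0, 0, 0, 0, 3296121, 0, 0, 0, ⟨0, 0⟩, 0⟩ 0 0) (.cut .s 6225920 (.cut .v 16252928 (.cut .l 910763 (.cut .d (-262144) (.pos 20 .mm ⟨0, 0, 0, 0, 0, 3098928, 0, 0, 0, ⟨0, 0⟩, 0⟩ 0 0) (.cut .s 6127616 (.pos 20 .mm ⟨0, 0, 0, 0, 0, 2543154, 0, 0, 0, ⟨0, 0⟩, 0⟩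 0 0) (.pos 20 .mm ⟨0, 0, 0, 0, 0, 3032707, 0, 0, 0, ⟨0, 0⟩, 0⟩ 0 0))) (.pos 20 .mm ⟨0, 0, 0, 0, 0, 2466788, 0, 0, 0, ⟨0, 0⟩, 0⟩ 0 0)) (.cut .l 910763 (.cut .d (-262144) (.pos 21 .mm ⟨0, 0, 0, 0, 0, 3193382, 0, 0, 0, ⟨0, 0⟩, 0⟩ 0 0) (.cut .l 587202 (.cut .s 6127616 (.cut .d (-131072) (.pos 21 .mm ⟨0, 0, 0, 0, 0, 2655306, 0, 0, 0, ⟨0, 0⟩, 0⟩ 0 0) (.pos 21 .mm ⟨0, 0, 0, 0, 0, 2471800, 0, 0, 0, ⟨0, 0⟩, 0⟩ 0 0)) (.cut .d (-131072) (.pos 21 .mm ⟨0, 0, 0, 0, 0, 3161039, 0, 0, 0, ⟨0, 0⟩, 0⟩ 0 0) (.pos 21 .mm ⟨0, 0, 0, 0, 0, 2961186, 0, 0, 0, ⟨0, 0⟩, 0⟩ 0 0))) (.pos 21 .mm ⟨0, 0, 0, 0, 0, 2449994, 0, 0, 0, ⟨0, 0⟩, 0⟩ 0 0))) (.pos 21 .mm ⟨0, 0, 0, 0, 0, 2421255, 0, 0,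 0, ⟨0, 0⟩, 0⟩ 0 0))) (.cut .s 6324224 (.cut .v 16252928 (.cut .s 6275072 (.pos 20 .mm ⟨0, 0, 0, 0, 0, 3522495, 0, 0, 0, ⟨0, 0⟩, 0⟩ 0 0) (.pos 20 .mm ⟨0, 0, 0, 0, 0, 3803148, 0, 0, 0, ⟨0, 0⟩, 0⟩ 0 0)) (.cut .d (-262144) (.pos 21 .mm ⟨0, 0, 0, 0, 0, 3695809, 0, 0, 0, ⟨0, 0⟩, 0⟩ 0 0) (.cut .s 6275072 (.pos 21 .mm ⟨0, 0, 0, 0, 0, 3486102, 0, 0, 0, ⟨0, 0⟩, 0⟩ 0 0) (.pos 21 .mm ⟨0, 0, 0, 0, 0, 3766321, 0, 0, 0, ⟨0, 0⟩, 0⟩ 0 0)))) (.cut .v 16252928 (.pos 20 .mm ⟨0, 0, 0, 0, 0, 4191717, 0, 0, 0, ⟨0, 0⟩, 0⟩ 0 0) (.cut .l 910763 (.cut .d (-262144) (.pos 21 .mm ⟨0, 0, 0, 0, 0, 4543071, 0, 0, 0, ⟨0, 0⟩, 0⟩ 0 0) (.cut .s 6373376 (.pos 21 .mm ⟨0, 0, 0, 0, 0, 4073756, 0,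 0, 0, ⟨0, 0⟩, 0⟩ 0 0) (.pos 21 .mm ⟨0, 0, 0, 0, 0, 4385635, 0, 0, 0, ⟨0, 0⟩, 0⟩ 0 0))) (.pos 21 .mm ⟨0, 0, 0, 0, 0, 3898907, 0, 0, 0, ⟨0, 0⟩, 0⟩ 0 0)))))) (.cut .v 15728640 (.pos 16 .mm ⟨0, 0, 0, 0, 0, 5751300, 0, 0, 0, ⟨0, 0⟩, 0⟩ 0 0) (.cut .s 6619136 (.cut .s 6520832 (.cut .v 16252928 (.pos 20 .mm ⟨0, 0, 0, 0, 0, 4838824, 0, 0, 0, ⟨0, 0⟩, 0⟩ 0 0) (.cut .l 910763 (.cut .d (-262144) (.pos 21 .mm ⟨0, 0, 0, 0, 0, 5234143, 0, 0, 0, ⟨0, 0⟩, 0⟩ 0 0) (.cut .s 6471680 (.pos 21 .mm ⟨0, 0, 0, 0, 0, 4718531, 0, 0, 0, ⟨0, 0⟩, 0⟩ 0 0) (.pos 21 .mm ⟨0, 0, 0, 0, 0, 5078031, 0, 0, 0, ⟨0, 0⟩, 0⟩ 0 0))) (.pos 21 .mm ⟨0, 0, 0, 0, 0, 4679066, 0, 0, 0, ⟨0, 0⟩, 0⟩ 0 0))) (.cut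 .v 16252928 (.pos 20 .mm ⟨0, 0, 0, 0, 0, 5572065, 0, 0, 0, ⟨0, 0⟩, 0⟩ 0 0) (.cut .l 910763 (.cut .d (-262144) (.pos 21 .mm ⟨0, 0, 0, 0, 0, 6085090, 0, 0, 0, ⟨0, 0⟩, 0⟩ 0 0) (.cut .s 6569984 (.pos 21 .mm ⟨0, 0, 0, 0, 0, 5442293, 0, 0, 0, ⟨0, 0⟩, 0⟩ 0 0) (.pos 21 .mm ⟨0, 0, 0, 0, 0, 5829630, 0, 0, 0, ⟨0, 0⟩, 0⟩ 0 0))) (.pos 21 .mm ⟨0, 0, 0, 0, 0, 5438868, 0, 0, 0, ⟨0, 0⟩, 0⟩ 0 0)))) (.cut .s 6717440 (.cut .v 16252928 (.pos 20 .mm ⟨0, 0, 0, 0, 0, 6364411, 0, 0, 0, ⟨0, 0⟩, 0⟩ 0 0) (.cut .s 6668288 (.cut .s 6643712 (.pos 21 .mm ⟨0, 0, 0, 0, 0, 6206635, 0, 0, 0, ⟨0, 0⟩, 0⟩ 0 0) (.pos 21 .mm ⟨0, 0, 0, 0, 0, 6409837, 0, 0, 0, ⟨0, 0⟩, 0⟩ 0 0)) (.cut .d (-262144) (.pos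 21 .mm ⟨0, 0, 0, 0, 0, 6782753, 0, 0, 0, ⟨0, 0⟩, 0⟩ 0 0) (.cut .s 6692864 (.pos 21 .mm ⟨0, 0, 0, 0, 0, 6585954, 0, 0, 0, ⟨0, 0⟩, 0⟩ 0 0) (.pos 21 .mm ⟨0, 0, 0, 0, 0, 6795622, 0, 0, 0, ⟨0, 0⟩, 0⟩ 0 0))))) (.cut .v 16252928 (.pos 20 .mm ⟨0, 0, 0, 0, 0, 7215343, 0, 0, 0, ⟨0, 0⟩, 0⟩ 0 0) (.cut .s 6766592 (.cut .d (-262144) (.pos 21 .mm ⟨0, 0, 0, 0, 0, 7212945, 0, 0, 0, ⟨0, 0⟩, 0⟩ 0 0) (.cut .s 6742016 (.pos 21 .mm ⟨0, 0, 0, 0, 0, 7009312, 0, 0, 0, ⟨0, 0⟩, 0⟩ 0 0) (.pos 21 .mm ⟨0, 0, 0, 0, 0, 7227041, 0, 0, 0, ⟨0, 0⟩, 0⟩ 0 0))) (.cut .d (-262144) (.pos 21 .mm ⟨0, 0, 0, 0, 0, 7671894, 0, 0, 0, ⟨0, 0⟩, 0⟩ 0 0) (.cut .s 6791168 (.pos 21 .mm ⟨0, 0, 0, 0, 0, 7448825,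 0, 0, 0, ⟨0, 0⟩, 0⟩ 0 0) (.pos 21 .mm ⟨0, 0, 0, 0, 0, 7683804, 0, 0, 0, ⟨0, 0⟩, 0⟩ 0 0))))))))))))))))) (.cut .v 25165824 (.cut .v 20971520 (.cut .d (-8388608) (.void 27 ⟨0, 0, 0, 0, 0, 100000, 0, 0, 0, ⟨0, 0⟩, 0⟩ 0 0) (.cut .d (-4194304) (.void 27 ⟨0, 0, 0, 0, 0, 100000, 0, 0, 0, ⟨0, 0⟩, 0⟩ 0 0) (.cut .d (-2097152) (.void 27 ⟨0, 0, 0, 0, 0, 100000, 0, 0, 0, ⟨0, 0⟩, 0⟩ 0 0) (.cut .d (-1048576) (.void 27 ⟨0, 0, 0, 0, 0, 100000, 0, 0, 0, ⟨0, 0⟩, 0⟩ 0 0) (.cut .d (-524288) (.pos 27 .mp ⟨1751275, 0, 0, 0, 0, 7795919, 0, 0, 0, ⟨0, 0⟩, 0⟩ 0 0) (.cut .v 18874368 (.cut .v 17825792 (.cut .s 6422528 (.cut .s 6225920 (.pos 31 .mp ⟨0, 0, 0, 0, 0, 2705596, 0, 0, 0, ⟨0,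 0⟩, 0⟩ 0 0) (.cut .s 6324224 (.pos 31 .mp ⟨0, 0, 0, 0, 0, 3594753, 0, 0, 0, ⟨0, 0⟩, 0⟩ 0 0) (.pos 31 .mp ⟨0, 0, 0, 0, 0, 4213826, 0, 0, 0, ⟨0, 0⟩, 0⟩ 0 0))) (.cut .v 17301504 (.cut .s 6619136 (.cut .s 6520832 (.pos 33 .mp ⟨0, 0, 0, 0, 0, 4894181, 0, 0, 0, ⟨0, 0⟩, 0⟩ 0 0) (.cut .s 6569984 (.pos 33 .mp ⟨0, 0, 0, 0, 0, 5507036, 0, 0, 0, ⟨0, 0⟩, 0⟩ 0 0) (.pos 33 .mp ⟨0, 0, 0, 0, 0, 5896091, 0, 0, 0, ⟨0, 0⟩, 0⟩ 0 0))) (.cut .s 6717440 (.cut .s 6668288 (.pos 33 .mp ⟨0, 0, 0, 0, 0, 6300745, 0, 0, 0, ⟨0, 0⟩, 0⟩ 0 0) (.pos 33 .mp ⟨0, 0, 0, 0, 0, 6721036, 0, 0, 0, ⟨0, 0⟩, 0⟩ 0 0)) (.cut .s 6766592 (.cut .s 6742016 (.pos 33 .mp ⟨0, 0, 0, 0, 0, 7084132, 0, 0, 0, ⟨0, 0⟩,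 0⟩ 0 0) (.pos 33 .mp ⟨0, 0, 0, 0, 0, 7306736, 0, 0, 0, ⟨0, 0⟩, 0⟩ 0 0)) (.cut .s 6791168 (.pos 33 .mp ⟨0, 0, 0, 0, 0, 7533831, 0, 0, 0, ⟨0, 0⟩, 0⟩ 0 0) (.pos 33 .mp ⟨0, 0, 0, 0, 0, 7774510, 0, 0, 0, ⟨0, 0⟩, 0⟩ 0 0))))) (.pos 34 .mp ⟨7250686, 0, 0, 0, 0, 0, 0, 0, 0, ⟨0, 0⟩, 0⟩ 0 0))) (.pos 32 .mp ⟨6955041, 0, 0, 0, 0, 0, 0, 0, 0, ⟨0, 0⟩, 0⟩ 0 0)) (.void 30 ⟨100000, 0, 0, 0, 0, 0, 0, 0, 0, ⟨0, 0⟩, 0⟩ 0 0))))))) (.void 28 ⟨100000, 0, 0, 0, 0, 0, 0, 0, 0, ⟨0, 0⟩, 0⟩ 0 0)) (.void 26 ⟨100000, 0, 0, 0, 0, 0, 0, 0, 0, ⟨0, 0⟩, 0⟩ 0 0))) (.cut .v 16777216 (.cut .v 8388608 (.cut .v 4194304 (.void 4 ⟨0, 0, 50000, 0, 50000, 0, 0, 0, 0, ⟨0, 0⟩, 0⟩ 0 0) (.void 5 ⟨0, 0, 0,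 0, 0, 0, 0, 0, 100000, ⟨0, 0⟩, 9975792⟩ 0 0)) (.cut .v 12582912 (.pos 8 .pm ⟨0, 0, 0, 0, 0, 0, 0, 0, 0, ⟨0, 0⟩, 0⟩ 0 0) (.cut .v 14680064 (.pos 12 .pm ⟨0, 0, 0, 0, 0, 0, 0, 0, 0, ⟨0, 0⟩, 0⟩ 0 0) (.cut .v 15728640 (.pos 16 .pm ⟨0, 0, 0, 0, 0, 0, 0, 0, 0, ⟨0, 0⟩, 0⟩ 0 0) (.pos 17 .pm ⟨0, 0, 0, 0, 0, 0, 0, 0, 0, ⟨0, 0⟩, 0⟩ 0 0))))) (.cut .d 7743461 (.cut .v 25165824 (.cut .v 20971520 (.cut .s 6422528 (.pos 27 .pp ⟨750123, 0, 0, 0, 0, 0, 0, 0, 0, ⟨0, 0⟩, 0⟩ 0 0) (.pos 27 .pp ⟨2041142, 0, 0, 0, 0, 0, 0, 0, 0, ⟨0, 0⟩, 0⟩ 0 0)) (.pos 28 .pp ⟨0, 0, 0, 0, 0, 0, 0, 1457198, 0, ⟨3446558, 3365489⟩, 0⟩ 92 153)) (.pos 26 .pp ⟨0, 0, 0, 0, 0, 0, 1859797, 0, 0, ⟨0, 0⟩, 0⟩ 0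 0)) (.pos 24 .pp ⟨0, 0, 0, 0, 0, 0, 0, 106109644, 0, ⟨5005645, 655629⟩, 0⟩ 134 209)))),
    by decide +kernel⟩

def covers7 : cell.Covers table row7.1 :=
  ⟨(.cut .d 0 (.cut .v 16777216 (.cut .d (-8388608) (.void 1 ⟨0, 0, 0, 0, 0, 100000, 0, 0, 0, ⟨0, 0⟩, 0⟩ 0 0) (.cut .d (-4194304) (.void 1 ⟨0, 0, 0, 0, 0, 100000, 0, 0, 0, ⟨0, 0⟩, 0⟩ 0 0) (.cut .d (-2097152) (.void 1 ⟨0, 0, 0, 0, 0, 100000, 0, 0, 0, ⟨0, 0⟩, 0⟩ 0 0) (.cut .d (-1048576) (.void 1 ⟨0, 0, 0, 0, 0, 100000, 0, 0, 0, ⟨0, 0⟩, 0⟩ 0 0) (.cut .d (-524288) (.void 1 ⟨0, 0, 0, 0, 0, 100000, 0, 0, 0, ⟨0, 0⟩, 0⟩ 0 0) (.cut .v 8388608 (.cut .v 4194304 (.void 4 ⟨0, 0, 100000, 0, 0, 0, 0, 0, 0, ⟨0, 0⟩, 0⟩ 0 0)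 (.pos 5 .mm ⟨0, 0, 0, 0, 0, 9415720, 0, 0, 0, ⟨0, 0⟩, 0⟩ 0 0)) (.cut .v 12582912 (.pos 8 .mm ⟨0, 0, 0, 0, 0, 8201103, 0, 0, 0, ⟨0, 0⟩, 0⟩ 0 0) (.cut .v 14680064 (.pos 12 .mm ⟨0, 0, 0, 0, 0, 9697962, 0, 0, 0, ⟨0, 0⟩, 0⟩ 0 0) (.cut .s 7176192 (.cut .v 15728640 (.pos 16 .mm ⟨0, 0, 0, 0, 0, 9032010, 0, 0, 0, ⟨0, 0⟩, 0⟩ 0 0) (.cut .s 6995968 (.cut .s 6905856 (.cut .v 16252928 (.pos 20 .mm ⟨0, 0, 0, 0, 0, 8075400, 0, 0, 0, ⟨0, 0⟩, 0⟩ 0 0) (.cut .s 6860800 (.cut .s 6838272 (.cut .s 6827008 (.pos 21 .mm ⟨0, 0, 0, 0, 0, 7913605, 0, 0, 0, ⟨0, 0⟩, 0⟩ 0 0) (.pos 21 .mm ⟨0, 0, 0, 0, 0, 8034386, 0, 0, 0, ⟨0, 0⟩, 0⟩ 0 0)) (.pos 21 .mm ⟨0, 0, 0, 0, 0, 8189943, 0, 0, 0, ⟨0,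 0⟩, 0⟩ 0 0)) (.cut .s 6883328 (.pos 21 .mm ⟨0, 0, 0, 0, 0, 8440958, 0, 0, 0, ⟨0, 0⟩, 0⟩ 0 0) (.pos 21 .mm ⟨0, 0, 0, 0, 0, 8683948, 0, 0, 0, ⟨0, 0⟩, 0⟩ 0 0)))) (.cut .s 6950912 (.cut .s 6928384 (.pos 17 .mm ⟨0, 0, 0, 0, 0, 8923139, 0, 0, 0, ⟨0, 0⟩, 0⟩ 0 0) (.pos 17 .mm ⟨0, 0, 0, 0, 0, 9167779, 0, 0, 0, ⟨0, 0⟩, 0⟩ 0 0)) (.pos 17 .mm ⟨0, 0, 0, 0, 0, 9573435, 0, 0, 0, ⟨0, 0⟩, 0⟩ 0 0))) (.cut .s 7086080 (.cut .s 7041024 (.pos 17 .mm ⟨0, 0, 0, 0, 0, 10141589, 0, 0, 0, ⟨0, 0⟩, 0⟩ 0 0) (.pos 17 .mm ⟨0, 0, 0, 0, 0, 10715058, 0, 0, 0, ⟨0, 0⟩, 0⟩ 0 0)) (.cut .s 7131136 (.pos 17 .mm ⟨0, 0, 0, 0, 0, 11308467, 0, 0, 0, ⟨0, 0⟩, 0⟩ 0 0) (.pos 17 .mm ⟨0, 0, 0, 0, 0, 11922527,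 0, 0, 0, ⟨0, 0⟩, 0⟩ 0 0))))) (.cut .v 15728640 (.pos 16 .mm ⟨0, 0, 0, 0, 0, 13646949, 0, 0, 0, ⟨0, 0⟩, 0⟩ 0 0) (.cut .s 7356416 (.cut .v 16252928 (.pos 20 .mm ⟨0, 0, 0, 0, 0, 13083858, 0, 0, 0, ⟨0, 0⟩, 0⟩ 0 0) (.cut .s 7266304 (.cut .s 7221248 (.pos 21 .mm ⟨0, 0, 0, 0, 0, 12556852, 0, 0, 0, ⟨0, 0⟩, 0⟩ 0 0) (.pos 21 .mm ⟨0, 0, 0, 0, 0, 13211065, 0, 0, 0, ⟨0, 0⟩, 0⟩ 0 0)) (.cut .s 7311360 (.pos 21 .mm ⟨0, 0, 0, 0, 0, 13884800, 0, 0, 0, ⟨0, 0⟩, 0⟩ 0 0) (.pos 21 .mm ⟨0, 0, 0, 0, 0, 14577697, 0, 0, 0, ⟨0, 0⟩, 0⟩ 0 0)))) (.cut .d (-262144) (.pos 17 .mm ⟨0, 0, 0, 0, 0, 17491571, 0, 0, 0, ⟨0, 0⟩, 0⟩ 0 0) (.cut .s 7446528 (.cut .s 7401472 (.pos 17 .mm ⟨0, 0, 0, 0, 0,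 15116748, 0, 0, 0, ⟨0, 0⟩, 0⟩ 0 0) (.pos 17 .mm ⟨0, 0, 0, 0, 0, 15830147, 0, 0, 0, ⟨0, 0⟩, 0⟩ 0 0)) (.pos 17 .mm ⟨0, 0, 0, 0, 0, 17118535, 0, 0, 0, ⟨0, 0⟩, 0⟩ 0 0)))))))))))))) (.cut .v 33554432 (.cut .v 25165824 (.cut .v 20971520 (.cut .d (-8388608) (.void 27 ⟨0, 0, 0, 0, 0, 100000, 0, 0, 0, ⟨0, 0⟩, 0⟩ 0 0) (.cut .d (-4194304) (.void 27 ⟨0, 0, 0, 0, 0, 100000, 0, 0, 0, ⟨0, 0⟩, 0⟩ 0 0) (.cut .d (-2097152) (.void 27 ⟨0, 0, 0, 0, 0, 100000, 0, 0, 0, ⟨0, 0⟩, 0⟩ 0 0) (.cut .d (-1048576) (.void 27 ⟨0, 0, 0, 0, 0, 100000, 0, 0, 0, ⟨0, 0⟩, 0⟩ 0 0) (.cut .d (-524288) (.void 27 ⟨0, 0, 0, 0, 0, 100000, 0, 0, 0, ⟨0, 0⟩, 0⟩ 0 0) (.cut .v 18874368 (.cut .v 17825792 (.cut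 .s 7176192 (.cut .v 17301504 (.cut .s 6995968 (.cut .s 6905856 (.cut .s 6860800 (.cut .d (-262144) (.pos 33 .mp ⟨0, 0, 0, 0, 0, 8241326, 0, 0, 0, ⟨0, 0⟩, 0⟩ 0 0) (.cut .s 6838272 (.pos 33 .mp ⟨231990, 0, 0, 0, 0, 7726436, 0, 0, 0, ⟨0, 0⟩, 0⟩ 0 0) (.pos 33 .mp ⟨277211, 0, 0, 0, 0, 7929766, 0, 0, 0, ⟨0, 0⟩, 0⟩ 0 0))) (.cut .d (-262144) (.pos 33 .mp ⟨0, 0, 0, 0, 0, 8801078, 0, 0, 0, ⟨0, 0⟩, 0⟩ 0 0) (.cut .s 6883328 (.pos 33 .mp ⟨320473, 0, 0, 0, 0, 8140493, 0, 0, 0, ⟨0, 0⟩, 0⟩ 0 0) (.pos 33 .mp ⟨362588, 0, 0, 0, 0, 8357731, 0, 0, 0, ⟨0, 0⟩, 0⟩ 0 0)))) (.cut .s 6950912 (.cut .d (-262144) (.pos 33 .mp ⟨0, 0, 0, 0, 0, 9383136, 0, 0, 0, ⟨0, 0⟩, 0⟩ 0 0) (.cut .s 6928384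 (.pos 33 .mp ⟨408163, 0, 0, 0, 0, 8576573, 0, 0, 0, ⟨0, 0⟩, 0⟩ 0 0) (.pos 33 .mp ⟨476175, 0, 0, 0, 0, 8776692, 0, 0, 0, ⟨0, 0⟩, 0⟩ 0 0))) (.cut .d (-262144) (.pos 33 .mp ⟨0, 0, 0, 0, 0, 9965918, 0, 0, 0, ⟨0, 0⟩, 0⟩ 0 0) (.cut .s 6973440 (.pos 33 .mp ⟨544263, 0, 0, 0, 0, 8981941, 0, 0, 0, ⟨0, 0⟩, 0⟩ 0 0) (.pos 33 .mp ⟨612669, 0, 0, 0, 0, 9192065, 0, 0, 0, ⟨0, 0⟩, 0⟩ 0 0))))) (.cut .s 7086080 (.cut .s 7041024 (.cut .d (-262144) (.pos 33 .mp ⟨0, 0, 0, 0, 0, 10584288, 0, 0, 0, ⟨0, 0⟩, 0⟩ 0 0) (.cut .v 17039360 (.cut .s 7018496 (.pos 35 .mp ⟨743050, 0, 0, 0, 0, 9319129, 0, 0, 0, ⟨0, 0⟩, 0⟩ 0 0) (.pos 35 .mp ⟨817197, 0, 0, 0, 0, 9530946, 0, 0, 0, ⟨0, 0⟩, 0⟩ 0 0))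 (.pos 36 .mp ⟨9586187, 0, 0, 0, 0, 0, 0, 0, 0, ⟨0, 0⟩, 0⟩ 0 0))) (.cut .d (-262144) (.pos 33 .mp ⟨0, 0, 0, 0, 0, 11245014, 0, 0, 0, ⟨0, 0⟩, 0⟩ 0 0) (.cut .v 17039360 (.cut .s 7063552 (.pos 35 .mp ⟨892333, 0, 0, 0, 0, 9746853, 0, 0, 0, ⟨0, 0⟩, 0⟩ 0 0) (.pos 35 .mp ⟨953404, 0, 0, 0, 0, 9984847, 0, 0, 0, ⟨0, 0⟩, 0⟩ 0 0)) (.pos 36 .mp ⟨10103846, 0, 0, 0, 0, 0, 0, 0, 0, ⟨0, 0⟩, 0⟩ 0 0)))) (.cut .s 7131136 (.cut .d (-262144) (.pos 33 .mp ⟨0, 0, 0, 0, 0, 11930022, 0, 0, 0, ⟨0, 0⟩, 0⟩ 0 0) (.cut .v 17039360 (.cut .s 7108608 (.pos 35 .mp ⟨1006851, 0, 0, 0, 0, 10237388, 0, 0, 0, ⟨0, 0⟩, 0⟩ 0 0) (.pos 35 .mp ⟨1062223, 0, 0, 0, 0, 10493147, 0, 0, 0, ⟨0, 0⟩, 0⟩ 0 0)) (.pos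 36 .mp ⟨10637264, 0, 0, 0, 0, 0, 0, 0, 0, ⟨0, 0⟩, 0⟩ 0 0))) (.cut .d (-262144) (.pos 33 .mp ⟨107321, 0, 0, 0, 0, 12503237, 0, 0, 0, ⟨0, 0⟩, 0⟩ 0 0) (.cut .v 17039360 (.cut .l 910763 (.cut .d (-131072) (.pos 35 .mp ⟨773312, 0, 0, 0, 0, 11504861, 0, 0, 0, ⟨0, 0⟩, 0⟩ 0 0) (.cut .s 7153664 (.pos 35 .mp ⟨1396530, 0, 0, 0, 0, 10407332, 0, 0, 0, ⟨0, 0⟩, 0⟩ 0 0) (.pos 35 .mp ⟨1500590, 0, 0, 0, 0, 10617498, 0, 0, 0, ⟨0, 0⟩, 0⟩ 0 0))) (.pos 35 .mp ⟨655223, 0, 0, 0, 0, 10966620, 0, 0, 0, ⟨0, 0⟩, 0⟩ 0 0)) (.pos 36 .mp ⟨11186596, 0, 0, 0, 0, 0, 0, 0, 0, ⟨0, 0⟩, 0⟩ 0 0)))))) (.pos 34 .mp ⟨11310296, 0, 0, 0, 0, 0, 0, 0, 0, ⟨0, 0⟩, 0⟩ 0 0)) (.cut .v 17301504 (.cut .s 7356416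 (.cut .d (-262144) (.cut .l 910763 (.void 33 ⟨0, 0, 0, 0, 0, 100000, 0, 0, 0, ⟨0, 0⟩, 0⟩ 0 0) (.cut .d (-393216) (.pos 33 .mp ⟨372966, 0, 0, 0, 0, 15600815, 0, 0, 0, ⟨0, 0⟩, 0⟩ 0 0) (.cut .s 7266304 (.cut .s 7221248 (.pos 33 .mp ⟨416929, 0, 0, 0, 0, 12546171, 0, 0, 0, ⟨0, 0⟩, 0⟩ 0 0) (.pos 33 .mp ⟨669635, 0, 0, 0, 0, 12997922, 0, 0, 0, ⟨0, 0⟩, 0⟩ 0 0)) (.cut .s 7311360 (.pos 33 .mp ⟨1047033, 0, 0, 0, 0, 13324336, 0, 0, 0, ⟨0, 0⟩, 0⟩ 0 0) (.pos 33 .mp ⟨992761, 0, 0, 0, 0, 14255026, 0, 0, 0, ⟨0, 0⟩, 0⟩ 0 0))))) (.cut .l 910763 (.cut .v 17039360 (.cut .s 7266304 (.cut .s 7221248 (.cut .d (-131072) (.pos 35 .mp ⟨961400, 0, 0, 0, 0, 11992174, 0, 0, 0, ⟨0, 0⟩, 0⟩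 0 0) (.cut .s 7198720 (.pos 35 .mp ⟨1606333, 0, 0, 0, 0, 10830649, 0, 0, 0, ⟨0, 0⟩, 0⟩ 0 0) (.pos 35 .mp ⟨1713767, 0, 0, 0, 0, 11046717, 0, 0, 0, ⟨0, 0⟩, 0⟩ 0 0))) (.cut .d (-131072) (.pos 35 .mp ⟨1160476, 0, 0, 0, 0, 12488185, 0, 0, 0, ⟨0, 0⟩, 0⟩ 0 0) (.cut .s 7243776 (.pos 35 .mp ⟨1822901, 0, 0, 0, 0, 11265636, 0, 0, 0, ⟨0, 0⟩, 0⟩ 0 0) (.pos 35 .mp ⟨1933744, 0, 0, 0, 0, 11487339, 0, 0, 0, ⟨0, 0⟩, 0⟩ 0 0)))) (.cut .d (-131072) (.cut .l 587202 (.pos 35 .mp ⟨1613169, 0, 0, 0, 0, 13718834, 0, 0, 0, ⟨0, 0⟩, 0⟩ 0 0) (.cut .s 7311360 (.pos 35 .mp ⟨1368477, 0, 0, 0, 0, 12822088, 0, 0, 0, ⟨0, 0⟩, 0⟩ 0 0) (.pos 35 .mp ⟨1625732, 0, 0, 0, 0, 13294067, 0, 0, 0, ⟨0, 0⟩,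 0⟩ 0 0))) (.cut .d (-65536) (.cut .l 587202 (.cut .v 16908288 (.cut .s 7311360 (.pos 58 .mp ⟨1695022, 0, 0, 0, 0, 12385205, 0, 0, 0, ⟨0, 0⟩, 0⟩ 0 0) (.pos 58 .mp ⟨1937661, 0, 0, 0, 0, 12849868, 0, 0, 0, ⟨0, 0⟩, 0⟩ 0 0)) (.pos 59 .mp ⟨7107408, 0, 0, 0, 0, 7230668, 0, 0, 0, ⟨0, 0⟩, 0⟩ 0 0)) (.pos 35 .mp ⟨1704492, 0, 0, 0, 0, 0, 0, 0, 0, ⟨0, 0⟩, 0⟩ 0 0)) (.pos 35 .mp ⟨2421362, 0, 0, 0, 0, 11140211, 0, 0, 0, ⟨0, 0⟩, 0⟩ 0 0)))) (.pos 36 .mp ⟨14721030, 0, 0, 0, 0, 0, 0, 0, 0, ⟨0, 0⟩, 0⟩ 0 0)) (.cut .s 7266304 (.pos 33 .mp ⟨1193567, 0, 0, 0, 0, 11231221, 0, 0, 0, ⟨0, 0⟩, 0⟩ 0 0) (.pos 33 .mp ⟨1827744, 0, 0, 0, 0, 11952153, 0, 0, 0, ⟨0, 0⟩, 0⟩ 0 0)))) (.cut .d (-262144)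 (.cut .d (-393216) (.void 33 ⟨0, 0, 0, 0, 0, 100000, 0, 0, 0, ⟨0, 0⟩, 0⟩ 0 0) (.cut .l 910763 (.void 33 ⟨0, 0, 0, 0, 0, 100000, 0, 0, 0, ⟨0, 0⟩, 0⟩ 0 0) (.cut .s 7446528 (.cut .s 7401472 (.pos 33 .mp ⟨1289043, 0, 0, 0, 0, 14737744, 0, 0, 0, ⟨0, 0⟩, 0⟩ 0 0) (.pos 33 .mp ⟨1594250, 0, 0, 0, 0, 15231592, 0, 0, 0, ⟨0, 0⟩, 0⟩ 0 0)) (.cut .s 7491584 (.pos 33 .mp ⟨1908478, 0, 0, 0, 0, 15736386, 0, 0, 0, ⟨0, 0⟩, 0⟩ 0 0) (.pos 33 .mp ⟨2231824, 0, 0, 0, 0, 16251933, 0, 0, 0, ⟨0, 0⟩, 0⟩ 0 0))))) (.cut .s 7446528 (.cut .l 910763 (.cut .v 17039360 (.cut .d (-131072) (.cut .l 587202 (.pos 35 .mp ⟨2160443, 0, 0, 0, 0, 14718712, 0, 0, 0, ⟨0, 0⟩, 0⟩ 0 0) (.cut .s 7401472 (.pos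 35 .mp ⟨1890843, 0, 0, 0, 0, 13777121, 0, 0, 0, ⟨0, 0⟩, 0⟩ 0 0) (.pos 35 .mp ⟨2163894, 0, 0, 0, 0, 14270961, 0, 0, 0, ⟨0, 0⟩, 0⟩ 0 0))) (.cut .d (-65536) (.cut .l 587202 (.cut .v 16908288 (.cut .s 7401472 (.pos 58 .mp ⟨2187683, 0, 0, 0, 0, 13326548, 0, 0, 0, ⟨0, 0⟩, 0⟩ 0 0) (.pos 58 .mp ⟨2445166, 0, 0, 0, 0, 13815095, 0, 0, 0, ⟨0, 0⟩, 0⟩ 0 0)) (.pos 59 .mp ⟨8041400, 0, 0, 0, 0, 7697785, 0, 0, 0, ⟨0, 0⟩, 0⟩ 0 0)) (.pos 35 .mp ⟨2304795, 0, 0, 0, 0, 0, 0, 0, 0, ⟨0, 0⟩, 0⟩ 0 0)) (.pos 35 .mp ⟨2991522, 0, 0, 0, 0, 11935595, 0, 0, 0, ⟨0, 0⟩, 0⟩ 0 0))) (.pos 36 .mp ⟨17286321, 0, 0, 0, 0, 0, 0, 0, 0, ⟨0, 0⟩, 0⟩ 0 0)) (.cut .s 7401472 (.pos 33 .mp ⟨2159235, 0, 0, 0,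 0, 12953696, 0, 0, 0, ⟨0, 0⟩, 0⟩ 0 0) (.pos 33 .mp ⟨2500463, 0, 0, 0, 0, 13341563, 0, 0, 0, ⟨0, 0⟩, 0⟩ 0 0))) (.cut .l 910763 (.cut .v 17039360 (.cut .d (-131072) (.cut .s 7491584 (.pos 35 .mp ⟨2444971, 0, 0, 0, 0, 14946492, 0, 0, 0, ⟨0, 0⟩, 0⟩ 0 0) (.pos 35 .mp ⟨2734158, 0, 0, 0, 0, 15463185, 0, 0, 0, ⟨0, 0⟩, 0⟩ 0 0)) (.cut .d (-65536) (.cut .l 587202 (.cut .s 7491584 (.pos 35 .mp ⟨2970478, 0, 0, 0, 0, 14055443, 0, 0, 0, ⟨0, 0⟩, 0⟩ 0 0) (.pos 35 .mp ⟨3264311, 0, 0, 0, 0, 14540940, 0, 0, 0, ⟨0, 0⟩, 0⟩ 0 0)) (.pos 35 .mp ⟨3355193, 0, 0, 0, 0, 0, 0, 0, 0, ⟨0, 0⟩, 0⟩ 0 0)) (.pos 35 .mp ⟨3588620, 0, 0, 0, 0, 12768014, 0, 0, 0, ⟨0, 0⟩, 0⟩ 0 0))) (.pos 36 .mp ⟨18759518,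 0, 0, 0, 0, 0, 0, 0, 0, ⟨0, 0⟩, 0⟩ 0 0)) (.cut .s 7491584 (.pos 33 .mp ⟨2851535, 0, 0, 0, 0, 13735011, 0, 0, 0, ⟨0, 0⟩, 0⟩ 0 0) (.pos 33 .mp ⟨3212557, 0, 0, 0, 0, 14133468, 0, 0, 0, ⟨0, 0⟩, 0⟩ 0 0)))))) (.pos 34 .mp ⟨16717361, 0, 0, 0, 0, 0, 0, 0, 0, ⟨0, 0⟩, 0⟩ 0 0))) (.pos 32 .mp ⟨16324004, 0, 0, 0, 0, 0, 0, 0, 0, ⟨0, 0⟩, 0⟩ 0 0)) (.void 30 ⟨100000, 0, 0, 0, 0, 0, 0, 0, 0, ⟨0, 0⟩, 0⟩ 0 0))))))) (.void 28 ⟨100000, 0, 0, 0, 0, 0, 0, 0, 0, ⟨0, 0⟩, 0⟩ 0 0)) (.void 26 ⟨100000, 0, 0, 0, 0, 0, 0, 0, 0, ⟨0, 0⟩, 0⟩ 0 0)) (.void 57 ⟨100000, 0, 0, 0, 0, 0, 0, 0, 0, ⟨0, 0⟩, 0⟩ 0 0))) (.cut .v 16777216 (.cut .v 8388608 (.cut .v 4194304 (.void 4 ⟨0, 0, 50000, 0, 50000,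 0, 0, 0, 0, ⟨0, 0⟩, 0⟩ 0 0) (.pos 5 .pm ⟨0, 0, 0, 0, 0, 0, 0, 0, 0, ⟨0, 0⟩, 0⟩ 0 0)) (.pos 3 .pm ⟨0, 0, 0, 0, 0, 0, 0, 0, 0, ⟨0, 0⟩, 0⟩ 0 0)) (.cut .v 33554432 (.cut .v 25165824 (.cut .v 20971520 (.cut .v 18874368 (.pos 29 .pp ⟨1102895, 0, 0, 0, 0, 0, 0, 0, 0, ⟨0, 0⟩, 0⟩ 0 0) (.pos 30 .pp ⟨2199528, 0, 0, 0, 0, 0, 0, 0, 0, ⟨0, 0⟩, 0⟩ 0 0)) (.pos 28 .pp ⟨1788736, 0, 0, 0, 0, 0, 1516101, 0, 0, ⟨0, 0⟩, 0⟩ 0 0)) (.pos 26 .pp ⟨1531581, 0, 0, 0, 0, 0, 1871586, 0, 0, ⟨0, 0⟩, 0⟩ 0 0)) (.cut .d 12260274 (.pos 57 .pp ⟨14781053, 0, 0, 0, 0, 0, 45941374, 0, 0, ⟨0, 0⟩, 0⟩ 0 0) (.pos 57 .pp ⟨0, 8652527, 0, 0, 0, 0, 77734979, 0, 0, ⟨0, 0⟩, 0⟩ 0 0))))),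
    by decide +kernel⟩

def covers8 : cell.Covers table row8.1 :=
  ⟨(.cut .d 0 (.cut .v 16777216 (.cut .d (-8388608) (.void 1 ⟨0, 0, 0, 0, 0, 100000, 0, 0, 0, ⟨0, 0⟩, 0⟩ 0 0) (.cut .d (-4194304) (.void 1 ⟨0, 0, 0, 0, 0, 100000, 0, 0, 0, ⟨0, 0⟩, 0⟩ 0 0) (.cut .d (-2097152) (.void 1 ⟨0, 0, 0, 0, 0, 100000, 0, 0, 0, ⟨0, 0⟩, 0⟩ 0 0) (.cut .d (-1048576) (.void 1 ⟨0, 0, 0, 0, 0, 100000, 0, 0, 0, ⟨0, 0⟩, 0⟩ 0 0) (.cut .d (-524288) (.void 1 ⟨0, 0, 0, 0, 0, 100000, 0, 0, 0, ⟨0, 0⟩, 0⟩ 0 0) (.cut .v 8388608 (.cut .v 4194304 (.void 4 ⟨0, 0, 100000, 0, 0, 0, 0, 0, 0, ⟨0, 0⟩, 0⟩ 0 0) (.pos 5 .mm ⟨0, 0, 0, 0, 0, 12514026, 0, 0, 0, ⟨0, 0⟩, 0⟩ 0 0)) (.cut .v 12582912 (.pos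 8 .mm ⟨0, 0, 0, 0, 0, 15121182, 0, 0, 0, ⟨0, 0⟩, 0⟩ 0 0) (.cut .v 14680064 (.pos 12 .mm ⟨0, 0, 0, 0, 0, 18863723, 0, 0, 0, ⟨0, 0⟩, 0⟩ 0 0) (.cut .v 15728640 (.pos 16 .mm ⟨0, 0, 0, 0, 0, 21429916, 0, 0, 0, ⟨0, 0⟩, 0⟩ 0 0) (.cut .s 7798784 (.cut .v 16252928 (.pos 20 .mm ⟨0, 0, 0, 0, 0, 19851543, 0, 0, 0, ⟨0, 0⟩, 0⟩ 0 0) (.cut .s 7667712 (.cut .s 7602176 (.pos 21 .mm ⟨0, 0, 0, 0, 0, 18650894, 0, 0, 0, ⟨0, 0⟩, 0⟩ 0 0) (.pos 21 .mm ⟨0, 0, 0, 0, 0, 19883560, 0, 0, 0, ⟨0, 0⟩, 0⟩ 0 0)) (.cut .s 7733248 (.pos 21 .mm ⟨0, 0, 0, 0, 0, 21180340, 0, 0, 0, ⟨0, 0⟩, 0⟩ 0 0) (.pos 21 .mm ⟨0, 0, 0, 0, 0, 22539621, 0, 0, 0, ⟨0, 0⟩, 0⟩ 0 0)))) (.cut .d (-262144) (.pos 17 .mm ⟨0,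 0, 0, 0, 0, 28887865, 0, 0, 0, ⟨0, 0⟩, 0⟩ 0 0) (.cut .l 910763 (.cut .d (-131072) (.pos 17 .mm ⟨0, 0, 0, 0, 0, 27974998, 0, 0, 0, ⟨0, 0⟩, 0⟩ 0 0) (.cut .s 7929856 (.pos 17 .mm ⟨0, 0, 0, 0, 0, 23906996, 0, 0, 0, ⟨0, 0⟩, 0⟩ 0 0) (.pos 17 .mm ⟨0, 0, 0, 0, 0, 26876791, 0, 0, 0, ⟨0, 0⟩, 0⟩ 0 0))) (.pos 17 .mm ⟨0, 0, 0, 0, 0, 23703334, 0, 0, 0, ⟨0, 0⟩, 0⟩ 0 0))))))))))))) (.cut .v 33554432 (.cut .v 25165824 (.cut .v 20971520 (.cut .d (-8388608) (.void 27 ⟨0, 0, 0, 0, 0, 100000, 0, 0, 0, ⟨0, 0⟩, 0⟩ 0 0) (.cut .d (-4194304) (.void 27 ⟨0, 0, 0, 0, 0, 100000, 0, 0, 0, ⟨0, 0⟩, 0⟩ 0 0) (.cut .d (-2097152) (.void 27 ⟨0, 0, 0, 0, 0, 100000, 0, 0, 0, ⟨0, 0⟩, 0⟩ 0 0) (.cut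 .d (-1048576) (.void 27 ⟨0, 0, 0, 0, 0, 100000, 0, 0, 0, ⟨0, 0⟩, 0⟩ 0 0) (.cut .d (-524288) (.void 27 ⟨0, 0, 0, 0, 0, 100000, 0, 0, 0, ⟨0, 0⟩, 0⟩ 0 0) (.cut .v 18874368 (.cut .v 17825792 (.cut .d (-262144) (.cut .v 17301504 (.cut .d (-393216) (.void 33 ⟨0, 0, 0, 0, 0, 100000, 0, 0, 0, ⟨0, 0⟩, 0⟩ 0 0) (.cut .l 910763 (.void 33 ⟨0, 0, 0, 0, 0, 100000, 0, 0, 0, ⟨0, 0⟩, 0⟩ 0 0) (.cut .s 7798784 (.cut .s 7667712 (.cut .d (-327680) (.pos 33 .mp ⟨2882073, 0, 0, 0, 0, 18328444, 0, 0, 0, ⟨0, 0⟩, 0⟩ 0 0) (.cut .s 7602176 (.pos 33 .mp ⟨3393074, 0, 0, 0, 0, 15763362, 0, 0, 0, ⟨0, 0⟩, 0⟩ 0 0) (.pos 33 .mp ⟨4009164, 0, 0, 0, 0, 16421161, 0, 0, 0, ⟨0, 0⟩, 0⟩ 0 0))) (.cut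 .d (-327680) (.pos 33 .mp ⟨3994838, 0, 0, 0, 0, 20182032, 0, 0, 0, ⟨0, 0⟩, 0⟩ 0 0) (.cut .s 7733248 (.pos 33 .mp ⟨4504594, 0, 0, 0, 0, 17333581, 0, 0, 0, ⟨0, 0⟩, 0⟩ 0 0) (.pos 33 .mp ⟨4144536, 0, 0, 0, 0, 19623668, 0, 0, 0, ⟨0, 0⟩, 0⟩ 0 0)))) (.cut .d (-327680) (.pos 33 .mp ⟨5210205, 0, 0, 0, 0, 25616590, 0, 0, 0, ⟨0, 0⟩, 0⟩ 0 0) (.cut .l 1234324 (.pos 33 .mp ⟨5134109, 0, 0, 0, 0, 27263347, 0, 0, 0, ⟨0, 0⟩, 0⟩ 0 0) (.cut .s 7929856 (.cut .s 7864320 (.pos 33 .mp ⟨5562989, 0, 0, 0, 0, 18807899, 0, 0, 0, ⟨0, 0⟩, 0⟩ 0 0) (.pos 33 .mp ⟨6126703, 0, 0, 0, 0, 19856187, 0, 0, 0, ⟨0, 0⟩, 0⟩ 0 0)) (.cut .s 7995392 (.pos 33 .mp ⟨6713946, 0, 0, 0, 0, 20940670, 0, 0, 0,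 ⟨0, 0⟩, 0⟩ 0 0) (.pos 33 .mp ⟨6591144, 0, 0, 0, 0, 23313581, 0, 0, 0, ⟨0, 0⟩, 0⟩ 0 0)))))))) (.pos 34 .mp ⟨29128598, 0, 0, 0, 0, 0, 0, 0, 0, ⟨0, 0⟩, 0⟩ 0 0)) (.cut .v 17301504 (.cut .s 7798784 (.cut .s 7667712 (.cut .s 7602176 (.cut .v 17039360 (.cut .l 910763 (.cut .d (-131072) (.cut .s 7569408 (.pos 35 .mp ⟨3201736, 0, 0, 0, 0, 15631308, 0, 0, 0, ⟨0, 0⟩, 0⟩ 0 0) (.pos 35 .mp ⟨3428567, 0, 0, 0, 0, 16022651, 0, 0, 0, ⟨0, 0⟩, 0⟩ 0 0)) (.cut .d (-65536) (.cut .s 7569408 (.pos 35 .mp ⟨3513502, 0, 0, 0, 0, 14914943, 0, 0, 0, ⟨0, 0⟩, 0⟩ 0 0) (.pos 35 .mp ⟨3770760, 0, 0, 0, 0, 15245703, 0, 0, 0, ⟨0, 0⟩, 0⟩ 0 0)) (.pos 35 .mp ⟨4279946, 0, 0, 0, 0, 13584580, 0, 0,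 0, ⟨0, 0⟩, 0⟩ 0 0))) (.pos 35 .mp ⟨2884304, 0, 0, 0, 0, 15396482, 0, 0, 0, ⟨0, 0⟩, 0⟩ 0 0)) (.pos 36 .mp ⟨7836895, 0, 0, 0, 0, 10844840, 0, 0, 0, ⟨0, 0⟩, 0⟩ 0 0)) (.cut .l 910763 (.cut .v 17039360 (.cut .d (-131072) (.cut .s 7634944 (.pos 35 .mp ⟨3659705, 0, 0, 0, 0, 16424968, 0, 0, 0, ⟨0, 0⟩, 0⟩ 0 0) (.pos 35 .mp ⟨3895941, 0, 0, 0, 0, 16837282, 0, 0, 0, ⟨0, 0⟩, 0⟩ 0 0)) (.cut .d (-65536) (.cut .s 7634944 (.pos 35 .mp ⟨4033605, 0, 0, 0, 0, 15585194, 0, 0, 0, ⟨0, 0⟩, 0⟩ 0 0) (.pos 35 .mp ⟨4302082, 0, 0, 0, 0, 15933402, 0, 0, 0, ⟨0, 0⟩, 0⟩ 0 0)) (.pos 35 .mp ⟨4739440, 0, 0, 0, 0, 14287585, 0, 0, 0, ⟨0, 0⟩, 0⟩ 0 0))) (.pos 36 .mp ⟨21403610, 0, 0, 0, 0, 0, 0, 0,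 0, ⟨0, 0⟩, 0⟩ 0 0)) (.cut .s 7634944 (.pos 33 .mp ⟨4039927, 0, 0, 0, 0, 15239583, 0, 0, 0, ⟨0, 0⟩, 0⟩ 0 0) (.pos 33 .mp ⟨4329378, 0, 0, 0, 0, 15563657, 0, 0, 0, ⟨0, 0⟩, 0⟩ 0 0)))) (.cut .s 7733248 (.cut .l 910763 (.cut .v 17039360 (.cut .d (-131072) (.cut .s 7700480 (.pos 35 .mp ⟨4138062, 0, 0, 0, 0, 17258610, 0, 0, 0, ⟨0, 0⟩, 0⟩ 0 0) (.pos 35 .mp ⟨4386854, 0, 0, 0, 0, 17687963, 0, 0, 0, ⟨0, 0⟩, 0⟩ 0 0)) (.cut .d (-65536) (.cut .s 7700480 (.pos 35 .mp ⟨4576236, 0, 0, 0, 0, 16290313, 0, 0, 0, ⟨0, 0⟩, 0⟩ 0 0) (.pos 35 .mp ⟨4856115, 0, 0, 0, 0, 16655909, 0, 0, 0, ⟨0, 0⟩, 0⟩ 0 0)) (.pos 35 .mp ⟨5218485, 0, 0, 0, 0, 15027539, 0, 0, 0, ⟨0, 0⟩, 0⟩ 0 0))) (.pos 36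 .mp ⟨22629212, 0, 0, 0, 0, 0, 0, 0, 0, ⟨0, 0⟩, 0⟩ 0 0)) (.cut .s 7700480 (.pos 33 .mp ⟨4625176, 0, 0, 0, 0, 15895433, 0, 0, 0, ⟨0, 0⟩, 0⟩ 0 0) (.pos 33 .mp ⟨4927372, 0, 0, 0, 0, 16234593, 0, 0, 0, ⟨0, 0⟩, 0⟩ 0 0))) (.cut .l 910763 (.cut .v 17039360 (.cut .d (-131072) (.cut .s 7766016 (.pos 35 .mp ⟨4643096, 0, 0, 0, 0, 18124349, 0, 0, 0, ⟨0, 0⟩, 0⟩ 0 0) (.pos 35 .mp ⟨4907567, 0, 0, 0, 0, 18566766, 0, 0, 0, ⟨0, 0⟩, 0⟩ 0 0)) (.cut .d (-65536) (.cut .s 7766016 (.pos 35 .mp ⟨5141767, 0, 0, 0, 0, 17030171, 0, 0, 0, ⟨0, 0⟩, 0⟩ 0 0) (.pos 35 .mp ⟨5433238, 0, 0, 0, 0, 17413078, 0, 0, 0, ⟨0, 0⟩, 0⟩ 0 0)) (.pos 35 .mp ⟨5717406, 0, 0, 0, 0, 15802142, 0, 0, 0, ⟨0, 0⟩, 0⟩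 0 0))) (.pos 36 .mp ⟨23902195, 0, 0, 0, 0, 0, 0, 0, 0, ⟨0, 0⟩, 0⟩ 0 0)) (.cut .s 7766016 (.pos 33 .mp ⟨5236020, 0, 0, 0, 0, 16580817, 0, 0, 0, ⟨0, 0⟩, 0⟩ 0 0) (.pos 33 .mp ⟨5551172, 0, 0, 0, 0, 16933789, 0, 0, 0, ⟨0, 0⟩, 0⟩ 0 0))))) (.cut .s 7929856 (.cut .s 7864320 (.cut .v 17039360 (.cut .d (-131072) (.cut .l 910763 (.cut .s 7831552 (.pos 35 .mp ⟨5181042, 0, 0, 0, 0, 19014208, 0, 0, 0, ⟨0, 0⟩, 0⟩ 0 0) (.pos 35 .mp ⟨5464293, 0, 0, 0, 0, 19465665, 0, 0, 0, ⟨0, 0⟩, 0⟩ 0 0)) (.pos 35 .mp ⟨3791058, 0, 0, 0, 0, 20339230, 0, 0, 0, ⟨0, 0⟩, 0⟩ 0 0)) (.cut .d (-65536) (.cut .l 910763 (.cut .s 7831552 (.pos 35 .mp ⟨5730578, 0, 0, 0, 0, 17804606, 0, 0, 0, ⟨0, 0⟩, 0⟩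 0 0) (.pos 35 .mp ⟨6033837, 0, 0, 0, 0, 18204732, 0, 0, 0, ⟨0, 0⟩, 0⟩ 0 0)) (.pos 35 .mp ⟨0, 0, 0, 0, 0, 0, 0, 0, 0, ⟨0, 0⟩, 0⟩ 0 0)) (.pos 35 .mp ⟨6236538, 0, 0, 0, 0, 16609125, 0, 0, 0, ⟨0, 0⟩, 0⟩ 0 0))) (.cut .s 7831552 (.pos 36 .mp ⟨9061160, 0, 0, 0, 0, 14599819, 0, 0, 0, ⟨0, 0⟩, 0⟩ 0 0) (.pos 36 .mp ⟨9460706, 0, 0, 0, 0, 14906082, 0, 0, 0, ⟨0, 0⟩, 0⟩ 0 0))) (.cut .v 17039360 (.cut .d (-131072) (.cut .l 910763 (.cut .s 7897088 (.pos 35 .mp ⟨5758092, 0, 0, 0, 0, 19920115, 0, 0, 0, ⟨0, 0⟩, 0⟩ 0 0) (.pos 35 .mp ⟨6063206, 0, 0, 0, 0, 20376535, 0, 0, 0, ⟨0, 0⟩, 0⟩ 0 0)) (.pos 35 .mp ⟨4284586, 0, 0, 0, 0, 21348043, 0, 0, 0, ⟨0, 0⟩, 0⟩ 0 0)) (.cut .d (-65536)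 (.cut .l 910763 (.cut .s 7897088 (.pos 35 .mp ⟨6343066, 0, 0, 0, 0, 18613428, 0, 0, 0, ⟨0, 0⟩, 0⟩ 0 0) (.pos 35 .mp ⟨6658315, 0, 0, 0, 0, 19030665, 0, 0, 0, ⟨0, 0⟩, 0⟩ 0 0)) (.pos 35 .mp ⟨0, 0, 0, 0, 0, 0, 0, 0, 0, ⟨0, 0⟩, 0⟩ 0 0)) (.pos 35 .mp ⟨6776226, 0, 0, 0, 0, 17446244, 0, 0, 0, ⟨0, 0⟩, 0⟩ 0 0))) (.cut .s 7897088 (.pos 36 .mp ⟨9877315, 0, 0, 0, 0, 15208406, 0, 0, 0, ⟨0, 0⟩, 0⟩ 0 0) (.pos 36 .mp ⟨10312693, 0, 0, 0, 0, 15504811, 0, 0, 0, ⟨0, 0⟩, 0⟩ 0 0)))) (.cut .s 7995392 (.cut .v 17039360 (.cut .d (-131072) (.cut .l 910763 (.pos 35 .mp ⟨6039761, 0, 0, 0, 0, 21902573, 0, 0, 0, ⟨0, 0⟩, 0⟩ 0 0) (.pos 35 .mp ⟨4804517, 0, 0, 0, 0, 22388743, 0, 0, 0, ⟨0, 0⟩,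 0⟩ 0 0)) (.cut .d (-65536) (.cut .s 7962624 (.cut .s 7946240 (.pos 35 .mp ⟨6914402, 0, 0, 0, 0, 19385062, 0, 0, 0, ⟨0, 0⟩, 0⟩ 0 0) (.pos 35 .mp ⟨7053890, 0, 0, 0, 0, 19634059, 0, 0, 0, ⟨0, 0⟩, 0⟩ 0 0)) (.pos 35 .mp ⟨7307087, 0, 0, 0, 0, 19831196, 0, 0, 0, ⟨0, 0⟩, 0⟩ 0 0)) (.pos 35 .mp ⟨7336829, 0, 0, 0, 0, 18311282, 0, 0, 0, ⟨0, 0⟩, 0⟩ 0 0))) (.pos 36 .mp ⟨13068581, 0, 0, 0, 0, 13636031, 0, 0, 0, ⟨0, 0⟩, 0⟩ 0 0)) (.cut .v 17039360 (.cut .d (-131072) (.cut .s 8028160 (.pos 35 .mp ⟨6227380, 0, 0, 0, 0, 22529161, 0, 0, 0, ⟨0, 0⟩, 0⟩ 0 0) (.pos 35 .mp ⟨6564515, 0, 0, 0, 0, 23006082, 0, 0, 0, ⟨0, 0⟩, 0⟩ 0 0)) (.cut .d (-65536) (.cut .s 8028160 (.pos 35 .mp ⟨7640716,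 0, 0, 0, 0, 20278196, 0, 0, 0, ⟨0, 0⟩, 0⟩ 0 0) (.pos 35 .mp ⟨7980581, 0, 0, 0, 0, 20734367, 0, 0, 0, ⟨0, 0⟩, 0⟩ 0 0)) (.pos 35 .mp ⟨7918714, 0, 0, 0, 0, 19202044, 0, 0, 0, ⟨0, 0⟩, 0⟩ 0 0))) (.pos 36 .mp ⟨14175723, 0, 0, 0, 0, 14043007, 0, 0, 0, ⟨0, 0⟩, 0⟩ 0 0))))) (.pos 34 .mp ⟨22972278, 0, 0, 0, 0, 0, 0, 0, 0, ⟨0, 0⟩, 0⟩ 0 0))) (.pos 32 .mp ⟨28027665, 0, 0, 0, 0, 0, 0, 0, 0, ⟨0, 0⟩, 0⟩ 0 0)) (.void 30 ⟨100000, 0, 0, 0, 0, 0, 0, 0, 0, ⟨0, 0⟩, 0⟩ 0 0))))))) (.void 28 ⟨100000, 0, 0, 0, 0, 0, 0, 0, 0, ⟨0, 0⟩, 0⟩ 0 0)) (.void 26 ⟨100000, 0, 0, 0, 0, 0, 0, 0, 0, ⟨0, 0⟩, 0⟩ 0 0)) (.void 57 ⟨100000, 0, 0, 0, 0, 0, 0, 0, 0, ⟨0, 0⟩, 0⟩ 0 0))) (.cut .v 16777216 (.cut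 .v 8388608 (.cut .v 4194304 (.void 4 ⟨0, 0, 50000, 0, 50000, 0, 0, 0, 0, ⟨0, 0⟩, 0⟩ 0 0) (.pos 5 .pm ⟨0, 0, 0, 0, 0, 0, 0, 0, 0, ⟨0, 0⟩, 0⟩ 0 0)) (.pos 3 .pm ⟨0, 0, 0, 0, 0, 0, 0, 0, 0, ⟨0, 0⟩, 0⟩ 0 0)) (.cut .v 33554432 (.cut .d 10285164 (.cut .v 25165824 (.cut .v 20971520 (.pos 27 .pp ⟨8933855, 0, 0, 0, 0, 0, 0, 0, 0, ⟨0, 0⟩, 0⟩ 0 0) (.pos 28 .pp ⟨13233953, 0, 0, 0, 0, 0, 0, 0, 0, ⟨0, 0⟩, 0⟩ 0 0)) (.pos 26 .pp ⟨17355886, 0, 0, 0, 0, 0, 1376454, 0, 0, ⟨0, 0⟩, 0⟩ 0 0)) (.pos 24 .pp ⟨0, 0, 0, 0, 0, 0, 0, 0, 8709149, ⟨0, 0⟩, 19951585⟩ 0 0)) (.cut .v 50331648 (.cut .d 10285164 (.cut .d 5142582 (.pos 62 .pp ⟨68468668, 0, 0, 0, 0, 0, 1181512, 0, 0, ⟨0, 0⟩, 0⟩ 0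 0) (.pos 62 .pp ⟨0, 0, 0, 0, 0, 0, 2654814, 0, 0, ⟨0, 0⟩, 0⟩ 0 0)) (.pos 62 .pp ⟨0, 6785127, 0, 0, 0, 0, 2654814, 0, 0, ⟨0, 0⟩, 0⟩ 0 0)) (.void 63 ⟨0, 0, 0, 0, 0, 0, 100000, 0, 0, ⟨0, 0⟩, 0⟩ 0 0))))),
    by decide +kernel⟩

def covers9 : cell.Covers table row9.1 :=
  ⟨(.cut .d 0 (.cut .v 16777216 (.cut .d (-8388608) (.void 1 ⟨0, 0, 0, 0, 0, 100000, 0, 0, 0, ⟨0, 0⟩, 0⟩ 0 0) (.cut .d (-4194304) (.void 1 ⟨0, 0, 0, 0, 0, 100000, 0, 0, 0, ⟨0, 0⟩, 0⟩ 0 0) (.cut .d (-2097152) (.void 1 ⟨0, 0, 0, 0, 0, 100000, 0, 0, 0, ⟨0, 0⟩, 0⟩ 0 0) (.cut .d (-1048576) (.void 1 ⟨0, 0, 0, 0, 0, 100000, 0, 0, 0, ⟨0, 0⟩, 0⟩ 0 0) (.cut .d (-524288) (.void 1 ⟨0, 0, 0, 0, 0, 100000, 0,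 0, 0, ⟨0, 0⟩, 0⟩ 0 0) (.cut .v 8388608 (.cut .v 4194304 (.void 4 ⟨0, 0, 100000, 0, 0, 0, 0, 0, 0, ⟨0, 0⟩, 0⟩ 0 0) (.pos 5 .mm ⟨0, 0, 0, 0, 0, 17655392, 0, 0, 0, ⟨0, 0⟩, 0⟩ 0 0)) (.cut .d (-262144) (.pos 3 .mm ⟨0, 0, 0, 0, 0, 44256861, 0, 0, 0, ⟨0, 0⟩, 0⟩ 0 0) (.cut .v 12582912 (.pos 8 .mm ⟨0, 0, 0, 0, 0, 19117225, 0, 0, 0, ⟨0, 0⟩, 0⟩ 0 0) (.cut .v 14680064 (.pos 12 .mm ⟨0, 0, 0, 0, 0, 27061346, 0, 0, 0, ⟨0, 0⟩, 0⟩ 0 0) (.cut .v 15728640 (.pos 16 .mm ⟨0, 0, 0, 0, 0, 31348543, 0, 0, 0, ⟨0, 0⟩, 0⟩ 0 0) (.cut .v 16252928 (.pos 20 .mm ⟨0, 0, 0, 0, 0, 33691598, 0, 0, 0, ⟨0, 0⟩, 0⟩ 0 0) (.cut .s 8323072 (.cut .l 910763 (.cut .d (-131072) (.pos 21 .mm ⟨0, 0, 0, 0,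 0, 35529594, 0, 0, 0, ⟨0, 0⟩, 0⟩ 0 0) (.cut .s 8192000 (.pos 21 .mm ⟨0, 0, 0, 0, 0, 30206337, 0, 0, 0, ⟨0, 0⟩, 0⟩ 0 0) (.pos 21 .mm ⟨0, 0, 0, 0, 0, 33752742, 0, 0, 0, ⟨0, 0⟩, 0⟩ 0 0))) (.pos 21 .mm ⟨0, 0, 0, 0, 0, 30547475, 0, 0, 0, ⟨0, 0⟩, 0⟩ 0 0)) (.cut .s 8454144 (.cut .s 8388608 (.pos 21 .mm ⟨0, 0, 0, 0, 0, 37011910, 0, 0, 0, ⟨0, 0⟩, 0⟩ 0 0) (.pos 21 .mm ⟨0, 0, 0, 0, 0, 39037128, 0, 0, 0, ⟨0, 0⟩, 0⟩ 0 0)) (.pos 21 .mm ⟨0, 0, 0, 0, 0, 42912636, 0, 0, 0, ⟨0, 0⟩, 0⟩ 0 0)))))))))))))) (.cut .v 33554432 (.cut .v 25165824 (.cut .v 20971520 (.cut .d (-8388608) (.void 27 ⟨0, 0, 0, 0, 0, 100000, 0, 0, 0, ⟨0, 0⟩, 0⟩ 0 0) (.cut .d (-4194304) (.void 27 ⟨0, 0, 0, 0,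 0, 100000, 0, 0, 0, ⟨0, 0⟩, 0⟩ 0 0) (.cut .d (-2097152) (.void 27 ⟨0, 0, 0, 0, 0, 100000, 0, 0, 0, ⟨0, 0⟩, 0⟩ 0 0) (.cut .d (-1048576) (.void 27 ⟨0, 0, 0, 0, 0, 100000, 0, 0, 0, ⟨0, 0⟩, 0⟩ 0 0) (.cut .d (-524288) (.void 27 ⟨0, 0, 0, 0, 0, 100000, 0, 0, 0, ⟨0, 0⟩, 0⟩ 0 0) (.cut .v 18874368 (.cut .v 17825792 (.cut .d (-262144) (.cut .v 17301504 (.cut .d (-393216) (.void 33 ⟨0, 0, 0, 0, 0, 100000, 0, 0, 0, ⟨0, 0⟩, 0⟩ 0 0) (.cut .d (-327680) (.void 33 ⟨0, 0, 0, 0, 0, 100000, 0, 0, 0, ⟨0, 0⟩, 0⟩ 0 0) (.cut .l 910763 (.void 33 ⟨0, 0, 0, 0, 0, 100000, 0, 0, 0, ⟨0, 0⟩, 0⟩ 0 0) (.cut .l 1234324 (.void 33 ⟨0, 0, 0, 0, 0, 100000, 0, 0, 0, ⟨0, 0⟩, 0⟩ 0 0) (.cut .s 8323072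 (.cut .v 17039360 (.pos 35 .mp ⟨0, 0, 0, 0, 0, 35695338, 0, 0, 0, ⟨0, 0⟩, 0⟩ 0 0) (.cut .s 8192000 (.pos 36 .mp ⟨9828195, 0, 0, 0, 0, 22392617, 0, 0, 0, ⟨0, 0⟩, 0⟩ 0 0) (.cut .s 8257536 (.pos 36 .mp ⟨10747533, 0, 0, 0, 0, 23877225, 0, 0, 0, ⟨0, 0⟩, 0⟩ 0 0) (.pos 36 .mp ⟨11703397, 0, 0, 0, 0, 24778062, 0, 0, 0, ⟨0, 0⟩, 0⟩ 0 0)))) (.cut .s 8454144 (.cut .s 8388608 (.pos 33 .mp ⟨10294787, 0, 0, 0, 0, 29404768, 0, 0, 0, ⟨0, 0⟩, 0⟩ 0 0) (.pos 33 .mp ⟨11127539, 0, 0, 0, 0, 30710388, 0, 0, 0, ⟨0, 0⟩, 0⟩ 0 0)) (.pos 33 .mp ⟨11991611, 0, 0, 0, 0, 34214768, 0, 0, 0, ⟨0, 0⟩, 0⟩ 0 0))))))) (.pos 34 .mp ⟨45520757, 0, 0, 0, 0, 0, 0, 0, 0, ⟨0, 0⟩, 0⟩ 0 0)) (.cut .v 17301504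 (.cut .s 8323072 (.cut .s 8192000 (.cut .s 8126464 (.cut .v 17039360 (.cut .d (-131072) (.cut .s 8093696 (.pos 35 .mp ⟨6923288, 0, 0, 0, 0, 23482005, 0, 0, 0, ⟨0, 0⟩, 0⟩ 0 0) (.pos 35 .mp ⟨7128887, 0, 0, 0, 0, 24117337, 0, 0, 0, ⟨0, 0⟩, 0⟩ 0 0)) (.cut .l 910763 (.cut .v 16908288 (.cut .l 587202 (.cut .d (-65536) (.pos 58 .mp ⟨7043828, 0, 0, 0, 0, 23499011, 0, 0, 0, ⟨0, 0⟩, 0⟩ 0 0) (.cut .s 8093696 (.pos 58 .mp ⟨8016204, 0, 0, 0, 0, 20598644, 0, 0, 0, ⟨0, 0⟩, 0⟩ 0 0) (.pos 58 .mp ⟨8325488, 0, 0, 0, 0, 21069770, 0, 0, 0, ⟨0, 0⟩, 0⟩ 0 0))) (.pos 58 .mp ⟨0, 0, 0, 0, 0, 28807980, 0, 0, 0, ⟨0, 0⟩, 0⟩ 0 0)) (.pos 59 .mp ⟨15280010, 0, 0, 0, 0, 13928242, 0, 0, 0, ⟨0,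 0⟩, 0⟩ 0 0)) (.pos 35 .mp ⟨0, 0, 0, 0, 0, 0, 0, 0, 0, ⟨0, 0⟩, 0⟩ 0 0))) (.pos 36 .mp ⟨15484411, 0, 0, 0, 0, 14303649, 0, 0, 0, ⟨0, 0⟩, 0⟩ 0 0)) (.cut .v 17039360 (.cut .d (-131072) (.cut .s 8159232 (.pos 35 .mp ⟨7341203, 0, 0, 0, 0, 24766541, 0, 0, 0, ⟨0, 0⟩, 0⟩ 0 0) (.pos 35 .mp ⟨7561421, 0, 0, 0, 0, 25428132, 0, 0, 0, ⟨0, 0⟩, 0⟩ 0 0)) (.cut .l 910763 (.cut .l 587202 (.cut .v 16908288 (.cut .d (-65536) (.pos 58 .mp ⟨7639347, 0, 0, 0, 0, 24569310, 0, 0, 0, ⟨0, 0⟩, 0⟩ 0 0) (.cut .s 8159232 (.pos 58 .mp ⟨8640643, 0, 0, 0, 0, 21553644, 0, 0, 0, ⟨0, 0⟩, 0⟩ 0 0) (.pos 58 .mp ⟨8961721, 0, 0, 0, 0, 22049897, 0, 0, 0, ⟨0, 0⟩, 0⟩ 0 0))) (.pos 59 .mp ⟨17610816, 0, 0,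 0, 0, 13431713, 0, 0, 0, ⟨0, 0⟩, 0⟩ 0 0)) (.pos 35 .mp ⟨9068390, 0, 0, 0, 0, 21240972, 0, 0, 0, ⟨0, 0⟩, 0⟩ 0 0)) (.pos 35 .mp ⟨0, 0, 0, 0, 0, 0, 0, 0, 0, ⟨0, 0⟩, 0⟩ 0 0))) (.pos 36 .mp ⟨16307172, 0, 0, 0, 0, 15071324, 0, 0, 0, ⟨0, 0⟩, 0⟩ 0 0))) (.cut .s 8257536 (.cut .v 17039360 (.cut .d (-131072) (.cut .l 910763 (.pos 35 .mp ⟨8492390, 0, 0, 0, 0, 26348405, 0, 0, 0, ⟨0, 0⟩, 0⟩ 0 0) (.pos 35 .mp ⟨7114905, 0, 0, 0, 0, 26947711, 0, 0, 0, ⟨0, 0⟩, 0⟩ 0 0)) (.cut .l 910763 (.cut .l 587202 (.cut .v 16908288 (.cut .d (-65536) (.cut .s 8224768 (.pos 58 .mp ⟨8926943, 0, 0, 0, 0, 24217636, 0, 0, 0, ⟨0, 0⟩, 0⟩ 0 0) (.pos 58 .mp ⟨9221125, 0, 0, 0, 0, 24812940, 0, 0, 0,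 ⟨0, 0⟩, 0⟩ 0 0)) (.cut .s 8224768 (.pos 58 .mp ⟨9288776, 0, 0, 0, 0, 22558163, 0, 0, 0, ⟨0, 0⟩, 0⟩ 0 0) (.pos 58 .mp ⟨9621865, 0, 0, 0, 0, 23078075, 0, 0, 0, ⟨0, 0⟩, 0⟩ 0 0))) (.pos 59 .mp ⟨18455215, 0, 0, 0, 0, 14224233, 0, 0, 0, ⟨0, 0⟩, 0⟩ 0 0)) (.pos 35 .mp ⟨9774788, 0, 0, 0, 0, 22203825, 0, 0, 0, ⟨0, 0⟩, 0⟩ 0 0)) (.pos 35 .mp ⟨0, 0, 0, 0, 0, 0, 0, 0, 0, ⟨0, 0⟩, 0⟩ 0 0))) (.cut .s 8224768 (.pos 36 .mp ⟨14152577, 0, 0, 0, 0, 18797704, 0, 0, 0, ⟨0, 0⟩, 0⟩ 0 0) (.pos 36 .mp ⟨14509232, 0, 0, 0, 0, 19310286, 0, 0, 0, ⟨0, 0⟩, 0⟩ 0 0))) (.cut .v 17039360 (.cut .d (-131072) (.cut .l 910763 (.pos 35 .mp ⟨9169301, 0, 0, 0, 0, 27539413, 0, 0, 0, ⟨0, 0⟩, 0⟩ 0 0) (.cut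 .s 8290304 (.pos 35 .mp ⟨7954368, 0, 0, 0, 0, 27549849, 0, 0, 0, ⟨0, 0⟩, 0⟩ 0 0) (.pos 35 .mp ⟨8185317, 0, 0, 0, 0, 28279302, 0, 0, 0, ⟨0, 0⟩, 0⟩ 0 0))) (.cut .l 910763 (.cut .l 587202 (.cut .v 16908288 (.cut .d (-65536) (.cut .s 8290304 (.pos 58 .mp ⟨9525378, 0, 0, 0, 0, 25416367, 0, 0, 0, ⟨0, 0⟩, 0⟩ 0 0) (.pos 58 .mp ⟨9840496, 0, 0, 0, 0, 26026776, 0, 0, 0, ⟨0, 0⟩, 0⟩ 0 0)) (.cut .d (-32768) (.cut .s 8290304 (.pos 58 .mp ⟨9333795, 0, 0, 0, 0, 25028496, 0, 0, 0, ⟨0, 0⟩, 0⟩ 0 0) (.pos 58 .mp ⟨9651739, 0, 0, 0, 0, 25632151, 0, 0, 0, ⟨0, 0⟩, 0⟩ 0 0)) (.pos 58 .mp ⟨9312153, 0, 0, 0, 0, 0, 0, 0, 0, ⟨0, 0⟩, 0⟩ 0 0))) (.pos 59 .mp ⟨19379219, 0, 0, 0, 0, 15006204,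 0, 0, 0, ⟨0, 0⟩, 0⟩ 0 0)) (.pos 35 .mp ⟨10507879, 0, 0, 0, 0, 23209532, 0, 0, 0, ⟨0, 0⟩, 0⟩ 0 0)) (.pos 35 .mp ⟨0, 0, 0, 0, 0, 0, 0, 0, 0, ⟨0, 0⟩, 0⟩ 0 0))) (.cut .s 8290304 (.pos 36 .mp ⟨14883007, 0, 0, 0, 0, 19824265, 0, 0, 0, ⟨0, 0⟩, 0⟩ 0 0) (.pos 36 .mp ⟨15276206, 0, 0, 0, 0, 20336934, 0, 0, 0, ⟨0, 0⟩, 0⟩ 0 0))))) (.cut .s 8454144 (.cut .s 8388608 (.cut .v 17039360 (.cut .d (-131072) (.cut .l 910763 (.pos 35 .mp ⟨9871581, 0, 0, 0, 0, 28792116, 0, 0, 0, ⟨0, 0⟩, 0⟩ 0 0) (.cut .s 8355840 (.pos 35 .mp ⟨8432021, 0, 0, 0, 0, 29011674, 0, 0, 0, ⟨0, 0⟩, 0⟩ 0 0) (.pos 35 .mp ⟨8756538, 0, 0, 0, 0, 29672708, 0, 0, 0, ⟨0, 0⟩, 0⟩ 0 0))) (.cut .l 910763 (.cut .l 587202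 (.cut .v 16908288 (.cut .d (-65536) (.cut .s 8355840 (.pos 58 .mp ⟨10167271, 0, 0, 0, 0, 26643020, 0, 0, 0, ⟨0, 0⟩, 0⟩ 0 0) (.pos 58 .mp ⟨10506496, 0, 0, 0, 0, 27263944, 0, 0, 0, ⟨0, 0⟩, 0⟩ 0 0)) (.cut .d (-32768) (.cut .s 8355840 (.pos 58 .mp ⟨9975349, 0, 0, 0, 0, 26247173, 0, 0, 0, ⟨0, 0⟩, 0⟩ 0 0) (.pos 58 .mp ⟨10304678, 0, 0, 0, 0, 26873218, 0, 0, 0, ⟨0, 0⟩, 0⟩ 0 0)) (.pos 58 .mp ⟨9987238, 0, 0, 0, 0, 0, 0, 0, 0, ⟨0, 0⟩, 0⟩ 0 0))) (.pos 59 .mp ⟨20401257, 0, 0, 0, 0, 15755613, 0, 0, 0, ⟨0, 0⟩, 0⟩ 0 0)) (.pos 35 .mp ⟨11268166, 0, 0, 0, 0, 24255118, 0, 0, 0, ⟨0, 0⟩, 0⟩ 0 0)) (.pos 35 .mp ⟨0, 0, 0, 0, 0, 0, 0, 0, 0, ⟨0, 0⟩, 0⟩ 0 0))) (.cut .s 8355840 (.pos 36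 .mp ⟨15691145, 0, 0, 0, 0, 20845543, 0, 0, 0, ⟨0, 0⟩, 0⟩ 0 0) (.pos 36 .mp ⟨16130159, 0, 0, 0, 0, 21347295, 0, 0, 0, ⟨0, 0⟩, 0⟩ 0 0))) (.cut .v 17039360 (.cut .d (-131072) (.cut .l 910763 (.pos 35 .mp ⟨10599707, 0, 0, 0, 0, 30097708, 0, 0, 0, ⟨0, 0⟩, 0⟩ 0 0) (.cut .s 8421376 (.pos 35 .mp ⟨9102642, 0, 0, 0, 0, 30329056, 0, 0, 0, ⟨0, 0⟩, 0⟩ 0 0) (.pos 35 .mp ⟨9454804, 0, 0, 0, 0, 30999177, 0, 0, 0, ⟨0, 0⟩, 0⟩ 0 0))) (.cut .l 910763 (.cut .l 587202 (.cut .v 16908288 (.cut .d (-65536) (.cut .s 8421376 (.pos 58 .mp ⟨10858958, 0, 0, 0, 0, 27888387, 0, 0, 0, ⟨0, 0⟩, 0⟩ 0 0) (.pos 58 .mp ⟨11225444, 0, 0, 0, 0, 28515181, 0, 0, 0, ⟨0, 0⟩, 0⟩ 0 0)) (.cut .d (-32768) (.cut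 .s 8421376 (.pos 58 .mp ⟨10639782, 0, 0, 0, 0, 27509942, 0, 0, 0, ⟨0, 0⟩, 0⟩ 0 0) (.pos 58 .mp ⟨10980715, 0, 0, 0, 0, 28157006, 0, 0, 0, ⟨0, 0⟩, 0⟩ 0 0)) (.pos 58 .mp ⟨10677865, 0, 0, 0, 0, 0, 0, 0, 0, ⟨0, 0⟩, 0⟩ 0 0))) (.pos 59 .mp ⟨37999384, 0, 0, 0, 0, 0, 0, 0, 0, ⟨0, 0⟩, 0⟩ 0 0)) (.pos 35 .mp ⟨12056168, 0, 0, 0, 0, 25337632, 0, 0, 0, ⟨0, 0⟩, 0⟩ 0 0)) (.pos 35 .mp ⟨0, 0, 0, 0, 0, 0, 0, 0, 0, ⟨0, 0⟩, 0⟩ 0 0))) (.cut .s 8421376 (.pos 36 .mp ⟨16595595, 0, 0, 0, 0, 21839342, 0, 0, 0, ⟨0, 0⟩, 0⟩ 0 0) (.pos 36 .mp ⟨17089817, 0, 0, 0, 0, 22318789, 0, 0, 0, ⟨0, 0⟩, 0⟩ 0 0)))) (.cut .s 8519680 (.cut .v 17039360 (.cut .d (-131072) (.cut .l 910763 (.pos 35 .mp ⟨11354172,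 0, 0, 0, 0, 31455194, 0, 0, 0, ⟨0, 0⟩, 0⟩ 0 0) (.cut .s 8486912 (.pos 35 .mp ⟨9813083, 0, 0, 0, 0, 31682953, 0, 0, 0, ⟨0, 0⟩, 0⟩ 0 0) (.pos 35 .mp ⟨10177538, 0, 0, 0, 0, 32380266, 0, 0, 0, ⟨0, 0⟩, 0⟩ 0 0))) (.cut .l 910763 (.cut .l 587202 (.cut .v 16908288 (.cut .d (-65536) (.pos 58 .mp ⟨10962734, 0, 0, 0, 0, 30743147, 0, 0, 0, ⟨0, 0⟩, 0⟩ 0 0) (.cut .d (-32768) (.cut .s 8486912 (.pos 58 .mp ⟨11327534, 0, 0, 0, 0, 28814070, 0, 0, 0, ⟨0, 0⟩, 0⟩ 0 0) (.pos 58 .mp ⟨11680296, 0, 0, 0, 0, 29480795, 0, 0, 0, ⟨0, 0⟩, 0⟩ 0 0)) (.pos 58 .mp ⟨11391514, 0, 0, 0, 0, 0, 0, 0, 0, ⟨0, 0⟩, 0⟩ 0 0))) (.pos 59 .mp ⟨39756343, 0, 0, 0, 0, 0, 0, 0, 0, ⟨0, 0⟩, 0⟩ 0 0)) (.pos 35 .mp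 ⟨12872421, 0, 0, 0, 0, 26454141, 0, 0, 0, ⟨0, 0⟩, 0⟩ 0 0)) (.pos 35 .mp ⟨0, 0, 0, 0, 0, 0, 0, 0, 0, ⟨0, 0⟩, 0⟩ 0 0))) (.cut .s 8486912 (.pos 36 .mp ⟨17615210, 0, 0, 0, 0, 22782691, 0, 0, 0, ⟨0, 0⟩, 0⟩ 0 0) (.pos 36 .mp ⟨18174171, 0, 0, 0, 0, 23228051, 0, 0, 0, ⟨0, 0⟩, 0⟩ 0 0))) (.cut .v 17039360 (.cut .d (-131072) (.cut .s 8552448 (.pos 35 .mp ⟨10838911, 0, 0, 0, 0, 33089738, 0, 0, 0, ⟨0, 0⟩, 0⟩ 0 0) (.pos 35 .mp ⟨11215389, 0, 0, 0, 0, 33828143, 0, 0, 0, ⟨0, 0⟩, 0⟩ 0 0)) (.cut .l 910763 (.cut .l 587202 (.cut .v 16908288 (.cut .d (-65536) (.pos 58 .mp ⟨11699662, 0, 0, 0, 0, 32136282, 0, 0, 0, ⟨0, 0⟩, 0⟩ 0 0) (.cut .d (-32768) (.cut .s 8552448 (.pos 58 .mp ⟨12039060,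 0, 0, 0, 0, 30156846, 0, 0, 0, ⟨0, 0⟩, 0⟩ 0 0) (.pos 58 .mp ⟨12403884, 0, 0, 0, 0, 30841886, 0, 0, 0, ⟨0, 0⟩, 0⟩ 0 0)) (.pos 58 .mp ⟨12128614, 0, 0, 0, 0, 0, 0, 0, 0, ⟨0, 0⟩, 0⟩ 0 0))) (.pos 59 .mp ⟨41558924, 0, 0, 0, 0, 0, 0, 0, 0, ⟨0, 0⟩, 0⟩ 0 0)) (.pos 35 .mp ⟨13717479, 0, 0, 0, 0, 27601732, 0, 0, 0, ⟨0, 0⟩, 0⟩ 0 0)) (.pos 35 .mp ⟨0, 0, 0, 0, 0, 0, 0, 0, 0, ⟨0, 0⟩, 0⟩ 0 0))) (.cut .s 8552448 (.pos 36 .mp ⟨18769121, 0, 0, 0, 0, 23651819, 0, 0, 0, ⟨0, 0⟩, 0⟩ 0 0) (.pos 36 .mp ⟨19402496, 0, 0, 0, 0, 24050893, 0, 0, 0, ⟨0, 0⟩, 0⟩ 0 0)))))) (.pos 34 .mp ⟨35389212, 0, 0, 0, 0, 0, 0, 0, 0, ⟨0, 0⟩, 0⟩ 0 0))) (.pos 32 .mp ⟨42917574, 0, 0, 0, 0, 0, 0, 0, 0, ⟨0, 0⟩,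 0⟩ 0 0)) (.void 30 ⟨100000, 0, 0, 0, 0, 0, 0, 0, 0, ⟨0, 0⟩, 0⟩ 0 0))))))) (.void 28 ⟨100000, 0, 0, 0, 0, 0, 0, 0, 0, ⟨0, 0⟩, 0⟩ 0 0)) (.void 26 ⟨100000, 0, 0, 0, 0, 0, 0, 0, 0, ⟨0, 0⟩, 0⟩ 0 0)) (.void 57 ⟨100000, 0, 0, 0, 0, 0, 0, 0, 0, ⟨0, 0⟩, 0⟩ 0 0))) (.cut .v 16777216 (.cut .v 8388608 (.cut .v 4194304 (.void 4 ⟨0, 0, 50000, 0, 50000, 0, 0, 0, 0, ⟨0, 0⟩, 0⟩ 0 0) (.pos 5 .pm ⟨0, 0, 0, 0, 0, 0, 0, 0, 0, ⟨0, 0⟩, 0⟩ 0 0)) (.cut .d 9070610 (.pos 3 .pm ⟨0, 0, 0, 0, 0, 0, 0, 0, 0, ⟨0, 0⟩, 0⟩ 0 0) (.pos 3 .pm ⟨0, 0, 0, 0, 0, 0, 0, 0, 16154781, ⟨0, 0⟩, 14107901⟩ 0 0))) (.cut .d 9070610 (.cut .d 4535305 (.cut .v 33554432 (.cut .v 25165824 (.cut .v 20971520 (.pos 27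 .pp ⟨14123034, 0, 0, 0, 0, 0, 0, 0, 0, ⟨0, 0⟩, 0⟩ 0 0) (.pos 28 .pp ⟨30098581, 0, 0, 0, 0, 0, 0, 0, 0, ⟨0, 0⟩, 0⟩ 0 0)) (.pos 26 .pp ⟨46819916, 0, 0, 0, 0, 0, 0, 0, 0, ⟨0, 0⟩, 0⟩ 0 0)) (.cut .d 2267652 (.pos 57 .pp ⟨287194525, 0, 0, 0, 0, 0, 0, 0, 0, ⟨0, 0⟩, 0⟩ 0 0) (.pos 57 .pp ⟨61626245, 0, 0, 0, 0, 0, 3966093, 0, 0, ⟨0, 0⟩, 0⟩ 0 0))) (.pos 56 .pp ⟨0, 0, 0, 0, 0, 0, 3189732, 0, 0, ⟨0, 0⟩, 0⟩ 0 0)) (.cut .d 13605915 (.pos 56 .pp ⟨0, 11666072, 0, 0, 0, 0, 0, 18518009, 0, ⟨5501125, 20569⟩, 0⟩ 189 283) (.pos 56 .pp ⟨0, 48877253, 0, 0, 0, 0, 207546, 0, 2351176, ⟨0, 0⟩, 23726566⟩ 0 0))))),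
    by decide +kernel⟩

def covers10 : cell.Covers table row10.1 :=
  ⟨(.cut .d 0 (.cut .v 16777216 (.cut .d (-8388608) (.void 1 ⟨0, 0, 0, 0, 0, 100000, 0, 0, 0, ⟨0, 0⟩, 0⟩ 0 0) (.cut .d (-4194304) (.void 1 ⟨0, 0, 0, 0, 0, 100000, 0, 0, 0, ⟨0, 0⟩, 0⟩ 0 0) (.cut .d (-2097152) (.void 1 ⟨0, 0, 0, 0, 0, 100000, 0, 0, 0, ⟨0, 0⟩, 0⟩ 0 0) (.cut .d (-1048576) (.void 1 ⟨0, 0, 0, 0, 0, 100000, 0, 0, 0, ⟨0, 0⟩, 0⟩ 0 0) (.cut .d (-524288) (.void 1 ⟨0, 0, 0, 0, 0, 100000, 0, 0, 0, ⟨0, 0⟩, 0⟩ 0 0) (.cut .v 8388608 (.cut .v 4194304 (.void 4 ⟨0, 0, 100000, 0, 0, 0, 0, 0, 0, ⟨0, 0⟩, 0⟩ 0 0) (.pos 5 .mm ⟨0, 0, 0, 0, 0, 24090952, 0, 0, 0, ⟨0, 0⟩, 0⟩ 0 0)) (.cut .d (-262144) (.pos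 3 .mm ⟨0, 0, 0, 0, 0, 65238966, 0, 0, 0, ⟨0, 0⟩, 0⟩ 0 0) (.cut .v 12582912 (.pos 8 .mm ⟨0, 0, 0, 0, 0, 30119637, 0, 0, 0, ⟨0, 0⟩, 0⟩ 0 0) (.cut .v 14680064 (.pos 12 .mm ⟨0, 0, 0, 0, 0, 41562825, 0, 0, 0, ⟨0, 0⟩, 0⟩ 0 0) (.cut .v 15728640 (.pos 16 .mm ⟨0, 0, 0, 0, 0, 47554060, 0, 0, 0, ⟨0, 0⟩, 0⟩ 0 0) (.cut .v 16252928 (.pos 20 .mm ⟨0, 0, 0, 0, 0, 50716440, 0, 0, 0, ⟨0, 0⟩, 0⟩ 0 0) (.cut .s 8814592 (.cut .s 8699904 (.pos 21 .mm ⟨0, 0, 0, 0, 0, 47092534, 0, 0, 0, ⟨0, 0⟩, 0⟩ 0 0) (.pos 21 .mm ⟨0, 0, 0, 0, 0, 51431942, 0, 0, 0, ⟨0, 0⟩, 0⟩ 0 0)) (.cut .s 8929280 (.pos 21 .mm ⟨0, 0, 0, 0, 0, 56084296, 0, 0, 0, ⟨0, 0⟩, 0⟩ 0 0) (.pos 21 .mm ⟨0, 0, 0, 0, 0, 61037758,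 0, 0, 0, ⟨0, 0⟩, 0⟩ 0 0)))))))))))))) (.cut .v 67108864 (.cut .v 33554432 (.cut .v 25165824 (.cut .d (-8388608) (.void 25 ⟨0, 0, 0, 0, 0, 100000, 0, 0, 0, ⟨0, 0⟩, 0⟩ 0 0) (.cut .v 20971520 (.cut .d (-4194304) (.void 27 ⟨0, 0, 0, 0, 0, 100000, 0, 0, 0, ⟨0, 0⟩, 0⟩ 0 0) (.cut .v 18874368 (.cut .d (-2097152) (.void 29 ⟨0, 0, 0, 0, 0, 100000, 0, 0, 0, ⟨0, 0⟩, 0⟩ 0 0) (.cut .d (-1048576) (.void 29 ⟨0, 0, 0, 0, 0, 100000, 0, 0, 0, ⟨0, 0⟩, 0⟩ 0 0) (.cut .d (-524288) (.void 29 ⟨0, 0, 0, 0, 0, 100000, 0, 0, 0, ⟨0, 0⟩, 0⟩ 0 0) (.cut .v 17825792 (.cut .d (-262144) (.cut .v 17301504 (.cut .s 8814592 (.pos 33 .mp ⟨14157288, 0, 0, 0, 0, 45995736, 0, 0, 0, ⟨0, 0⟩, 0⟩ 0 0)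 (.void 33 ⟨0, 0, 0, 0, 0, 100000, 0, 0, 0, ⟨0, 0⟩, 0⟩ 0 0)) (.void 34 ⟨100000, 0, 0, 0, 0, 0, 0, 0, 0, ⟨0, 0⟩, 0⟩ 0 0)) (.cut .v 17301504 (.cut .s 8814592 (.cut .s 8699904 (.cut .v 17039360 (.cut .d (-131072) (.cut .l 910763 (.pos 35 .mp ⟨12943858, 0, 0, 0, 0, 36070305, 0, 0, 0, ⟨0, 0⟩, 0⟩ 0 0) (.cut .s 8642560 (.pos 35 .mp ⟨11308189, 0, 0, 0, 0, 35027786, 0, 0, 0, ⟨0, 0⟩, 0⟩ 0 0) (.cut .s 8671232 (.pos 35 .mp ⟨12006496, 0, 0, 0, 0, 35809153, 0, 0, 0, ⟨0, 0⟩, 0⟩ 0 0) (.pos 35 .mp ⟨12363370, 0, 0, 0, 0, 36461823, 0, 0, 0, ⟨0, 0⟩, 0⟩ 0 0)))) (.cut .l 910763 (.cut .s 8642560 (.cut .v 16908288 (.cut .l 587202 (.cut .d (-65536) (.pos 58 .mp ⟨12606066, 0, 0, 0, 0,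 33392211, 0, 0, 0, ⟨0, 0⟩, 0⟩ 0 0) (.cut .s 8613888 (.pos 58 .mp ⟨13591848, 0, 0, 0, 0, 29628783, 0, 0, 0, ⟨0, 0⟩, 0⟩ 0 0) (.cut .s 8628224 (.pos 58 .mp ⟨13773448, 0, 0, 0, 0, 30230668, 0, 0, 0, ⟨0, 0⟩, 0⟩ 0 0) (.pos 58 .mp ⟨13956399, 0, 0, 0, 0, 30511615, 0, 0, 0, ⟨0, 0⟩, 0⟩ 0 0)))) (.pos 58 .mp ⟨11252435, 0, 0, 0, 0, 32969644, 0, 0, 0, ⟨0, 0⟩, 0⟩ 0 0)) (.pos 59 .mp ⟨23985919, 0, 0, 0, 0, 19467850, 0, 0, 0, ⟨0, 0⟩, 0⟩ 0 0)) (.cut .l 587202 (.cut .v 16908288 (.cut .d (-65536) (.pos 58 .mp ⟨13278407, 0, 0, 0, 0, 34656242, 0, 0, 0, ⟨0, 0⟩, 0⟩ 0 0) (.cut .d (-32768) (.cut .s 8671232 (.pos 58 .mp ⟨13441502, 0, 0, 0, 0, 32832827, 0, 0, 0, ⟨0, 0⟩, 0⟩ 0 0) (.pos 58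 .mp ⟨13782210, 0, 0, 0, 0, 33483722, 0, 0, 0, ⟨0, 0⟩, 0⟩ 0 0)) (.pos 58 .mp ⟨13869448, 0, 0, 0, 0, 0, 0, 0, 0, ⟨0, 0⟩, 0⟩ 0 0))) (.pos 59 .mp ⟨45176369, 0, 0, 0, 0, 0, 0, 0, 0, ⟨0, 0⟩, 0⟩ 0 0)) (.pos 35 .mp ⟨15279194, 0, 0, 0, 0, 30068259, 0, 0, 0, ⟨0, 0⟩, 0⟩ 0 0))) (.pos 35 .mp ⟨0, 0, 0, 0, 0, 0, 0, 0, 0, ⟨0, 0⟩, 0⟩ 0 0))) (.cut .s 8642560 (.pos 36 .mp ⟨23479673, 0, 0, 0, 0, 20963804, 0, 0, 0, ⟨0, 0⟩, 0⟩ 0 0) (.cut .s 8671232 (.pos 36 .mp ⟨20366577, 0, 0, 0, 0, 26026936, 0, 0, 0, ⟨0, 0⟩, 0⟩ 0 0) (.pos 36 .mp ⟨20712791, 0, 0, 0, 0, 26658674, 0, 0, 0, ⟨0, 0⟩, 0⟩ 0 0)))) (.cut .v 17039360 (.cut .d (-131072) (.cut .l 910763 (.pos 35 .mp ⟨14442863, 0, 0, 0, 0,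 38847290, 0, 0, 0, ⟨0, 0⟩, 0⟩ 0 0) (.cut .v 16908288 (.pos 58 .mp ⟨0, 0, 0, 0, 0, 52506320, 0, 0, 0, ⟨0, 0⟩, 0⟩ 0 0) (.cut .v 16973824 (.pos 69 .mp ⟨774960, 0, 0, 0, 0, 52166694, 0, 0, 0, ⟨0, 0⟩, 0⟩ 0 0) (.cut .s 8757248 (.cut .s 8728576 (.pos 70 .mp ⟨12805426, 0, 0, 0, 0, 37037737, 0, 0, 0, ⟨0, 0⟩, 0⟩ 0 0) (.pos 70 .mp ⟨13175071, 0, 0, 0, 0, 37717342, 0, 0, 0, ⟨0, 0⟩, 0⟩ 0 0)) (.cut .s 8785920 (.pos 70 .mp ⟨13550051, 0, 0, 0, 0, 38411660, 0, 0, 0, ⟨0, 0⟩, 0⟩ 0 0) (.pos 70 .mp ⟨13930414, 0, 0, 0, 0, 39120595, 0, 0, 0, ⟨0, 0⟩, 0⟩ 0 0)))))) (.cut .l 910763 (.cut .s 8757248 (.cut .v 16908288 (.cut .l 587202 (.cut .d (-65536) (.pos 58 .mp ⟨13970676, 0, 0, 0, 0,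 35986454, 0, 0, 0, ⟨0, 0⟩, 0⟩ 0 0) (.cut .d (-32768) (.cut .s 8728576 (.pos 58 .mp ⟨14127837, 0, 0, 0, 0, 34147173, 0, 0, 0, ⟨0, 0⟩, 0⟩ 0 0) (.pos 58 .mp ⟨14478427, 0, 0, 0, 0, 34822892, 0, 0, 0, ⟨0, 0⟩, 0⟩ 0 0)) (.pos 58 .mp ⟨14591134, 0, 0, 0, 0, 0, 0, 0, 0, ⟨0, 0⟩, 0⟩ 0 0))) (.pos 58 .mp ⟨12510625, 0, 0, 0, 0, 35646405, 0, 0, 0, ⟨0, 0⟩, 0⟩ 0 0)) (.cut .s 8728576 (.pos 59 .mp ⟨22639271, 0, 0, 0, 0, 24598354, 0, 0, 0, ⟨0, 0⟩, 0⟩ 0 0) (.pos 59 .mp ⟨23109895, 0, 0, 0, 0, 25101031, 0, 0, 0, ⟨0, 0⟩, 0⟩ 0 0))) (.cut .v 16908288 (.cut .l 587202 (.cut .d (-65536) (.pos 58 .mp ⟨14683230, 0, 0, 0, 0, 37384531, 0, 0, 0, ⟨0, 0⟩, 0⟩ 0 0) (.cut .d (-32768) (.cut .s 8785920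 (.pos 58 .mp ⟨14834025, 0, 0, 0, 0, 35510588, 0, 0, 0, ⟨0, 0⟩, 0⟩ 0 0) (.pos 58 .mp ⟨15194675, 0, 0, 0, 0, 36209975, 0, 0, 0, ⟨0, 0⟩, 0⟩ 0 0)) (.pos 58 .mp ⟨15332570, 0, 0, 0, 0, 0, 0, 0, 0, ⟨0, 0⟩, 0⟩ 0 0))) (.pos 58 .mp ⟨13165549, 0, 0, 0, 0, 37064962, 0, 0, 0, ⟨0, 0⟩, 0⟩ 0 0)) (.cut .s 8785920 (.pos 59 .mp ⟨23605159, 0, 0, 0, 0, 25594898, 0, 0, 0, ⟨0, 0⟩, 0⟩ 0 0) (.pos 59 .mp ⟨24127176, 0, 0, 0, 0, 26077302, 0, 0, 0, ⟨0, 0⟩, 0⟩ 0 0)))) (.pos 35 .mp ⟨0, 0, 0, 0, 0, 0, 0, 0, 0, ⟨0, 0⟩, 0⟩ 0 0))) (.cut .d (-131072) (.cut .s 8757248 (.pos 36 .mp ⟨23396409, 0, 0, 0, 0, 25413454, 0, 0, 0, ⟨0, 0⟩, 0⟩ 0 0) (.cut .s 8785920 (.pos 36 .mp ⟨20351395, 0, 0, 0, 0, 30622864,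 0, 0, 0, ⟨0, 0⟩, 0⟩ 0 0) (.pos 36 .mp ⟨20816672, 0, 0, 0, 0, 31225930, 0, 0, 0, ⟨0, 0⟩, 0⟩ 0 0))) (.pos 36 .mp ⟨42935725, 0, 0, 0, 0, 0, 0, 0, 0, ⟨0, 0⟩, 0⟩ 0 0)))) (.cut .s 8929280 (.cut .d (-131072) (.cut .l 910763 (.cut .s 8871936 (.pos 33 .mp ⟨16303795, 0, 0, 0, 0, 40649465, 0, 0, 0, ⟨0, 0⟩, 0⟩ 0 0) (.pos 33 .mp ⟨17176423, 0, 0, 0, 0, 42156643, 0, 0, 0, ⟨0, 0⟩, 0⟩ 0 0)) (.cut .d (-196608) (.cut .l 1234324 (.pos 33 .mp ⟨17383796, 0, 0, 0, 0, 42227170, 0, 0, 0, ⟨0, 0⟩, 0⟩ 0 0) (.cut .v 17039360 (.pos 35 .mp ⟨0, 0, 0, 0, 0, 58516673, 0, 0, 0, ⟨0, 0⟩, 0⟩ 0 0) (.cut .s 8871936 (.pos 36 .mp ⟨19576889, 0, 0, 0, 0, 34521683, 0, 0, 0, ⟨0, 0⟩, 0⟩ 0 0) (.pos 36 .mp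 ⟨20646871, 0, 0, 0, 0, 35701877, 0, 0, 0, ⟨0, 0⟩, 0⟩ 0 0)))) (.cut .v 17039360 (.cut .s 8871936 (.pos 35 .mp ⟨14241053, 0, 0, 0, 0, 40075658, 0, 0, 0, ⟨0, 0⟩, 0⟩ 0 0) (.pos 35 .mp ⟨15005356, 0, 0, 0, 0, 41598672, 0, 0, 0, ⟨0, 0⟩, 0⟩ 0 0)) (.pos 36 .mp ⟨46568340, 0, 0, 0, 0, 0, 0, 0, 0, ⟨0, 0⟩, 0⟩ 0 0)))) (.cut .l 910763 (.cut .v 17039360 (.cut .s 8871936 (.cut .d (-65536) (.cut .l 587202 (.cut .s 8843264 (.pos 35 .mp ⟨15948456, 0, 0, 0, 0, 37698253, 0, 0, 0, ⟨0, 0⟩, 0⟩ 0 0) (.pos 35 .mp ⟨16344365, 0, 0, 0, 0, 38414905, 0, 0, 0, ⟨0, 0⟩, 0⟩ 0 0)) (.pos 35 .mp ⟨17811855, 0, 0, 0, 0, 34167040, 0, 0, 0, ⟨0, 0⟩, 0⟩ 0 0)) (.cut .d (-32768) (.cut .v 16908288 (.cut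 .s 8843264 (.pos 58 .mp ⟨15560425, 0, 0, 0, 0, 36920767, 0, 0, 0, ⟨0, 0⟩, 0⟩ 0 0) (.pos 58 .mp ⟨15931321, 0, 0, 0, 0, 37642677, 0, 0, 0, ⟨0, 0⟩, 0⟩ 0 0)) (.pos 59 .mp ⟨44778228, 0, 0, 0, 0, 0, 0, 0, 0, ⟨0, 0⟩, 0⟩ 0 0)) (.pos 35 .mp ⟨16238204, 0, 0, 0, 0, 0, 0, 0, 0, ⟨0, 0⟩, 0⟩ 0 0))) (.cut .d (-65536) (.cut .l 587202 (.cut .s 8900608 (.pos 35 .mp ⟨16751162, 0, 0, 0, 0, 39136775, 0, 0, 0, ⟨0, 0⟩, 0⟩ 0 0) (.pos 35 .mp ⟨17169281, 0, 0, 0, 0, 39863109, 0, 0, 0, ⟨0, 0⟩, 0⟩ 0 0)) (.pos 35 .mp ⟨18717327, 0, 0, 0, 0, 35417780, 0, 0, 0, ⟨0, 0⟩, 0⟩ 0 0)) (.cut .d (-32768) (.cut .v 16908288 (.cut .s 8900608 (.pos 58 .mp ⟨16307411, 0, 0, 0, 0, 38375421, 0, 0, 0, ⟨0, 0⟩,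 0⟩ 0 0) (.pos 58 .mp ⟨16688742, 0, 0, 0, 0, 39118715, 0, 0, 0, ⟨0, 0⟩, 0⟩ 0 0)) (.pos 59 .mp ⟨46540422, 0, 0, 0, 0, 0, 0, 0, 0, ⟨0, 0⟩, 0⟩ 0 0)) (.pos 35 .mp ⟨17033618, 0, 0, 0, 0, 0, 0, 0, 0, ⟨0, 0⟩, 0⟩ 0 0)))) (.pos 36 .mp ⟨48038198, 0, 0, 0, 0, 0, 0, 0, 0, ⟨0, 0⟩, 0⟩ 0 0)) (.pos 33 .mp ⟨17896532, 0, 0, 0, 0, 0, 0, 0, 0, ⟨0, 0⟩, 0⟩ 0 0))) (.cut .d (-131072) (.cut .l 910763 (.pos 33 .mp ⟨18187236, 0, 0, 0, 0, 46176840, 0, 0, 0, ⟨0, 0⟩, 0⟩ 0 0) (.cut .d (-196608) (.cut .v 17039360 (.pos 35 .mp ⟨7316801, 0, 0, 0, 0, 56451854, 0, 0, 0, ⟨0, 0⟩, 0⟩ 0 0) (.cut .s 8986624 (.pos 36 .mp ⟨22790455, 0, 0, 0, 0, 35842131, 0, 0, 0, ⟨0, 0⟩, 0⟩ 0 0) (.pos 36 .mp ⟨23968330,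 0, 0, 0, 0, 37048747, 0, 0, 0, ⟨0, 0⟩, 0⟩ 0 0))) (.cut .v 17039360 (.cut .s 8986624 (.pos 35 .mp ⟨15798700, 0, 0, 0, 0, 43172850, 0, 0, 0, ⟨0, 0⟩, 0⟩ 0 0) (.pos 35 .mp ⟨16606956, 0, 0, 0, 0, 44817196, 0, 0, 0, ⟨0, 0⟩, 0⟩ 0 0)) (.pos 36 .mp ⟨50324235, 0, 0, 0, 0, 0, 0, 0, 0, ⟨0, 0⟩, 0⟩ 0 0)))) (.cut .l 910763 (.cut .v 17039360 (.cut .s 8986624 (.cut .d (-65536) (.cut .l 587202 (.cut .s 8957952 (.pos 35 .mp ⟨17599151, 0, 0, 0, 0, 40593150, 0, 0, 0, ⟨0, 0⟩, 0⟩ 0 0) (.pos 35 .mp ⟨18041203, 0, 0, 0, 0, 41326138, 0, 0, 0, ⟨0, 0⟩, 0⟩ 0 0)) (.pos 35 .mp ⟨19640994, 0, 0, 0, 0, 36728664, 0, 0, 0, ⟨0, 0⟩, 0⟩ 0 0)) (.cut .d (-32768) (.cut .v 16908288 (.cut .s 8957952 (.pos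 58 .mp ⟨17075365, 0, 0, 0, 0, 39872277, 0, 0, 0, ⟨0, 0⟩, 0⟩ 0 0) (.pos 58 .mp ⟨17467328, 0, 0, 0, 0, 40635824, 0, 0, 0, ⟨0, 0⟩, 0⟩ 0 0)) (.pos 59 .mp ⟨48370015, 0, 0, 0, 0, 0, 0, 0, 0, ⟨0, 0⟩, 0⟩ 0 0)) (.pos 35 .mp ⟨17850612, 0, 0, 0, 0, 0, 0, 0, 0, ⟨0, 0⟩, 0⟩ 0 0))) (.cut .d (-65536) (.cut .l 587202 (.pos 35 .mp ⟨18261037, 0, 0, 0, 0, 43550880, 0, 0, 0, ⟨0, 0⟩, 0⟩ 0 0) (.pos 35 .mp ⟨20587469, 0, 0, 0, 0, 38092024, 0, 0, 0, ⟨0, 0⟩, 0⟩ 0 0)) (.cut .d (-32768) (.cut .s 9015296 (.cut .s 9000960 (.pos 35 .mp ⟨18094392, 0, 0, 0, 0, 41293792, 0, 0, 0, ⟨0, 0⟩, 0⟩ 0 0) (.pos 35 .mp ⟨18287740, 0, 0, 0, 0, 41717397, 0, 0, 0, ⟨0, 0⟩, 0⟩ 0 0)) (.pos 35 .mp ⟨19019826, 0,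 0, 0, 0, 41432816, 0, 0, 0, ⟨0, 0⟩, 0⟩ 0 0)) (.pos 35 .mp ⟨18689587, 0, 0, 0, 0, 0, 0, 0, 0, ⟨0, 0⟩, 0⟩ 0 0)))) (.pos 36 .mp ⟨54498237, 0, 0, 0, 0, 0, 0, 0, 0, ⟨0, 0⟩, 0⟩ 0 0)) (.pos 33 .mp ⟨19762599, 0, 0, 0, 0, 0, 0, 0, 0, ⟨0, 0⟩, 0⟩ 0 0))))) (.pos 34 .mp ⟨50135897, 0, 0, 0, 0, 0, 0, 0, 0, ⟨0, 0⟩, 0⟩ 0 0))) (.pos 32 .mp ⟨59895218, 0, 0, 0, 0, 0, 0, 0, 0, ⟨0, 0⟩, 0⟩ 0 0))))) (.void 30 ⟨100000, 0, 0, 0, 0, 0, 0, 0, 0, ⟨0, 0⟩, 0⟩ 0 0))) (.void 28 ⟨100000, 0, 0, 0, 0, 0, 0, 0, 0, ⟨0, 0⟩, 0⟩ 0 0))) (.void 26 ⟨100000, 0, 0, 0, 0, 0, 0, 0, 0, ⟨0, 0⟩, 0⟩ 0 0)) (.void 57 ⟨100000, 0, 0, 0, 0, 0, 0, 0, 0, ⟨0, 0⟩, 0⟩ 0 0)) (.void 68 ⟨100000, 0, 0, 0, 0, 0, 0, 0, 0, ⟨0,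 0⟩, 0⟩ 0 0))) (.cut .v 16777216 (.cut .v 8388608 (.cut .v 4194304 (.void 4 ⟨0, 0, 32105, 0, 0, 0, 0, 0, 67895, ⟨0, 0⟩, 3966728⟩ 0 0) (.pos 5 .pm ⟨0, 0, 0, 0, 0, 0, 0, 0, 1365859, ⟨0, 0⟩, 9975792⟩ 0 0)) (.cut .d 8004398 (.pos 3 .pm ⟨0, 0, 0, 0, 0, 0, 0, 0, 0, ⟨0, 0⟩, 0⟩ 0 0) (.pos 3 .pm ⟨0, 18748447, 0, 0, 0, 0, 0, 0, 9095847, ⟨0, 0⟩, 14107901⟩ 0 0))) (.cut .v 67108864 (.cut .d 8004398 (.cut .d 4002199 (.cut .v 33554432 (.cut .v 25165824 (.cut .v 20971520 (.pos 27 .pp ⟨21491262, 0, 0, 0, 0, 0, 0, 0, 0, ⟨0, 0⟩, 0⟩ 0 0) (.pos 28 .pp ⟨43719755, 0, 0, 0, 0, 0, 0, 0, 0, ⟨0, 0⟩, 0⟩ 0 0)) (.pos 26 .pp ⟨71014942, 0, 0, 0, 0, 0, 0, 0, 0, ⟨0, 0⟩, 0⟩ 0 0)) (.cut .d 2001099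 (.pos 57 .pp ⟨401397011, 0, 0, 0, 0, 0, 0, 0, 0, ⟨0, 0⟩, 0⟩ 0 0) (.pos 57 .pp ⟨109975920, 0, 0, 0, 0, 0, 3717320, 0, 0, ⟨0, 0⟩, 0⟩ 0 0))) (.pos 56 .pp ⟨0, 0, 0, 0, 0, 0, 3447012, 0, 0, ⟨0, 0⟩, 0⟩ 0 0)) (.pos 56 .pp ⟨0, 28795955, 0, 0, 0, 0, 0, 0, 0, ⟨0, 0⟩, 0⟩ 0 0)) (.cut .v 134217728 (.cut .d 8004398 (.cut .d 4002199 (.cut .v 100663296 (.pos 75 .pp ⟨1033125335, 0, 0, 0, 0, 0, 0, 0, 0, ⟨0, 0⟩, 0⟩ 0 0) (.void 76 ⟨0, 0, 0, 0, 0, 0, 100000, 0, 0, ⟨0, 0⟩, 0⟩ 0 0)) (.pos 73 .pp ⟨0, 0, 0, 0, 0, 0, 154626592, 0, 0, ⟨0, 0⟩, 0⟩ 0 0)) (.void 73 ⟨0, 100000, 0, 0, 0, 0, 0, 0, 0, ⟨0, 0⟩, 0⟩ 0 0)) (.void 74 ⟨0, 0, 0, 0, 0, 0, 100000, 0, 0, ⟨0, 0⟩, 0⟩ 0 0))))),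
    by decide +kernel⟩

def covers11 : cell.Covers table row11.1 :=
  ⟨(.cut .d 0 (.cut .v 16777216 (.cut .d (-8388608) (.void 1 ⟨0, 0, 0, 0, 0, 100000, 0, 0, 0, ⟨0, 0⟩, 0⟩ 0 0) (.cut .d (-4194304) (.void 1 ⟨0, 0, 0, 0, 0, 100000, 0, 0, 0, ⟨0, 0⟩, 0⟩ 0 0) (.cut .d (-2097152) (.void 1 ⟨0, 0, 0, 0, 0, 100000, 0, 0, 0, ⟨0, 0⟩, 0⟩ 0 0) (.cut .d (-1048576) (.void 1 ⟨0, 0, 0, 0, 0, 100000, 0, 0, 0, ⟨0, 0⟩, 0⟩ 0 0) (.cut .d (-524288) (.void 1 ⟨0, 0, 0, 0, 0, 100000, 0, 0, 0, ⟨0, 0⟩, 0⟩ 0 0) (.cut .d (-262144) (.void 1 ⟨0, 0, 0, 0, 0, 100000, 0, 0, 0, ⟨0, 0⟩, 0⟩ 0 0) (.cut .v 8388608 (.cut .v 4194304 (.void 4 ⟨0, 0, 100000, 0, 0, 0, 0, 0, 0, ⟨0, 0⟩, 0⟩ 0 0) (.pos 5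 .mm ⟨0, 0, 0, 0, 0, 32637180, 0, 0, 0, ⟨0, 0⟩, 0⟩ 0 0)) (.cut .v 12582912 (.pos 8 .mm ⟨0, 0, 0, 0, 0, 45058806, 0, 0, 0, ⟨0, 0⟩, 0⟩ 0 0) (.cut .v 14680064 (.pos 12 .mm ⟨0, 0, 0, 0, 0, 60826795, 0, 0, 0, ⟨0, 0⟩, 0⟩ 0 0) (.cut .v 15728640 (.pos 16 .mm ⟨0, 0, 0, 0, 0, 69039707, 0, 0, 0, ⟨0, 0⟩, 0⟩ 0 0) (.cut .v 16252928 (.pos 20 .mm ⟨0, 0, 0, 0, 0, 73545466, 0, 0, 0, ⟨0, 0⟩, 0⟩ 0 0) (.cut .s 9306112 (.cut .s 9175040 (.pos 21 .mm ⟨0, 0, 0, 0, 0, 67099012, 0, 0, 0, ⟨0, 0⟩, 0⟩ 0 0) (.pos 21 .mm ⟨0, 0, 0, 0, 0, 73708157, 0, 0, 0, ⟨0, 0⟩, 0⟩ 0 0)) (.cut .s 9437184 (.cut .s 9371648 (.pos 21 .mm ⟨0, 0, 0, 0, 0, 77706919, 0, 0, 0, ⟨0, 0⟩, 0⟩ 0 0) (.pos 21 .mm ⟨0, 0, 0,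 0, 0, 81355540, 0, 0, 0, ⟨0, 0⟩, 0⟩ 0 0)) (.pos 21 .mm ⟨0, 0, 0, 0, 0, 88481421, 0, 0, 0, ⟨0, 0⟩, 0⟩ 0 0)))))))))))))) (.cut .v 67108864 (.cut .v 33554432 (.cut .v 25165824 (.cut .d (-8388608) (.void 25 ⟨0, 0, 0, 0, 0, 100000, 0, 0, 0, ⟨0, 0⟩, 0⟩ 0 0) (.cut .v 20971520 (.cut .d (-4194304) (.void 27 ⟨0, 0, 0, 0, 0, 100000, 0, 0, 0, ⟨0, 0⟩, 0⟩ 0 0) (.cut .v 18874368 (.cut .d (-2097152) (.void 29 ⟨0, 0, 0, 0, 0, 100000, 0, 0, 0, ⟨0, 0⟩, 0⟩ 0 0) (.cut .d (-1048576) (.void 29 ⟨0, 0, 0, 0, 0, 100000, 0, 0, 0, ⟨0, 0⟩, 0⟩ 0 0) (.cut .d (-524288) (.void 29 ⟨0, 0, 0, 0, 0, 100000, 0, 0, 0, ⟨0, 0⟩, 0⟩ 0 0) (.cut .d (-262144) (.void 29 ⟨0, 0, 0, 0, 0, 100000, 0, 0, 0,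 ⟨0, 0⟩, 0⟩ 0 0) (.cut .v 17825792 (.cut .v 17301504 (.cut .s 9306112 (.cut .d (-131072) (.cut .l 910763 (.cut .s 9175040 (.pos 33 .mp ⟨20978366, 0, 0, 0, 0, 49386014, 0, 0, 0, ⟨0, 0⟩, 0⟩ 0 0) (.pos 33 .mp ⟨23395729, 0, 0, 0, 0, 53500092, 0, 0, 0, ⟨0, 0⟩, 0⟩ 0 0)) (.cut .s 9175040 (.cut .d (-196608) (.cut .v 17039360 (.pos 35 .mp ⟨11054566, 0, 0, 0, 0, 58719322, 0, 0, 0, ⟨0, 0⟩, 0⟩ 0 0) (.cut .s 9109504 (.pos 36 .mp ⟨25041748, 0, 0, 0, 0, 39114867, 0, 0, 0, ⟨0, 0⟩, 0⟩ 0 0) (.pos 36 .mp ⟨26128917, 0, 0, 0, 0, 41015556, 0, 0, 0, ⟨0, 0⟩, 0⟩ 0 0))) (.cut .v 17039360 (.cut .s 9109504 (.pos 35 .mp ⟨17435243, 0, 0, 0, 0, 46924474, 0, 0, 0, ⟨0, 0⟩, 0⟩ 0 0) (.cut .s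 9142272 (.pos 35 .mp ⟨18429686, 0, 0, 0, 0, 48103329, 0, 0, 0, ⟨0, 0⟩, 0⟩ 0 0) (.pos 35 .mp ⟨18938421, 0, 0, 0, 0, 49055419, 0, 0, 0, ⟨0, 0⟩, 0⟩ 0 0))) (.pos 36 .mp ⟨55354696, 0, 0, 0, 0, 0, 0, 0, 0, ⟨0, 0⟩, 0⟩ 0 0))) (.cut .d (-196608) (.cut .d (-229376) (.void 33 ⟨0, 0, 0, 0, 0, 100000, 0, 0, 0, ⟨0, 0⟩, 0⟩ 0 0) (.cut .l 1234324 (.void 33 ⟨0, 0, 0, 0, 0, 100000, 0, 0, 0, ⟨0, 0⟩, 0⟩ 0 0) (.cut .v 17039360 (.pos 35 .mp ⟨0, 0, 0, 0, 0, 78445136, 0, 0, 0, ⟨0, 0⟩, 0⟩ 0 0) (.cut .s 9240576 (.pos 36 .mp ⟨25923847, 0, 0, 0, 0, 43697183, 0, 0, 0, ⟨0, 0⟩, 0⟩ 0 0) (.pos 36 .mp ⟨27359849, 0, 0, 0, 0, 45340048, 0, 0, 0, ⟨0, 0⟩, 0⟩ 0 0))))) (.cut .v 17039360 (.cut .v 16908288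 (.pos 58 .mp ⟨0, 0, 0, 0, 0, 75364877, 0, 0, 0, ⟨0, 0⟩, 0⟩ 0 0) (.cut .v 16973824 (.pos 69 .mp ⟨0, 0, 0, 0, 0, 75876667, 0, 0, 0, ⟨0, 0⟩, 0⟩ 0 0) (.cut .s 9240576 (.cut .s 9207808 (.pos 70 .mp ⟨24793541, 0, 0, 0, 0, 43024966, 0, 0, 0, ⟨0, 0⟩, 0⟩ 0 0) (.pos 70 .mp ⟨25456696, 0, 0, 0, 0, 43834378, 0, 0, 0, ⟨0, 0⟩, 0⟩ 0 0)) (.cut .s 9273344 (.pos 70 .mp ⟨26130963, 0, 0, 0, 0, 44666552, 0, 0, 0, ⟨0, 0⟩, 0⟩ 0 0) (.pos 70 .mp ⟨26816468, 0, 0, 0, 0, 45521405, 0, 0, 0, ⟨0, 0⟩, 0⟩ 0 0))))) (.cut .s 9240576 (.pos 36 .mp ⟨31202228, 0, 0, 0, 0, 36221446, 0, 0, 0, ⟨0, 0⟩, 0⟩ 0 0) (.pos 36 .mp ⟨32462143, 0, 0, 0, 0, 37977619, 0, 0, 0, ⟨0, 0⟩, 0⟩ 0 0)))))) (.cut .l 910763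 (.cut .v 17039360 (.cut .s 9175040 (.cut .d (-65536) (.cut .s 9109504 (.cut .l 587202 (.pos 35 .mp ⟨19303264, 0, 0, 0, 0, 45354164, 0, 0, 0, ⟨0, 0⟩, 0⟩ 0 0) (.cut .s 9076736 (.pos 35 .mp ⟨20690285, 0, 0, 0, 0, 40596740, 0, 0, 0, ⟨0, 0⟩, 0⟩ 0 0) (.pos 35 .mp ⟨21442659, 0, 0, 0, 0, 41056020, 0, 0, 0, ⟨0, 0⟩, 0⟩ 0 0))) (.cut .d (-98304) (.pos 35 .mp ⟨19599929, 0, 0, 0, 0, 48509710, 0, 0, 0, ⟨0, 0⟩, 0⟩ 0 0) (.cut .v 16908288 (.cut .s 9142272 (.pos 58 .mp ⟨18477411, 0, 0, 0, 0, 47613442, 0, 0, 0, ⟨0, 0⟩, 0⟩ 0 0) (.pos 58 .mp ⟨18960235, 0, 0, 0, 0, 48552699, 0, 0, 0, ⟨0, 0⟩, 0⟩ 0 0)) (.pos 59 .mp ⟨33510412, 0, 0, 0, 0, 29024596, 0, 0, 0, ⟨0, 0⟩, 0⟩ 0 0)))) (.cut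 .d (-32768) (.cut .l 587202 (.cut .v 16908288 (.cut .l 425421 (.cut .s 9109504 (.cut .s 9076736 (.pos 58 .mp ⟨18718924, 0, 0, 0, 0, 43237980, 0, 0, 0, ⟨0, 0⟩, 0⟩ 0 0) (.pos 58 .mp ⟨19135110, 0, 0, 0, 0, 44225750, 0, 0, 0, ⟨0, 0⟩, 0⟩ 0 0)) (.cut .s 9142272 (.pos 58 .mp ⟨19563684, 0, 0, 0, 0, 45231372, 0, 0, 0, ⟨0, 0⟩, 0⟩ 0 0) (.pos 58 .mp ⟨20005462, 0, 0, 0, 0, 46253444, 0, 0, 0, ⟨0, 0⟩, 0⟩ 0 0))) (.pos 58 .mp ⟨21155219, 0, 0, 0, 0, 38493028, 0, 0, 0, ⟨0, 0⟩, 0⟩ 0 0)) (.pos 59 .mp ⟨54616913, 0, 0, 0, 0, 0, 0, 0, 0, ⟨0, 0⟩, 0⟩ 0 0)) (.pos 35 .mp ⟨20153990, 0, 0, 0, 0, 0, 0, 0, 0, ⟨0, 0⟩, 0⟩ 0 0)) (.pos 35 .mp ⟨20796662, 0, 0, 0, 0, 0, 0, 0, 0, ⟨0, 0⟩, 0⟩ 0 0)))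 (.cut .d (-65536) (.cut .s 9240576 (.cut .d (-98304) (.pos 35 .mp ⟨20653412, 0, 0, 0, 0, 50436193, 0, 0, 0, ⟨0, 0⟩, 0⟩ 0 0) (.cut .v 16908288 (.cut .s 9207808 (.pos 58 .mp ⟨19450213, 0, 0, 0, 0, 49523401, 0, 0, 0, ⟨0, 0⟩, 0⟩ 0 0) (.pos 58 .mp ⟨19947425, 0, 0, 0, 0, 50526035, 0, 0, 0, ⟨0, 0⟩, 0⟩ 0 0)) (.pos 59 .mp ⟨34758813, 0, 0, 0, 0, 30550218, 0, 0, 0, ⟨0, 0⟩, 0⟩ 0 0))) (.cut .d (-98304) (.pos 35 .mp ⟨21739598, 0, 0, 0, 0, 52486610, 0, 0, 0, ⟨0, 0⟩, 0⟩ 0 0) (.cut .v 16908288 (.cut .s 9273344 (.pos 58 .mp ⟨20451954, 0, 0, 0, 0, 51561096, 0, 0, 0, ⟨0, 0⟩, 0⟩ 0 0) (.pos 58 .mp ⟨20963886, 0, 0, 0, 0, 52629087, 0, 0, 0, ⟨0, 0⟩, 0⟩ 0 0)) (.pos 59 .mp ⟨36188533,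 0, 0, 0, 0, 31994133, 0, 0, 0, ⟨0, 0⟩, 0⟩ 0 0)))) (.cut .d (-32768) (.cut .v 16908288 (.cut .l 587202 (.cut .l 425421 (.cut .s 9240576 (.cut .d (-49152) (.pos 58 .mp ⟨20623149, 0, 0, 0, 0, 49599039, 0, 0, 0, ⟨0, 0⟩, 0⟩ 0 0) (.cut .s 9207808 (.pos 58 .mp ⟨20911319, 0, 0, 0, 0, 46409910, 0, 0, 0, ⟨0, 0⟩, 0⟩ 0 0) (.pos 58 .mp ⟨21467745, 0, 0, 0, 0, 47297122, 0, 0, 0, ⟨0, 0⟩, 0⟩ 0 0))) (.cut .d (-49152) (.pos 58 .mp ⟨21663389, 0, 0, 0, 0, 51671969, 0, 0, 0, ⟨0, 0⟩, 0⟩ 0 0) (.cut .s 9273344 (.pos 58 .mp ⟨22023401, 0, 0, 0, 0, 48226922, 0, 0, 0, ⟨0, 0⟩, 0⟩ 0 0) (.pos 58 .mp ⟨22577377, 0, 0, 0, 0, 49201249, 0, 0, 0, ⟨0, 0⟩, 0⟩ 0 0)))) (.pos 58 .mp ⟨23333438, 0, 0,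 0, 0, 41965392, 0, 0, 0, ⟨0, 0⟩, 0⟩ 0 0)) (.pos 58 .mp ⟨0, 0, 0, 0, 0, 0, 0, 0, 0, ⟨0, 0⟩, 0⟩ 0 0)) (.pos 59 .mp ⟨57602300, 0, 0, 0, 0, 0, 0, 0, 0, ⟨0, 0⟩, 0⟩ 0 0)) (.pos 35 .mp ⟨22929967, 0, 0, 0, 0, 0, 0, 0, 0, ⟨0, 0⟩, 0⟩ 0 0)))) (.pos 36 .mp ⟨60151057, 0, 0, 0, 0, 0, 0, 0, 0, ⟨0, 0⟩, 0⟩ 0 0)) (.pos 33 .mp ⟨24462721, 0, 0, 0, 0, 26441788, 0, 0, 0, ⟨0, 0⟩, 0⟩ 0 0))) (.cut .d (-131072) (.cut .l 910763 (.void 33 ⟨0, 0, 0, 0, 0, 100000, 0, 0, 0, ⟨0, 0⟩, 0⟩ 0 0) (.cut .d (-196608) (.cut .d (-229376) (.void 33 ⟨0, 0, 0, 0, 0, 100000, 0, 0, 0, ⟨0, 0⟩, 0⟩ 0 0) (.cut .l 1234324 (.void 33 ⟨0, 0, 0, 0, 0, 100000, 0, 0, 0, ⟨0, 0⟩, 0⟩ 0 0) (.cut .l 1396104 (.pos 33 .mp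 ⟨25049434, 0, 0, 0, 0, 74325244, 0, 0, 0, ⟨0, 0⟩, 0⟩ 0 0) (.cut .v 17039360 (.pos 35 .mp ⟨0, 0, 0, 0, 0, 88288246, 0, 0, 0, ⟨0, 0⟩, 0⟩ 0 0) (.cut .s 9437184 (.cut .s 9371648 (.pos 36 .mp ⟨28184297, 0, 0, 0, 0, 47685882, 0, 0, 0, ⟨0, 0⟩, 0⟩ 0 0) (.pos 36 .mp ⟨29689814, 0, 0, 0, 0, 49535438, 0, 0, 0, ⟨0, 0⟩, 0⟩ 0 0)) (.pos 36 .mp ⟨32849814, 0, 0, 0, 0, 51627851, 0, 0, 0, ⟨0, 0⟩, 0⟩ 0 0)))))) (.cut .s 9437184 (.cut .v 17039360 (.cut .v 16908288 (.pos 58 .mp ⟨0, 0, 0, 0, 0, 82652284, 0, 0, 0, ⟨0, 0⟩, 0⟩ 0 0) (.cut .v 16973824 (.pos 69 .mp ⟨0, 0, 0, 0, 0, 83206778, 0, 0, 0, ⟨0, 0⟩, 0⟩ 0 0) (.cut .s 9371648 (.cut .s 9338880 (.pos 70 .mp ⟨27513340, 0, 0, 0, 0, 46398848,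 0, 0, 0, ⟨0, 0⟩, 0⟩ 0 0) (.pos 70 .mp ⟨22446207, 0, 0, 0, 0, 54989071, 0, 0, 0, ⟨0, 0⟩, 0⟩ 0 0)) (.cut .s 9404416 (.pos 70 .mp ⟨23027339, 0, 0, 0, 0, 56114342, 0, 0, 0, ⟨0, 0⟩, 0⟩ 0 0) (.pos 70 .mp ⟨23617132, 0, 0, 0, 0, 57266900, 0, 0, 0, ⟨0, 0⟩, 0⟩ 0 0))))) (.cut .s 9371648 (.pos 36 .mp ⟨33913919, 0, 0, 0, 0, 39641335, 0, 0, 0, ⟨0, 0⟩, 0⟩ 0 0) (.pos 36 .mp ⟨35591429, 0, 0, 0, 0, 41167774, 0, 0, 0, ⟨0, 0⟩, 0⟩ 0 0))) (.cut .v 17039360 (.cut .s 9502720 (.cut .s 9469952 (.pos 35 .mp ⟨23878519, 0, 0, 0, 0, 58872264, 0, 0, 0, ⟨0, 0⟩, 0⟩ 0 0) (.pos 35 .mp ⟨24469325, 0, 0, 0, 0, 60101372, 0, 0, 0, ⟨0, 0⟩, 0⟩ 0 0)) (.pos 35 .mp ⟨25068879, 0, 0, 0, 0, 62275527, 0,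 0, 0, ⟨0, 0⟩, 0⟩ 0 0)) (.cut .s 9502720 (.pos 36 .mp ⟨37529102, 0, 0, 0, 0, 42510534, 0, 0, 0, ⟨0, 0⟩, 0⟩ 0 0) (.pos 36 .mp ⟨39761959, 0, 0, 0, 0, 43621559, 0, 0, 0, ⟨0, 0⟩, 0⟩ 0 0)))))) (.cut .v 17039360 (.cut .l 910763 (.cut .s 9437184 (.cut .d (-65536) (.cut .s 9371648 (.cut .d (-98304) (.pos 35 .mp ⟨22859239, 0, 0, 0, 0, 54664776, 0, 0, 0, ⟨0, 0⟩, 0⟩ 0 0) (.cut .l 587202 (.pos 35 .mp ⟨22892358, 0, 0, 0, 0, 54920366, 0, 0, 0, ⟨0, 0⟩, 0⟩ 0 0) (.pos 35 .mp ⟨25306256, 0, 0, 0, 0, 47035263, 0, 0, 0, ⟨0, 0⟩, 0⟩ 0 0))) (.cut .d (-98304) (.pos 35 .mp ⟨24013115, 0, 0, 0, 0, 56974630, 0, 0, 0, ⟨0, 0⟩, 0⟩ 0 0) (.cut .l 587202 (.pos 35 .mp ⟨24026439, 0, 0, 0, 0, 57264542,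 0, 0, 0, ⟨0, 0⟩, 0⟩ 0 0) (.pos 35 .mp ⟨26368327, 0, 0, 0, 0, 49477246, 0, 0, 0, ⟨0, 0⟩, 0⟩ 0 0)))) (.cut .d (-32768) (.cut .v 16908288 (.cut .l 587202 (.cut .l 425421 (.cut .s 9371648 (.cut .s 9338880 (.cut .s 9322496 (.pos 58 .mp ⟨22787062, 0, 0, 0, 0, 50344199, 0, 0, 0, ⟨0, 0⟩, 0⟩ 0 0) (.pos 58 .mp ⟨23057500, 0, 0, 0, 0, 50876465, 0, 0, 0, ⟨0, 0⟩, 0⟩ 0 0)) (.pos 58 .mp ⟨22978962, 0, 0, 0, 0, 52651822, 0, 0, 0, ⟨0, 0⟩, 0⟩ 0 0)) (.cut .s 9404416 (.pos 58 .mp ⟨23535950, 0, 0, 0, 0, 53749132, 0, 0, 0, ⟨0, 0⟩, 0⟩ 0 0) (.pos 58 .mp ⟨24112656, 0, 0, 0, 0, 54851390, 0, 0, 0, ⟨0, 0⟩, 0⟩ 0 0))) (.pos 58 .mp ⟨25646803, 0, 0, 0, 0, 45718040, 0, 0, 0, ⟨0, 0⟩, 0⟩ 0 0))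 (.pos 58 .mp ⟨0, 0, 0, 0, 0, 0, 0, 0, 0, ⟨0, 0⟩, 0⟩ 0 0)) (.pos 59 .mp ⟨62469184, 0, 0, 0, 0, 0, 0, 0, 0, ⟨0, 0⟩, 0⟩ 0 0)) (.pos 35 .mp ⟨25191772, 0, 0, 0, 0, 0, 0, 0, 0, ⟨0, 0⟩, 0⟩ 0 0))) (.cut .d (-65536) (.cut .s 9502720 (.cut .d (-98304) (.pos 35 .mp ⟨25202032, 0, 0, 0, 0, 59420237, 0, 0, 0, ⟨0, 0⟩, 0⟩ 0 0) (.cut .l 587202 (.pos 35 .mp ⟨25194475, 0, 0, 0, 0, 59745290, 0, 0, 0, ⟨0, 0⟩, 0⟩ 0 0) (.pos 35 .mp ⟨27600062, 0, 0, 0, 0, 51639073, 0, 0, 0, ⟨0, 0⟩, 0⟩ 0 0))) (.cut .s 9535488 (.pos 35 .mp ⟨25744821, 0, 0, 0, 0, 60251073, 0, 0, 0, ⟨0, 0⟩, 0⟩ 0 0) (.pos 35 .mp ⟨26467686, 0, 0, 0, 0, 61337323, 0, 0, 0, ⟨0, 0⟩, 0⟩ 0 0))) (.cut .d (-32768) (.cut .v 16908288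 (.cut .l 587202 (.cut .l 425421 (.cut .d (-49152) (.pos 58 .mp ⟨24975244, 0, 0, 0, 0, 61380786, 0, 0, 0, ⟨0, 0⟩, 0⟩ 0 0) (.cut .s 9502720 (.cut .s 9469952 (.pos 58 .mp ⟨25287794, 0, 0, 0, 0, 54813539, 0, 0, 0, ⟨0, 0⟩, 0⟩ 0 0) (.pos 58 .mp ⟨25810647, 0, 0, 0, 0, 56099715, 0, 0, 0, ⟨0, 0⟩, 0⟩ 0 0)) (.pos 58 .mp ⟨27948484, 0, 0, 0, 0, 55204832, 0, 0, 0, ⟨0, 0⟩, 0⟩ 0 0))) (.pos 58 .mp ⟨28101814, 0, 0, 0, 0, 49718146, 0, 0, 0, ⟨0, 0⟩, 0⟩ 0 0)) (.pos 58 .mp ⟨0, 0, 0, 0, 0, 0, 0, 0, 0, ⟨0, 0⟩, 0⟩ 0 0)) (.pos 59 .mp ⟨67790907, 0, 0, 0, 0, 0, 0, 0, 0, ⟨0, 0⟩, 0⟩ 0 0)) (.pos 35 .mp ⟨27588292, 0, 0, 0, 0, 0, 0, 0, 0, ⟨0, 0⟩, 0⟩ 0 0)))) (.cut .s 9437184 (.pos 35 .mp ⟨25602128,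 0, 0, 0, 0, 45690747, 0, 0, 0, ⟨0, 0⟩, 0⟩ 0 0) (.pos 35 .mp ⟨28244732, 0, 0, 0, 0, 49442278, 0, 0, 0, ⟨0, 0⟩, 0⟩ 0 0))) (.pos 36 .mp ⟨67180567, 0, 0, 0, 0, 0, 0, 0, 0, ⟨0, 0⟩, 0⟩ 0 0)))) (.cut .s 9306112 (.pos 34 .mp ⟨63285080, 0, 0, 0, 0, 0, 0, 0, 0, ⟨0, 0⟩, 0⟩ 0 0) (.pos 34 .mp ⟨74118919, 0, 0, 0, 0, 0, 0, 0, 0, ⟨0, 0⟩, 0⟩ 0 0))) (.pos 32 .mp ⟨74813369, 0, 0, 0, 0, 0, 0, 0, 0, ⟨0, 0⟩, 0⟩ 0 0)))))) (.void 30 ⟨100000, 0, 0, 0, 0, 0, 0, 0, 0, ⟨0, 0⟩, 0⟩ 0 0))) (.void 28 ⟨100000, 0, 0, 0, 0, 0, 0, 0, 0, ⟨0, 0⟩, 0⟩ 0 0))) (.void 26 ⟨100000, 0, 0, 0, 0, 0, 0, 0, 0, ⟨0, 0⟩, 0⟩ 0 0)) (.void 57 ⟨100000, 0, 0, 0, 0, 0, 0, 0, 0, ⟨0, 0⟩, 0⟩ 0 0)) (.void 68 ⟨100000, 0,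 0, 0, 0, 0, 0, 0, 0, ⟨0, 0⟩, 0⟩ 0 0))) (.cut .v 16777216 (.cut .v 8388608 (.cut .v 4194304 (.pos 4 .pm ⟨0, 0, 66279768, 0, 0, 0, 0, 0, 130480547, ⟨0, 0⟩, 3966728⟩ 0 0) (.cut .d 7172869 (.pos 5 .pm ⟨0, 0, 0, 0, 0, 0, 0, 0, 0, ⟨0, 0⟩, 0⟩ 0 0) (.pos 5 .pm ⟨0, 0, 0, 0, 0, 0, 0, 0, 23661256, ⟨0, 0⟩, 9975792⟩ 0 0))) (.cut .d 7172869 (.pos 3 .pm ⟨0, 0, 0, 0, 0, 0, 0, 0, 0, ⟨0, 0⟩, 0⟩ 0 0) (.cut .d 10759303 (.pos 3 .pm ⟨0, 0, 0, 0, 0, 0, 0, 14464134, 0, ⟨5511060, 9757⟩, 0⟩ 202 288) (.cut .v 12582912 (.pos 8 .pm ⟨0, 51681448, 0, 0, 0, 0, 0, 0, 7653002, ⟨0, 0⟩, 13128881⟩ 0 0) (.pos 9 .pm ⟨0, 55850122, 0, 0, 0, 0, 0, 0, 5201837, ⟨0, 0⟩, 15612959⟩ 0 0))))) (.cut .v 67108864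 (.cut .d 7172869 (.cut .d 3586434 (.cut .v 33554432 (.cut .d 1793217 (.cut .v 25165824 (.cut .v 20971520 (.pos 27 .pp ⟨34628278, 0, 0, 0, 0, 0, 0, 0, 0, ⟨0, 0⟩, 0⟩ 0 0) (.pos 28 .pp ⟨72875813, 0, 0, 0, 0, 0, 0, 0, 0, ⟨0, 0⟩, 0⟩ 0 0)) (.pos 26 .pp ⟨124876147, 0, 0, 0, 0, 0, 0, 0, 0, ⟨0, 0⟩, 0⟩ 0 0)) (.pos 24 .pp ⟨0, 0, 0, 0, 0, 0, 0, 0, 0, ⟨0, 0⟩, 0⟩ 0 0)) (.cut .d 1793217 (.pos 57 .pp ⟨551596212, 0, 0, 0, 0, 0, 0, 0, 0, ⟨0, 0⟩, 0⟩ 0 0) (.pos 57 .pp ⟨175083301, 0, 0, 0, 0, 0, 0, 0, 0, ⟨0, 0⟩, 0⟩ 0 0))) (.pos 56 .pp ⟨0, 0, 0, 0, 0, 0, 0, 16645490, 0, ⟨5396092, 151959⟩, 0⟩ 167 225)) (.pos 56 .pp ⟨0, 42175071, 0, 0, 0, 0, 0, 0, 0, ⟨0, 0⟩, 0⟩ 0 0)) (.cut .v 134217728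 (.cut .d 7172869 (.cut .d 3586434 (.cut .v 100663296 (.pos 75 .pp ⟨1350557210, 0, 0, 0, 0, 0, 0, 0, 0, ⟨0, 0⟩, 0⟩ 0 0) (.void 76 ⟨44198, 55802, 0, 0, 0, 0, 0, 0, 0, ⟨0, 0⟩, 0⟩ 0 0)) (.pos 73 .pp ⟨0, 176842924, 0, 0, 0, 0, 6959604, 0, 0, ⟨0, 0⟩, 0⟩ 0 0)) (.void 73 ⟨0, 100000, 0, 0, 0, 0, 0, 0, 0, ⟨0, 0⟩, 0⟩ 0 0)) (.void 74 ⟨38048, 61952, 0, 0, 0, 0, 0, 0, 0, ⟨0, 0⟩, 0⟩ 0 0))))),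
    by decide +kernel⟩

def covers12 : cell.Covers table row12.1 :=
  ⟨(.cut .d 0 (.cut .v 16777216 (.cut .d (-8388608) (.void 1 ⟨0, 0, 0, 0, 0, 100000, 0, 0, 0, ⟨0, 0⟩, 0⟩ 0 0) (.cut .d (-4194304) (.void 1 ⟨0, 0, 0, 0, 0, 100000, 0, 0, 0, ⟨0, 0⟩, 0⟩ 0 0) (.cut .d (-2097152) (.void 1 ⟨0, 0, 0, 0, 0, 100000, 0, 0, 0, ⟨0, 0⟩, 0⟩ 0 0) (.cut .d (-1048576) (.void 1 ⟨0, 0, 0, 0, 0, 100000, 0, 0, 0, ⟨0, 0⟩, 0⟩ 0 0) (.cut .d (-524288) (.void 1 ⟨0, 0, 0, 0, 0, 100000, 0, 0, 0, ⟨0, 0⟩, 0⟩ 0 0) (.cut .d (-262144) (.void 1 ⟨0, 0, 0, 0, 0, 100000, 0, 0, 0, ⟨0, 0⟩, 0⟩ 0 0) (.cut .v 8388608 (.cut .v 4194304 (.void 4 ⟨0, 0, 100000, 0, 0, 0, 0, 0, 0, ⟨0, 0⟩, 0⟩ 0 0) (.pos 5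 .mm ⟨0, 0, 0, 0, 0, 45801420, 0, 0, 0, ⟨0, 0⟩, 0⟩ 0 0)) (.cut .v 12582912 (.pos 8 .mm ⟨0, 0, 0, 0, 0, 68457118, 0, 0, 0, ⟨0, 0⟩, 0⟩ 0 0) (.cut .v 14680064 (.pos 12 .mm ⟨0, 0, 0, 0, 0, 89326949, 0, 0, 0, ⟨0, 0⟩, 0⟩ 0 0) (.cut .v 15728640 (.pos 16 .mm ⟨0, 0, 0, 0, 0, 100632586, 0, 0, 0, ⟨0, 0⟩, 0⟩ 0 0) (.cut .v 16252928 (.pos 20 .mm ⟨0, 0, 0, 0, 0, 106755979, 0, 0, 0, ⟨0, 0⟩, 0⟩ 0 0) (.cut .s 9830400 (.cut .s 9699328 (.pos 21 .mm ⟨0, 0, 0, 0, 0, 96890304, 0, 0, 0, ⟨0, 0⟩, 0⟩ 0 0) (.cut .s 9764864 (.pos 21 .mm ⟨0, 0, 0, 0, 0, 101781219, 0, 0, 0, ⟨0, 0⟩, 0⟩ 0 0) (.pos 21 .mm ⟨0, 0, 0, 0, 0, 106351887, 0, 0, 0, ⟨0, 0⟩, 0⟩ 0 0))) (.cut .d (-131072) (.pos 21 .mm ⟨0,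 0, 0, 0, 0, 128206031, 0, 0, 0, ⟨0, 0⟩, 0⟩ 0 0) (.cut .s 9961472 (.pos 21 .mm ⟨0, 0, 0, 0, 0, 112995360, 0, 0, 0, ⟨0, 0⟩, 0⟩ 0 0) (.pos 21 .mm ⟨0, 0, 0, 0, 0, 123029966, 0, 0, 0, ⟨0, 0⟩, 0⟩ 0 0))))))))))))))) (.cut .v 67108864 (.cut .v 33554432 (.cut .v 25165824 (.cut .d (-8388608) (.void 25 ⟨0, 0, 0, 0, 0, 100000, 0, 0, 0, ⟨0, 0⟩, 0⟩ 0 0) (.cut .v 20971520 (.cut .d (-4194304) (.void 27 ⟨0, 0, 0, 0, 0, 100000, 0, 0, 0, ⟨0, 0⟩, 0⟩ 0 0) (.cut .v 18874368 (.cut .d (-2097152) (.void 29 ⟨100000, 0, 0, 0, 0, 0, 0, 0, 0, ⟨0, 0⟩, 0⟩ 0 0) (.cut .d (-1048576) (.void 29 ⟨100000, 0, 0, 0, 0, 0, 0, 0, 0, ⟨0, 0⟩, 0⟩ 0 0) (.cut .d (-524288) (.void 29 ⟨0, 0, 0, 0, 0, 100000,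 0, 0, 0, ⟨0, 0⟩, 0⟩ 0 0) (.cut .d (-262144) (.void 29 ⟨0, 0, 0, 0, 0, 100000, 0, 0, 0, ⟨0, 0⟩, 0⟩ 0 0) (.cut .v 17825792 (.cut .v 17301504 (.cut .d (-131072) (.cut .l 910763 (.void 33 ⟨0, 0, 0, 0, 0, 100000, 0, 0, 0, ⟨0, 0⟩, 0⟩ 0 0) (.cut .d (-196608) (.cut .s 9830400 (.cut .s 9699328 (.pos 33 .mp ⟨31475649, 0, 0, 0, 0, 68406863, 0, 0, 0, ⟨0, 0⟩, 0⟩ 0 0) (.pos 33 .mp ⟨33028543, 0, 0, 0, 0, 96637880, 0, 0, 0, ⟨0, 0⟩, 0⟩ 0 0)) (.void 33 ⟨0, 0, 0, 0, 0, 100000, 0, 0, 0, ⟨0, 0⟩, 0⟩ 0 0)) (.cut .s 9830400 (.cut .v 17039360 (.cut .v 16908288 (.pos 58 .mp ⟨0, 0, 0, 0, 0, 105303923, 0, 0, 0, ⟨0, 0⟩, 0⟩ 0 0) (.cut .s 9699328 (.cut .s 9633792 (.pos 59 .mp ⟨26565467,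 0, 0, 0, 0, 65070904, 0, 0, 0, ⟨0, 0⟩, 0⟩ 0 0) (.cut .s 9666560 (.pos 59 .mp ⟨27892293, 0, 0, 0, 0, 66187603, 0, 0, 0, ⟨0, 0⟩, 0⟩ 0 0) (.pos 59 .mp ⟨28569599, 0, 0, 0, 0, 67408649, 0, 0, 0, ⟨0, 0⟩, 0⟩ 0 0))) (.cut .v 16973824 (.pos 69 .mp ⟨0, 0, 0, 0, 0, 110150659, 0, 0, 0, ⟨0, 0⟩, 0⟩ 0 0) (.cut .s 9764864 (.cut .s 9732096 (.pos 70 .mp ⟨29416847, 0, 0, 0, 0, 68461235, 0, 0, 0, ⟨0, 0⟩, 0⟩ 0 0) (.pos 70 .mp ⟨30119346, 0, 0, 0, 0, 69750098, 0, 0, 0, ⟨0, 0⟩, 0⟩ 0 0)) (.cut .s 9797632 (.pos 70 .mp ⟨30831586, 0, 0, 0, 0, 71076983, 0, 0, 0, ⟨0, 0⟩, 0⟩ 0 0) (.pos 70 .mp ⟨31553694, 0, 0, 0, 0, 72441865, 0, 0, 0, ⟨0, 0⟩, 0⟩ 0 0)))))) (.cut .s 9699328 (.pos 36 .mp ⟨56366373,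 0, 0, 0, 0, 29474835, 0, 0, 0, ⟨0, 0⟩, 0⟩ 0 0) (.cut .s 9764864 (.pos 36 .mp ⟨44687301, 0, 0, 0, 0, 50122358, 0, 0, 0, ⟨0, 0⟩, 0⟩ 0 0) (.pos 36 .mp ⟨46089410, 0, 0, 0, 0, 52719396, 0, 0, 0, ⟨0, 0⟩, 0⟩ 0 0)))) (.cut .s 9961472 (.cut .v 17039360 (.cut .v 16908288 (.pos 58 .mp ⟨0, 0, 0, 0, 0, 119104080, 0, 0, 0, ⟨0, 0⟩, 0⟩ 0 0) (.cut .v 16973824 (.pos 69 .mp ⟨0, 0, 0, 0, 0, 119897227, 0, 0, 0, ⟨0, 0⟩, 0⟩ 0 0) (.cut .s 9895936 (.cut .s 9863168 (.pos 70 .mp ⟨32285796, 0, 0, 0, 0, 73844712, 0, 0, 0, ⟨0, 0⟩, 0⟩ 0 0) (.pos 70 .mp ⟨33028023, 0, 0, 0, 0, 75285490, 0, 0, 0, ⟨0, 0⟩, 0⟩ 0 0)) (.cut .s 9928704 (.pos 70 .mp ⟨33780508, 0, 0, 0, 0, 76764154, 0, 0, 0, ⟨0, 0⟩,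 0⟩ 0 0) (.pos 70 .mp ⟨34543387, 0, 0, 0, 0, 78280655, 0, 0, 0, ⟨0, 0⟩, 0⟩ 0 0))))) (.cut .s 9895936 (.cut .s 9863168 (.pos 36 .mp ⟨40835178, 0, 0, 0, 0, 62949110, 0, 0, 0, ⟨0, 0⟩, 0⟩ 0 0) (.pos 36 .mp ⟨41744028, 0, 0, 0, 0, 64162407, 0, 0, 0, ⟨0, 0⟩, 0⟩ 0 0)) (.pos 36 .mp ⟨50116933, 0, 0, 0, 0, 56920819, 0, 0, 0, ⟨0, 0⟩, 0⟩ 0 0))) (.cut .v 17039360 (.cut .s 10027008 (.cut .s 9994240 (.pos 35 .mp ⟨34683318, 0, 0, 0, 0, 80666502, 0, 0, 0, ⟨0, 0⟩, 0⟩ 0 0) (.pos 35 .mp ⟨35446687, 0, 0, 0, 0, 82287767, 0, 0, 0, ⟨0, 0⟩, 0⟩ 0 0)) (.pos 35 .mp ⟨36220596, 0, 0, 0, 0, 85585193, 0, 0, 0, ⟨0, 0⟩, 0⟩ 0 0)) (.cut .s 10027008 (.pos 36 .mp ⟨52846226, 0, 0, 0, 0, 58376606,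 0, 0, 0, ⟨0, 0⟩, 0⟩ 0 0) (.pos 36 .mp ⟨56124565, 0, 0, 0, 0, 59297441, 0, 0, 0, ⟨0, 0⟩, 0⟩ 0 0))))))) (.cut .s 9830400 (.cut .v 17039360 (.cut .s 9699328 (.cut .l 910763 (.cut .d (-65536) (.cut .l 587202 (.pos 35 .mp ⟨27934010, 0, 0, 0, 0, 69228728, 0, 0, 0, ⟨0, 0⟩, 0⟩ 0 0) (.cut .d (-98304) (.pos 35 .mp ⟨27690209, 0, 0, 0, 0, 68085795, 0, 0, 0, ⟨0, 0⟩, 0⟩ 0 0) (.cut .s 9633792 (.pos 35 .mp ⟨30532189, 0, 0, 0, 0, 56247288, 0, 0, 0, ⟨0, 0⟩, 0⟩ 0 0) (.pos 35 .mp ⟨31950519, 0, 0, 0, 0, 58314859, 0, 0, 0, ⟨0, 0⟩, 0⟩ 0 0)))) (.cut .d (-32768) (.cut .v 16908288 (.cut .l 587202 (.cut .s 9633792 (.cut .s 9601024 (.pos 58 .mp ⟨27601033, 0, 0, 0, 0, 60079979, 0, 0, 0,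 ⟨0, 0⟩, 0⟩ 0 0) (.pos 58 .mp ⟨28003943, 0, 0, 0, 0, 61552625, 0, 0, 0, ⟨0, 0⟩, 0⟩ 0 0)) (.cut .s 9666560 (.pos 58 .mp ⟨28431183, 0, 0, 0, 0, 63038895, 0, 0, 0, ⟨0, 0⟩, 0⟩ 0 0) (.pos 58 .mp ⟨28884511, 0, 0, 0, 0, 64536024, 0, 0, 0, ⟨0, 0⟩, 0⟩ 0 0))) (.pos 58 .mp ⟨0, 0, 0, 0, 0, 0, 0, 0, 0, ⟨0, 0⟩, 0⟩ 0 0)) (.pos 59 .mp ⟨74009923, 0, 0, 0, 0, 0, 0, 0, 0, ⟨0, 0⟩, 0⟩ 0 0)) (.pos 35 .mp ⟨30140674, 0, 0, 0, 0, 53437861, 0, 0, 0, ⟨0, 0⟩, 0⟩ 0 0))) (.cut .s 9633792 (.pos 35 .mp ⟨30619029, 0, 0, 0, 0, 54279576, 0, 0, 0, ⟨0, 0⟩, 0⟩ 0 0) (.pos 35 .mp ⟨32071996, 0, 0, 0, 0, 56407840, 0, 0, 0, ⟨0, 0⟩, 0⟩ 0 0))) (.cut .l 910763 (.cut .d (-65536) (.cut .l 587202 (.pos 35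 .mp ⟨30497116, 0, 0, 0, 0, 74743944, 0, 0, 0, ⟨0, 0⟩, 0⟩ 0 0) (.cut .d (-98304) (.cut .s 9764864 (.pos 35 .mp ⟨30375399, 0, 0, 0, 0, 69433988, 0, 0, 0, ⟨0, 0⟩, 0⟩ 0 0) (.pos 35 .mp ⟨31775563, 0, 0, 0, 0, 72148934, 0, 0, 0, ⟨0, 0⟩, 0⟩ 0 0)) (.cut .s 9764864 (.pos 35 .mp ⟨33410550, 0, 0, 0, 0, 60518968, 0, 0, 0, ⟨0, 0⟩, 0⟩ 0 0) (.cut .s 9797632 (.pos 35 .mp ⟨34156536, 0, 0, 0, 0, 63194534, 0, 0, 0, ⟨0, 0⟩, 0⟩ 0 0) (.pos 35 .mp ⟨34913349, 0, 0, 0, 0, 64417324, 0, 0, 0, ⟨0, 0⟩, 0⟩ 0 0))))) (.cut .l 587202 (.cut .v 16908288 (.cut .d (-32768) (.cut .s 9764864 (.cut .l 425421 (.cut .s 9732096 (.pos 58 .mp ⟨29788413, 0, 0, 0, 0, 65552232, 0, 0, 0, ⟨0, 0⟩, 0⟩ 0 0) (.pos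 58 .mp ⟨30358024, 0, 0, 0, 0, 66992770, 0, 0, 0, ⟨0, 0⟩, 0⟩ 0 0)) (.pos 58 .mp ⟨30627522, 0, 0, 0, 0, 63694479, 0, 0, 0, ⟨0, 0⟩, 0⟩ 0 0)) (.cut .l 425421 (.cut .d (-49152) (.pos 58 .mp ⟨31235529, 0, 0, 0, 0, 72742145, 0, 0, 0, ⟨0, 0⟩, 0⟩ 0 0) (.cut .l 344531 (.cut .s 9797632 (.pos 58 .mp ⟨31356939, 0, 0, 0, 0, 67815995, 0, 0, 0, ⟨0, 0⟩, 0⟩ 0 0) (.pos 58 .mp ⟨31998422, 0, 0, 0, 0, 69242943, 0, 0, 0, ⟨0, 0⟩, 0⟩ 0 0)) (.pos 58 .mp ⟨32211231, 0, 0, 0, 0, 65810281, 0, 0, 0, ⟨0, 0⟩, 0⟩ 0 0))) (.pos 58 .mp ⟨32367526, 0, 0, 0, 0, 65590107, 0, 0, 0, ⟨0, 0⟩, 0⟩ 0 0))) (.cut .s 9764864 (.pos 58 .mp ⟨31085517, 0, 0, 0, 0, 60238557, 0, 0, 0, ⟨0, 0⟩, 0⟩ 0 0) (.cut .s 9797632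 (.pos 58 .mp ⟨31762156, 0, 0, 0, 0, 63520267, 0, 0, 0, ⟨0, 0⟩, 0⟩ 0 0) (.pos 58 .mp ⟨32433328, 0, 0, 0, 0, 64832121, 0, 0, 0, ⟨0, 0⟩, 0⟩ 0 0)))) (.pos 59 .mp ⟨82302457, 0, 0, 0, 0, 0, 0, 0, 0, ⟨0, 0⟩, 0⟩ 0 0)) (.pos 35 .mp ⟨33020892, 0, 0, 0, 0, 0, 0, 0, 0, ⟨0, 0⟩, 0⟩ 0 0))) (.cut .s 9764864 (.pos 35 .mp ⟨33568443, 0, 0, 0, 0, 58638096, 0, 0, 0, ⟨0, 0⟩, 0⟩ 0 0) (.cut .s 9797632 (.pos 35 .mp ⟨34333317, 0, 0, 0, 0, 61645818, 0, 0, 0, ⟨0, 0⟩, 0⟩ 0 0) (.pos 35 .mp ⟨35109479, 0, 0, 0, 0, 62855893, 0, 0, 0, ⟨0, 0⟩, 0⟩ 0 0))))) (.pos 36 .mp ⟨79696028, 0, 0, 0, 0, 0, 0, 0, 0, ⟨0, 0⟩, 0⟩ 0 0)) (.cut .v 17039360 (.cut .s 9961472 (.cut .l 910763 (.cut .d (-65536) (.cut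 .d (-98304) (.pos 35 .mp ⟨33215422, 0, 0, 0, 0, 79910624, 0, 0, 0, ⟨0, 0⟩, 0⟩ 0 0) (.cut .l 587202 (.pos 35 .mp ⟨33151890, 0, 0, 0, 0, 81128023, 0, 0, 0, ⟨0, 0⟩, 0⟩ 0 0) (.cut .l 748982 (.cut .s 9895936 (.cut .s 9863168 (.pos 35 .mp ⟨32173481, 0, 0, 0, 0, 73125414, 0, 0, 0, ⟨0, 0⟩, 0⟩ 0 0) (.pos 35 .mp ⟨32872621, 0, 0, 0, 0, 74592502, 0, 0, 0, ⟨0, 0⟩, 0⟩ 0 0)) (.pos 35 .mp ⟨33581213, 0, 0, 0, 0, 77671411, 0, 0, 0, ⟨0, 0⟩, 0⟩ 0 0)) (.pos 35 .mp ⟨37133711, 0, 0, 0, 0, 63220497, 0, 0, 0, ⟨0, 0⟩, 0⟩ 0 0)))) (.cut .v 16908288 (.cut .l 587202 (.cut .d (-32768) (.cut .s 9895936 (.cut .s 9863168 (.cut .s 9846784 (.pos 58 .mp ⟨32772168, 0, 0, 0, 0, 69607174, 0, 0, 0,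 ⟨0, 0⟩, 0⟩ 0 0) (.pos 58 .mp ⟨33106679, 0, 0, 0, 0, 70324668, 0, 0, 0, ⟨0, 0⟩, 0⟩ 0 0)) (.cut .s 9879552 (.pos 58 .mp ⟨33445142, 0, 0, 0, 0, 71051003, 0, 0, 0, ⟨0, 0⟩, 0⟩ 0 0) (.pos 58 .mp ⟨33793177, 0, 0, 0, 0, 71775127, 0, 0, 0, ⟨0, 0⟩, 0⟩ 0 0))) (.cut .s 9928704 (.cut .s 9912320 (.pos 58 .mp ⟨34151010, 0, 0, 0, 0, 72496666, 0, 0, 0, ⟨0, 0⟩, 0⟩ 0 0) (.pos 58 .mp ⟨34502476, 0, 0, 0, 0, 73247911, 0, 0, 0, ⟨0, 0⟩, 0⟩ 0 0)) (.cut .s 9945088 (.pos 58 .mp ⟨34855246, 0, 0, 0, 0, 74013754, 0, 0, 0, ⟨0, 0⟩, 0⟩ 0 0) (.pos 58 .mp ⟨35210286, 0, 0, 0, 0, 74792410, 0, 0, 0, ⟨0, 0⟩, 0⟩ 0 0)))) (.cut .d (-16384) (.cut .d (-24576) (.cut .d (-28672) (.cut .v 16842752 (.cut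 .s 9895936 (.pos 60 .mp ⟨32321644, 0, 0, 0, 0, 70245072, 0, 0, 0, ⟨0, 0⟩, 0⟩ 0 0) (.pos 60 .mp ⟨33618508, 0, 0, 0, 0, 73253928, 0, 0, 0, ⟨0, 0⟩, 0⟩ 0 0)) (.pos 61 .mp ⟨82885783, 0, 0, 0, 0, 0, 0, 0, 0, ⟨0, 0⟩, 0⟩ 0 0)) (.pos 58 .mp ⟨35007004, 0, 0, 0, 0, 0, 0, 0, 0, ⟨0, 0⟩, 0⟩ 0 0)) (.pos 58 .mp ⟨34456068, 0, 0, 0, 0, 0, 0, 0, 0, ⟨0, 0⟩, 0⟩ 0 0)) (.pos 58 .mp ⟨0, 0, 0, 0, 0, 0, 0, 0, 0, ⟨0, 0⟩, 0⟩ 0 0))) (.pos 58 .mp ⟨35530449, 0, 0, 0, 0, 0, 0, 0, 0, ⟨0, 0⟩, 0⟩ 0 0)) (.pos 59 .mp ⟨85753901, 0, 0, 0, 0, 0, 0, 0, 0, ⟨0, 0⟩, 0⟩ 0 0))) (.cut .v 16908288 (.pos 58 .mp ⟨0, 0, 0, 0, 0, 108749481, 0, 0, 0, ⟨0, 0⟩, 0⟩ 0 0) (.cut .s 9895936 (.pos 59 .mp ⟨37107104, 0,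 0, 0, 0, 64439010, 0, 0, 0, ⟨0, 0⟩, 0⟩ 0 0) (.pos 59 .mp ⟨38768587, 0, 0, 0, 0, 66953139, 0, 0, 0, ⟨0, 0⟩, 0⟩ 0 0)))) (.cut .l 910763 (.cut .d (-65536) (.cut .l 587202 (.pos 35 .mp ⟨35942137, 0, 0, 0, 0, 88340901, 0, 0, 0, ⟨0, 0⟩, 0⟩ 0 0) (.cut .d (-98304) (.pos 35 .mp ⟨36218409, 0, 0, 0, 0, 85822311, 0, 0, 0, ⟨0, 0⟩, 0⟩ 0 0) (.cut .s 10027008 (.cut .s 9994240 (.pos 35 .mp ⟨38864842, 0, 0, 0, 0, 71048745, 0, 0, 0, ⟨0, 0⟩, 0⟩ 0 0) (.pos 35 .mp ⟨39689664, 0, 0, 0, 0, 72477932, 0, 0, 0, ⟨0, 0⟩, 0⟩ 0 0)) (.pos 35 .mp ⟨41375071, 0, 0, 0, 0, 73569754, 0, 0, 0, ⟨0, 0⟩, 0⟩ 0 0)))) (.cut .v 16908288 (.cut .l 587202 (.cut .d (-32768) (.cut .s 10027008 (.cut .s 9994240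 (.cut .s 9977856 (.pos 58 .mp ⟨35567611, 0, 0, 0, 0, 75583986, 0, 0, 0, ⟨0, 0⟩, 0⟩ 0 0) (.pos 58 .mp ⟨35927234, 0, 0, 0, 0, 76388590, 0, 0, 0, ⟨0, 0⟩, 0⟩ 0 0)) (.pos 58 .mp ⟨35243375, 0, 0, 0, 0, 79476346, 0, 0, 0, ⟨0, 0⟩, 0⟩ 0 0)) (.cut .s 10059776 (.pos 58 .mp ⟨36101418, 0, 0, 0, 0, 80902259, 0, 0, 0, ⟨0, 0⟩, 0⟩ 0 0) (.pos 58 .mp ⟨37007171, 0, 0, 0, 0, 82303529, 0, 0, 0, ⟨0, 0⟩, 0⟩ 0 0))) (.cut .s 10027008 (.cut .s 9994240 (.pos 58 .mp ⟨35920017, 0, 0, 0, 0, 71774353, 0, 0, 0, ⟨0, 0⟩, 0⟩ 0 0) (.pos 58 .mp ⟨36644398, 0, 0, 0, 0, 73234801, 0, 0, 0, ⟨0, 0⟩, 0⟩ 0 0)) (.pos 58 .mp ⟨38068730, 0, 0, 0, 0, 73893006, 0, 0, 0, ⟨0, 0⟩, 0⟩ 0 0))) (.pos 58 .mp ⟨38560968,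 0, 0, 0, 0, 30999561, 0, 0, 0, ⟨0, 0⟩, 0⟩ 0 0)) (.pos 59 .mp ⟨92537106, 0, 0, 0, 0, 0, 0, 0, 0, ⟨0, 0⟩, 0⟩ 0 0))) (.cut .v 16908288 (.pos 58 .mp ⟨0, 0, 0, 0, 0, 118500490, 0, 0, 0, ⟨0, 0⟩, 0⟩ 0 0) (.cut .s 10027008 (.pos 59 .mp ⟨40479008, 0, 0, 0, 0, 69565229, 0, 0, 0, ⟨0, 0⟩, 0⟩ 0 0) (.pos 59 .mp ⟨42239685, 0, 0, 0, 0, 72241293, 0, 0, 0, ⟨0, 0⟩, 0⟩ 0 0))))) (.pos 36 .mp ⟨92552427, 0, 0, 0, 0, 0, 0, 0, 0, ⟨0, 0⟩, 0⟩ 0 0)))) (.cut .s 9830400 (.pos 34 .mp ⟨88019606, 0, 0, 0, 0, 0, 0, 0, 0, ⟨0, 0⟩, 0⟩ 0 0) (.pos 34 .mp ⟨101812010, 0, 0, 0, 0, 0, 0, 0, 0, ⟨0, 0⟩, 0⟩ 0 0))) (.pos 32 .mp ⟨102728735, 0, 0, 0, 0, 0, 0, 0, 0, ⟨0, 0⟩, 0⟩ 0 0)))))) (.void 30 ⟨100000,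 0, 0, 0, 0, 0, 0, 0, 0, ⟨0, 0⟩, 0⟩ 0 0))) (.void 28 ⟨100000, 0, 0, 0, 0, 0, 0, 0, 0, ⟨0, 0⟩, 0⟩ 0 0))) (.void 26 ⟨100000, 0, 0, 0, 0, 0, 0, 0, 0, ⟨0, 0⟩, 0⟩ 0 0)) (.void 57 ⟨100000, 0, 0, 0, 0, 0, 0, 0, 0, ⟨0, 0⟩, 0⟩ 0 0)) (.void 68 ⟨100000, 0, 0, 0, 0, 0, 0, 0, 0, ⟨0, 0⟩, 0⟩ 0 0))) (.cut .v 16777216 (.cut .v 8388608 (.cut .v 4194304 (.cut .v 2097152 (.void 6 ⟨0, 0, 50000, 0, 50000, 0, 0, 0, 0, ⟨0, 0⟩, 0⟩ 0 0) (.void 7 ⟨0, 0, 45679, 0, 0, 0, 0, 0, 54321, ⟨0, 0⟩, 7053950⟩ 0 0)) (.cut .d 6320185 (.pos 5 .pm ⟨0, 0, 0, 0, 0, 0, 0, 0, 0, ⟨0, 0⟩, 0⟩ 0 0) (.cut .d 9480278 (.pos 5 .pm ⟨0, 0, 0, 0, 0, 0, 0, 0, 0, ⟨0, 0⟩, 0⟩ 0 0) (.pos 5 .pm ⟨0, 52345369, 0, 0, 0, 0,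 0, 0, 6088786, ⟨0, 0⟩, 9975792⟩ 0 0)))) (.cut .d 6320185 (.pos 3 .pm ⟨0, 0, 0, 0, 0, 0, 0, 0, 0, ⟨0, 0⟩, 0⟩ 0 0) (.cut .d 9480278 (.pos 3 .pm ⟨0, 0, 0, 0, 0, 0, 0, 0, 0, ⟨0, 0⟩, 0⟩ 0 0) (.cut .d 11060324 (.cut .v 12582912 (.cut .d 10270301 (.pos 8 .pm ⟨0, 42774406, 0, 0, 0, 0, 0, 0, 0, ⟨0, 0⟩, 0⟩ 0 0) (.pos 8 .pm ⟨0, 56857840, 0, 0, 0, 0, 0, 0, 0, ⟨0, 0⟩, 0⟩ 0 0)) (.pos 9 .pm ⟨0, 56278816, 0, 0, 0, 0, 0, 0, 0, ⟨0, 0⟩, 0⟩ 0 0)) (.pos 3 .pm ⟨0, 86130369, 0, 0, 0, 0, 0, 0, 0, ⟨0, 0⟩, 0⟩ 0 0))))) (.cut .d 6320185 (.cut .v 67108864 (.cut .d 3160092 (.cut .v 33554432 (.cut .d 1580046 (.cut .v 25165824 (.cut .v 20971520 (.pos 27 .pp ⟨51108610, 0, 0, 0, 0, 0, 0, 0,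 0, ⟨0, 0⟩, 0⟩ 0 0) (.pos 28 .pp ⟨100915622, 0, 0, 0, 0, 0, 0, 0, 0, ⟨0, 0⟩, 0⟩ 0 0)) (.pos 26 .pp ⟨172878401, 0, 0, 0, 0, 0, 0, 0, 0, ⟨0, 0⟩, 0⟩ 0 0)) (.pos 24 .pp ⟨0, 0, 0, 0, 0, 0, 0, 0, 0, ⟨0, 0⟩, 0⟩ 0 0)) (.cut .d 1580046 (.pos 57 .pp ⟨735328903, 0, 0, 0, 0, 0, 0, 0, 0, ⟨0, 0⟩, 0⟩ 0 0) (.pos 57 .pp ⟨254493468, 0, 0, 0, 0, 0, 0, 0, 0, ⟨0, 0⟩, 0⟩ 0 0))) (.pos 56 .pp ⟨0, 0, 0, 0, 0, 0, 0, 0, 0, ⟨0, 0⟩, 0⟩ 0 0)) (.cut .v 134217728 (.cut .d 3160092 (.cut .v 100663296 (.cut .v 83886080 (.pos 81 .pp ⟨1287635316, 0, 0, 0, 0, 0, 0, 0, 0, ⟨0, 0⟩, 0⟩ 0 0) (.void 82 ⟨43170, 56830, 0, 0, 0, 0, 0, 0, 0, ⟨0, 0⟩, 0⟩ 0 0)) (.void 76 ⟨43170, 56830, 0, 0, 0, 0, 0, 0, 0, ⟨0,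 0⟩, 0⟩ 0 0)) (.pos 73 .pp ⟨0, 228298875, 0, 0, 0, 0, 6606217, 0, 0, ⟨0, 0⟩, 0⟩ 0 0)) (.void 74 ⟨41157, 58843, 0, 0, 0, 0, 0, 0, 0, ⟨0, 0⟩, 0⟩ 0 0))) (.pos 67 .pp ⟨0, 58058668, 0, 0, 0, 0, 0, 0, 0, ⟨0, 0⟩, 0⟩ 0 0)))),
    by decide +kernel⟩

def covers13 : cell.Covers table row13.1 :=
  ⟨(.cut .d 0 (.cut .v 16777216 (.cut .d (-8388608) (.void 1 ⟨0, 0, 0, 0, 0, 100000, 0, 0, 0, ⟨0, 0⟩, 0⟩ 0 0) (.cut .d (-4194304) (.void 1 ⟨0, 0, 0, 0, 0, 100000, 0, 0, 0, ⟨0, 0⟩, 0⟩ 0 0) (.cut .d (-2097152) (.void 1 ⟨0, 0, 0, 0, 0, 100000, 0, 0, 0, ⟨0, 0⟩, 0⟩ 0 0) (.cut .d (-1048576) (.void 1 ⟨0, 0, 0, 0, 0, 100000, 0, 0, 0, ⟨0, 0⟩, 0⟩ 0 0) (.cut .d (-524288) (.void 1 ⟨0, 0, 0,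 0, 0, 100000, 0, 0, 0, ⟨0, 0⟩, 0⟩ 0 0) (.cut .d (-262144) (.void 1 ⟨0, 0, 0, 0, 0, 100000, 0, 0, 0, ⟨0, 0⟩, 0⟩ 0 0) (.cut .v 8388608 (.cut .v 4194304 (.void 4 ⟨0, 0, 100000, 0, 0, 0, 0, 0, 0, ⟨0, 0⟩, 0⟩ 0 0) (.pos 5 .mm ⟨0, 0, 0, 0, 0, 60429674, 0, 0, 0, ⟨0, 0⟩, 0⟩ 0 0)) (.cut .d (-131072) (.pos 3 .mm ⟨0, 0, 0, 0, 0, 163608122, 0, 0, 0, ⟨0, 0⟩, 0⟩ 0 0) (.cut .l 910763 (.cut .d (-65536) (.pos 3 .mm ⟨0, 0, 0, 0, 0, 158481627, 0, 0, 0, ⟨0, 0⟩, 0⟩ 0 0) (.cut .s 10289152 (.pos 3 .mm ⟨0, 0, 0, 0, 0, 134420085, 0, 0, 0, ⟨0, 0⟩, 0⟩ 0 0) (.pos 3 .mm ⟨0, 0, 0, 0, 0, 152072904, 0, 0, 0, ⟨0, 0⟩, 0⟩ 0 0))) (.pos 3 .mm ⟨0, 0, 0, 0, 0, 134986877, 0, 0, 0, ⟨0, 0⟩, 0⟩ 0 0))))))))))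 (.cut .v 67108864 (.cut .v 33554432 (.cut .v 25165824 (.cut .d (-8388608) (.void 25 ⟨0, 0, 0, 0, 0, 100000, 0, 0, 0, ⟨0, 0⟩, 0⟩ 0 0) (.cut .v 20971520 (.cut .d (-4194304) (.void 27 ⟨100000, 0, 0, 0, 0, 0, 0, 0, 0, ⟨0, 0⟩, 0⟩ 0 0) (.cut .v 18874368 (.cut .d (-2097152) (.void 29 ⟨100000, 0, 0, 0, 0, 0, 0, 0, 0, ⟨0, 0⟩, 0⟩ 0 0) (.cut .d (-1048576) (.void 29 ⟨100000, 0, 0, 0, 0, 0, 0, 0, 0, ⟨0, 0⟩, 0⟩ 0 0) (.cut .d (-524288) (.void 29 ⟨100000, 0, 0, 0, 0, 0, 0, 0, 0, ⟨0, 0⟩, 0⟩ 0 0) (.cut .d (-262144) (.void 29 ⟨0, 0, 0, 0, 0, 100000, 0, 0, 0, ⟨0, 0⟩, 0⟩ 0 0) (.cut .v 17825792 (.cut .v 17301504 (.cut .d (-131072) (.cut .d (-196608) (.void 33 ⟨0, 0, 0, 0, 0, 100000,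 0, 0, 0, ⟨0, 0⟩, 0⟩ 0 0) (.cut .l 910763 (.void 33 ⟨0, 0, 0, 0, 0, 100000, 0, 0, 0, ⟨0, 0⟩, 0⟩ 0 0) (.cut .s 10289152 (.cut .v 17039360 (.cut .d (-163840) (.pos 35 .mp ⟨31936603, 0, 0, 0, 0, 109970590, 0, 0, 0, ⟨0, 0⟩, 0⟩ 0 0) (.cut .l 1234324 (.pos 35 .mp ⟨39842418, 0, 0, 0, 0, 99430047, 0, 0, 0, ⟨0, 0⟩, 0⟩ 0 0) (.cut .s 10190848 (.pos 35 .mp ⟨37797784, 0, 0, 0, 0, 89842012, 0, 0, 0, ⟨0, 0⟩, 0⟩ 0 0) (.cut .s 10240000 (.pos 35 .mp ⟨40330724, 0, 0, 0, 0, 92379649, 0, 0, 0, ⟨0, 0⟩, 0⟩ 0 0) (.pos 35 .mp ⟨41634119, 0, 0, 0, 0, 94906464, 0, 0, 0, ⟨0, 0⟩, 0⟩ 0 0))))) (.cut .d (-163840) (.pos 36 .mp ⟨51839609, 0, 0, 0, 0, 83899948, 0, 0, 0, ⟨0, 0⟩, 0⟩ 0 0) (.pos 36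 .mp ⟨97346714, 0, 0, 0, 0, 15239747, 0, 0, 0, ⟨0, 0⟩, 0⟩ 0 0))) (.cut .l 1234324 (.pos 33 .mp ⟨46313285, 0, 0, 0, 0, 137626656, 0, 0, 0, ⟨0, 0⟩, 0⟩ 0 0) (.cut .d (-163840) (.cut .v 17039360 (.pos 35 .mp ⟨0, 0, 0, 0, 0, 174027089, 0, 0, 0, ⟨0, 0⟩, 0⟩ 0 0) (.pos 36 .mp ⟨59211202, 0, 0, 0, 0, 91811132, 0, 0, 0, ⟨0, 0⟩, 0⟩ 0 0)) (.cut .v 17039360 (.cut .v 16908288 (.pos 58 .mp ⟨0, 0, 0, 0, 0, 160000881, 0, 0, 0, ⟨0, 0⟩, 0⟩ 0 0) (.cut .v 16973824 (.pos 69 .mp ⟨0, 0, 0, 0, 0, 161344553, 0, 0, 0, ⟨0, 0⟩, 0⟩ 0 0) (.cut .s 10387456 (.cut .s 10338304 (.pos 70 .mp ⟨43817177, 0, 0, 0, 0, 96396083, 0, 0, 0, ⟨0, 0⟩, 0⟩ 0 0) (.pos 70 .mp ⟨45207519, 0, 0, 0, 0, 99092842, 0,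 0, 0, ⟨0, 0⟩, 0⟩ 0 0)) (.cut .s 10436608 (.pos 70 .mp ⟨46624991, 0, 0, 0, 0, 101899183, 0, 0, 0, ⟨0, 0⟩, 0⟩ 0 0) (.pos 70 .mp ⟨48070193, 0, 0, 0, 0, 104814812, 0, 0, 0, ⟨0, 0⟩, 0⟩ 0 0))))) (.cut .s 10387456 (.pos 36 .mp ⟨75904649, 0, 0, 0, 0, 55586229, 0, 0, 0, ⟨0, 0⟩, 0⟩ 0 0) (.pos 36 .mp ⟨79266883, 0, 0, 0, 0, 60083888, 0, 0, 0, ⟨0, 0⟩, 0⟩ 0 0)))))))) (.cut .s 10289152 (.cut .v 17039360 (.cut .s 10190848 (.cut .d (-65536) (.cut .l 910763 (.cut .s 10141696 (.pos 35 .mp ⟨37617575, 0, 0, 0, 0, 88207505, 0, 0, 0, ⟨0, 0⟩, 0⟩ 0 0) (.cut .s 10166272 (.pos 35 .mp ⟨39206575, 0, 0, 0, 0, 88300338, 0, 0, 0, ⟨0, 0⟩, 0⟩ 0 0) (.pos 35 .mp ⟨39613017, 0, 0, 0, 0, 89843767,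 0, 0, 0, ⟨0, 0⟩, 0⟩ 0 0))) (.cut .s 10141696 (.pos 35 .mp ⟨43096374, 0, 0, 0, 0, 76052934, 0, 0, 0, ⟨0, 0⟩, 0⟩ 0 0) (.pos 35 .mp ⟨44480626, 0, 0, 0, 0, 78018367, 0, 0, 0, ⟨0, 0⟩, 0⟩ 0 0))) (.cut .v 16908288 (.cut .l 910763 (.cut .l 587202 (.cut .d (-32768) (.cut .d (-49152) (.pos 58 .mp ⟨37397898, 0, 0, 0, 0, 90598250, 0, 0, 0, ⟨0, 0⟩, 0⟩ 0 0) (.cut .s 10141696 (.pos 58 .mp ⟨40569085, 0, 0, 0, 0, 79885090, 0, 0, 0, ⟨0, 0⟩, 0⟩ 0 0) (.cut .s 10166272 (.pos 58 .mp ⟨39942552, 0, 0, 0, 0, 84326345, 0, 0, 0, ⟨0, 0⟩, 0⟩ 0 0) (.pos 58 .mp ⟨40665096, 0, 0, 0, 0, 85246508, 0, 0, 0, ⟨0, 0⟩, 0⟩ 0 0)))) (.cut .s 10141696 (.pos 58 .mp ⟨39359424, 0, 0, 0, 0, 77623130, 0,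 0, 0, ⟨0, 0⟩, 0⟩ 0 0) (.cut .s 10166272 (.pos 58 .mp ⟨39942552, 0, 0, 0, 0, 80416538, 0, 0, 0, ⟨0, 0⟩, 0⟩ 0 0) (.cut .s 10178560 (.pos 58 .mp ⟨40236139, 0, 0, 0, 0, 81856045, 0, 0, 0, ⟨0, 0⟩, 0⟩ 0 0) (.pos 58 .mp ⟨40531084, 0, 0, 0, 0, 82466495, 0, 0, 0, ⟨0, 0⟩, 0⟩ 0 0))))) (.pos 58 .mp ⟨40970580, 0, 0, 0, 0, 75717550, 0, 0, 0, ⟨0, 0⟩, 0⟩ 0 0)) (.pos 58 .mp ⟨0, 0, 0, 0, 0, 0, 0, 0, 0, ⟨0, 0⟩, 0⟩ 0 0)) (.pos 59 .mp ⟨97945122, 0, 0, 0, 0, 0, 0, 0, 0, ⟨0, 0⟩, 0⟩ 0 0))) (.cut .d (-65536) (.cut .l 910763 (.cut .d (-98304) (.pos 35 .mp ⟨41935968, 0, 0, 0, 0, 113779001, 0, 0, 0, ⟨0, 0⟩, 0⟩ 0 0) (.cut .l 587202 (.void 35 ⟨0, 0, 0, 0, 0, 100000, 0, 0, 0, ⟨0, 0⟩, 0⟩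 0 0) (.cut .s 10240000 (.pos 35 .mp ⟨39401653, 0, 0, 0, 0, 93184588, 0, 0, 0, ⟨0, 0⟩, 0⟩ 0 0) (.cut .v 16908288 (.pos 58 .mp ⟨33361039, 0, 0, 0, 0, 103723982, 0, 0, 0, ⟨0, 0⟩, 0⟩ 0 0) (.pos 59 .mp ⟨47360981, 0, 0, 0, 0, 84913398, 0, 0, 0, ⟨0, 0⟩, 0⟩ 0 0))))) (.cut .d (-98304) (.cut .s 10240000 (.pos 35 .mp ⟨37801077, 0, 0, 0, 0, 94895971, 0, 0, 0, ⟨0, 0⟩, 0⟩ 0 0) (.cut .s 10264576 (.pos 35 .mp ⟨39001958, 0, 0, 0, 0, 96673253, 0, 0, 0, ⟨0, 0⟩, 0⟩ 0 0) (.pos 35 .mp ⟨39610413, 0, 0, 0, 0, 98017956, 0, 0, 0, ⟨0, 0⟩, 0⟩ 0 0))) (.pos 35 .mp ⟨43967434, 0, 0, 0, 0, 80902455, 0, 0, 0, ⟨0, 0⟩, 0⟩ 0 0))) (.cut .v 16908288 (.cut .l 910763 (.cut .l 587202 (.cut .d (-32768)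 (.cut .s 10240000 (.cut .s 10215424 (.pos 58 .mp ⟨40517256, 0, 0, 0, 0, 87827604, 0, 0, 0, ⟨0, 0⟩, 0⟩ 0 0) (.pos 58 .mp ⟨40963731, 0, 0, 0, 0, 89327273, 0, 0, 0, ⟨0, 0⟩, 0⟩ 0 0)) (.cut .s 10264576 (.pos 58 .mp ⟨41435770, 0, 0, 0, 0, 90823293, 0, 0, 0, ⟨0, 0⟩, 0⟩ 0 0) (.pos 58 .mp ⟨41934355, 0, 0, 0, 0, 92314020, 0, 0, 0, ⟨0, 0⟩, 0⟩ 0 0))) (.cut .d (-16384) (.cut .d (-24576) (.cut .v 16842752 (.cut .s 10240000 (.pos 60 .mp ⟨39204626, 0, 0, 0, 0, 89323890, 0, 0, 0, ⟨0, 0⟩, 0⟩ 0 0) (.cut .s 10264576 (.pos 60 .mp ⟨40814828, 0, 0, 0, 0, 89763334, 0, 0, 0, ⟨0, 0⟩, 0⟩ 0 0) (.pos 60 .mp ⟨41401440, 0, 0, 0, 0, 91098218, 0, 0, 0, ⟨0, 0⟩, 0⟩ 0 0))) (.pos 61 .mp ⟨102067572,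 0, 0, 0, 0, 0, 0, 0, 0, ⟨0, 0⟩, 0⟩ 0 0)) (.pos 58 .mp ⟨42260285, 0, 0, 0, 0, 0, 0, 0, 0, ⟨0, 0⟩, 0⟩ 0 0)) (.pos 58 .mp ⟨0, 0, 0, 0, 0, 0, 0, 0, 0, ⟨0, 0⟩, 0⟩ 0 0))) (.pos 58 .mp ⟨43475538, 0, 0, 0, 0, 80254888, 0, 0, 0, ⟨0, 0⟩, 0⟩ 0 0)) (.pos 58 .mp ⟨0, 0, 0, 0, 0, 0, 0, 0, 0, ⟨0, 0⟩, 0⟩ 0 0)) (.pos 59 .mp ⟨103028983, 0, 0, 0, 0, 0, 0, 0, 0, ⟨0, 0⟩, 0⟩ 0 0)))) (.pos 36 .mp ⟨105691290, 0, 0, 0, 0, 0, 0, 0, 0, ⟨0, 0⟩, 0⟩ 0 0)) (.cut .v 17039360 (.cut .s 10387456 (.cut .d (-65536) (.cut .l 910763 (.cut .l 587202 (.void 35 ⟨0, 0, 0, 0, 0, 100000, 0, 0, 0, ⟨0, 0⟩, 0⟩ 0 0) (.cut .d (-98304) (.void 35 ⟨0, 0, 0, 0, 0, 100000, 0, 0, 0, ⟨0, 0⟩, 0⟩ 0 0) (.cut .d (-81920)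 (.pos 35 .mp ⟨43209483, 0, 0, 0, 0, 101532598, 0, 0, 0, ⟨0, 0⟩, 0⟩ 0 0) (.cut .s 10338304 (.pos 35 .mp ⟨46771144, 0, 0, 0, 0, 87522308, 0, 0, 0, ⟨0, 0⟩, 0⟩ 0 0) (.pos 35 .mp ⟨48165696, 0, 0, 0, 0, 90034757, 0, 0, 0, ⟨0, 0⟩, 0⟩ 0 0))))) (.cut .v 16908288 (.pos 58 .mp ⟨0, 0, 0, 0, 0, 149866396, 0, 0, 0, ⟨0, 0⟩, 0⟩ 0 0) (.cut .d (-98304) (.cut .s 10338304 (.pos 59 .mp ⟨49425077, 0, 0, 0, 0, 85803973, 0, 0, 0, ⟨0, 0⟩, 0⟩ 0 0) (.pos 59 .mp ⟨50954889, 0, 0, 0, 0, 88185722, 0, 0, 0, ⟨0, 0⟩, 0⟩ 0 0)) (.pos 59 .mp ⟨47951810, 0, 0, 0, 0, 86277742, 0, 0, 0, ⟨0, 0⟩, 0⟩ 0 0)))) (.cut .l 910763 (.cut .v 16908288 (.cut .l 587202 (.cut .d (-32768) (.cut .s 10338304 (.cut .s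 10313728 (.pos 58 .mp ⟨42460475, 0, 0, 0, 0, 93797798, 0, 0, 0, ⟨0, 0⟩, 0⟩ 0 0) (.pos 58 .mp ⟨43015121, 0, 0, 0, 0, 95272955, 0, 0, 0, ⟨0, 0⟩, 0⟩ 0 0)) (.cut .s 10362880 (.pos 58 .mp ⟨43599291, 0, 0, 0, 0, 96737801, 0, 0, 0, ⟨0, 0⟩, 0⟩ 0 0) (.pos 58 .mp ⟨44213988, 0, 0, 0, 0, 98190632, 0, 0, 0, ⟨0, 0⟩, 0⟩ 0 0))) (.cut .d (-16384) (.cut .d (-24576) (.cut .v 16842752 (.cut .v 16809984 (.pos 79 .mp ⟨0, 0, 0, 0, 0, 147774352, 0, 0, 0, ⟨0, 0⟩, 0⟩ 0 0) (.cut .s 10338304 (.cut .s 10313728 (.pos 80 .mp ⟨42126428, 0, 0, 0, 0, 92288655, 0, 0, 0, ⟨0, 0⟩, 0⟩ 0 0) (.pos 80 .mp ⟨42726560, 0, 0, 0, 0, 93657248, 0, 0, 0, ⟨0, 0⟩, 0⟩ 0 0)) (.pos 80 .mp ⟨43674999, 0, 0, 0, 0,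 96048713, 0, 0, 0, ⟨0, 0⟩, 0⟩ 0 0))) (.pos 61 .mp ⟨107488914, 0, 0, 0, 0, 0, 0, 0, 0, ⟨0, 0⟩, 0⟩ 0 0)) (.pos 58 .mp ⟨44705237, 0, 0, 0, 0, 0, 0, 0, 0, ⟨0, 0⟩, 0⟩ 0 0)) (.pos 58 .mp ⟨0, 0, 0, 0, 0, 0, 0, 0, 0, ⟨0, 0⟩, 0⟩ 0 0))) (.pos 58 .mp ⟨46078214, 0, 0, 0, 0, 85084240, 0, 0, 0, ⟨0, 0⟩, 0⟩ 0 0)) (.pos 59 .mp ⟨110270811, 0, 0, 0, 0, 0, 0, 0, 0, ⟨0, 0⟩, 0⟩ 0 0)) (.pos 35 .mp ⟨0, 0, 0, 0, 0, 0, 0, 0, 0, ⟨0, 0⟩, 0⟩ 0 0))) (.cut .d (-65536) (.cut .l 910763 (.cut .d (-98304) (.void 35 ⟨0, 0, 0, 0, 0, 100000, 0, 0, 0, ⟨0, 0⟩, 0⟩ 0 0) (.cut .d (-81920) (.pos 35 .mp ⟨45849568, 0, 0, 0, 0, 108550018, 0, 0, 0, ⟨0, 0⟩, 0⟩ 0 0) (.cut .v 16908288 (.cut .s 10436608 (.pos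 58 .mp ⟨43777955, 0, 0, 0, 0, 104417657, 0, 0, 0, ⟨0, 0⟩, 0⟩ 0 0) (.pos 58 .mp ⟨45053431, 0, 0, 0, 0, 107611431, 0, 0, 0, ⟨0, 0⟩, 0⟩ 0 0)) (.pos 59 .mp ⟨83945467, 0, 0, 0, 0, 49977598, 0, 0, 0, ⟨0, 0⟩, 0⟩ 0 0)))) (.cut .d (-98304) (.cut .s 10436608 (.cut .s 10412032 (.pos 35 .mp ⟨42735215, 0, 0, 0, 0, 105236369, 0, 0, 0, ⟨0, 0⟩, 0⟩ 0 0) (.pos 35 .mp ⟨43377111, 0, 0, 0, 0, 106780072, 0, 0, 0, ⟨0, 0⟩, 0⟩ 0 0)) (.pos 35 .mp ⟨44024799, 0, 0, 0, 0, 109269020, 0, 0, 0, ⟨0, 0⟩, 0⟩ 0 0)) (.pos 35 .mp ⟨49186778, 0, 0, 0, 0, 91276183, 0, 0, 0, ⟨0, 0⟩, 0⟩ 0 0))) (.cut .v 16908288 (.cut .l 910763 (.cut .l 587202 (.cut .d (-32768) (.cut .d (-49152) (.pos 58 .mp ⟨44605455,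 0, 0, 0, 0, 107089018, 0, 0, 0, ⟨0, 0⟩, 0⟩ 0 0) (.cut .l 425421 (.cut .s 10436608 (.pos 58 .mp ⟨44899115, 0, 0, 0, 0, 101580330, 0, 0, 0, ⟨0, 0⟩, 0⟩ 0 0) (.pos 58 .mp ⟨46234414, 0, 0, 0, 0, 104521364, 0, 0, 0, ⟨0, 0⟩, 0⟩ 0 0)) (.pos 58 .mp ⟨46497476, 0, 0, 0, 0, 96291153, 0, 0, 0, ⟨0, 0⟩, 0⟩ 0 0))) (.cut .d (-16384) (.cut .d (-24576) (.cut .v 16842752 (.cut .s 10436608 (.pos 60 .mp ⟨43824065, 0, 0, 0, 0, 100415988, 0, 0, 0, ⟨0, 0⟩, 0⟩ 0 0) (.pos 60 .mp ⟨45449620, 0, 0, 0, 0, 102844460, 0, 0, 0, ⟨0, 0⟩, 0⟩ 0 0)) (.pos 61 .mp ⟨113357607, 0, 0, 0, 0, 0, 0, 0, 0, ⟨0, 0⟩, 0⟩ 0 0)) (.pos 58 .mp ⟨47241495, 0, 0, 0, 0, 0, 0, 0, 0, ⟨0, 0⟩, 0⟩ 0 0)) (.pos 58 .mp ⟨42134673,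 0, 0, 0, 0, 0, 0, 0, 0, ⟨0, 0⟩, 0⟩ 0 0))) (.pos 58 .mp ⟨48630750, 0, 0, 0, 0, 90417892, 0, 0, 0, ⟨0, 0⟩, 0⟩ 0 0)) (.pos 58 .mp ⟨0, 0, 0, 0, 0, 0, 0, 0, 0, ⟨0, 0⟩, 0⟩ 0 0)) (.pos 59 .mp ⟨114539075, 0, 0, 0, 0, 0, 0, 0, 0, ⟨0, 0⟩, 0⟩ 0 0)))) (.pos 36 .mp ⟨117401809, 0, 0, 0, 0, 0, 0, 0, 0, ⟨0, 0⟩, 0⟩ 0 0)))) (.pos 34 .mp ⟨123485512, 0, 0, 0, 0, 0, 0, 0, 0, ⟨0, 0⟩, 0⟩ 0 0)) (.pos 32 .mp ⟨132895807, 0, 0, 0, 0, 0, 0, 0, 0, ⟨0, 0⟩, 0⟩ 0 0)))))) (.void 30 ⟨100000, 0, 0, 0, 0, 0, 0, 0, 0, ⟨0, 0⟩, 0⟩ 0 0))) (.void 28 ⟨100000, 0, 0, 0, 0, 0, 0, 0, 0, ⟨0, 0⟩, 0⟩ 0 0))) (.void 26 ⟨100000, 0, 0, 0, 0, 0, 0, 0, 0, ⟨0, 0⟩, 0⟩ 0 0)) (.void 57 ⟨100000, 0, 0, 0, 0, 0, 0, 0,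 0, ⟨0, 0⟩, 0⟩ 0 0)) (.void 68 ⟨100000, 0, 0, 0, 0, 0, 0, 0, 0, ⟨0, 0⟩, 0⟩ 0 0))) (.cut .v 16777216 (.cut .v 8388608 (.cut .v 4194304 (.cut .v 2097152 (.void 6 ⟨0, 0, 25058, 0, 0, 0, 0, 0, 74942, ⟨0, 0⟩, 2804900⟩ 0 0) (.pos 7 .pm ⟨0, 0, 0, 0, 0, 0, 0, 0, 3045777, ⟨0, 0⟩, 7053950⟩ 0 0)) (.cut .d 5556092 (.pos 5 .pm ⟨0, 0, 0, 0, 0, 0, 0, 0, 0, ⟨0, 0⟩, 0⟩ 0 0) (.cut .d 8334138 (.pos 5 .pm ⟨0, 0, 0, 0, 0, 0, 0, 0, 0, ⟨0, 0⟩, 0⟩ 0 0) (.cut .d 9723161 (.pos 5 .pm ⟨0, 49520648, 0, 0, 0, 0, 0, 0, 0, ⟨0, 0⟩, 0⟩ 0 0) (.pos 5 .pm ⟨0, 78676156, 0, 0, 0, 0, 0, 0, 0, ⟨0, 0⟩, 0⟩ 0 0))))) (.cut .d 5556092 (.pos 3 .pm ⟨0, 0, 0, 0, 0, 0, 0, 0, 0, ⟨0, 0⟩, 0⟩ 0 0) (.cut .d 8334138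 (.pos 3 .pm ⟨0, 0, 0, 0, 0, 0, 0, 0, 0, ⟨0, 0⟩, 0⟩ 0 0) (.cut .v 12582912 (.cut .d 9723161 (.cut .d 9028649 (.pos 8 .pm ⟨0, 0, 0, 0, 0, 0, 0, 0, 0, ⟨0, 0⟩, 0⟩ 0 0) (.pos 8 .pm ⟨0, 65240062, 0, 0, 0, 0, 0, 0, 0, ⟨0, 0⟩, 0⟩ 0 0)) (.pos 8 .pm ⟨0, 90764670, 0, 0, 0, 0, 0, 0, 0, ⟨0, 0⟩, 0⟩ 0 0)) (.pos 9 .pm ⟨0, 90273833, 0, 0, 0, 0, 0, 0, 0, ⟨0, 0⟩, 0⟩ 0 0))))) (.cut .d 5556092 (.cut .v 67108864 (.cut .d 2778046 (.cut .v 33554432 (.cut .d 1389023 (.cut .v 25165824 (.cut .v 20971520 (.pos 27 .pp ⟨66236308, 0, 0, 0, 0, 0, 0, 0, 0, ⟨0, 0⟩, 0⟩ 0 0) (.pos 28 .pp ⟨132440213, 0, 0, 0, 0, 0, 0, 0, 0, ⟨0, 0⟩, 0⟩ 0 0)) (.pos 26 .pp ⟨221112127, 0, 0, 0, 0, 0, 0, 0, 0, ⟨0,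 0⟩, 0⟩ 0 0)) (.pos 24 .pp ⟨0, 0, 0, 0, 0, 0, 0, 0, 0, ⟨0, 0⟩, 0⟩ 0 0)) (.cut .d 1389023 (.pos 57 .pp ⟨908380518, 0, 0, 0, 0, 0, 0, 0, 0, ⟨0, 0⟩, 0⟩ 0 0) (.cut .v 50331648 (.pos 62 .pp ⟨212607253, 0, 0, 0, 0, 0, 0, 0, 0, ⟨0, 0⟩, 0⟩ 0 0) (.pos 63 .pp ⟨638631167, 0, 0, 0, 0, 0, 0, 0, 0, ⟨0, 0⟩, 0⟩ 0 0)))) (.pos 56 .pp ⟨0, 0, 0, 0, 0, 0, 0, 0, 0, ⟨0, 0⟩, 0⟩ 0 0)) (.cut .v 134217728 (.cut .d 2778046 (.cut .v 100663296 (.cut .v 83886080 (.pos 81 .pp ⟨1557549663, 0, 0, 0, 0, 0, 0, 0, 0, ⟨0, 0⟩, 0⟩ 0 0) (.void 82 ⟨42490, 57510, 0, 0, 0, 0, 0, 0, 0, ⟨0, 0⟩, 0⟩ 0 0)) (.void 76 ⟨42490, 57510, 0, 0, 0, 0, 0, 0, 0, ⟨0, 0⟩, 0⟩ 0 0)) (.pos 73 .pp ⟨0, 310994939, 0, 0, 0, 0,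 5869358, 0, 0, ⟨0, 0⟩, 0⟩ 0 0)) (.void 74 ⟨40700, 59300, 0, 0, 0, 0, 0, 0, 0, ⟨0, 0⟩, 0⟩ 0 0))) (.pos 67 .pp ⟨0, 70316612, 0, 0, 0, 0, 0, 0, 0, ⟨0, 0⟩, 0⟩ 0 0)))),
    by decide +kernel⟩

def covers14 : cell.Covers table row14.1 :=
  ⟨(.cut .d 0 (.cut .v 16777216 (.cut .d (-8388608) (.void 1 ⟨0, 0, 0, 0, 0, 100000, 0, 0, 0, ⟨0, 0⟩, 0⟩ 0 0) (.cut .d (-4194304) (.void 1 ⟨0, 0, 0, 0, 0, 100000, 0, 0, 0, ⟨0, 0⟩, 0⟩ 0 0) (.cut .d (-2097152) (.void 1 ⟨0, 0, 0, 0, 0, 100000, 0, 0, 0, ⟨0, 0⟩, 0⟩ 0 0) (.cut .d (-1048576) (.void 1 ⟨0, 0, 0, 0, 0, 100000, 0, 0, 0, ⟨0, 0⟩, 0⟩ 0 0) (.cut .d (-524288) (.void 1 ⟨0, 0, 0, 0, 0, 100000, 0, 0, 0, ⟨0, 0⟩, 0⟩ 0 0) (.cut .d (-262144)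 (.void 1 ⟨0, 0, 0, 0, 0, 100000, 0, 0, 0, ⟨0, 0⟩, 0⟩ 0 0) (.cut .v 8388608 (.cut .v 4194304 (.void 4 ⟨0, 0, 100000, 0, 0, 0, 0, 0, 0, ⟨0, 0⟩, 0⟩ 0 0) (.pos 5 .mm ⟨0, 0, 0, 0, 0, 78676892, 0, 0, 0, ⟨0, 0⟩, 0⟩ 0 0)) (.cut .d (-131072) (.pos 3 .mm ⟨0, 0, 0, 0, 0, 210240086, 0, 0, 0, ⟨0, 0⟩, 0⟩ 0 0) (.cut .v 12582912 (.pos 8 .mm ⟨0, 0, 0, 0, 0, 111986194, 0, 0, 0, ⟨0, 0⟩, 0⟩ 0 0) (.cut .v 14680064 (.pos 12 .mm ⟨0, 0, 0, 0, 0, 148068302, 0, 0, 0, ⟨0, 0⟩, 0⟩ 0 0) (.cut .v 15728640 (.pos 16 .mm ⟨0, 0, 0, 0, 0, 167708460, 0, 0, 0, ⟨0, 0⟩, 0⟩ 0 0) (.cut .v 16252928 (.pos 20 .mm ⟨0, 0, 0, 0, 0, 176766072, 0, 0, 0, ⟨0, 0⟩, 0⟩ 0 0) (.cut .v 16515072 (.pos 22 .mm ⟨0, 0,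 0, 0, 0, 181443949, 0, 0, 0, ⟨0, 0⟩, 0⟩ 0 0) (.cut .s 10682368 (.cut .s 10584064 (.pos 23 .mm ⟨0, 0, 0, 0, 0, 169192241, 0, 0, 0, ⟨0, 0⟩, 0⟩ 0 0) (.pos 23 .mm ⟨0, 0, 0, 0, 0, 179748535, 0, 0, 0, ⟨0, 0⟩, 0⟩ 0 0)) (.cut .s 10780672 (.pos 23 .mm ⟨0, 0, 0, 0, 0, 190882501, 0, 0, 0, ⟨0, 0⟩, 0⟩ 0 0) (.pos 23 .mm ⟨0, 0, 0, 0, 0, 202578583, 0, 0, 0, ⟨0, 0⟩, 0⟩ 0 0)))))))))))))))) (.cut .v 268435456 (.cut .v 67108864 (.cut .v 33554432 (.cut .v 25165824 (.cut .d (-8388608) (.void 25 ⟨0, 0, 0, 0, 0, 100000, 0, 0, 0, ⟨0, 0⟩, 0⟩ 0 0) (.cut .v 20971520 (.cut .d (-4194304) (.void 27 ⟨100000, 0, 0, 0, 0, 0, 0, 0, 0, ⟨0, 0⟩, 0⟩ 0 0) (.cut .d (-2097152) (.void 27 ⟨100000, 0,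 0, 0, 0, 0, 0, 0, 0, ⟨0, 0⟩, 0⟩ 0 0) (.cut .d (-1048576) (.void 27 ⟨100000, 0, 0, 0, 0, 0, 0, 0, 0, ⟨0, 0⟩, 0⟩ 0 0) (.cut .d (-524288) (.void 27 ⟨100000, 0, 0, 0, 0, 0, 0, 0, 0, ⟨0, 0⟩, 0⟩ 0 0) (.cut .d (-262144) (.void 27 ⟨0, 0, 0, 0, 0, 100000, 0, 0, 0, ⟨0, 0⟩, 0⟩ 0 0) (.cut .v 18874368 (.cut .v 17825792 (.cut .v 17301504 (.cut .d (-131072) (.cut .d (-196608) (.void 33 ⟨0, 0, 0, 0, 0, 100000, 0, 0, 0, ⟨0, 0⟩, 0⟩ 0 0) (.cut .d (-163840) (.void 33 ⟨0, 0, 0, 0, 0, 100000, 0, 0, 0, ⟨0, 0⟩, 0⟩ 0 0) (.cut .l 910763 (.void 33 ⟨0, 0, 0, 0, 0, 100000, 0, 0, 0, ⟨0, 0⟩, 0⟩ 0 0) (.cut .l 1234324 (.void 33 ⟨0, 0, 0, 0, 0, 100000, 0, 0, 0, ⟨0, 0⟩, 0⟩ 0 0) (.cut .s 10682368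 (.cut .v 17039360 (.cut .l 1396104 (.pos 35 .mp ⟨49757950, 0, 0, 0, 0, 123904921, 0, 0, 0, ⟨0, 0⟩, 0⟩ 0 0) (.cut .v 16908288 (.pos 58 .mp ⟨0, 0, 0, 0, 0, 180920865, 0, 0, 0, ⟨0, 0⟩, 0⟩ 0 0) (.cut .v 16973824 (.pos 69 .mp ⟨0, 0, 0, 0, 0, 182596709, 0, 0, 0, ⟨0, 0⟩, 0⟩ 0 0) (.cut .s 10584064 (.cut .s 10534912 (.pos 70 .mp ⟨49545026, 0, 0, 0, 0, 108768134, 0, 0, 0, ⟨0, 0⟩, 0⟩ 0 0) (.pos 70 .mp ⟨51084248, 0, 0, 0, 0, 111654798, 0, 0, 0, ⟨0, 0⟩, 0⟩ 0 0)) (.cut .s 10633216 (.pos 70 .mp ⟨52651438, 0, 0, 0, 0, 114668126, 0, 0, 0, ⟨0, 0⟩, 0⟩ 0 0) (.pos 70 .mp ⟨54247248, 0, 0, 0, 0, 117806696, 0, 0, 0, ⟨0, 0⟩, 0⟩ 0 0)))))) (.cut .s 10584064 (.pos 36 .mp ⟨66061684, 0,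 0, 0, 0, 90027217, 0, 0, 0, ⟨0, 0⟩, 0⟩ 0 0) (.pos 36 .mp ⟨144721201, 0, 0, 0, 0, 0, 0, 0, 0, ⟨0, 0⟩, 0⟩ 0 0))) (.cut .v 17039360 (.cut .s 10780672 (.cut .s 10731520 (.pos 35 .mp ⟨54710885, 0, 0, 0, 0, 122894573, 0, 0, 0, ⟨0, 0⟩, 0⟩ 0 0) (.pos 35 .mp ⟨56324115, 0, 0, 0, 0, 126391794, 0, 0, 0, ⟨0, 0⟩, 0⟩ 0 0)) (.pos 35 .mp ⟨57967258, 0, 0, 0, 0, 134048608, 0, 0, 0, ⟨0, 0⟩, 0⟩ 0 0)) (.pos 36 .mp ⟨154089104, 0, 0, 0, 0, 0, 0, 0, 0, ⟨0, 0⟩, 0⟩ 0 0))))))) (.cut .s 10682368 (.cut .v 17039360 (.cut .s 10584064 (.cut .d (-65536) (.cut .l 910763 (.cut .s 10534912 (.pos 35 .mp ⟨46990177, 0, 0, 0, 0, 112243713, 0, 0, 0, ⟨0, 0⟩, 0⟩ 0 0) (.cut .s 10559488 (.pos 35 .mp ⟨48359201,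 0, 0, 0, 0, 113254305, 0, 0, 0, ⟨0, 0⟩, 0⟩ 0 0) (.pos 35 .mp ⟨49052211, 0, 0, 0, 0, 114778794, 0, 0, 0, ⟨0, 0⟩, 0⟩ 0 0))) (.cut .d (-98304) (.cut .s 10534912 (.pos 35 .mp ⟨45338996, 0, 0, 0, 0, 113111917, 0, 0, 0, ⟨0, 0⟩, 0⟩ 0 0) (.cut .s 10559488 (.pos 35 .mp ⟨46712178, 0, 0, 0, 0, 114877128, 0, 0, 0, ⟨0, 0⟩, 0⟩ 0 0) (.pos 35 .mp ⟨47407074, 0, 0, 0, 0, 116430397, 0, 0, 0, ⟨0, 0⟩, 0⟩ 0 0))) (.pos 35 .mp ⟨53219960, 0, 0, 0, 0, 96626774, 0, 0, 0, ⟨0, 0⟩, 0⟩ 0 0))) (.cut .v 16908288 (.cut .l 910763 (.cut .l 587202 (.cut .d (-32768) (.cut .d (-49152) (.pos 58 .mp ⟨47191459, 0, 0, 0, 0, 114904264, 0, 0, 0, ⟨0, 0⟩, 0⟩ 0 0) (.cut .l 425421 (.cut .s 10534912 (.pos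 58 .mp ⟨48398119, 0, 0, 0, 0, 106542351, 0, 0, 0, ⟨0, 0⟩, 0⟩ 0 0) (.pos 58 .mp ⟨49516224, 0, 0, 0, 0, 109998528, 0, 0, 0, ⟨0, 0⟩, 0⟩ 0 0)) (.pos 58 .mp ⟨51180665, 0, 0, 0, 0, 99824204, 0, 0, 0, ⟨0, 0⟩, 0⟩ 0 0))) (.cut .d (-16384) (.cut .d (-24576) (.cut .s 10534912 (.pos 58 .mp ⟨49379055, 0, 0, 0, 0, 102090035, 0, 0, 0, ⟨0, 0⟩, 0⟩ 0 0) (.cut .s 10559488 (.pos 58 .mp ⟨49167098, 0, 0, 0, 0, 107186517, 0, 0, 0, ⟨0, 0⟩, 0⟩ 0 0) (.pos 58 .mp ⟨49878018, 0, 0, 0, 0, 108604362, 0, 0, 0, ⟨0, 0⟩, 0⟩ 0 0))) (.pos 58 .mp ⟨49883375, 0, 0, 0, 0, 0, 0, 0, 0, ⟨0, 0⟩, 0⟩ 0 0)) (.pos 58 .mp ⟨47850644, 0, 0, 0, 0, 0, 0, 0, 0, ⟨0, 0⟩, 0⟩ 0 0))) (.pos 58 .mp ⟨51620712, 0, 0, 0,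 0, 96613582, 0, 0, 0, ⟨0, 0⟩, 0⟩ 0 0)) (.pos 58 .mp ⟨0, 0, 0, 0, 0, 0, 0, 0, 0, ⟨0, 0⟩, 0⟩ 0 0)) (.pos 59 .mp ⟨121192507, 0, 0, 0, 0, 0, 0, 0, 0, ⟨0, 0⟩, 0⟩ 0 0))) (.cut .d (-65536) (.cut .l 910763 (.cut .d (-98304) (.void 35 ⟨0, 0, 0, 0, 0, 100000, 0, 0, 0, ⟨0, 0⟩, 0⟩ 0 0) (.cut .d (-81920) (.pos 35 .mp ⟨51483548, 0, 0, 0, 0, 122287105, 0, 0, 0, ⟨0, 0⟩, 0⟩ 0 0) (.cut .v 16908288 (.cut .s 10633216 (.pos 58 .mp ⟨49064851, 0, 0, 0, 0, 117355028, 0, 0, 0, ⟨0, 0⟩, 0⟩ 0 0) (.pos 58 .mp ⟨50454495, 0, 0, 0, 0, 120707996, 0, 0, 0, ⟨0, 0⟩, 0⟩ 0 0)) (.pos 59 .mp ⟨96681119, 0, 0, 0, 0, 51957390, 0, 0, 0, ⟨0, 0⟩, 0⟩ 0 0)))) (.cut .d (-98304) (.cut .v 16908288 (.pos 58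 .mp ⟨0, 0, 0, 0, 0, 188867943, 0, 0, 0, ⟨0, 0⟩, 0⟩ 0 0) (.cut .l 1234324 (.cut .s 10633216 (.pos 59 .mp ⟨51361243, 0, 0, 0, 0, 116010810, 0, 0, 0, ⟨0, 0⟩, 0⟩ 0 0) (.pos 59 .mp ⟨52872578, 0, 0, 0, 0, 119262968, 0, 0, 0, ⟨0, 0⟩, 0⟩ 0 0)) (.cut .s 10633216 (.pos 59 .mp ⟨56510964, 0, 0, 0, 0, 104149206, 0, 0, 0, ⟨0, 0⟩, 0⟩ 0 0) (.pos 59 .mp ⟨58192891, 0, 0, 0, 0, 106981305, 0, 0, 0, ⟨0, 0⟩, 0⟩ 0 0)))) (.pos 35 .mp ⟨56353820, 0, 0, 0, 0, 101833688, 0, 0, 0, ⟨0, 0⟩, 0⟩ 0 0))) (.cut .l 910763 (.cut .v 16908288 (.cut .d (-32768) (.cut .l 587202 (.cut .d (-49152) (.pos 58 .mp ⟨49899583, 0, 0, 0, 0, 121331614, 0, 0, 0, ⟨0, 0⟩, 0⟩ 0 0) (.cut .l 425421 (.cut .s 10633216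 (.pos 58 .mp ⟨50717850, 0, 0, 0, 0, 113484222, 0, 0, 0, ⟨0, 0⟩, 0⟩ 0 0) (.pos 58 .mp ⟨50814801, 0, 0, 0, 0, 120183914, 0, 0, 0, ⟨0, 0⟩, 0⟩ 0 0)) (.cut .s 10633216 (.pos 58 .mp ⟨51361301, 0, 0, 0, 0, 108921370, 0, 0, 0, ⟨0, 0⟩, 0⟩ 0 0) (.pos 58 .mp ⟨52804959, 0, 0, 0, 0, 112007745, 0, 0, 0, ⟨0, 0⟩, 0⟩ 0 0)))) (.pos 58 .mp ⟨53491658, 0, 0, 0, 0, 105728109, 0, 0, 0, ⟨0, 0⟩, 0⟩ 0 0)) (.cut .d (-16384) (.cut .l 587202 (.cut .l 425421 (.cut .v 16842752 (.cut .d (-24576) (.cut .l 344531 (.cut .s 10633216 (.pos 60 .mp ⟨48907248, 0, 0, 0, 0, 114061410, 0, 0, 0, ⟨0, 0⟩, 0⟩ 0 0) (.pos 60 .mp ⟨50231668, 0, 0, 0, 0, 117375467, 0, 0, 0, ⟨0, 0⟩, 0⟩ 0 0)) (.pos 60 .mp ⟨48907248,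 0, 0, 0, 0, 110502695, 0, 0, 0, ⟨0, 0⟩, 0⟩ 0 0)) (.pos 60 .mp ⟨50879582, 0, 0, 0, 0, 105513432, 0, 0, 0, ⟨0, 0⟩, 0⟩ 0 0)) (.pos 61 .mp ⟨128406577, 0, 0, 0, 0, 0, 0, 0, 0, ⟨0, 0⟩, 0⟩ 0 0)) (.pos 58 .mp ⟨0, 0, 0, 0, 0, 0, 0, 0, 0, ⟨0, 0⟩, 0⟩ 0 0)) (.pos 58 .mp ⟨0, 0, 0, 0, 0, 0, 0, 0, 0, ⟨0, 0⟩, 0⟩ 0 0)) (.pos 58 .mp ⟨50219928, 0, 0, 0, 0, 0, 0, 0, 0, ⟨0, 0⟩, 0⟩ 0 0))) (.pos 59 .mp ⟨129687491, 0, 0, 0, 0, 0, 0, 0, 0, ⟨0, 0⟩, 0⟩ 0 0)) (.pos 35 .mp ⟨0, 0, 0, 0, 0, 0, 0, 0, 0, ⟨0, 0⟩, 0⟩ 0 0)))) (.pos 36 .mp ⟨131484812, 0, 0, 0, 0, 0, 0, 0, 0, ⟨0, 0⟩, 0⟩ 0 0)) (.cut .v 17039360 (.cut .s 10780672 (.cut .d (-65536) (.cut .l 910763 (.cut .s 10731520 (.cut .s 10706944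 (.pos 35 .mp ⟨52604960, 0, 0, 0, 0, 123270636, 0, 0, 0, ⟨0, 0⟩, 0⟩ 0 0) (.pos 35 .mp ⟨53333542, 0, 0, 0, 0, 125088725, 0, 0, 0, ⟨0, 0⟩, 0⟩ 0 0)) (.pos 35 .mp ⟨54068303, 0, 0, 0, 0, 129434981, 0, 0, 0, ⟨0, 0⟩, 0⟩ 0 0)) (.cut .v 16908288 (.pos 58 .mp ⟨0, 0, 0, 0, 0, 192620393, 0, 0, 0, ⟨0, 0⟩, 0⟩ 0 0) (.cut .d (-98304) (.cut .l 1234324 (.cut .s 10731520 (.pos 59 .mp ⟨54410576, 0, 0, 0, 0, 122661532, 0, 0, 0, ⟨0, 0⟩, 0⟩ 0 0) (.pos 59 .mp ⟨55975876, 0, 0, 0, 0, 126206351, 0, 0, 0, ⟨0, 0⟩, 0⟩ 0 0)) (.pos 59 .mp ⟨61655571, 0, 0, 0, 0, 108336408, 0, 0, 0, ⟨0, 0⟩, 0⟩ 0 0)) (.pos 59 .mp ⟨60434106, 0, 0, 0, 0, 108851127, 0, 0, 0, ⟨0, 0⟩, 0⟩ 0 0)))) (.cut .l 910763 (.cut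 .v 16908288 (.cut .d (-32768) (.cut .l 587202 (.cut .d (-49152) (.pos 58 .mp ⟨52700223, 0, 0, 0, 0, 128546720, 0, 0, 0, ⟨0, 0⟩, 0⟩ 0 0) (.cut .l 425421 (.cut .s 10731520 (.pos 58 .mp ⟨52191332, 0, 0, 0, 0, 123733398, 0, 0, 0, ⟨0, 0⟩, 0⟩ 0 0) (.pos 58 .mp ⟨53590948, 0, 0, 0, 0, 127490108, 0, 0, 0, ⟨0, 0⟩, 0⟩ 0 0)) (.cut .s 10731520 (.pos 58 .mp ⟨54150134, 0, 0, 0, 0, 115480084, 0, 0, 0, ⟨0, 0⟩, 0⟩ 0 0) (.pos 58 .mp ⟨55382573, 0, 0, 0, 0, 119368495, 0, 0, 0, ⟨0, 0⟩, 0⟩ 0 0)))) (.pos 58 .mp ⟨48830651, 0, 0, 0, 0, 124734103, 0, 0, 0, ⟨0, 0⟩, 0⟩ 0 0)) (.cut .d (-16384) (.cut .l 587202 (.cut .l 425421 (.cut .v 16842752 (.cut .d (-24576) (.cut .s 10731520 (.pos 60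 .mp ⟨50905326, 0, 0, 0, 0, 121586133, 0, 0, 0, ⟨0, 0⟩, 0⟩ 0 0) (.pos 60 .mp ⟨52255659, 0, 0, 0, 0, 125262626, 0, 0, 0, ⟨0, 0⟩, 0⟩ 0 0)) (.pos 60 .mp ⟨53231698, 0, 0, 0, 0, 112487723, 0, 0, 0, ⟨0, 0⟩, 0⟩ 0 0)) (.pos 61 .mp ⟨135137084, 0, 0, 0, 0, 0, 0, 0, 0, ⟨0, 0⟩, 0⟩ 0 0)) (.pos 58 .mp ⟨55014216, 0, 0, 0, 0, 0, 0, 0, 0, ⟨0, 0⟩, 0⟩ 0 0)) (.pos 58 .mp ⟨0, 0, 0, 0, 0, 0, 0, 0, 0, ⟨0, 0⟩, 0⟩ 0 0)) (.pos 58 .mp ⟨52663880, 0, 0, 0, 0, 0, 0, 0, 0, ⟨0, 0⟩, 0⟩ 0 0))) (.pos 59 .mp ⟨136640151, 0, 0, 0, 0, 0, 0, 0, 0, ⟨0, 0⟩, 0⟩ 0 0)) (.pos 35 .mp ⟨0, 0, 0, 0, 0, 0, 0, 0, 0, ⟨0, 0⟩, 0⟩ 0 0))) (.cut .d (-65536) (.cut .l 910763 (.cut .s 10829824 (.pos 35 .mp ⟨55556668,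 0, 0, 0, 0, 133334278, 0, 0, 0, ⟨0, 0⟩, 0⟩ 0 0) (.pos 35 .mp ⟨57070668, 0, 0, 0, 0, 137387112, 0, 0, 0, ⟨0, 0⟩, 0⟩ 0 0)) (.cut .d (-98304) (.cut .s 10829824 (.pos 35 .mp ⟨53922492, 0, 0, 0, 0, 133734029, 0, 0, 0, ⟨0, 0⟩, 0⟩ 0 0) (.pos 35 .mp ⟨55437403, 0, 0, 0, 0, 137773684, 0, 0, 0, ⟨0, 0⟩, 0⟩ 0 0)) (.pos 35 .mp ⟨62984352, 0, 0, 0, 0, 114042605, 0, 0, 0, ⟨0, 0⟩, 0⟩ 0 0))) (.cut .l 910763 (.cut .v 16908288 (.cut .l 587202 (.cut .d (-32768) (.cut .s 10829824 (.pos 58 .mp ⟨53794587, 0, 0, 0, 0, 131322666, 0, 0, 0, ⟨0, 0⟩, 0⟩ 0 0) (.pos 58 .mp ⟨55616725, 0, 0, 0, 0, 134671573, 0, 0, 0, ⟨0, 0⟩, 0⟩ 0 0)) (.cut .d (-16384) (.cut .d (-24576) (.cut .s 10829824 (.pos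 58 .mp ⟨57778502, 0, 0, 0, 0, 121741168, 0, 0, 0, ⟨0, 0⟩, 0⟩ 0 0) (.pos 58 .mp ⟨59036647, 0, 0, 0, 0, 126098538, 0, 0, 0, ⟨0, 0⟩, 0⟩ 0 0)) (.pos 58 .mp ⟨57183208, 0, 0, 0, 0, 117920447, 0, 0, 0, ⟨0, 0⟩, 0⟩ 0 0)) (.pos 58 .mp ⟨55186003, 0, 0, 0, 0, 0, 0, 0, 0, ⟨0, 0⟩, 0⟩ 0 0))) (.pos 58 .mp ⟨60766926, 0, 0, 0, 0, 114718761, 0, 0, 0, ⟨0, 0⟩, 0⟩ 0 0)) (.pos 59 .mp ⟨144180572, 0, 0, 0, 0, 0, 0, 0, 0, ⟨0, 0⟩, 0⟩ 0 0)) (.pos 35 .mp ⟨0, 0, 0, 0, 0, 0, 0, 0, 0, ⟨0, 0⟩, 0⟩ 0 0)))) (.pos 36 .mp ⟨145995208, 0, 0, 0, 0, 0, 0, 0, 0, ⟨0, 0⟩, 0⟩ 0 0)))) (.pos 34 .mp ⟨153288402, 0, 0, 0, 0, 0, 0, 0, 0, ⟨0, 0⟩, 0⟩ 0 0)) (.pos 32 .mp ⟨164167585, 0, 0, 0, 0, 0, 0, 0, 0, ⟨0, 0⟩,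 0⟩ 0 0)) (.void 30 ⟨100000, 0, 0, 0, 0, 0, 0, 0, 0, ⟨0, 0⟩, 0⟩ 0 0))))))) (.void 28 ⟨100000, 0, 0, 0, 0, 0, 0, 0, 0, ⟨0, 0⟩, 0⟩ 0 0))) (.void 26 ⟨100000, 0, 0, 0, 0, 0, 0, 0, 0, ⟨0, 0⟩, 0⟩ 0 0)) (.void 57 ⟨100000, 0, 0, 0, 0, 0, 0, 0, 0, ⟨0, 0⟩, 0⟩ 0 0)) (.void 68 ⟨100000, 0, 0, 0, 0, 0, 0, 0, 0, ⟨0, 0⟩, 0⟩ 0 0)) (.void 87 ⟨95856, 0, 0, 4144, 0, 0, 0, 0, 0, ⟨0, 0⟩, 0⟩ 0 0))) (.cut .v 16777216 (.cut .v 8388608 (.cut .v 4194304 (.cut .v 2097152 (.pos 6 .pm ⟨0, 0, 38451042, 0, 0, 0, 0, 0, 96098480, ⟨0, 0⟩, 2804900⟩ 0 0) (.pos 7 .pm ⟨0, 6211636, 0, 0, 0, 0, 0, 0, 0, ⟨0, 0⟩, 0⟩ 0 0)) (.cut .d 5033166 (.pos 5 .pm ⟨0, 0, 0, 0, 0, 0, 0, 0, 0, ⟨0, 0⟩, 0⟩ 0 0) (.cut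 .d 7549749 (.pos 5 .pm ⟨0, 0, 0, 0, 0, 0, 0, 0, 0, ⟨0, 0⟩, 0⟩ 0 0) (.cut .d 8808040 (.cut .d 8178894 (.pos 5 .pm ⟨0, 0, 0, 0, 0, 0, 0, 0, 0, ⟨0, 0⟩, 0⟩ 0 0) (.cut .s 10682368 (.pos 5 .pm ⟨0, 0, 0, 0, 0, 0, 0, 0, 0, ⟨0, 0⟩, 0⟩ 0 0) (.cut .d 8493467 (.pos 5 .pm ⟨0, 33647841, 0, 0, 0, 0, 0, 0, 0, ⟨0, 0⟩, 0⟩ 0 0) (.pos 5 .pm ⟨0, 76182173, 0, 0, 0, 0, 0, 0, 0, ⟨0, 0⟩, 0⟩ 0 0)))) (.cut .s 10682368 (.pos 5 .pm ⟨0, 79617868, 0, 0, 0, 0, 0, 0, 0, ⟨0, 0⟩, 0⟩ 0 0) (.pos 5 .pm ⟨0, 100713107, 0, 0, 0, 0, 0, 0, 0, ⟨0, 0⟩, 0⟩ 0 0)))))) (.cut .d 5033166 (.pos 3 .pm ⟨0, 0, 0, 0, 0, 0, 0, 0, 0, ⟨0, 0⟩, 0⟩ 0 0) (.cut .d 7549749 (.pos 3 .pm ⟨0, 0, 0, 0, 0, 0, 0, 0, 0, ⟨0, 0⟩,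 0⟩ 0 0) (.cut .v 12582912 (.cut .d 8808040 (.cut .s 10682368 (.pos 8 .pm ⟨0, 58172031, 0, 0, 0, 0, 0, 0, 0, ⟨0, 0⟩, 0⟩ 0 0) (.cut .d 8178894 (.pos 8 .pm ⟨0, 0, 0, 0, 0, 0, 0, 0, 0, ⟨0, 0⟩, 0⟩ 0 0) (.pos 8 .pm ⟨0, 82619500, 0, 0, 0, 0, 0, 0, 0, ⟨0, 0⟩, 0⟩ 0 0))) (.cut .s 10682368 (.pos 8 .pm ⟨0, 92886326, 0, 0, 0, 0, 0, 0, 0, ⟨0, 0⟩, 0⟩ 0 0) (.pos 8 .pm ⟨0, 117048930, 0, 0, 0, 0, 0, 0, 0, ⟨0, 0⟩, 0⟩ 0 0))) (.pos 9 .pm ⟨0, 111913176, 0, 0, 0, 0, 0, 0, 0, ⟨0, 0⟩, 0⟩ 0 0))))) (.cut .v 268435456 (.cut .d 5033166 (.cut .v 67108864 (.cut .d 2516583 (.cut .v 33554432 (.cut .d 1258291 (.cut .v 25165824 (.cut .v 20971520 (.pos 27 .pp ⟨83113472, 0, 0, 0, 0, 0, 0, 0, 0,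 ⟨0, 0⟩, 0⟩ 0 0) (.pos 28 .pp ⟨163662173, 0, 0, 0, 0, 0, 0, 0, 0, ⟨0, 0⟩, 0⟩ 0 0)) (.pos 26 .pp ⟨271806533, 0, 0, 0, 0, 0, 0, 0, 0, ⟨0, 0⟩, 0⟩ 0 0)) (.pos 24 .pp ⟨0, 0, 0, 0, 0, 0, 0, 0, 0, ⟨0, 0⟩, 0⟩ 0 0)) (.cut .d 1258291 (.cut .v 50331648 (.pos 62 .pp ⟨660939563, 0, 0, 0, 0, 0, 0, 0, 0, ⟨0, 0⟩, 0⟩ 0 0) (.void 63 ⟨100000, 0, 0, 0, 0, 0, 0, 0, 0, ⟨0, 0⟩, 0⟩ 0 0)) (.cut .v 50331648 (.pos 62 .pp ⟨271487805, 0, 0, 0, 0, 0, 0, 0, 0, ⟨0, 0⟩, 0⟩ 0 0) (.pos 63 .pp ⟨776591753, 0, 0, 0, 0, 0, 0, 0, 0, ⟨0, 0⟩, 0⟩ 0 0)))) (.pos 56 .pp ⟨0, 0, 0, 0, 0, 0, 0, 0, 0, ⟨0, 0⟩, 0⟩ 0 0)) (.cut .v 134217728 (.cut .d 2516583 (.cut .v 100663296 (.cut .v 83886080 (.pos 81 .pp ⟨1845502426,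 0, 0, 0, 0, 0, 0, 0, 0, ⟨0, 0⟩, 0⟩ 0 0) (.void 82 ⟨41769, 58231, 0, 0, 0, 0, 0, 0, 0, ⟨0, 0⟩, 0⟩ 0 0)) (.void 76 ⟨41769, 58231, 0, 0, 0, 0, 0, 0, 0, ⟨0, 0⟩, 0⟩ 0 0)) (.pos 73 .pp ⟨0, 399125814, 0, 0, 0, 0, 5128070, 0, 0, ⟨0, 0⟩, 0⟩ 0 0)) (.void 74 ⟨40138, 59862, 0, 0, 0, 0, 0, 0, 0, ⟨0, 0⟩, 0⟩ 0 0))) (.pos 67 .pp ⟨0, 86575044, 0, 0, 0, 0, 0, 0, 0, ⟨0, 0⟩, 0⟩ 0 0)) (.void 87 ⟨0, 0, 0, 100000, 0, 0, 0, 0, 0, ⟨0, 0⟩, 0⟩ 0 0)))),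
    by decide +kernel⟩

def covers15 : cell.Covers table row15.1 :=
  ⟨(.cut .d 0 (.cut .v 16777216 (.cut .d (-8388608) (.void 1 ⟨0, 0, 0, 0, 0, 100000, 0, 0, 0, ⟨0, 0⟩, 0⟩ 0 0) (.cut .d (-4194304) (.void 1 ⟨0, 0, 0, 0, 0, 100000, 0, 0, 0, ⟨0, 0⟩, 0⟩ 0 0) (.cut .d (-2097152) (.void 1 ⟨0, 0, 0, 0, 0, 100000, 0, 0, 0, ⟨0, 0⟩, 0⟩ 0 0) (.cut .d (-1048576) (.void 1 ⟨0, 0, 0, 0, 0, 100000, 0, 0, 0, ⟨0, 0⟩, 0⟩ 0 0) (.cut .d (-524288) (.void 1 ⟨0, 0, 0, 0, 0, 100000, 0, 0, 0, ⟨0, 0⟩, 0⟩ 0 0) (.cut .d (-262144) (.void 1 ⟨0, 0, 0, 0, 0, 100000, 0, 0, 0, ⟨0, 0⟩, 0⟩ 0 0) (.cut .v 8388608 (.cut .v 4194304 (.void 4 ⟨0, 0, 100000, 0, 0, 0, 0, 0, 0, ⟨0, 0⟩, 0⟩ 0 0) (.pos 5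 .mm ⟨0, 0, 0, 0, 0, 101797855, 0, 0, 0, ⟨0, 0⟩, 0⟩ 0 0)) (.cut .s 11108352 (.cut .s 10993664 (.pos 3 .mm ⟨0, 0, 0, 0, 0, 218950023, 0, 0, 0, ⟨0, 0⟩, 0⟩ 0 0) (.pos 3 .mm ⟨0, 0, 0, 0, 0, 234758447, 0, 0, 0, ⟨0, 0⟩, 0⟩ 0 0)) (.pos 3 .mm ⟨0, 0, 0, 0, 0, 261994968, 0, 0, 0, ⟨0, 0⟩, 0⟩ 0 0))))))))) (.cut .v 268435456 (.cut .v 67108864 (.cut .v 33554432 (.cut .v 25165824 (.cut .d (-8388608) (.void 25 ⟨0, 0, 0, 0, 0, 100000, 0, 0, 0, ⟨0, 0⟩, 0⟩ 0 0) (.cut .d (-4194304) (.void 25 ⟨100000, 0, 0, 0, 0, 0, 0, 0, 0, ⟨0, 0⟩, 0⟩ 0 0) (.cut .v 20971520 (.cut .d (-2097152) (.void 27 ⟨100000, 0, 0, 0, 0, 0, 0, 0, 0, ⟨0, 0⟩, 0⟩ 0 0) (.cut .d (-1048576) (.void 27 ⟨100000, 0, 0,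 0, 0, 0, 0, 0, 0, ⟨0, 0⟩, 0⟩ 0 0) (.cut .d (-524288) (.void 27 ⟨100000, 0, 0, 0, 0, 0, 0, 0, 0, ⟨0, 0⟩, 0⟩ 0 0) (.cut .d (-262144) (.void 27 ⟨0, 0, 0, 0, 0, 100000, 0, 0, 0, ⟨0, 0⟩, 0⟩ 0 0) (.cut .v 18874368 (.cut .v 17825792 (.cut .v 17301504 (.cut .d (-131072) (.cut .s 11108352 (.cut .v 17039360 (.pos 35 .mp ⟨61352487, 0, 0, 0, 0, 159462471, 0, 0, 0, ⟨0, 0⟩, 0⟩ 0 0) (.pos 36 .mp ⟨181470774, 0, 0, 0, 0, 0, 0, 0, 0, ⟨0, 0⟩, 0⟩ 0 0)) (.void 33 ⟨0, 0, 0, 0, 0, 100000, 0, 0, 0, ⟨0, 0⟩, 0⟩ 0 0)) (.cut .s 11108352 (.cut .v 17039360 (.cut .d (-65536) (.cut .s 10993664 (.cut .l 910763 (.pos 35 .mp ⟨58615752, 0, 0, 0, 0, 144442675, 0, 0, 0, ⟨0, 0⟩, 0⟩ 0 0) (.pos 35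 .mp ⟨52635720, 0, 0, 0, 0, 146647818, 0, 0, 0, ⟨0, 0⟩, 0⟩ 0 0)) (.pos 35 .mp ⟨55828051, 0, 0, 0, 0, 160717892, 0, 0, 0, ⟨0, 0⟩, 0⟩ 0 0)) (.cut .d (-32768) (.cut .v 16908288 (.pos 58 .mp ⟨55705815, 0, 0, 0, 0, 138304874, 0, 0, 0, ⟨0, 0⟩, 0⟩ 0 0) (.pos 59 .mp ⟨147374113, 0, 0, 0, 0, 0, 0, 0, 0, ⟨0, 0⟩, 0⟩ 0 0)) (.pos 35 .mp ⟨60288005, 0, 0, 0, 0, 124746188, 0, 0, 0, ⟨0, 0⟩, 0⟩ 0 0))) (.pos 36 .mp ⟨159520230, 0, 0, 0, 0, 0, 0, 0, 0, ⟨0, 0⟩, 0⟩ 0 0)) (.cut .s 11223040 (.pos 33 .mp ⟨90639826, 0, 0, 0, 0, 118281330, 0, 0, 0, ⟨0, 0⟩, 0⟩ 0 0) (.pos 33 .mp ⟨96259028, 0, 0, 0, 0, 126588982, 0, 0, 0, ⟨0, 0⟩, 0⟩ 0 0)))) (.pos 34 .mp ⟨188200134, 0, 0, 0, 0, 0, 0, 0, 0,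 ⟨0, 0⟩, 0⟩ 0 0)) (.pos 32 .mp ⟨200413357, 0, 0, 0, 0, 0, 0, 0, 0, ⟨0, 0⟩, 0⟩ 0 0)) (.void 30 ⟨100000, 0, 0, 0, 0, 0, 0, 0, 0, ⟨0, 0⟩, 0⟩ 0 0)))))) (.void 28 ⟨100000, 0, 0, 0, 0, 0, 0, 0, 0, ⟨0, 0⟩, 0⟩ 0 0)))) (.void 26 ⟨100000, 0, 0, 0, 0, 0, 0, 0, 0, ⟨0, 0⟩, 0⟩ 0 0)) (.void 57 ⟨100000, 0, 0, 0, 0, 0, 0, 0, 0, ⟨0, 0⟩, 0⟩ 0 0)) (.void 68 ⟨100000, 0, 0, 0, 0, 0, 0, 0, 0, ⟨0, 0⟩, 0⟩ 0 0)) (.void 87 ⟨95689, 0, 0, 4311, 0, 0, 0, 0, 0, ⟨0, 0⟩, 0⟩ 0 0))) (.cut .v 16777216 (.cut .v 8388608 (.cut .v 4194304 (.cut .v 2097152 (.cut .v 1048576 (.void 88 ⟨0, 0, 19122, 0, 0, 0, 0, 0, 80878, ⟨0, 0⟩, 1983364⟩ 0 0) (.void 89 ⟨0, 0, 37288, 0, 0, 0, 0, 0, 62712, ⟨0, 0⟩, 4987896⟩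 0 0)) (.cut .d 4548041 (.pos 7 .pm ⟨0, 0, 18590032, 0, 0, 0, 0, 0, 0, ⟨0, 0⟩, 0⟩ 0 0) (.pos 7 .pm ⟨0, 35447925, 0, 0, 0, 0, 0, 0, 0, ⟨0, 0⟩, 0⟩ 0 0))) (.cut .d 4548041 (.pos 5 .pm ⟨0, 0, 0, 0, 0, 0, 0, 0, 0, ⟨0, 0⟩, 0⟩ 0 0) (.cut .d 6822062 (.pos 5 .pm ⟨0, 0, 0, 0, 0, 0, 0, 0, 0, ⟨0, 0⟩, 0⟩ 0 0) (.cut .d 7959072 (.cut .d 7390567 (.pos 5 .pm ⟨0, 0, 0, 0, 0, 0, 0, 0, 0, ⟨0, 0⟩, 0⟩ 0 0) (.cut .s 11108352 (.pos 5 .pm ⟨0, 0, 0, 0, 0, 0, 0, 0, 0, ⟨0, 0⟩, 0⟩ 0 0) (.cut .v 6291456 (.pos 77 .pm ⟨0, 82516532, 0, 0, 0, 0, 0, 0, 0, ⟨0, 0⟩, 0⟩ 0 0) (.cut .d 7674819 (.cut .s 11223040 (.pos 78 .pm ⟨0, 0, 0, 0, 0, 0, 0, 0, 0, ⟨0, 0⟩, 0⟩ 0 0) (.cut .v 7340032 (.cut .d 7532693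 (.pos 92 .pm ⟨0, 87604750, 0, 0, 0, 0, 0, 0, 0, ⟨0, 0⟩, 0⟩ 0 0) (.pos 92 .pm ⟨0, 94151692, 0, 0, 0, 0, 0, 0, 0, ⟨0, 0⟩, 0⟩ 0 0)) (.pos 93 .pm ⟨0, 95204466, 0, 0, 0, 0, 0, 0, 0, ⟨0, 0⟩, 0⟩ 0 0))) (.cut .l 910763 (.cut .s 11223040 (.cut .v 7340032 (.pos 92 .pm ⟨0, 90473101, 0, 0, 0, 0, 0, 0, 0, ⟨0, 0⟩, 0⟩ 0 0) (.pos 93 .pm ⟨0, 94112179, 0, 0, 0, 0, 0, 0, 0, ⟨0, 0⟩, 0⟩ 0 0)) (.cut .v 7340032 (.pos 92 .pm ⟨0, 103742094, 0, 0, 0, 0, 0, 0, 0, ⟨0, 0⟩, 0⟩ 0 0) (.pos 93 .pm ⟨0, 107926399, 0, 0, 0, 0, 0, 0, 0, ⟨0, 0⟩, 0⟩ 0 0))) (.pos 78 .pm ⟨0, 97934776, 0, 0, 0, 0, 0, 0, 0, ⟨0, 0⟩, 0⟩ 0 0)))))) (.cut .d 8527577 (.cut .s 11108352 (.cut .v 6291456 (.pos 77 .pm ⟨0, 75984772,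 0, 0, 0, 0, 0, 0, 0, ⟨0, 0⟩, 0⟩ 0 0) (.cut .d 8243324 (.cut .v 7340032 (.pos 92 .pm ⟨0, 82715007, 0, 0, 0, 0, 0, 0, 0, ⟨0, 0⟩, 0⟩ 0 0) (.pos 93 .pm ⟨0, 85691313, 0, 0, 0, 0, 0, 0, 0, ⟨0, 0⟩, 0⟩ 0 0)) (.pos 78 .pm ⟨0, 95949611, 0, 0, 0, 0, 0, 0, 0, ⟨0, 0⟩, 0⟩ 0 0))) (.cut .v 6291456 (.pos 77 .pm ⟨0, 99868725, 0, 0, 0, 0, 0, 0, 0, ⟨0, 0⟩, 0⟩ 0 0) (.pos 78 .pm ⟨0, 119666910, 0, 0, 0, 0, 0, 0, 0, ⟨0, 0⟩, 0⟩ 0 0))) (.pos 5 .pm ⟨0, 176802324, 0, 0, 0, 0, 0, 0, 0, ⟨0, 0⟩, 0⟩ 0 0)))))) (.cut .d 4548041 (.pos 3 .pm ⟨0, 0, 0, 0, 0, 0, 0, 0, 0, ⟨0, 0⟩, 0⟩ 0 0) (.cut .d 6822062 (.pos 3 .pm ⟨0, 0, 0, 0, 0, 0, 0, 0, 0, ⟨0, 0⟩, 0⟩ 0 0) (.cut .v 12582912 (.cut .d 7959072 (.cut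 .s 11108352 (.pos 8 .pm ⟨0, 72648357, 0, 0, 0, 0, 0, 0, 0, ⟨0, 0⟩, 0⟩ 0 0) (.cut .d 7390567 (.pos 8 .pm ⟨0, 0, 0, 0, 0, 0, 0, 0, 0, ⟨0, 0⟩, 0⟩ 0 0) (.pos 8 .pm ⟨0, 105142335, 0, 0, 0, 0, 0, 0, 0, ⟨0, 0⟩, 0⟩ 0 0))) (.cut .s 11108352 (.cut .d 8527577 (.pos 8 .pm ⟨0, 97593172, 0, 0, 0, 0, 0, 0, 0, ⟨0, 0⟩, 0⟩ 0 0) (.void 8 ⟨0, 100000, 0, 0, 0, 0, 0, 0, 0, ⟨0, 0⟩, 0⟩ 0 0)) (.void 8 ⟨0, 100000, 0, 0, 0, 0, 0, 0, 0, ⟨0, 0⟩, 0⟩ 0 0))) (.pos 9 .pm ⟨0, 142488734, 0, 0, 0, 0, 0, 0, 0, ⟨0, 0⟩, 0⟩ 0 0))))) (.cut .v 268435456 (.cut .d 4548041 (.cut .v 67108864 (.cut .d 2274020 (.cut .v 33554432 (.cut .d 1137010 (.cut .v 25165824 (.cut .v 20971520 (.pos 27 .pp ⟨98820761,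 0, 0, 0, 0, 0, 0, 0, 0, ⟨0, 0⟩, 0⟩ 0 0) (.pos 28 .pp ⟨200848117, 0, 0, 0, 0, 0, 0, 0, 0, ⟨0, 0⟩, 0⟩ 0 0)) (.pos 26 .pp ⟨334959268, 0, 0, 0, 0, 0, 0, 0, 0, ⟨0, 0⟩, 0⟩ 0 0)) (.pos 24 .pp ⟨0, 0, 0, 0, 0, 0, 0, 0, 0, ⟨0, 0⟩, 0⟩ 0 0)) (.cut .d 1137010 (.cut .v 50331648 (.pos 62 .pp ⟨812582424, 0, 0, 0, 0, 0, 0, 0, 0, ⟨0, 0⟩, 0⟩ 0 0) (.void 63 ⟨100000, 0, 0, 0, 0, 0, 0, 0, 0, ⟨0, 0⟩, 0⟩ 0 0)) (.cut .v 50331648 (.pos 62 .pp ⟨338030513, 0, 0, 0, 0, 0, 0, 0, 0, ⟨0, 0⟩, 0⟩ 0 0) (.pos 63 .pp ⟨935025524, 0, 0, 0, 0, 0, 0, 0, 0, ⟨0, 0⟩, 0⟩ 0 0)))) (.pos 56 .pp ⟨0, 0, 0, 0, 0, 0, 0, 0, 0, ⟨0, 0⟩, 0⟩ 0 0)) (.cut .v 134217728 (.cut .d 2274020 (.cut .v 100663296 (.cut .v 83886080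 (.pos 81 .pp ⟨2216629790, 0, 0, 0, 0, 0, 0, 0, 0, ⟨0, 0⟩, 0⟩ 0 0) (.void 82 ⟨40931, 59069, 0, 0, 0, 0, 0, 0, 0, ⟨0, 0⟩, 0⟩ 0 0)) (.void 76 ⟨40931, 59069, 0, 0, 0, 0, 0, 0, 0, ⟨0, 0⟩, 0⟩ 0 0)) (.pos 73 .pp ⟨0, 515100423, 0, 0, 0, 0, 4339364, 0, 0, ⟨0, 0⟩, 0⟩ 0 0)) (.void 74 ⟨39452, 60548, 0, 0, 0, 0, 0, 0, 0, ⟨0, 0⟩, 0⟩ 0 0))) (.pos 67 .pp ⟨0, 110283274, 0, 0, 0, 0, 0, 0, 0, ⟨0, 0⟩, 0⟩ 0 0)) (.void 87 ⟨0, 0, 0, 100000, 0, 0, 0, 0, 0, ⟨0, 0⟩, 0⟩ 0 0)))),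
    by decide +kernel⟩

def covers16 : cell.Covers table row16.1 :=
  ⟨(.cut .d 0 (.cut .v 16777216 (.cut .d (-8388608) (.void 1 ⟨0, 0, 0, 0, 0, 100000, 0, 0, 0, ⟨0, 0⟩, 0⟩ 0 0) (.cut .d (-4194304) (.void 1 ⟨0, 0, 0, 0, 0, 100000, 0, 0, 0, ⟨0, 0⟩, 0⟩ 0 0) (.cut .d (-2097152) (.void 1 ⟨0, 0, 0, 0, 0, 100000, 0, 0, 0, ⟨0, 0⟩, 0⟩ 0 0) (.cut .d (-1048576) (.void 1 ⟨0, 0, 0, 0, 0, 100000, 0, 0, 0, ⟨0, 0⟩, 0⟩ 0 0) (.cut .d (-524288) (.void 1 ⟨0, 0, 0, 0, 0, 100000, 0, 0, 0, ⟨0, 0⟩, 0⟩ 0 0) (.cut .d (-262144) (.void 1 ⟨0, 0, 0, 0, 0, 100000, 0, 0, 0, ⟨0, 0⟩, 0⟩ 0 0) (.cut .d (-131072) (.void 1 ⟨0, 0, 0, 0, 0, 100000, 0, 0, 0, ⟨0, 0⟩, 0⟩ 0 0) (.cut .v 8388608 (.cut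 .v 4194304 (.void 4 ⟨0, 0, 100000, 0, 0, 0, 0, 0, 0, ⟨0, 0⟩, 0⟩ 0 0) (.pos 5 .mm ⟨0, 0, 0, 0, 0, 122076269, 0, 0, 0, ⟨0, 0⟩, 0⟩ 0 0)) (.pos 3 .mm ⟨0, 0, 0, 0, 0, 296724145, 0, 0, 0, ⟨0, 0⟩, 0⟩ 0 0))))))))) (.cut .v 268435456 (.cut .v 67108864 (.cut .v 33554432 (.cut .v 25165824 (.cut .d (-8388608) (.void 25 ⟨100000, 0, 0, 0, 0, 0, 0, 0, 0, ⟨0, 0⟩, 0⟩ 0 0) (.cut .d (-4194304) (.void 25 ⟨100000, 0, 0, 0, 0, 0, 0, 0, 0, ⟨0, 0⟩, 0⟩ 0 0) (.cut .v 20971520 (.cut .d (-2097152) (.void 27 ⟨100000, 0, 0, 0, 0, 0, 0, 0, 0, ⟨0, 0⟩, 0⟩ 0 0) (.cut .d (-1048576) (.void 27 ⟨100000, 0, 0, 0, 0, 0, 0, 0, 0, ⟨0, 0⟩, 0⟩ 0 0) (.cut .d (-524288) (.void 27 ⟨100000, 0, 0, 0, 0, 0,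 0, 0, 0, ⟨0, 0⟩, 0⟩ 0 0) (.cut .d (-262144) (.void 27 ⟨100000, 0, 0, 0, 0, 0, 0, 0, 0, ⟨0, 0⟩, 0⟩ 0 0) (.cut .d (-131072) (.void 27 ⟨0, 0, 0, 0, 0, 100000, 0, 0, 0, ⟨0, 0⟩, 0⟩ 0 0) (.cut .s 11534336 (.pos 27 .mp ⟨151933606, 0, 0, 0, 0, 64658301, 0, 0, 0, ⟨0, 0⟩, 0⟩ 0 0) (.pos 27 .mp ⟨167997503, 0, 0, 0, 0, 71846221, 0, 0, 0, ⟨0, 0⟩, 0⟩ 0 0))))))) (.void 28 ⟨100000, 0, 0, 0, 0, 0, 0, 0, 0, ⟨0, 0⟩, 0⟩ 0 0)))) (.void 26 ⟨100000, 0, 0, 0, 0, 0, 0, 0, 0, ⟨0, 0⟩, 0⟩ 0 0)) (.void 57 ⟨100000, 0, 0, 0, 0, 0, 0, 0, 0, ⟨0, 0⟩, 0⟩ 0 0)) (.void 68 ⟨100000, 0, 0, 0, 0, 0, 0, 0, 0, ⟨0, 0⟩, 0⟩ 0 0)) (.void 87 ⟨95546, 0, 0, 4454, 0, 0, 0, 0, 0, ⟨0, 0⟩, 0⟩ 0 0))) (.cut .v 16777216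 (.cut .v 8388608 (.cut .v 4194304 (.cut .v 2097152 (.cut .v 1048576 (.pos 88 .pm ⟨0, 0, 26005130, 0, 0, 0, 0, 0, 65643075, ⟨0, 0⟩, 1983364⟩ 0 0) (.pos 89 .pm ⟨0, 0, 839667, 0, 0, 0, 0, 0, 0, ⟨0, 0⟩, 0⟩ 0 0)) (.cut .d 4024593 (.pos 7 .pm ⟨0, 0, 23543178, 0, 0, 0, 0, 0, 0, ⟨0, 0⟩, 0⟩ 0 0) (.cut .d 6036890 (.pos 7 .pm ⟨0, 0, 0, 0, 0, 0, 0, 0, 0, ⟨0, 0⟩, 0⟩ 0 0) (.pos 7 .pm ⟨0, 63675864, 0, 0, 0, 0, 0, 0, 0, ⟨0, 0⟩, 0⟩ 0 0)))) (.cut .d 4024593 (.pos 5 .pm ⟨0, 0, 0, 0, 0, 0, 0, 0, 0, ⟨0, 0⟩, 0⟩ 0 0) (.cut .d 6036890 (.pos 5 .pm ⟨0, 0, 0, 0, 0, 0, 0, 0, 0, ⟨0, 0⟩, 0⟩ 0 0) (.cut .d 7043038 (.cut .s 11534336 (.pos 5 .pm ⟨0, 0, 0, 0, 0, 0, 0, 0, 0, ⟨0, 0⟩, 0⟩ 0 0) (.cut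 .d 6539964 (.pos 5 .pm ⟨0, 0, 0, 0, 0, 0, 0, 0, 0, ⟨0, 0⟩, 0⟩ 0 0) (.cut .v 6291456 (.cut .d 6791501 (.pos 77 .pm ⟨0, 0, 0, 0, 0, 0, 0, 0, 0, ⟨0, 0⟩, 0⟩ 0 0) (.cut .s 11632640 (.pos 77 .pm ⟨0, 93846113, 0, 0, 0, 0, 0, 0, 0, ⟨0, 0⟩, 0⟩ 0 0) (.pos 77 .pm ⟨0, 106327844, 0, 0, 0, 0, 0, 0, 0, ⟨0, 0⟩, 0⟩ 0 0))) (.cut .l 910763 (.cut .d 6791501 (.cut .v 7340032 (.pos 92 .pm ⟨0, 91574840, 0, 0, 0, 0, 0, 0, 0, ⟨0, 0⟩, 0⟩ 0 0) (.pos 93 .pm ⟨0, 101129858, 0, 0, 0, 0, 0, 0, 0, ⟨0, 0⟩, 0⟩ 0 0)) (.cut .v 7340032 (.cut .l 587202 (.cut .s 11632640 (.cut .v 6815744 (.pos 94 .pm ⟨0, 98098389, 0, 0, 0, 0, 0, 0, 0, ⟨0, 0⟩, 0⟩ 0 0) (.pos 95 .pm ⟨0, 102236712, 0, 0, 0, 0, 0, 0,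 0, ⟨0, 0⟩, 0⟩ 0 0)) (.cut .d 6917269 (.pos 92 .pm ⟨0, 108307192, 0, 0, 0, 0, 0, 0, 0, ⟨0, 0⟩, 0⟩ 0 0) (.pos 92 .pm ⟨0, 115329666, 0, 0, 0, 0, 0, 0, 0, ⟨0, 0⟩, 0⟩ 0 0))) (.pos 92 .pm ⟨0, 104658088, 0, 0, 0, 0, 0, 0, 0, ⟨0, 0⟩, 0⟩ 0 0)) (.pos 93 .pm ⟨0, 114066459, 0, 0, 0, 0, 0, 0, 0, ⟨0, 0⟩, 0⟩ 0 0))) (.pos 78 .pm ⟨0, 101085195, 0, 0, 0, 0, 0, 0, 0, ⟨0, 0⟩, 0⟩ 0 0))))) (.cut .d 7546112 (.cut .v 6291456 (.cut .v 5242880 (.pos 96 .pm ⟨0, 90712771, 0, 0, 0, 0, 0, 0, 0, ⟨0, 0⟩, 0⟩ 0 0) (.cut .s 11534336 (.cut .d 7294575 (.pos 97 .pm ⟨0, 87993054, 0, 0, 0, 0, 0, 0, 0, ⟨0, 0⟩, 0⟩ 0 0) (.pos 97 .pm ⟨0, 97783004, 0, 0, 0, 0, 0, 0, 0, ⟨0, 0⟩, 0⟩ 0 0)) (.cut .s 11632640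 (.pos 97 .pm ⟨0, 108612935, 0, 0, 0, 0, 0, 0, 0, ⟨0, 0⟩, 0⟩ 0 0) (.pos 97 .pm ⟨0, 322866008, 0, 0, 0, 0, 0, 0, 0, ⟨0, 0⟩, 0⟩ 0 0)))) (.cut .s 11534336 (.cut .l 910763 (.cut .s 11436032 (.cut .v 7340032 (.cut .d 7294575 (.pos 92 .pm ⟨0, 0, 0, 0, 0, 0, 0, 0, 0, ⟨0, 0⟩, 0⟩ 0 0) (.cut .d 7420343 (.pos 92 .pm ⟨0, 95166467, 0, 0, 0, 0, 0, 0, 0, ⟨0, 0⟩, 0⟩ 0 0) (.pos 92 .pm ⟨0, 101826902, 0, 0, 0, 0, 0, 0, 0, ⟨0, 0⟩, 0⟩ 0 0))) (.pos 93 .pm ⟨0, 99577733, 0, 0, 0, 0, 0, 0, 0, ⟨0, 0⟩, 0⟩ 0 0)) (.cut .v 7340032 (.cut .d 7294575 (.cut .v 6815744 (.pos 94 .pm ⟨0, 98284917, 0, 0, 0, 0, 0, 0, 0, ⟨0, 0⟩, 0⟩ 0 0) (.pos 95 .pm ⟨0, 100980887, 0, 0, 0, 0, 0, 0, 0, ⟨0, 0⟩, 0⟩ 0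 0)) (.pos 92 .pm ⟨0, 112392233, 0, 0, 0, 0, 0, 0, 0, ⟨0, 0⟩, 0⟩ 0 0)) (.pos 93 .pm ⟨0, 112658563, 0, 0, 0, 0, 0, 0, 0, ⟨0, 0⟩, 0⟩ 0 0))) (.pos 78 .pm ⟨0, 100726045, 0, 0, 0, 0, 0, 0, 0, ⟨0, 0⟩, 0⟩ 0 0)) (.cut .v 7340032 (.cut .s 11632640 (.cut .d 7294575 (.cut .v 6815744 (.pos 94 .pm ⟨0, 111392213, 0, 0, 0, 0, 0, 0, 0, ⟨0, 0⟩, 0⟩ 0 0) (.pos 95 .pm ⟨0, 114450622, 0, 0, 0, 0, 0, 0, 0, ⟨0, 0⟩, 0⟩ 0 0)) (.void 92 ⟨0, 100000, 0, 0, 0, 0, 0, 0, 0, ⟨0, 0⟩, 0⟩ 0 0)) (.void 92 ⟨0, 100000, 0, 0, 0, 0, 0, 0, 0, ⟨0, 0⟩, 0⟩ 0 0)) (.pos 93 .pm ⟨0, 135622755, 0, 0, 0, 0, 0, 0, 0, ⟨0, 0⟩, 0⟩ 0 0)))) (.cut .v 6291456 (.pos 77 .pm ⟨0, 128435093, 0, 0, 0, 0, 0, 0, 0, ⟨0, 0⟩,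 0⟩ 0 0) (.pos 78 .pm ⟨0, 201680935, 0, 0, 0, 0, 0, 0, 0, ⟨0, 0⟩, 0⟩ 0 0))))))) (.cut .d 4024593 (.pos 3 .pm ⟨0, 0, 0, 0, 0, 0, 0, 0, 0, ⟨0, 0⟩, 0⟩ 0 0) (.cut .d 6036890 (.pos 3 .pm ⟨0, 0, 0, 0, 0, 0, 0, 0, 0, ⟨0, 0⟩, 0⟩ 0 0) (.cut .d 7043038 (.pos 3 .pm ⟨0, 97951724, 0, 0, 0, 0, 0, 0, 0, ⟨0, 0⟩, 0⟩ 0 0) (.cut .d 7546112 (.pos 3 .pm ⟨0, 133118649, 0, 0, 0, 0, 0, 0, 0, ⟨0, 0⟩, 0⟩ 0 0) (.void 3 ⟨0, 100000, 0, 0, 0, 0, 0, 0, 0, ⟨0, 0⟩, 0⟩ 0 0)))))) (.cut .v 268435456 (.cut .d 4024593 (.cut .v 67108864 (.cut .d 2012296 (.cut .v 33554432 (.cut .d 1006148 (.cut .v 25165824 (.cut .v 20971520 (.pos 27 .pp ⟨115757106, 0, 0, 0, 0, 0, 0, 0, 0, ⟨0, 0⟩, 0⟩ 0 0) (.pos 28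 .pp ⟨248062533, 0, 0, 0, 0, 0, 0, 0, 0, ⟨0, 0⟩, 0⟩ 0 0)) (.pos 26 .pp ⟨407064993, 0, 0, 0, 0, 0, 0, 0, 0, ⟨0, 0⟩, 0⟩ 0 0)) (.pos 24 .pp ⟨0, 0, 0, 0, 0, 0, 0, 0, 0, ⟨0, 0⟩, 0⟩ 0 0)) (.cut .d 1006148 (.cut .v 50331648 (.pos 62 .pp ⟨971862910, 0, 0, 0, 0, 0, 0, 0, 0, ⟨0, 0⟩, 0⟩ 0 0) (.void 63 ⟨100000, 0, 0, 0, 0, 0, 0, 0, 0, ⟨0, 0⟩, 0⟩ 0 0)) (.cut .v 50331648 (.pos 62 .pp ⟨428627638, 0, 0, 0, 0, 0, 0, 0, 0, ⟨0, 0⟩, 0⟩ 0 0) (.pos 63 .pp ⟨1140054359, 0, 0, 0, 0, 0, 0, 0, 0, ⟨0, 0⟩, 0⟩ 0 0)))) (.pos 56 .pp ⟨0, 0, 0, 0, 0, 0, 0, 0, 0, ⟨0, 0⟩, 0⟩ 0 0)) (.cut .v 134217728 (.cut .d 2012296 (.cut .v 100663296 (.cut .v 83886080 (.pos 81 .pp ⟨2611422879, 0, 0, 0, 0, 0,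 0, 0, 0, ⟨0, 0⟩, 0⟩ 0 0) (.void 82 ⟨40285, 59715, 0, 0, 0, 0, 0, 0, 0, ⟨0, 0⟩, 0⟩ 0 0)) (.void 76 ⟨40285, 59715, 0, 0, 0, 0, 0, 0, 0, ⟨0, 0⟩, 0⟩ 0 0)) (.pos 73 .pp ⟨0, 695287601, 0, 0, 0, 0, 0, 0, 0, ⟨0, 0⟩, 0⟩ 0 0)) (.void 74 ⟨38969, 61031, 0, 0, 0, 0, 0, 0, 0, ⟨0, 0⟩, 0⟩ 0 0))) (.pos 67 .pp ⟨0, 129775274, 0, 0, 0, 0, 0, 0, 0, ⟨0, 0⟩, 0⟩ 0 0)) (.void 87 ⟨0, 0, 0, 100000, 0, 0, 0, 0, 0, ⟨0, 0⟩, 0⟩ 0 0)))),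
    by decide +kernel⟩

def covers17 : cell.Covers table row17.1 :=
  ⟨(.cut .d 0 (.cut .v 16777216 (.cut .d (-8388608) (.void 1 ⟨0, 0, 0, 0, 0, 100000, 0, 0, 0, ⟨0, 0⟩, 0⟩ 0 0) (.cut .d (-4194304) (.void 1 ⟨0, 0, 0, 0, 0, 100000, 0, 0, 0, ⟨0, 0⟩, 0⟩ 0 0) (.cut .d (-2097152) (.void 1 ⟨0, 0, 0, 0, 0, 100000, 0, 0, 0, ⟨0, 0⟩, 0⟩ 0 0) (.cut .d (-1048576) (.void 1 ⟨0, 0, 0, 0, 0, 100000, 0, 0, 0, ⟨0, 0⟩, 0⟩ 0 0) (.cut .d (-524288) (.void 1 ⟨0, 0, 0, 0, 0, 100000, 0, 0, 0, ⟨0, 0⟩, 0⟩ 0 0) (.cut .d (-262144) (.void 1 ⟨0, 0, 0, 0, 0, 100000, 0, 0, 0, ⟨0, 0⟩, 0⟩ 0 0) (.cut .d (-131072) (.void 1 ⟨0, 0, 0, 0, 0, 100000, 0, 0, 0, ⟨0, 0⟩, 0⟩ 0 0) (.cut .v 8388608 (.cut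 .v 4194304 (.void 4 ⟨0, 0, 100000, 0, 0, 0, 0, 0, 0, ⟨0, 0⟩, 0⟩ 0 0) (.pos 5 .mm ⟨0, 0, 3057808, 0, 0, 182580693, 0, 0, 0, ⟨0, 0⟩, 0⟩ 0 0)) (.pos 3 .mm ⟨0, 0, 0, 0, 0, 409569068, 0, 0, 0, ⟨0, 0⟩, 0⟩ 0 0))))))))) (.cut .v 268435456 (.cut .v 67108864 (.cut .v 33554432 (.cut .d (-8388608) (.void 24 ⟨100000, 0, 0, 0, 0, 0, 0, 0, 0, ⟨0, 0⟩, 0⟩ 0 0) (.cut .v 25165824 (.cut .d (-4194304) (.void 25 ⟨100000, 0, 0, 0, 0, 0, 0, 0, 0, ⟨0, 0⟩, 0⟩ 0 0) (.cut .v 20971520 (.cut .d (-2097152) (.void 27 ⟨100000, 0, 0, 0, 0, 0, 0, 0, 0, ⟨0, 0⟩, 0⟩ 0 0) (.cut .d (-1048576) (.void 27 ⟨100000, 0, 0, 0, 0, 0, 0, 0, 0, ⟨0, 0⟩, 0⟩ 0 0) (.cut .d (-524288) (.void 27 ⟨100000, 0, 0, 0,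 0, 0, 0, 0, 0, ⟨0, 0⟩, 0⟩ 0 0) (.cut .d (-262144) (.void 27 ⟨100000, 0, 0, 0, 0, 0, 0, 0, 0, ⟨0, 0⟩, 0⟩ 0 0) (.cut .d (-131072) (.void 27 ⟨0, 0, 0, 0, 0, 100000, 0, 0, 0, ⟨0, 0⟩, 0⟩ 0 0) (.cut .s 11993088 (.pos 27 .mp ⟨193309041, 0, 0, 0, 0, 85624843, 0, 0, 0, ⟨0, 0⟩, 0⟩ 0 0) (.pos 27 .mp ⟨221526099, 0, 0, 0, 0, 96778732, 0, 0, 0, ⟨0, 0⟩, 0⟩ 0 0))))))) (.void 28 ⟨100000, 0, 0, 0, 0, 0, 0, 0, 0, ⟨0, 0⟩, 0⟩ 0 0))) (.void 26 ⟨100000, 0, 0, 0, 0, 0, 0, 0, 0, ⟨0, 0⟩, 0⟩ 0 0))) (.void 57 ⟨100000, 0, 0, 0, 0, 0, 0, 0, 0, ⟨0, 0⟩, 0⟩ 0 0)) (.void 68 ⟨100000, 0, 0, 0, 0, 0, 0, 0, 0, ⟨0, 0⟩, 0⟩ 0 0)) (.void 87 ⟨95356, 0, 0, 4644, 0, 0, 0, 0, 0, ⟨0, 0⟩, 0⟩ 0 0))) (.cut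 .v 16777216 (.cut .v 8388608 (.cut .v 4194304 (.cut .v 2097152 (.cut .v 1048576 (.pos 88 .pm ⟨0, 0, 20704029, 0, 0, 0, 0, 0, 37408050, ⟨0, 0⟩, 1983364⟩ 0 0) (.pos 89 .pm ⟨0, 4476746, 0, 0, 0, 0, 0, 0, 0, ⟨0, 0⟩, 0⟩ 0 0)) (.cut .d 3608508 (.pos 7 .pm ⟨0, 0, 30094060, 0, 0, 0, 0, 0, 0, ⟨0, 0⟩, 0⟩ 0 0) (.cut .d 5412762 (.pos 7 .pm ⟨0, 0, 0, 0, 0, 0, 0, 0, 0, ⟨0, 0⟩, 0⟩ 0 0) (.cut .d 6314889 (.pos 7 .pm ⟨0, 71234646, 0, 0, 0, 0, 0, 0, 0, ⟨0, 0⟩, 0⟩ 0 0) (.pos 7 .pm ⟨0, 104330422, 0, 0, 0, 0, 0, 0, 0, ⟨0, 0⟩, 0⟩ 0 0))))) (.cut .d 3608508 (.pos 5 .pm ⟨0, 0, 2408471, 0, 0, 0, 0, 0, 0, ⟨0, 0⟩, 0⟩ 0 0) (.cut .d 5412762 (.pos 5 .pm ⟨0, 0, 0, 0, 0, 0, 0, 0, 0, ⟨0, 0⟩,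 0⟩ 0 0) (.cut .d 6314889 (.cut .s 11993088 (.cut .v 6291456 (.pos 77 .pm ⟨0, 74073271, 0, 0, 0, 0, 0, 0, 0, ⟨0, 0⟩, 0⟩ 0 0) (.pos 78 .pm ⟨0, 87342313, 0, 0, 0, 0, 0, 0, 0, ⟨0, 0⟩, 0⟩ 0 0)) (.cut .v 6291456 (.cut .d 5863825 (.pos 77 .pm ⟨0, 11106721, 0, 0, 0, 0, 0, 0, 0, ⟨0, 0⟩, 0⟩ 0 0) (.cut .s 12124160 (.cut .d 6089357 (.pos 77 .pm ⟨0, 49641557, 0, 0, 0, 0, 0, 0, 0, ⟨0, 0⟩, 0⟩ 0 0) (.cut .s 12058624 (.pos 77 .pm ⟨0, 110208679, 0, 0, 0, 0, 0, 0, 0, ⟨0, 0⟩, 0⟩ 0 0) (.cut .v 5242880 (.pos 96 .pm ⟨0, 111235525, 0, 0, 0, 0, 0, 0, 0, ⟨0, 0⟩, 0⟩ 0 0) (.pos 97 .pm ⟨0, 124647873, 0, 0, 0, 0, 0, 0, 0, ⟨0, 0⟩, 0⟩ 0 0)))) (.cut .d 6089357 (.cut .v 5242880 (.pos 96 .pm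 ⟨0, 112281407, 0, 0, 0, 0, 0, 0, 0, ⟨0, 0⟩, 0⟩ 0 0) (.pos 97 .pm ⟨0, 121981554, 0, 0, 0, 0, 0, 0, 0, ⟨0, 0⟩, 0⟩ 0 0)) (.pos 77 .pm ⟨0, 138115958, 0, 0, 0, 0, 0, 0, 0, ⟨0, 0⟩, 0⟩ 0 0)))) (.cut .d 5863825 (.pos 78 .pm ⟨0, 103146573, 0, 0, 0, 0, 0, 0, 0, ⟨0, 0⟩, 0⟩ 0 0) (.cut .s 12124160 (.cut .s 12058624 (.pos 78 .pm ⟨0, 118416419, 0, 0, 0, 0, 0, 0, 0, ⟨0, 0⟩, 0⟩ 0 0) (.pos 78 .pm ⟨0, 128814817, 0, 0, 0, 0, 0, 0, 0, ⟨0, 0⟩, 0⟩ 0 0)) (.pos 78 .pm ⟨0, 144868649, 0, 0, 0, 0, 0, 0, 0, ⟨0, 0⟩, 0⟩ 0 0))))) (.cut .s 11993088 (.cut .v 6291456 (.cut .d 6765953 (.cut .v 5242880 (.pos 96 .pm ⟨0, 98526345, 0, 0, 0, 0, 0, 0, 0, ⟨0, 0⟩, 0⟩ 0 0) (.cut .s 11862016 (.cut .d 6540421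 (.pos 97 .pm ⟨0, 0, 0, 0, 0, 0, 0, 0, 0, ⟨0, 0⟩, 0⟩ 0 0) (.cut .s 11796480 (.pos 97 .pm ⟨0, 103711818, 0, 0, 0, 0, 0, 0, 0, ⟨0, 0⟩, 0⟩ 0 0) (.pos 97 .pm ⟨0, 113583149, 0, 0, 0, 0, 0, 0, 0, ⟨0, 0⟩, 0⟩ 0 0))) (.cut .d 6540421 (.cut .s 11927552 (.pos 97 .pm ⟨0, 110106453, 0, 0, 0, 0, 0, 0, 0, ⟨0, 0⟩, 0⟩ 0 0) (.pos 97 .pm ⟨0, 120283926, 0, 0, 0, 0, 0, 0, 0, ⟨0, 0⟩, 0⟩ 0 0)) (.pos 97 .pm ⟨0, 130012169, 0, 0, 0, 0, 0, 0, 0, ⟨0, 0⟩, 0⟩ 0 0)))) (.cut .s 11862016 (.pos 77 .pm ⟨0, 125652433, 0, 0, 0, 0, 0, 0, 0, ⟨0, 0⟩, 0⟩ 0 0) (.void 77 ⟨0, 0, 0, 100000, 0, 0, 0, 0, 0, ⟨0, 0⟩, 0⟩ 0 0))) (.cut .d 6765953 (.cut .s 11862016 (.cut .d 6540421 (.pos 78 .pm ⟨0, 101184018,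 0, 0, 0, 0, 0, 0, 0, ⟨0, 0⟩, 0⟩ 0 0) (.cut .v 7340032 (.cut .s 11796480 (.cut .s 11763712 (.pos 92 .pm ⟨0, 107430359, 0, 0, 0, 0, 0, 0, 0, ⟨0, 0⟩, 0⟩ 0 0) (.pos 92 .pm ⟨0, 112188652, 0, 0, 0, 0, 0, 0, 0, ⟨0, 0⟩, 0⟩ 0 0)) (.pos 92 .pm ⟨0, 119313038, 0, 0, 0, 0, 0, 0, 0, ⟨0, 0⟩, 0⟩ 0 0)) (.pos 93 .pm ⟨0, 125228062, 0, 0, 0, 0, 0, 0, 0, ⟨0, 0⟩, 0⟩ 0 0))) (.cut .d 6540421 (.cut .s 11927552 (.pos 78 .pm ⟨0, 117730236, 0, 0, 0, 0, 0, 0, 0, ⟨0, 0⟩, 0⟩ 0 0) (.pos 78 .pm ⟨0, 129270527, 0, 0, 0, 0, 0, 0, 0, ⟨0, 0⟩, 0⟩ 0 0)) (.pos 78 .pm ⟨0, 141441883, 0, 0, 0, 0, 0, 0, 0, ⟨0, 0⟩, 0⟩ 0 0))) (.cut .s 11862016 (.cut .v 7340032 (.pos 92 .pm ⟨0, 136455323, 0, 0, 0, 0, 0,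 0, 0, ⟨0, 0⟩, 0⟩ 0 0) (.void 93 ⟨0, 100000, 0, 0, 0, 0, 0, 0, 0, ⟨0, 0⟩, 0⟩ 0 0)) (.void 78 ⟨0, 0, 0, 100000, 0, 0, 0, 0, 0, ⟨0, 0⟩, 0⟩ 0 0)))) (.cut .v 6291456 (.cut .v 5242880 (.pos 96 .pm ⟨0, 142912585, 0, 0, 0, 0, 0, 0, 0, ⟨0, 0⟩, 0⟩ 0 0) (.pos 97 .pm ⟨0, 168517391, 0, 0, 0, 0, 0, 0, 0, ⟨0, 0⟩, 0⟩ 0 0)) (.void 78 ⟨0, 100000, 0, 0, 0, 0, 0, 0, 0, ⟨0, 0⟩, 0⟩ 0 0))))))) (.cut .d 3608508 (.pos 3 .pm ⟨0, 0, 0, 0, 0, 0, 0, 0, 0, ⟨0, 0⟩, 0⟩ 0 0) (.cut .d 5412762 (.pos 3 .pm ⟨0, 0, 0, 0, 0, 0, 0, 0, 0, ⟨0, 0⟩, 0⟩ 0 0) (.cut .d 6314889 (.pos 3 .pm ⟨0, 125877398, 0, 0, 0, 0, 0, 0, 0, ⟨0, 0⟩, 0⟩ 0 0) (.cut .s 11993088 (.pos 3 .pm ⟨0, 163058946, 0, 0, 0, 0, 0, 0, 0,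 ⟨0, 0⟩, 0⟩ 0 0) (.void 3 ⟨0, 100000, 0, 0, 0, 0, 0, 0, 0, ⟨0, 0⟩, 0⟩ 0 0)))))) (.cut .v 268435456 (.cut .d 3608508 (.cut .v 67108864 (.cut .d 1804254 (.cut .v 33554432 (.cut .d 902127 (.cut .v 25165824 (.cut .v 20971520 (.pos 27 .pp ⟨155876674, 0, 0, 0, 0, 0, 0, 0, 0, ⟨0, 0⟩, 0⟩ 0 0) (.pos 28 .pp ⟨307981716, 0, 0, 0, 0, 0, 0, 0, 0, ⟨0, 0⟩, 0⟩ 0 0)) (.pos 26 .pp ⟨507315853, 0, 0, 0, 0, 0, 0, 0, 0, ⟨0, 0⟩, 0⟩ 0 0)) (.pos 24 .pp ⟨0, 0, 0, 0, 0, 0, 0, 0, 0, ⟨0, 0⟩, 0⟩ 0 0)) (.cut .d 902127 (.cut .v 50331648 (.pos 62 .pp ⟨1202190605, 0, 0, 0, 0, 0, 0, 0, 0, ⟨0, 0⟩, 0⟩ 0 0) (.void 63 ⟨100000, 0, 0, 0, 0, 0, 0, 0, 0, ⟨0, 0⟩, 0⟩ 0 0)) (.cut .v 50331648 (.pos 62 .pp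 ⟨519409430, 0, 0, 0, 0, 0, 0, 0, 0, ⟨0, 0⟩, 0⟩ 0 0) (.pos 63 .pp ⟨1366443381, 0, 0, 0, 0, 0, 0, 0, 0, ⟨0, 0⟩, 0⟩ 0 0)))) (.pos 56 .pp ⟨0, 0, 0, 0, 0, 0, 0, 0, 0, ⟨0, 0⟩, 0⟩ 0 0)) (.cut .v 134217728 (.cut .d 1804254 (.cut .v 100663296 (.cut .v 83886080 (.cut .d 902127 (.void 81 ⟨100000, 0, 0, 0, 0, 0, 0, 0, 0, ⟨0, 0⟩, 0⟩ 0 0) (.pos 81 .pp ⟨2649125775, 0, 0, 0, 0, 0, 0, 0, 0, ⟨0, 0⟩, 0⟩ 0 0)) (.pos 82 .pp ⟨5611880571, 3234871240, 0, 0, 0, 0, 0, 0, 0, ⟨0, 0⟩, 0⟩ 0 0)) (.void 76 ⟨39378, 60622, 0, 0, 0, 0, 0, 0, 0, ⟨0, 0⟩, 0⟩ 0 0)) (.pos 73 .pp ⟨0, 892510789, 0, 0, 0, 0, 0, 0, 0, ⟨0, 0⟩, 0⟩ 0 0)) (.void 74 ⟨38196, 61804, 0, 0, 0, 0, 0, 0, 0, ⟨0, 0⟩, 0⟩ 0 0))) (.pos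 67 .pp ⟨0, 171468970, 0, 0, 0, 0, 0, 0, 0, ⟨0, 0⟩, 0⟩ 0 0)) (.void 87 ⟨0, 0, 0, 100000, 0, 0, 0, 0, 0, ⟨0, 0⟩, 0⟩ 0 0)))),
    by decide +kernel⟩

def covers18 : cell.Covers table row18.1 :=
  ⟨(.cut .d 0 (.cut .v 16777216 (.cut .d (-8388608) (.void 1 ⟨0, 0, 0, 0, 0, 100000, 0, 0, 0, ⟨0, 0⟩, 0⟩ 0 0) (.cut .d (-4194304) (.void 1 ⟨0, 0, 0, 0, 0, 100000, 0, 0, 0, ⟨0, 0⟩, 0⟩ 0 0) (.cut .d (-2097152) (.void 1 ⟨0, 0, 0, 0, 0, 100000, 0, 0, 0, ⟨0, 0⟩, 0⟩ 0 0) (.cut .d (-1048576) (.void 1 ⟨0, 0, 0, 0, 0, 100000, 0, 0, 0, ⟨0, 0⟩, 0⟩ 0 0) (.cut .d (-524288) (.void 1 ⟨0, 0, 0, 0, 0, 100000, 0, 0, 0, ⟨0, 0⟩, 0⟩ 0 0) (.cut .d (-262144) (.void 1 ⟨0, 0, 0, 0, 0, 100000, 0,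 0, 0, ⟨0, 0⟩, 0⟩ 0 0) (.cut .d (-131072) (.void 1 ⟨0, 0, 0, 0, 0, 100000, 0, 0, 0, ⟨0, 0⟩, 0⟩ 0 0) (.cut .v 8388608 (.cut .v 4194304 (.void 4 ⟨0, 0, 100000, 0, 0, 0, 0, 0, 0, ⟨0, 0⟩, 0⟩ 0 0) (.pos 5 .mm ⟨0, 0, 5888570, 0, 0, 237899099, 0, 0, 0, ⟨0, 0⟩, 0⟩ 0 0)) (.cut .s 12484608 (.pos 3 .mm ⟨0, 0, 0, 0, 0, 517742161, 0, 0, 0, ⟨0, 0⟩, 0⟩ 0 0) (.cut .s 12599296 (.pos 3 .mm ⟨0, 0, 0, 0, 0, 552446045, 0, 0, 0, ⟨0, 0⟩, 0⟩ 0 0) (.pos 3 .mm ⟨0, 0, 0, 0, 0, 588854051, 0, 0, 0, ⟨0, 0⟩, 0⟩ 0 0))))))))))) (.cut .v 268435456 (.cut .v 67108864 (.cut .v 33554432 (.cut .d (-8388608) (.void 24 ⟨100000, 0, 0, 0, 0, 0, 0, 0, 0, ⟨0, 0⟩, 0⟩ 0 0) (.cut .v 25165824 (.cut .d (-4194304)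 (.void 25 ⟨100000, 0, 0, 0, 0, 0, 0, 0, 0, ⟨0, 0⟩, 0⟩ 0 0) (.cut .v 20971520 (.cut .d (-2097152) (.void 27 ⟨100000, 0, 0, 0, 0, 0, 0, 0, 0, ⟨0, 0⟩, 0⟩ 0 0) (.cut .d (-1048576) (.void 27 ⟨100000, 0, 0, 0, 0, 0, 0, 0, 0, ⟨0, 0⟩, 0⟩ 0 0) (.cut .d (-524288) (.void 27 ⟨100000, 0, 0, 0, 0, 0, 0, 0, 0, ⟨0, 0⟩, 0⟩ 0 0) (.cut .d (-262144) (.void 27 ⟨100000, 0, 0, 0, 0, 0, 0, 0, 0, ⟨0, 0⟩, 0⟩ 0 0) (.cut .d (-131072) (.void 27 ⟨0, 0, 0, 0, 0, 100000, 0, 0, 0, ⟨0, 0⟩, 0⟩ 0 0) (.cut .v 18874368 (.cut .s 12484608 (.pos 29 .mp ⟨203386582, 0, 0, 0, 0, 203658172, 0, 0, 0, ⟨0, 0⟩, 0⟩ 0 0) (.cut .v 17825792 (.cut .v 17301504 (.cut .d (-65536) (.pos 33 .mp ⟨131558254, 0, 0, 0,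 0, 422228559, 0, 0, 0, ⟨0, 0⟩, 0⟩ 0 0) (.cut .s 12599296 (.pos 33 .mp ⟨152595431, 0, 0, 0, 0, 307005400, 0, 0, 0, ⟨0, 0⟩, 0⟩ 0 0) (.cut .s 12656640 (.pos 33 .mp ⟨156894986, 0, 0, 0, 0, 321495997, 0, 0, 0, ⟨0, 0⟩, 0⟩ 0 0) (.cut .s 12685312 (.pos 33 .mp ⟨159074315, 0, 0, 0, 0, 329776115, 0, 0, 0, ⟨0, 0⟩, 0⟩ 0 0) (.cut .d (-32768) (.cut .l 910763 (.pos 33 .mp ⟨128489141, 0, 0, 0, 0, 416070260, 0, 0, 0, ⟨0, 0⟩, 0⟩ 0 0) (.pos 33 .mp ⟨146327931, 0, 0, 0, 0, 361971408, 0, 0, 0, ⟨0, 0⟩, 0⟩ 0 0)) (.pos 33 .mp ⟨142761303, 0, 0, 0, 0, 363543559, 0, 0, 0, ⟨0, 0⟩, 0⟩ 0 0)))))) (.pos 34 .mp ⟨396747143, 0, 0, 0, 0, 0, 0, 0, 0, ⟨0, 0⟩, 0⟩ 0 0)) (.pos 32 .mp ⟨418791780, 0,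 0, 0, 0, 0, 0, 0, 0, ⟨0, 0⟩, 0⟩ 0 0))) (.void 30 ⟨100000, 0, 0, 0, 0, 0, 0, 0, 0, ⟨0, 0⟩, 0⟩ 0 0))))))) (.void 28 ⟨100000, 0, 0, 0, 0, 0, 0, 0, 0, ⟨0, 0⟩, 0⟩ 0 0))) (.void 26 ⟨100000, 0, 0, 0, 0, 0, 0, 0, 0, ⟨0, 0⟩, 0⟩ 0 0))) (.void 57 ⟨100000, 0, 0, 0, 0, 0, 0, 0, 0, ⟨0, 0⟩, 0⟩ 0 0)) (.void 68 ⟨100000, 0, 0, 0, 0, 0, 0, 0, 0, ⟨0, 0⟩, 0⟩ 0 0)) (.void 87 ⟨95191, 0, 0, 4809, 0, 0, 0, 0, 0, ⟨0, 0⟩, 0⟩ 0 0))) (.cut .v 16777216 (.cut .v 8388608 (.cut .v 4194304 (.cut .v 2097152 (.cut .v 1048576 (.pos 88 .pm ⟨0, 0, 10518053, 0, 0, 0, 0, 0, 0, ⟨0, 0⟩, 0⟩ 0 0) (.pos 89 .pm ⟨0, 6710496, 0, 0, 0, 0, 0, 0, 0, ⟨0, 0⟩, 0⟩ 0 0)) (.cut .d 3095263 (.pos 7 .pm ⟨0, 0, 41833321,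 0, 0, 0, 0, 0, 0, ⟨0, 0⟩, 0⟩ 0 0) (.cut .d 4642894 (.pos 7 .pm ⟨0, 0, 0, 0, 0, 0, 0, 0, 0, ⟨0, 0⟩, 0⟩ 0 0) (.cut .d 5416710 (.pos 7 .pm ⟨0, 81389509, 0, 0, 0, 0, 0, 0, 0, ⟨0, 0⟩, 0⟩ 0 0) (.cut .s 12484608 (.pos 7 .pm ⟨0, 105838957, 0, 0, 0, 0, 0, 0, 0, ⟨0, 0⟩, 0⟩ 0 0) (.pos 7 .pm ⟨0, 136899776, 0, 0, 0, 0, 0, 0, 0, ⟨0, 0⟩, 0⟩ 0 0)))))) (.cut .d 3095263 (.pos 5 .pm ⟨0, 0, 4784835, 0, 0, 0, 0, 0, 0, ⟨0, 0⟩, 0⟩ 0 0) (.cut .d 4642894 (.pos 5 .pm ⟨0, 0, 0, 0, 0, 0, 0, 0, 0, ⟨0, 0⟩, 0⟩ 0 0) (.cut .d 5416710 (.cut .v 6291456 (.cut .s 12484608 (.pos 77 .pm ⟨0, 0, 0, 0, 0, 0, 0, 0, 0, ⟨0, 0⟩, 0⟩ 0 0) (.cut .d 5029802 (.pos 77 .pm ⟨0, 0, 0, 0, 0, 0, 0, 0, 0, ⟨0, 0⟩,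 0⟩ 0 0) (.cut .s 12599296 (.pos 77 .pm ⟨0, 116776785, 0, 0, 0, 0, 0, 0, 0, ⟨0, 0⟩, 0⟩ 0 0) (.pos 77 .pm ⟨0, 136089201, 0, 0, 0, 0, 0, 0, 0, ⟨0, 0⟩, 0⟩ 0 0)))) (.pos 78 .pm ⟨0, 119423344, 0, 0, 0, 0, 0, 0, 0, ⟨0, 0⟩, 0⟩ 0 0)) (.cut .s 12484608 (.cut .v 6291456 (.cut .d 5803618 (.cut .s 12369920 (.pos 77 .pm ⟨0, 110742092, 0, 0, 0, 0, 0, 0, 0, ⟨0, 0⟩, 0⟩ 0 0) (.cut .d 5610164 (.pos 77 .pm ⟨0, 119519857, 0, 0, 0, 0, 0, 0, 0, ⟨0, 0⟩, 0⟩ 0 0) (.pos 77 .pm ⟨0, 138890908, 0, 0, 0, 0, 0, 0, 0, ⟨0, 0⟩, 0⟩ 0 0))) (.cut .v 5242880 (.pos 96 .pm ⟨0, 142901202, 0, 0, 0, 0, 0, 0, 0, ⟨0, 0⟩, 0⟩ 0 0) (.pos 97 .pm ⟨0, 161406640, 0, 0, 0, 0, 0, 0, 0, ⟨0, 0⟩, 0⟩ 0 0))) (.cut .d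 5803618 (.pos 78 .pm ⟨0, 139561840, 0, 0, 0, 0, 0, 0, 0, ⟨0, 0⟩, 0⟩ 0 0) (.pos 78 .pm ⟨0, 175491694, 0, 0, 0, 0, 0, 0, 0, ⟨0, 0⟩, 0⟩ 0 0))) (.cut .v 6291456 (.cut .v 5242880 (.pos 96 .pm ⟨0, 169266573, 0, 0, 0, 0, 0, 0, 0, ⟨0, 0⟩, 0⟩ 0 0) (.pos 97 .pm ⟨0, 193110225, 0, 0, 0, 0, 0, 0, 0, ⟨0, 0⟩, 0⟩ 0 0)) (.pos 78 .pm ⟨0, 216618523, 0, 0, 0, 0, 0, 0, 0, ⟨0, 0⟩, 0⟩ 0 0))))))) (.cut .d 3095263 (.pos 3 .pm ⟨0, 0, 0, 0, 0, 0, 0, 0, 0, ⟨0, 0⟩, 0⟩ 0 0) (.cut .d 4642894 (.pos 3 .pm ⟨0, 0, 0, 0, 0, 0, 0, 0, 0, ⟨0, 0⟩, 0⟩ 0 0) (.cut .d 5416710 (.pos 3 .pm ⟨0, 147447123, 0, 0, 0, 0, 0, 0, 0, ⟨0, 0⟩, 0⟩ 0 0) (.pos 3 .pm ⟨0, 228015475, 0, 0, 0, 0, 0, 0, 0, ⟨0, 0⟩, 0⟩ 0 0)))))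 (.cut .v 268435456 (.cut .d 3095263 (.cut .v 67108864 (.cut .d 1547631 (.cut .v 33554432 (.cut .d 773815 (.cut .v 25165824 (.cut .v 20971520 (.pos 27 .pp ⟨195472948, 0, 0, 0, 0, 0, 0, 0, 0, ⟨0, 0⟩, 0⟩ 0 0) (.pos 28 .pp ⟨394796690, 0, 0, 0, 0, 0, 0, 0, 0, ⟨0, 0⟩, 0⟩ 0 0)) (.pos 26 .pp ⟨635744656, 0, 0, 0, 0, 0, 0, 0, 0, ⟨0, 0⟩, 0⟩ 0 0)) (.pos 24 .pp ⟨0, 0, 0, 0, 0, 0, 0, 0, 0, ⟨0, 0⟩, 0⟩ 0 0)) (.cut .d 773815 (.cut .v 50331648 (.pos 62 .pp ⟨1467147632, 0, 0, 0, 0, 0, 0, 0, 0, ⟨0, 0⟩, 0⟩ 0 0) (.void 63 ⟨100000, 0, 0, 0, 0, 0, 0, 0, 0, ⟨0, 0⟩, 0⟩ 0 0)) (.cut .v 50331648 (.pos 62 .pp ⟨667655907, 0, 0, 0, 0, 0, 0, 0, 0, ⟨0, 0⟩, 0⟩ 0 0) (.pos 63 .pp ⟨1711641914,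 0, 0, 0, 0, 0, 0, 0, 0, ⟨0, 0⟩, 0⟩ 0 0)))) (.pos 56 .pp ⟨0, 0, 0, 0, 0, 0, 0, 0, 0, ⟨0, 0⟩, 0⟩ 0 0)) (.cut .v 134217728 (.cut .d 1547631 (.cut .v 100663296 (.cut .d 773815 (.void 75 ⟨100000, 0, 0, 0, 0, 0, 0, 0, 0, ⟨0, 0⟩, 0⟩ 0 0) (.cut .v 83886080 (.pos 81 .pp ⟨3237835349, 0, 0, 0, 0, 0, 0, 0, 0, ⟨0, 0⟩, 0⟩ 0 0) (.pos 82 .pp ⟨4992966875, 1844683736, 0, 0, 0, 0, 0, 0, 0, ⟨0, 0⟩, 0⟩ 0 0))) (.void 76 ⟨38677, 61323, 0, 0, 0, 0, 0, 0, 0, ⟨0, 0⟩, 0⟩ 0 0)) (.pos 73 .pp ⟨0, 1247539936, 0, 0, 0, 0, 0, 0, 0, ⟨0, 0⟩, 0⟩ 0 0)) (.void 74 ⟨90061, 0, 0, 9939, 0, 0, 0, 0, 0, ⟨0, 0⟩, 0⟩ 0 0))) (.pos 67 .pp ⟨0, 200053218, 0, 0, 0, 0, 0, 0, 0, ⟨0, 0⟩, 0⟩ 0 0)) (.void 87 ⟨0,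 0, 0, 100000, 0, 0, 0, 0, 0, ⟨0, 0⟩, 0⟩ 0 0)))),
    by decide +kernel⟩

def covers19 : cell.Covers table row19.1 :=
  ⟨(.cut .d 0 (.cut .v 16777216 (.cut .d (-8388608) (.void 1 ⟨0, 0, 0, 0, 0, 100000, 0, 0, 0, ⟨0, 0⟩, 0⟩ 0 0) (.cut .d (-4194304) (.pos 1 .mm ⟨0, 0, 0, 0, 0, 167772160000, 0, 0, 0, ⟨0, 0⟩, 0⟩ 0 0) (.cut .d (-2097152) (.void 1 ⟨0, 0, 0, 0, 0, 100000, 0, 0, 0, ⟨0, 0⟩, 0⟩ 0 0) (.cut .d (-1048576) (.void 1 ⟨0, 0, 0, 0, 0, 100000, 0, 0, 0, ⟨0, 0⟩, 0⟩ 0 0) (.cut .d (-524288) (.void 1 ⟨0, 0, 0, 0, 0, 100000, 0, 0, 0, ⟨0, 0⟩, 0⟩ 0 0) (.cut .d (-262144) (.void 1 ⟨0, 0, 0, 0, 0, 100000, 0, 0, 0, ⟨0, 0⟩, 0⟩ 0 0) (.cut .d (-131072) (.void 1 ⟨0, 0, 0, 0,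 0, 100000, 0, 0, 0, ⟨0, 0⟩, 0⟩ 0 0) (.cut .v 8388608 (.cut .v 4194304 (.void 4 ⟨0, 0, 100000, 0, 0, 0, 0, 0, 0, ⟨0, 0⟩, 0⟩ 0 0) (.pos 5 .mm ⟨0, 0, 10571724, 0, 0, 322007551, 0, 0, 0, ⟨0, 0⟩, 0⟩ 0 0)) (.cut .d (-65536) (.pos 3 .mm ⟨0, 0, 0, 0, 0, 787701086, 0, 0, 0, ⟨0, 0⟩, 0⟩ 0 0) (.cut .v 12582912 (.pos 8 .mm ⟨0, 0, 0, 0, 0, 428172183, 0, 0, 0, ⟨0, 0⟩, 0⟩ 0 0) (.cut .v 14680064 (.pos 12 .mm ⟨0, 0, 0, 0, 0, 583580668, 0, 0, 0, ⟨0, 0⟩, 0⟩ 0 0) (.cut .v 15728640 (.pos 16 .mm ⟨0, 0, 0, 0, 0, 631580282, 0, 0, 0, ⟨0, 0⟩, 0⟩ 0 0) (.cut .v 16252928 (.pos 20 .mm ⟨0, 0, 0, 0, 0, 656821811, 0, 0, 0, ⟨0, 0⟩, 0⟩ 0 0) (.cut .s 12976128 (.cut .s 12845056 (.pos 21 .mm ⟨0,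 0, 0, 0, 0, 619211983, 0, 0, 0, ⟨0, 0⟩, 0⟩ 0 0) (.cut .s 12910592 (.pos 21 .mm ⟨0, 0, 0, 0, 0, 645946280, 0, 0, 0, ⟨0, 0⟩, 0⟩ 0 0) (.pos 21 .mm ⟨0, 0, 0, 0, 0, 669755158, 0, 0, 0, ⟨0, 0⟩, 0⟩ 0 0))) (.cut .s 13107200 (.cut .s 13041664 (.pos 21 .mm ⟨0, 0, 0, 0, 0, 694461204, 0, 0, 0, ⟨0, 0⟩, 0⟩ 0 0) (.pos 21 .mm ⟨0, 0, 0, 0, 0, 720051043, 0, 0, 0, ⟨0, 0⟩, 0⟩ 0 0)) (.pos 21 .mm ⟨0, 0, 0, 0, 0, 768377637, 0, 0, 0, ⟨0, 0⟩, 0⟩ 0 0)))))))))))))))) (.cut .v 268435456 (.cut .v 67108864 (.cut .v 33554432 (.cut .d (-8388608) (.void 24 ⟨100000, 0, 0, 0, 0, 0, 0, 0, 0, ⟨0, 0⟩, 0⟩ 0 0) (.cut .v 25165824 (.cut .d (-4194304) (.void 25 ⟨100000, 0, 0, 0, 0, 0, 0, 0, 0, ⟨0, 0⟩,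 0⟩ 0 0) (.cut .v 20971520 (.cut .d (-2097152) (.void 27 ⟨100000, 0, 0, 0, 0, 0, 0, 0, 0, ⟨0, 0⟩, 0⟩ 0 0) (.cut .d (-1048576) (.void 27 ⟨100000, 0, 0, 0, 0, 0, 0, 0, 0, ⟨0, 0⟩, 0⟩ 0 0) (.cut .d (-524288) (.void 27 ⟨100000, 0, 0, 0, 0, 0, 0, 0, 0, ⟨0, 0⟩, 0⟩ 0 0) (.cut .d (-262144) (.void 27 ⟨100000, 0, 0, 0, 0, 0, 0, 0, 0, ⟨0, 0⟩, 0⟩ 0 0) (.cut .d (-131072) (.void 27 ⟨100000, 0, 0, 0, 0, 0, 0, 0, 0, ⟨0, 0⟩, 0⟩ 0 0) (.cut .v 18874368 (.cut .v 17825792 (.cut .v 17301504 (.cut .d (-65536) (.cut .v 17039360 (.cut .d (-98304) (.void 35 ⟨0, 0, 0, 0, 0, 100000, 0, 0, 0, ⟨0, 0⟩, 0⟩ 0 0) (.cut .l 910763 (.void 35 ⟨0, 0, 0, 0, 0, 100000, 0, 0, 0, ⟨0, 0⟩, 0⟩ 0 0) (.cut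 .d (-81920) (.void 35 ⟨0, 0, 0, 0, 0, 100000, 0, 0, 0, ⟨0, 0⟩, 0⟩ 0 0) (.cut .l 1234324 (.void 35 ⟨0, 0, 0, 0, 0, 100000, 0, 0, 0, ⟨0, 0⟩, 0⟩ 0 0) (.cut .s 12976128 (.cut .v 16908288 (.pos 58 .mp ⟨0, 0, 0, 0, 0, 677041773, 0, 0, 0, ⟨0, 0⟩, 0⟩ 0 0) (.cut .s 12845056 (.cut .s 12779520 (.pos 59 .mp ⟨142535110, 0, 0, 0, 0, 399953352, 0, 0, 0, ⟨0, 0⟩, 0⟩ 0 0) (.cut .s 12812288 (.pos 59 .mp ⟨133050166, 0, 0, 0, 0, 432388549, 0, 0, 0, ⟨0, 0⟩, 0⟩ 0 0) (.cut .d (-73728) (.pos 59 .mp ⟨141855325, 0, 0, 0, 0, 433271849, 0, 0, 0, ⟨0, 0⟩, 0⟩ 0 0) (.pos 59 .mp ⟨136191490, 0, 0, 0, 0, 432047117, 0, 0, 0, ⟨0, 0⟩, 0⟩ 0 0)))) (.cut .d (-73728) (.pos 59 .mp ⟨141855325, 0, 0, 0,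 0, 470294182, 0, 0, 0, ⟨0, 0⟩, 0⟩ 0 0) (.cut .l 1396104 (.pos 59 .mp ⟨140649922, 0, 0, 0, 0, 470673567, 0, 0, 0, ⟨0, 0⟩, 0⟩ 0 0) (.cut .s 12910592 (.cut .s 12877824 (.cut .s 12861440 (.pos 59 .mp ⟨144288881, 0, 0, 0, 0, 421501349, 0, 0, 0, ⟨0, 0⟩, 0⟩ 0 0) (.pos 59 .mp ⟨141066334, 0, 0, 0, 0, 434963939, 0, 0, 0, ⟨0, 0⟩, 0⟩ 0 0)) (.cut .s 12894208 (.pos 59 .mp ⟨141426904, 0, 0, 0, 0, 440288897, 0, 0, 0, ⟨0, 0⟩, 0⟩ 0 0) (.pos 59 .mp ⟨141975609, 0, 0, 0, 0, 445281792, 0, 0, 0, ⟨0, 0⟩, 0⟩ 0 0))) (.cut .s 12943360 (.pos 59 .mp ⟨140481347, 0, 0, 0, 0, 457423974, 0, 0, 0, ⟨0, 0⟩, 0⟩ 0 0) (.pos 59 .mp ⟨142316824, 0, 0, 0, 0, 465738260, 0, 0, 0, ⟨0, 0⟩, 0⟩ 0 0)))))))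 (.cut .s 13107200 (.pos 35 .mp ⟨141556467, 0, 0, 0, 0, 505771167, 0, 0, 0, ⟨0, 0⟩, 0⟩ 0 0) (.pos 35 .mp ⟨148612362, 0, 0, 0, 0, 544589555, 0, 0, 0, ⟨0, 0⟩, 0⟩ 0 0))))))) (.pos 36 .mp ⟨488973716, 0, 0, 0, 0, 0, 0, 0, 0, ⟨0, 0⟩, 0⟩ 0 0)) (.cut .s 12976128 (.cut .v 17039360 (.cut .s 12845056 (.cut .s 12779520 (.cut .d (-32768) (.cut .l 910763 (.pos 35 .mp ⟨123442801, 0, 0, 0, 0, 431724542, 0, 0, 0, ⟨0, 0⟩, 0⟩ 0 0) (.cut .s 12746752 (.pos 35 .mp ⟨143651768, 0, 0, 0, 0, 373126594, 0, 0, 0, ⟨0, 0⟩, 0⟩ 0 0) (.cut .v 16908288 (.pos 58 .mp ⟨95024864, 0, 0, 0, 0, 467743328, 0, 0, 0, ⟨0, 0⟩, 0⟩ 0 0) (.pos 59 .mp ⟨148138447, 0, 0, 0, 0, 381358907, 0, 0, 0, ⟨0, 0⟩, 0⟩ 0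 0)))) (.cut .d (-16384) (.cut .s 12746752 (.pos 35 .mp ⟨139879582, 0, 0, 0, 0, 377237018, 0, 0, 0, ⟨0, 0⟩, 0⟩ 0 0) (.cut .s 12763136 (.pos 35 .mp ⟨140701137, 0, 0, 0, 0, 383599260, 0, 0, 0, ⟨0, 0⟩, 0⟩ 0 0) (.pos 35 .mp ⟨141635805, 0, 0, 0, 0, 386749736, 0, 0, 0, ⟨0, 0⟩, 0⟩ 0 0))) (.pos 35 .mp ⟨132066315, 0, 0, 0, 0, 385883851, 0, 0, 0, ⟨0, 0⟩, 0⟩ 0 0))) (.cut .d (-32768) (.cut .l 910763 (.cut .s 12812288 (.pos 35 .mp ⟨126560524, 0, 0, 0, 0, 437603124, 0, 0, 0, ⟨0, 0⟩, 0⟩ 0 0) (.pos 35 .mp ⟨128101367, 0, 0, 0, 0, 445849825, 0, 0, 0, ⟨0, 0⟩, 0⟩ 0 0)) (.cut .v 16908288 (.pos 58 .mp ⟨53312887, 0, 0, 0, 0, 550123479, 0, 0, 0, ⟨0, 0⟩, 0⟩ 0 0) (.cut .s 12812288 (.pos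 59 .mp ⟨150226490, 0, 0, 0, 0, 387879307, 0, 0, 0, ⟨0, 0⟩, 0⟩ 0 0) (.cut .s 12828672 (.pos 59 .mp ⟨149522985, 0, 0, 0, 0, 397542907, 0, 0, 0, ⟨0, 0⟩, 0⟩ 0 0) (.pos 59 .mp ⟨149852222, 0, 0, 0, 0, 402463279, 0, 0, 0, ⟨0, 0⟩, 0⟩ 0 0))))) (.cut .v 16908288 (.cut .l 910763 (.cut .l 587202 (.cut .d (-16384) (.cut .s 12812288 (.pos 58 .mp ⟨123091147, 0, 0, 0, 0, 432528356, 0, 0, 0, ⟨0, 0⟩, 0⟩ 0 0) (.pos 58 .mp ⟨123629361, 0, 0, 0, 0, 442411491, 0, 0, 0, ⟨0, 0⟩, 0⟩ 0 0)) (.cut .s 12812288 (.pos 58 .mp ⟨131229036, 0, 0, 0, 0, 403254554, 0, 0, 0, ⟨0, 0⟩, 0⟩ 0 0) (.pos 58 .mp ⟨132689421, 0, 0, 0, 0, 411293571, 0, 0, 0, ⟨0, 0⟩, 0⟩ 0 0))) (.pos 58 .mp ⟨134965858, 0, 0,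 0, 0, 400046843, 0, 0, 0, ⟨0, 0⟩, 0⟩ 0 0)) (.pos 58 .mp ⟨0, 0, 0, 0, 0, 0, 0, 0, 0, ⟨0, 0⟩, 0⟩ 0 0)) (.pos 59 .mp ⟨373576981, 0, 0, 0, 0, 0, 0, 0, 0, ⟨0, 0⟩, 0⟩ 0 0)))) (.cut .s 12910592 (.cut .d (-32768) (.cut .l 910763 (.cut .v 16908288 (.cut .s 12877824 (.pos 58 .mp ⟨127269422, 0, 0, 0, 0, 451984635, 0, 0, 0, ⟨0, 0⟩, 0⟩ 0 0) (.pos 58 .mp ⟨128750688, 0, 0, 0, 0, 461055128, 0, 0, 0, ⟨0, 0⟩, 0⟩ 0 0)) (.pos 59 .mp ⟨426079961, 0, 0, 0, 0, 0, 0, 0, 0, ⟨0, 0⟩, 0⟩ 0 0)) (.cut .v 16908288 (.cut .s 12877824 (.pos 58 .mp ⟨89608894, 0, 0, 0, 0, 508113835, 0, 0, 0, ⟨0, 0⟩, 0⟩ 0 0) (.pos 58 .mp ⟨91202452, 0, 0, 0, 0, 516853467, 0, 0, 0, ⟨0, 0⟩, 0⟩ 0 0)) (.cut .d (-49152)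 (.cut .v 16973824 (.cut .l 1234324 (.cut .s 12877824 (.pos 69 .mp ⟨133176493, 0, 0, 0, 0, 445173392, 0, 0, 0, ⟨0, 0⟩, 0⟩ 0 0) (.pos 69 .mp ⟨134860415, 0, 0, 0, 0, 453631651, 0, 0, 0, ⟨0, 0⟩, 0⟩ 0 0)) (.cut .s 12877824 (.pos 69 .mp ⟨144974442, 0, 0, 0, 0, 417208375, 0, 0, 0, ⟨0, 0⟩, 0⟩ 0 0) (.pos 69 .mp ⟨144919373, 0, 0, 0, 0, 428496580, 0, 0, 0, ⟨0, 0⟩, 0⟩ 0 0))) (.pos 70 .mp ⟨392057597, 0, 0, 0, 0, 0, 0, 0, 0, ⟨0, 0⟩, 0⟩ 0 0)) (.pos 59 .mp ⟨145785897, 0, 0, 0, 0, 414089390, 0, 0, 0, ⟨0, 0⟩, 0⟩ 0 0)))) (.cut .v 16908288 (.cut .l 910763 (.cut .l 587202 (.cut .d (-16384) (.cut .s 12877824 (.pos 58 .mp ⟨124976856, 0, 0, 0, 0, 451097510, 0, 0, 0, ⟨0, 0⟩, 0⟩ 0 0)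 (.pos 58 .mp ⟨126310118, 0, 0, 0, 0, 460215171, 0, 0, 0, ⟨0, 0⟩, 0⟩ 0 0)) (.cut .s 12877824 (.pos 58 .mp ⟨134141881, 0, 0, 0, 0, 419560457, 0, 0, 0, ⟨0, 0⟩, 0⟩ 0 0) (.pos 58 .mp ⟨135586322, 0, 0, 0, 0, 428053741, 0, 0, 0, ⟨0, 0⟩, 0⟩ 0 0))) (.pos 58 .mp ⟨138160528, 0, 0, 0, 0, 415537033, 0, 0, 0, ⟨0, 0⟩, 0⟩ 0 0)) (.pos 58 .mp ⟨0, 0, 0, 0, 0, 0, 0, 0, 0, ⟨0, 0⟩, 0⟩ 0 0)) (.pos 59 .mp ⟨384655672, 0, 0, 0, 0, 0, 0, 0, 0, ⟨0, 0⟩, 0⟩ 0 0))) (.cut .d (-32768) (.cut .l 910763 (.cut .s 12943360 (.cut .v 16908288 (.pos 58 .mp ⟨130219086, 0, 0, 0, 0, 470562486, 0, 0, 0, ⟨0, 0⟩, 0⟩ 0 0) (.pos 59 .mp ⟨434650096, 0, 0, 0, 0, 0, 0, 0, 0, ⟨0, 0⟩, 0⟩ 0 0)) (.pos 35 .mp ⟨134140439,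 0, 0, 0, 0, 483192067, 0, 0, 0, ⟨0, 0⟩, 0⟩ 0 0)) (.cut .d (-49152) (.cut .v 16908288 (.pos 58 .mp ⟨0, 0, 0, 0, 0, 692658597, 0, 0, 0, ⟨0, 0⟩, 0⟩ 0 0) (.cut .l 1234324 (.pos 59 .mp ⟨160725541, 0, 0, 0, 0, 426992727, 0, 0, 0, ⟨0, 0⟩, 0⟩ 0 0) (.pos 59 .mp ⟨152409835, 0, 0, 0, 0, 428852058, 0, 0, 0, ⟨0, 0⟩, 0⟩ 0 0))) (.pos 35 .mp ⟨146812290, 0, 0, 0, 0, 427804599, 0, 0, 0, ⟨0, 0⟩, 0⟩ 0 0))) (.cut .v 16908288 (.cut .l 910763 (.cut .l 587202 (.cut .d (-16384) (.cut .s 12943360 (.pos 58 .mp ⟨127628908, 0, 0, 0, 0, 469768715, 0, 0, 0, ⟨0, 0⟩, 0⟩ 0 0) (.pos 58 .mp ⟨128932979, 0, 0, 0, 0, 479762424, 0, 0, 0, ⟨0, 0⟩, 0⟩ 0 0)) (.cut .s 12943360 (.pos 58 .mp ⟨137022648,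 0, 0, 0, 0, 436771974, 0, 0, 0, ⟨0, 0⟩, 0⟩ 0 0) (.pos 58 .mp ⟨138450757, 0, 0, 0, 0, 445713734, 0, 0, 0, ⟨0, 0⟩, 0⟩ 0 0))) (.pos 58 .mp ⟨141329261, 0, 0, 0, 0, 431920165, 0, 0, 0, ⟨0, 0⟩, 0⟩ 0 0)) (.pos 58 .mp ⟨0, 0, 0, 0, 0, 0, 0, 0, 0, ⟨0, 0⟩, 0⟩ 0 0)) (.pos 59 .mp ⟨397044737, 0, 0, 0, 0, 0, 0, 0, 0, ⟨0, 0⟩, 0⟩ 0 0))))) (.pos 36 .mp ⟨400681746, 0, 0, 0, 0, 0, 0, 0, 0, ⟨0, 0⟩, 0⟩ 0 0)) (.cut .v 17039360 (.cut .s 13107200 (.cut .s 13041664 (.cut .d (-32768) (.cut .l 910763 (.cut .s 13008896 (.pos 35 .mp ⟨135618171, 0, 0, 0, 0, 493637646, 0, 0, 0, ⟨0, 0⟩, 0⟩ 0 0) (.pos 35 .mp ⟨137082679, 0, 0, 0, 0, 504535832, 0, 0, 0, ⟨0, 0⟩, 0⟩ 0 0)) (.cut .d (-49152) (.cut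 .l 1234324 (.pos 35 .mp ⟨138572806, 0, 0, 0, 0, 495070050, 0, 0, 0, ⟨0, 0⟩, 0⟩ 0 0) (.pos 35 .mp ⟨130381926, 0, 0, 0, 0, 495500582, 0, 0, 0, ⟨0, 0⟩, 0⟩ 0 0)) (.pos 35 .mp ⟨150343538, 0, 0, 0, 0, 445760755, 0, 0, 0, ⟨0, 0⟩, 0⟩ 0 0))) (.cut .l 910763 (.cut .v 16908288 (.cut .l 587202 (.cut .d (-16384) (.cut .s 13008896 (.pos 58 .mp ⟨130328431, 0, 0, 0, 0, 489989616, 0, 0, 0, ⟨0, 0⟩, 0⟩ 0 0) (.pos 58 .mp ⟨133121284, 0, 0, 0, 0, 497860244, 0, 0, 0, ⟨0, 0⟩, 0⟩ 0 0)) (.cut .s 13008896 (.pos 58 .mp ⟨139870546, 0, 0, 0, 0, 454877621, 0, 0, 0, ⟨0, 0⟩, 0⟩ 0 0) (.pos 58 .mp ⟨141281906, 0, 0, 0, 0, 464262261, 0, 0, 0, ⟨0, 0⟩, 0⟩ 0 0))) (.pos 58 .mp ⟨144471605, 0, 0, 0,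 0, 449184318, 0, 0, 0, ⟨0, 0⟩, 0⟩ 0 0)) (.pos 59 .mp ⟨415620445, 0, 0, 0, 0, 0, 0, 0, 0, ⟨0, 0⟩, 0⟩ 0 0)) (.pos 35 .mp ⟨0, 0, 0, 0, 0, 0, 0, 0, 0, ⟨0, 0⟩, 0⟩ 0 0))) (.cut .d (-32768) (.cut .l 910763 (.pos 35 .mp ⟨138533744, 0, 0, 0, 0, 527094562, 0, 0, 0, ⟨0, 0⟩, 0⟩ 0 0) (.cut .d (-49152) (.pos 35 .mp ⟨133313842, 0, 0, 0, 0, 525407372, 0, 0, 0, ⟨0, 0⟩, 0⟩ 0 0) (.pos 35 .mp ⟨149471948, 0, 0, 0, 0, 475039237, 0, 0, 0, ⟨0, 0⟩, 0⟩ 0 0))) (.cut .v 16908288 (.cut .d (-16384) (.cut .s 13074432 (.pos 58 .mp ⟨154756579, 0, 0, 0, 0, 466932384, 0, 0, 0, ⟨0, 0⟩, 0⟩ 0 0) (.pos 58 .mp ⟨156479622, 0, 0, 0, 0, 478548837, 0, 0, 0, ⟨0, 0⟩, 0⟩ 0 0)) (.pos 58 .mp ⟨144078881, 0,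 0, 0, 0, 474015509, 0, 0, 0, ⟨0, 0⟩, 0⟩ 0 0)) (.pos 59 .mp ⟨426002180, 0, 0, 0, 0, 0, 0, 0, 0, ⟨0, 0⟩, 0⟩ 0 0)))) (.cut .s 13172736 (.cut .d (-32768) (.cut .l 910763 (.pos 35 .mp ⟨141394629, 0, 0, 0, 0, 552400955, 0, 0, 0, ⟨0, 0⟩, 0⟩ 0 0) (.pos 35 .mp ⟨123781173, 0, 0, 0, 0, 565066254, 0, 0, 0, ⟨0, 0⟩, 0⟩ 0 0)) (.cut .d (-16384) (.cut .s 13139968 (.pos 35 .mp ⟨159045106, 0, 0, 0, 0, 489832619, 0, 0, 0, ⟨0, 0⟩, 0⟩ 0 0) (.pos 35 .mp ⟨157225389, 0, 0, 0, 0, 509782987, 0, 0, 0, ⟨0, 0⟩, 0⟩ 0 0)) (.pos 35 .mp ⟨149572096, 0, 0, 0, 0, 489308608, 0, 0, 0, ⟨0, 0⟩, 0⟩ 0 0))) (.cut .d (-32768) (.pos 35 .mp ⟨131512206, 0, 0, 0, 0, 593728609, 0, 0, 0, ⟨0, 0⟩, 0⟩ 0 0) (.cut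 .d (-16384) (.pos 35 .mp ⟨166277920, 0, 0, 0, 0, 512374009, 0, 0, 0, ⟨0, 0⟩, 0⟩ 0 0) (.pos 35 .mp ⟨152373174, 0, 0, 0, 0, 509604590, 0, 0, 0, ⟨0, 0⟩, 0⟩ 0 0))))) (.pos 36 .mp ⟨454136158, 0, 0, 0, 0, 0, 0, 0, 0, ⟨0, 0⟩, 0⟩ 0 0)))) (.pos 34 .mp ⟨470396883, 0, 0, 0, 0, 0, 0, 0, 0, ⟨0, 0⟩, 0⟩ 0 0)) (.pos 32 .mp ⟨497377054, 0, 0, 0, 0, 0, 0, 0, 0, ⟨0, 0⟩, 0⟩ 0 0)) (.void 30 ⟨100000, 0, 0, 0, 0, 0, 0, 0, 0, ⟨0, 0⟩, 0⟩ 0 0))))))) (.void 28 ⟨100000, 0, 0, 0, 0, 0, 0, 0, 0, ⟨0, 0⟩, 0⟩ 0 0))) (.void 26 ⟨100000, 0, 0, 0, 0, 0, 0, 0, 0, ⟨0, 0⟩, 0⟩ 0 0))) (.void 57 ⟨100000, 0, 0, 0, 0, 0, 0, 0, 0, ⟨0, 0⟩, 0⟩ 0 0)) (.void 68 ⟨100000, 0, 0, 0, 0, 0, 0, 0, 0, ⟨0, 0⟩, 0⟩ 0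 0)) (.void 87 ⟨95002, 0, 0, 4998, 0, 0, 0, 0, 0, ⟨0, 0⟩, 0⟩ 0 0))) (.cut .v 16777216 (.cut .v 8388608 (.cut .v 4194304 (.cut .v 2097152 (.cut .d 2680896 (.void 6 ⟨0, 0, 100000, 0, 0, 0, 0, 0, 0, ⟨0, 0⟩, 0⟩ 0 0) (.cut .v 1048576 (.pos 88 .pm ⟨0, 3603394, 0, 0, 0, 0, 0, 0, 0, ⟨0, 0⟩, 0⟩ 0 0) (.pos 89 .pm ⟨0, 44684471, 0, 0, 0, 0, 0, 0, 0, ⟨0, 0⟩, 0⟩ 0 0))) (.cut .d 2680896 (.pos 7 .pm ⟨0, 0, 57156406, 0, 0, 0, 0, 0, 0, ⟨0, 0⟩, 0⟩ 0 0) (.cut .d 4021344 (.pos 7 .pm ⟨0, 0, 0, 0, 0, 0, 0, 0, 0, ⟨0, 0⟩, 0⟩ 0 0) (.cut .d 4691568 (.pos 7 .pm ⟨0, 90196546, 0, 0, 0, 0, 0, 0, 0, ⟨0, 0⟩, 0⟩ 0 0) (.cut .s 12976128 (.pos 7 .pm ⟨0, 126789940, 0, 0, 0, 0, 0, 0, 0, ⟨0, 0⟩, 0⟩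 0 0) (.pos 7 .pm ⟨0, 174075366, 0, 0, 0, 0, 0, 0, 0, ⟨0, 0⟩, 0⟩ 0 0)))))) (.cut .d 2680896 (.pos 5 .pm ⟨0, 0, 9184019, 0, 0, 0, 0, 0, 0, ⟨0, 0⟩, 0⟩ 0 0) (.cut .d 4021344 (.pos 5 .pm ⟨0, 0, 0, 0, 0, 0, 0, 0, 0, ⟨0, 0⟩, 0⟩ 0 0) (.cut .d 4691568 (.cut .s 12976128 (.pos 5 .pm ⟨0, 98408351, 0, 0, 0, 0, 0, 0, 0, ⟨0, 0⟩, 0⟩ 0 0) (.cut .v 6291456 (.pos 77 .pm ⟨0, 131501720, 0, 0, 0, 0, 0, 0, 0, ⟨0, 0⟩, 0⟩ 0 0) (.pos 78 .pm ⟨0, 174892456, 0, 0, 0, 0, 0, 0, 0, ⟨0, 0⟩, 0⟩ 0 0))) (.cut .s 12976128 (.cut .v 6291456 (.cut .d 5026680 (.pos 77 .pm ⟨0, 131443874, 0, 0, 0, 0, 0, 0, 0, ⟨0, 0⟩, 0⟩ 0 0) (.pos 77 .pm ⟨0, 172994985, 0, 0, 0, 0, 0, 0, 0, ⟨0, 0⟩, 0⟩ 0 0)) (.pos 78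 .pm ⟨0, 188044246, 0, 0, 0, 0, 0, 0, 0, ⟨0, 0⟩, 0⟩ 0 0)) (.pos 5 .pm ⟨0, 286131371, 0, 0, 0, 0, 0, 0, 0, ⟨0, 0⟩, 0⟩ 0 0)))))) (.cut .d 2680896 (.pos 3 .pm ⟨0, 0, 0, 0, 0, 0, 0, 0, 0, ⟨0, 0⟩, 0⟩ 0 0) (.cut .d 4021344 (.pos 3 .pm ⟨0, 0, 0, 0, 0, 0, 0, 0, 0, ⟨0, 0⟩, 0⟩ 0 0) (.pos 3 .pm ⟨0, 240790344, 0, 0, 0, 0, 0, 0, 0, ⟨0, 0⟩, 0⟩ 0 0)))) (.cut .v 268435456 (.cut .d 2680896 (.cut .v 67108864 (.cut .d 1340448 (.cut .v 33554432 (.cut .d 670224 (.cut .v 25165824 (.cut .v 20971520 (.pos 27 .pp ⟨226468847, 0, 0, 0, 0, 0, 0, 0, 0, ⟨0, 0⟩, 0⟩ 0 0) (.pos 28 .pp ⟨482699167, 0, 0, 0, 0, 0, 0, 0, 0, ⟨0, 0⟩, 0⟩ 0 0)) (.pos 26 .pp ⟨776787920, 0, 0, 0, 0, 0, 0, 0, 0, ⟨0, 0⟩,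 0⟩ 0 0)) (.pos 24 .pp ⟨0, 0, 0, 0, 0, 0, 0, 0, 0, ⟨0, 0⟩, 0⟩ 0 0)) (.cut .d 670224 (.cut .v 50331648 (.pos 62 .pp ⟨1794338444, 0, 0, 0, 0, 0, 0, 0, 0, ⟨0, 0⟩, 0⟩ 0 0) (.void 63 ⟨100000, 0, 0, 0, 0, 0, 0, 0, 0, ⟨0, 0⟩, 0⟩ 0 0)) (.cut .v 50331648 (.pos 62 .pp ⟨826419978, 0, 0, 0, 0, 0, 0, 0, 0, ⟨0, 0⟩, 0⟩ 0 0) (.pos 63 .pp ⟨2069544771, 0, 0, 0, 0, 0, 0, 0, 0, ⟨0, 0⟩, 0⟩ 0 0)))) (.pos 56 .pp ⟨0, 0, 0, 0, 0, 0, 0, 0, 0, ⟨0, 0⟩, 0⟩ 0 0)) (.cut .v 134217728 (.cut .d 1340448 (.cut .v 100663296 (.cut .d 670224 (.void 75 ⟨100000, 0, 0, 0, 0, 0, 0, 0, 0, ⟨0, 0⟩, 0⟩ 0 0) (.cut .d 1005336 (.pos 75 .pp ⟨6537826440, 0, 0, 0, 0, 0, 0, 0, 0, ⟨0, 0⟩, 0⟩ 0 0) (.cut .v 83886080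 (.pos 81 .pp ⟨3283994500, 0, 0, 0, 0, 0, 0, 0, 0, ⟨0, 0⟩, 0⟩ 0 0) (.pos 82 .pp ⟨4845111250, 1141141885, 0, 0, 0, 0, 0, 0, 0, ⟨0, 0⟩, 0⟩ 0 0)))) (.void 76 ⟨37862, 62138, 0, 0, 0, 0, 0, 0, 0, ⟨0, 0⟩, 0⟩ 0 0)) (.pos 73 .pp ⟨0, 1677647093, 0, 0, 0, 0, 0, 0, 0, ⟨0, 0⟩, 0⟩ 0 0)) (.void 74 ⟨89798, 0, 0, 10202, 0, 0, 0, 0, 0, ⟨0, 0⟩, 0⟩ 0 0))) (.pos 67 .pp ⟨0, 243374050, 0, 0, 0, 0, 0, 0, 0, ⟨0, 0⟩, 0⟩ 0 0)) (.void 87 ⟨0, 0, 0, 100000, 0, 0, 0, 0, 0, ⟨0, 0⟩, 0⟩ 0 0)))),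
    by decide +kernel⟩

def covers20 : cell.Covers table row20.1 :=
  ⟨(.cut .d 0 (.cut .v 16777216 (.cut .d (-8388608) (.void 1 ⟨0, 0, 0, 0, 0, 100000, 0, 0, 0, ⟨0, 0⟩, 0⟩ 0 0) (.cut .d (-4194304) (.void 1 ⟨0, 0, 0, 0, 0, 100000, 0, 0, 0, ⟨0, 0⟩, 0⟩ 0 0) (.cut .d (-2097152) (.void 1 ⟨0, 0, 0, 0, 0, 100000, 0, 0, 0, ⟨0, 0⟩, 0⟩ 0 0) (.cut .d (-1048576) (.void 1 ⟨0, 0, 0, 0, 0, 100000, 0, 0, 0, ⟨0, 0⟩, 0⟩ 0 0) (.cut .d (-524288) (.void 1 ⟨0, 0, 0, 0, 0, 100000, 0, 0, 0, ⟨0, 0⟩, 0⟩ 0 0) (.cut .d (-262144) (.void 1 ⟨0, 0, 0, 0, 0, 100000, 0, 0, 0, ⟨0, 0⟩, 0⟩ 0 0) (.cut .d (-131072) (.void 1 ⟨0, 0, 0, 0, 0, 100000, 0, 0, 0, ⟨0, 0⟩, 0⟩ 0 0) (.cut .d (-65536) (.void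 1 ⟨0, 0, 0, 0, 0, 100000, 0, 0, 0, ⟨0, 0⟩, 0⟩ 0 0) (.cut .v 8388608 (.cut .v 4194304 (.void 4 ⟨0, 0, 100000, 0, 0, 0, 0, 0, 0, ⟨0, 0⟩, 0⟩ 0 0) (.pos 5 .mm ⟨0, 0, 17716998, 0, 0, 430411079, 0, 0, 0, ⟨0, 0⟩, 0⟩ 0 0)) (.cut .v 12582912 (.pos 8 .mm ⟨0, 0, 0, 0, 0, 552092080, 0, 0, 0, ⟨0, 0⟩, 0⟩ 0 0) (.cut .v 14680064 (.pos 12 .mm ⟨0, 0, 0, 0, 0, 814629373, 0, 0, 0, ⟨0, 0⟩, 0⟩ 0 0) (.cut .v 15728640 (.pos 16 .mm ⟨0, 0, 0, 0, 0, 874467592, 0, 0, 0, ⟨0, 0⟩, 0⟩ 0 0) (.cut .s 13500416 (.cut .s 13369344 (.pos 17 .mm ⟨0, 0, 0, 0, 0, 832204400, 0, 0, 0, ⟨0, 0⟩, 0⟩ 0 0) (.cut .s 13434880 (.pos 17 .mm ⟨0, 0, 0, 0, 0, 865936703, 0, 0, 0, ⟨0, 0⟩, 0⟩ 0 0) (.pos 17 .mm ⟨0, 0,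 0, 0, 0, 898101771, 0, 0, 0, ⟨0, 0⟩, 0⟩ 0 0))) (.cut .v 16252928 (.pos 20 .mm ⟨0, 0, 0, 0, 0, 953999131, 0, 0, 0, ⟨0, 0⟩, 0⟩ 0 0) (.cut .s 13631488 (.cut .s 13565952 (.pos 21 .mm ⟨0, 0, 0, 0, 0, 931575314, 0, 0, 0, ⟨0, 0⟩, 0⟩ 0 0) (.pos 21 .mm ⟨0, 0, 0, 0, 0, 966338565, 0, 0, 0, ⟨0, 0⟩, 0⟩ 0 0)) (.cut .s 13697024 (.pos 21 .mm ⟨0, 0, 0, 0, 0, 1002373118, 0, 0, 0, ⟨0, 0⟩, 0⟩ 0 0) (.pos 21 .mm ⟨0, 0, 0, 0, 0, 1039660914, 0, 0, 0, ⟨0, 0⟩, 0⟩ 0 0))))))))))))))))) (.cut .v 268435456 (.cut .v 67108864 (.cut .v 33554432 (.cut .d (-8388608) (.void 24 ⟨100000, 0, 0, 0, 0, 0, 0, 0, 0, ⟨0, 0⟩, 0⟩ 0 0) (.cut .v 25165824 (.cut .d (-4194304) (.void 25 ⟨100000, 0, 0, 0, 0,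 0, 0, 0, 0, ⟨0, 0⟩, 0⟩ 0 0) (.cut .d (-2097152) (.void 25 ⟨100000, 0, 0, 0, 0, 0, 0, 0, 0, ⟨0, 0⟩, 0⟩ 0 0) (.cut .v 20971520 (.cut .d (-1048576) (.void 27 ⟨100000, 0, 0, 0, 0, 0, 0, 0, 0, ⟨0, 0⟩, 0⟩ 0 0) (.cut .d (-524288) (.void 27 ⟨100000, 0, 0, 0, 0, 0, 0, 0, 0, ⟨0, 0⟩, 0⟩ 0 0) (.cut .d (-262144) (.void 27 ⟨100000, 0, 0, 0, 0, 0, 0, 0, 0, ⟨0, 0⟩, 0⟩ 0 0) (.cut .d (-131072) (.void 27 ⟨100000, 0, 0, 0, 0, 0, 0, 0, 0, ⟨0, 0⟩, 0⟩ 0 0) (.cut .d (-65536) (.void 27 ⟨0, 0, 0, 0, 0, 100000, 0, 0, 0, ⟨0, 0⟩, 0⟩ 0 0) (.cut .v 18874368 (.cut .v 17825792 (.cut .v 17301504 (.cut .s 13500416 (.cut .v 17039360 (.cut .d (-32768) (.cut .l 910763 (.pos 35 .mp ⟨159135847, 0,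 0, 0, 0, 671655729, 0, 0, 0, ⟨0, 0⟩, 0⟩ 0 0) (.cut .s 13369344 (.pos 35 .mp ⟨127875992, 0, 0, 0, 0, 654503972, 0, 0, 0, ⟨0, 0⟩, 0⟩ 0 0) (.cut .d (-49152) (.cut .s 13434880 (.pos 35 .mp ⟨150966953, 0, 0, 0, 0, 654864653, 0, 0, 0, ⟨0, 0⟩, 0⟩ 0 0) (.cut .s 13467648 (.pos 35 .mp ⟨152665511, 0, 0, 0, 0, 666859742, 0, 0, 0, ⟨0, 0⟩, 0⟩ 0 0) (.cut .d (-57344) (.pos 35 .mp ⟨164652006, 0, 0, 0, 0, 667422334, 0, 0, 0, ⟨0, 0⟩, 0⟩ 0 0) (.pos 35 .mp ⟨154451448, 0, 0, 0, 0, 673149013, 0, 0, 0, ⟨0, 0⟩, 0⟩ 0 0)))) (.cut .s 13434880 (.cut .v 16908288 (.pos 58 .mp ⟨77524995, 0, 0, 0, 0, 757708302, 0, 0, 0, ⟨0, 0⟩, 0⟩ 0 0) (.pos 59 .mp ⟨176236078, 0, 0, 0, 0, 587589417, 0, 0,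 0, ⟨0, 0⟩, 0⟩ 0 0)) (.cut .v 16908288 (.pos 58 .mp ⟨26135799, 0, 0, 0, 0, 872753000, 0, 0, 0, ⟨0, 0⟩, 0⟩ 0 0) (.cut .s 13467648 (.pos 59 .mp ⟨178243419, 0, 0, 0, 0, 602552735, 0, 0, 0, ⟨0, 0⟩, 0⟩ 0 0) (.pos 59 .mp ⟨180229898, 0, 0, 0, 0, 613228512, 0, 0, 0, ⟨0, 0⟩, 0⟩ 0 0))))))) (.cut .l 910763 (.cut .v 16908288 (.cut .s 13369344 (.cut .d (-16384) (.pos 58 .mp ⟨134849625, 0, 0, 0, 0, 629919688, 0, 0, 0, ⟨0, 0⟩, 0⟩ 0 0) (.cut .d (-8192) (.pos 58 .mp ⟨155165426, 0, 0, 0, 0, 573239740, 0, 0, 0, ⟨0, 0⟩, 0⟩ 0 0) (.pos 58 .mp ⟨147486313, 0, 0, 0, 0, 0, 0, 0, 0, ⟨0, 0⟩, 0⟩ 0 0))) (.cut .d (-16384) (.cut .s 13434880 (.cut .s 13402112 (.pos 58 .mp ⟨150207603, 0, 0,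 0, 0, 620478297, 0, 0, 0, ⟨0, 0⟩, 0⟩ 0 0) (.pos 58 .mp ⟨144290659, 0, 0, 0, 0, 645274670, 0, 0, 0, ⟨0, 0⟩, 0⟩ 0 0)) (.cut .s 13467648 (.pos 58 .mp ⟨139466318, 0, 0, 0, 0, 668697553, 0, 0, 0, ⟨0, 0⟩, 0⟩ 0 0) (.cut .s 13484032 (.pos 58 .mp ⟨145536695, 0, 0, 0, 0, 666931764, 0, 0, 0, ⟨0, 0⟩, 0⟩ 0 0) (.pos 58 .mp ⟨144326432, 0, 0, 0, 0, 676924492, 0, 0, 0, ⟨0, 0⟩, 0⟩ 0 0)))) (.cut .d (-8192) (.cut .l 587202 (.cut .v 16842752 (.cut .s 13434880 (.pos 60 .mp ⟨136126464, 0, 0, 0, 0, 645391276, 0, 0, 0, ⟨0, 0⟩, 0⟩ 0 0) (.cut .s 13467648 (.pos 60 .mp ⟨142190953, 0, 0, 0, 0, 654316332, 0, 0, 0, ⟨0, 0⟩, 0⟩ 0 0) (.pos 60 .mp ⟨140123818, 0, 0, 0, 0, 672725526, 0, 0, 0, ⟨0,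 0⟩, 0⟩ 0 0))) (.pos 61 .mp ⟨512418288, 0, 0, 0, 0, 0, 0, 0, 0, ⟨0, 0⟩, 0⟩ 0 0)) (.pos 58 .mp ⟨0, 0, 0, 0, 0, 0, 0, 0, 0, ⟨0, 0⟩, 0⟩ 0 0)) (.pos 58 .mp ⟨151696062, 0, 0, 0, 0, 0, 0, 0, 0, ⟨0, 0⟩, 0⟩ 0 0)))) (.pos 59 .mp ⟨516100901, 0, 0, 0, 0, 0, 0, 0, 0, ⟨0, 0⟩, 0⟩ 0 0)) (.pos 35 .mp ⟨159641146, 0, 0, 0, 0, 0, 0, 0, 0, ⟨0, 0⟩, 0⟩ 0 0))) (.pos 36 .mp ⟨530868202, 0, 0, 0, 0, 0, 0, 0, 0, ⟨0, 0⟩, 0⟩ 0 0)) (.cut .v 17039360 (.cut .d (-32768) (.cut .l 910763 (.pos 35 .mp ⟨159641146, 0, 0, 0, 0, 804815710, 0, 0, 0, ⟨0, 0⟩, 0⟩ 0 0) (.cut .s 13631488 (.cut .d (-49152) (.cut .d (-57344) (.pos 35 .mp ⟨164652006, 0, 0, 0, 0, 739507167, 0, 0, 0, ⟨0, 0⟩, 0⟩ 0 0) (.cut .l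 1234324 (.void 35 ⟨0, 0, 0, 0, 0, 100000, 0, 0, 0, ⟨0, 0⟩, 0⟩ 0 0) (.cut .v 16908288 (.pos 58 .mp ⟨0, 0, 0, 0, 0, 973514908, 0, 0, 0, ⟨0, 0⟩, 0⟩ 0 0) (.cut .v 16973824 (.cut .l 1396104 (.pos 69 .mp ⟨162811521, 0, 0, 0, 0, 710598220, 0, 0, 0, ⟨0, 0⟩, 0⟩ 0 0) (.cut .s 13565952 (.cut .s 13533184 (.pos 69 .mp ⟨157581958, 0, 0, 0, 0, 677213183, 0, 0, 0, ⟨0, 0⟩, 0⟩ 0 0) (.pos 69 .mp ⟨159211592, 0, 0, 0, 0, 688924892, 0, 0, 0, ⟨0, 0⟩, 0⟩ 0 0)) (.pos 69 .mp ⟨160797365, 0, 0, 0, 0, 705459104, 0, 0, 0, ⟨0, 0⟩, 0⟩ 0 0))) (.pos 70 .mp ⟨580661007, 0, 0, 0, 0, 0, 0, 0, 0, ⟨0, 0⟩, 0⟩ 0 0))))) (.cut .l 1234324 (.cut .d (-40960) (.cut .s 13565952 (.pos 35 .mp ⟨157809172, 0,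 0, 0, 0, 696353549, 0, 0, 0, ⟨0, 0⟩, 0⟩ 0 0) (.pos 35 .mp ⟨160799739, 0, 0, 0, 0, 721883792, 0, 0, 0, ⟨0, 0⟩, 0⟩ 0 0)) (.cut .l 1072543 (.cut .s 13565952 (.cut .d (-36864) (.pos 35 .mp ⟨158721168, 0, 0, 0, 0, 693864786, 0, 0, 0, ⟨0, 0⟩, 0⟩ 0 0) (.pos 35 .mp ⟨167025604, 0, 0, 0, 0, 646350144, 0, 0, 0, ⟨0, 0⟩, 0⟩ 0 0)) (.pos 35 .mp ⟨157053521, 0, 0, 0, 0, 718098921, 0, 0, 0, ⟨0, 0⟩, 0⟩ 0 0)) (.pos 35 .mp ⟨168395001, 0, 0, 0, 0, 639417758, 0, 0, 0, ⟨0, 0⟩, 0⟩ 0 0))) (.cut .v 16908288 (.pos 58 .mp ⟨0, 0, 0, 0, 0, 932058289, 0, 0, 0, ⟨0, 0⟩, 0⟩ 0 0) (.cut .s 13565952 (.cut .s 13533184 (.pos 59 .mp ⟨171473911, 0, 0, 0, 0, 640523896, 0, 0, 0, ⟨0, 0⟩, 0⟩ 0 0) (.pos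 59 .mp ⟨173249010, 0, 0, 0, 0, 652478655, 0, 0, 0, ⟨0, 0⟩, 0⟩ 0 0)) (.pos 59 .mp ⟨176697718, 0, 0, 0, 0, 663195883, 0, 0, 0, ⟨0, 0⟩, 0⟩ 0 0))))) (.cut .s 13697024 (.cut .s 13664256 (.cut .s 13647872 (.cut .s 13639680 (.pos 35 .mp ⟨142879594, 0, 0, 0, 0, 768217083, 0, 0, 0, ⟨0, 0⟩, 0⟩ 0 0) (.pos 35 .mp ⟨143101987, 0, 0, 0, 0, 772538559, 0, 0, 0, ⟨0, 0⟩, 0⟩ 0 0)) (.pos 35 .mp ⟨143320288, 0, 0, 0, 0, 779251715, 0, 0, 0, ⟨0, 0⟩, 0⟩ 0 0)) (.pos 35 .mp ⟨143744506, 0, 0, 0, 0, 792746836, 0, 0, 0, ⟨0, 0⟩, 0⟩ 0 0)) (.pos 35 .mp ⟨144542599, 0, 0, 0, 0, 820012964, 0, 0, 0, ⟨0, 0⟩, 0⟩ 0 0)))) (.cut .l 910763 (.cut .s 13631488 (.cut .v 16908288 (.cut .d (-16384) (.cut .s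 13565952 (.cut .s 13533184 (.cut .s 13516800 (.pos 58 .mp ⟨143422492, 0, 0, 0, 0, 686510853, 0, 0, 0, ⟨0, 0⟩, 0⟩ 0 0) (.pos 58 .mp ⟨142832083, 0, 0, 0, 0, 695677149, 0, 0, 0, ⟨0, 0⟩, 0⟩ 0 0)) (.cut .s 13549568 (.pos 58 .mp ⟨142562536, 0, 0, 0, 0, 704409424, 0, 0, 0, ⟨0, 0⟩, 0⟩ 0 0) (.pos 58 .mp ⟨142621313, 0, 0, 0, 0, 712693461, 0, 0, 0, ⟨0, 0⟩, 0⟩ 0 0))) (.cut .l 587202 (.pos 58 .mp ⟨151851684, 0, 0, 0, 0, 727275345, 0, 0, 0, ⟨0, 0⟩, 0⟩ 0 0) (.cut .s 13598720 (.pos 58 .mp ⟨141118047, 0, 0, 0, 0, 724481028, 0, 0, 0, ⟨0, 0⟩, 0⟩ 0 0) (.pos 58 .mp ⟨141900353, 0, 0, 0, 0, 740243413, 0, 0, 0, ⟨0, 0⟩, 0⟩ 0 0)))) (.cut .d (-8192) (.cut .l 587202 (.cut .l 425421 (.cut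 .v 16842752 (.cut .v 16809984 (.pos 79 .mp ⟨0, 0, 0, 0, 0, 946945924, 0, 0, 0, ⟨0, 0⟩, 0⟩ 0 0) (.cut .s 13565952 (.cut .s 13533184 (.pos 80 .mp ⟨145706946, 0, 0, 0, 0, 678497126, 0, 0, 0, ⟨0, 0⟩, 0⟩ 0 0) (.pos 80 .mp ⟨146576281, 0, 0, 0, 0, 692713710, 0, 0, 0, ⟨0, 0⟩, 0⟩ 0 0)) (.cut .s 13598720 (.pos 80 .mp ⟨147399532, 0, 0, 0, 0, 707646665, 0, 0, 0, ⟨0, 0⟩, 0⟩ 0 0) (.pos 80 .mp ⟨148426926, 0, 0, 0, 0, 722836341, 0, 0, 0, ⟨0, 0⟩, 0⟩ 0 0)))) (.pos 61 .mp ⟨562356150, 0, 0, 0, 0, 0, 0, 0, 0, ⟨0, 0⟩, 0⟩ 0 0)) (.pos 58 .mp ⟨158776695, 0, 0, 0, 0, 644421180, 0, 0, 0, ⟨0, 0⟩, 0⟩ 0 0)) (.pos 58 .mp ⟨0, 0, 0, 0, 0, 0, 0, 0, 0, ⟨0, 0⟩, 0⟩ 0 0)) (.pos 58 .mp ⟨155272296,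 0, 0, 0, 0, 0, 0, 0, 0, ⟨0, 0⟩, 0⟩ 0 0))) (.pos 59 .mp ⟨564039461, 0, 0, 0, 0, 0, 0, 0, 0, ⟨0, 0⟩, 0⟩ 0 0)) (.cut .v 16908288 (.cut .d (-16384) (.cut .s 13697024 (.cut .s 13664256 (.pos 58 .mp ⟨142625250, 0, 0, 0, 0, 762608381, 0, 0, 0, ⟨0, 0⟩, 0⟩ 0 0) (.pos 58 .mp ⟨143291168, 0, 0, 0, 0, 780749772, 0, 0, 0, ⟨0, 0⟩, 0⟩ 0 0)) (.pos 58 .mp ⟨143896465, 0, 0, 0, 0, 809997857, 0, 0, 0, ⟨0, 0⟩, 0⟩ 0 0)) (.cut .s 13697024 (.cut .s 13664256 (.pos 58 .mp ⟨165950541, 0, 0, 0, 0, 698266991, 0, 0, 0, ⟨0, 0⟩, 0⟩ 0 0) (.pos 58 .mp ⟨166979948, 0, 0, 0, 0, 713580656, 0, 0, 0, ⟨0, 0⟩, 0⟩ 0 0)) (.pos 58 .mp ⟨168926515, 0, 0, 0, 0, 732913982, 0, 0, 0, ⟨0, 0⟩, 0⟩ 0 0))) (.pos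 59 .mp ⟨600687604, 0, 0, 0, 0, 0, 0, 0, 0, ⟨0, 0⟩, 0⟩ 0 0))) (.pos 35 .mp ⟨165626228, 0, 0, 0, 0, 631656899, 0, 0, 0, ⟨0, 0⟩, 0⟩ 0 0))) (.pos 36 .mp ⟨590762313, 0, 0, 0, 0, 0, 0, 0, 0, ⟨0, 0⟩, 0⟩ 0 0))) (.pos 34 .mp ⟨584384204, 0, 0, 0, 0, 0, 0, 0, 0, ⟨0, 0⟩, 0⟩ 0 0)) (.pos 32 .mp ⟨620779233, 0, 0, 0, 0, 0, 0, 0, 0, ⟨0, 0⟩, 0⟩ 0 0)) (.void 30 ⟨100000, 0, 0, 0, 0, 0, 0, 0, 0, ⟨0, 0⟩, 0⟩ 0 0))))))) (.void 28 ⟨100000, 0, 0, 0, 0, 0, 0, 0, 0, ⟨0, 0⟩, 0⟩ 0 0)))) (.void 26 ⟨100000, 0, 0, 0, 0, 0, 0, 0, 0, ⟨0, 0⟩, 0⟩ 0 0))) (.void 57 ⟨100000, 0, 0, 0, 0, 0, 0, 0, 0, ⟨0, 0⟩, 0⟩ 0 0)) (.void 68 ⟨100000, 0, 0, 0, 0, 0, 0, 0, 0, ⟨0, 0⟩, 0⟩ 0 0)) (.void 87 ⟨94815, 0, 0,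 5185, 0, 0, 0, 0, 0, ⟨0, 0⟩, 0⟩ 0 0))) (.cut .v 16777216 (.cut .v 8388608 (.cut .v 4194304 (.cut .v 2097152 (.cut .d 2242500 (.void 6 ⟨0, 0, 100000, 0, 0, 0, 0, 0, 0, ⟨0, 0⟩, 0⟩ 0 0) (.cut .v 1048576 (.cut .v 524288 (.pos 104 .pm ⟨0, 0, 6374507, 0, 0, 0, 0, 0, 0, ⟨0, 0⟩, 0⟩ 0 0) (.pos 105 .pm ⟨0, 23433698, 0, 0, 0, 0, 0, 0, 0, ⟨0, 0⟩, 0⟩ 0 0)) (.pos 89 .pm ⟨0, 53290817, 0, 0, 0, 0, 0, 0, 0, ⟨0, 0⟩, 0⟩ 0 0))) (.cut .d 2242500 (.pos 7 .pm ⟨0, 0, 92307877, 0, 0, 0, 0, 0, 0, ⟨0, 0⟩, 0⟩ 0 0) (.cut .d 3363750 (.pos 7 .pm ⟨0, 0, 0, 0, 0, 0, 0, 0, 0, ⟨0, 0⟩, 0⟩ 0 0) (.cut .d 3924375 (.pos 7 .pm ⟨0, 90924432, 0, 0, 0, 0, 0, 0, 0, ⟨0, 0⟩, 0⟩ 0 0) (.cut .s 13500416 (.pos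 7 .pm ⟨0, 135912087, 0, 0, 0, 0, 0, 0, 0, ⟨0, 0⟩, 0⟩ 0 0) (.pos 7 .pm ⟨0, 198861678, 0, 0, 0, 0, 0, 0, 0, ⟨0, 0⟩, 0⟩ 0 0)))))) (.cut .d 2242500 (.pos 5 .pm ⟨0, 0, 15513469, 0, 0, 0, 0, 0, 0, ⟨0, 0⟩, 0⟩ 0 0) (.cut .d 3363750 (.pos 5 .pm ⟨0, 0, 0, 0, 0, 0, 0, 0, 0, ⟨0, 0⟩, 0⟩ 0 0) (.cut .d 3924375 (.pos 5 .pm ⟨0, 121559527, 0, 0, 0, 0, 0, 0, 0, ⟨0, 0⟩, 0⟩ 0 0) (.cut .s 13500416 (.pos 5 .pm ⟨0, 179807284, 0, 0, 0, 0, 0, 0, 0, ⟨0, 0⟩, 0⟩ 0 0) (.pos 5 .pm ⟨0, 260215154, 0, 0, 0, 0, 0, 0, 0, ⟨0, 0⟩, 0⟩ 0 0)))))) (.cut .d 2242500 (.pos 3 .pm ⟨0, 0, 0, 0, 0, 0, 0, 0, 0, ⟨0, 0⟩, 0⟩ 0 0) (.pos 3 .pm ⟨0, 203771457, 0, 0, 0, 0, 0, 0, 0, ⟨0, 0⟩, 0⟩ 0 0))) (.cut .v 268435456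 (.cut .d 2242500 (.cut .v 67108864 (.cut .d 1121250 (.cut .v 33554432 (.cut .d 560625 (.cut .v 25165824 (.pos 25 .pp ⟨418245714, 0, 0, 0, 0, 0, 0, 0, 0, ⟨0, 0⟩, 0⟩ 0 0) (.pos 26 .pp ⟨968382284, 0, 0, 0, 0, 0, 0, 0, 0, ⟨0, 0⟩, 0⟩ 0 0)) (.pos 24 .pp ⟨0, 0, 0, 0, 0, 0, 0, 0, 0, ⟨0, 0⟩, 0⟩ 0 0)) (.cut .d 560625 (.cut .v 50331648 (.pos 62 .pp ⟨2208397283, 0, 0, 0, 0, 0, 0, 0, 0, ⟨0, 0⟩, 0⟩ 0 0) (.void 63 ⟨100000, 0, 0, 0, 0, 0, 0, 0, 0, ⟨0, 0⟩, 0⟩ 0 0)) (.cut .v 50331648 (.pos 62 .pp ⟨1046598218, 0, 0, 0, 0, 0, 0, 0, 0, ⟨0, 0⟩, 0⟩ 0 0) (.pos 63 .pp ⟨2572567872, 0, 0, 0, 0, 0, 0, 0, 0, ⟨0, 0⟩, 0⟩ 0 0)))) (.pos 56 .pp ⟨0, 0, 0, 0, 0, 0, 0, 0, 0, ⟨0, 0⟩, 0⟩ 0 0)) (.cut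 .v 134217728 (.cut .v 100663296 (.cut .d 1121250 (.cut .d 560625 (.void 75 ⟨100000, 0, 0, 0, 0, 0, 0, 0, 0, ⟨0, 0⟩, 0⟩ 0 0) (.cut .v 83886080 (.cut .d 840937 (.pos 81 .pp ⟨5695443516, 0, 0, 0, 0, 0, 0, 0, 0, ⟨0, 0⟩, 0⟩ 0 0) (.pos 81 .pp ⟨4106531249, 0, 0, 0, 0, 0, 0, 0, 0, ⟨0, 0⟩, 0⟩ 0 0)) (.cut .d 840937 (.pos 82 .pp ⟨11285392923, 0, 0, 0, 0, 0, 0, 0, 0, ⟨0, 0⟩, 0⟩ 0 0) (.cut .v 92274688 (.pos 106 .pp ⟨5775348166, 1288201336, 0, 0, 0, 0, 0, 0, 0, ⟨0, 0⟩, 0⟩ 0 0) (.void 107 ⟨26472, 73528, 0, 0, 0, 0, 0, 0, 0, ⟨0, 0⟩, 0⟩ 0 0))))) (.pos 75 .pp ⟨0, 1435909813, 0, 0, 0, 0, 0, 0, 0, ⟨0, 0⟩, 0⟩ 0 0)) (.void 76 ⟨36360, 63640, 0, 0, 0, 0, 0, 0, 0, ⟨0, 0⟩, 0⟩ 0 0))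 (.void 74 ⟨89551, 0, 0, 10449, 0, 0, 0, 0, 0, ⟨0, 0⟩, 0⟩ 0 0))) (.pos 67 .pp ⟨0, 274562018, 0, 0, 0, 0, 0, 0, 0, ⟨0, 0⟩, 0⟩ 0 0)) (.void 87 ⟨0, 0, 0, 100000, 0, 0, 0, 0, 0, ⟨0, 0⟩, 0⟩ 0 0)))),
    by decide +kernel⟩

def covers21 : cell.Covers table row21.1 :=
  ⟨(.cut .d 0 (.cut .v 16777216 (.cut .d (-8388608) (.void 1 ⟨0, 0, 0, 0, 0, 100000, 0, 0, 0, ⟨0, 0⟩, 0⟩ 0 0) (.cut .d (-4194304) (.void 1 ⟨0, 0, 0, 0, 0, 100000, 0, 0, 0, ⟨0, 0⟩, 0⟩ 0 0) (.cut .d (-2097152) (.void 1 ⟨0, 0, 0, 0, 0, 100000, 0, 0, 0, ⟨0, 0⟩, 0⟩ 0 0) (.cut .d (-1048576) (.void 1 ⟨0, 0, 0, 0, 0, 100003, 0, 0, 0, ⟨0, 0⟩, 0⟩ 0 0) (.cut .d (-524288) (.void 1 ⟨0, 0, 0, 0, 0, 100000, 0, 0, 0,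 ⟨0, 0⟩, 0⟩ 0 0) (.cut .d (-262144) (.void 1 ⟨0, 0, 0, 0, 0, 100000, 0, 0, 0, ⟨0, 0⟩, 0⟩ 0 0) (.cut .d (-131072) (.void 1 ⟨0, 0, 0, 0, 0, 100000, 0, 0, 0, ⟨0, 0⟩, 0⟩ 0 0) (.cut .d (-65536) (.void 1 ⟨0, 0, 0, 0, 0, 100000, 0, 0, 0, ⟨0, 0⟩, 0⟩ 0 0) (.cut .v 8388608 (.cut .v 4194304 (.void 4 ⟨0, 0, 100000, 0, 0, 0, 0, 0, 0, ⟨0, 0⟩, 0⟩ 0 0) (.pos 5 .mm ⟨0, 0, 284444144, 0, 0, 285698599, 0, 0, 0, ⟨0, 0⟩, 0⟩ 0 0)) (.cut .v 12582912 (.cut .d (-32768) (.pos 8 .mm ⟨0, 0, 0, 0, 0, 712563813, 0, 0, 0, ⟨0, 0⟩, 0⟩ 0 0) (.cut .d (-16384) (.pos 8 .mm ⟨0, 0, 5211885, 0, 0, 686467303, 0, 0, 0, ⟨0, 0⟩, 0⟩ 0 0) (.cut .d (-8192) (.pos 8 .mm ⟨0, 0, 8257908, 0, 0, 686467303, 0, 0,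 0, ⟨0, 0⟩, 0⟩ 0 0) (.cut .v 10485760 (.cut .v 9437184 (.pos 108 .mm ⟨0, 0, 13437916, 0, 0, 547867004, 0, 0, 0, ⟨0, 0⟩, 0⟩ 0 0) (.pos 109 .mm ⟨0, 0, 0, 0, 0, 642860843, 0, 0, 0, ⟨0, 0⟩, 0⟩ 0 0)) (.pos 11 .mm ⟨0, 0, 0, 0, 0, 727304267, 0, 0, 0, ⟨0, 0⟩, 0⟩ 0 0))))) (.cut .v 14680064 (.pos 12 .mm ⟨0, 0, 0, 0, 0, 1044145072, 0, 0, 0, ⟨0, 0⟩, 0⟩ 0 0) (.cut .v 15728640 (.pos 16 .mm ⟨0, 0, 0, 0, 0, 1135361317, 0, 0, 0, ⟨0, 0⟩, 0⟩ 0 0) (.cut .s 13959168 (.cut .s 13860864 (.pos 17 .mm ⟨0, 0, 0, 0, 0, 1101139201, 0, 0, 0, ⟨0, 0⟩, 0⟩ 0 0) (.cut .s 13910016 (.pos 17 .mm ⟨0, 0, 0, 0, 0, 1134635446, 0, 0, 0, ⟨0, 0⟩, 0⟩ 0 0) (.pos 17 .mm ⟨0, 0, 0, 0, 0, 1167003385, 0, 0, 0,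 ⟨0, 0⟩, 0⟩ 0 0))) (.cut .v 16252928 (.pos 20 .mm ⟨0, 0, 0, 0, 0, 1218164186, 0, 0, 0, ⟨0, 0⟩, 0⟩ 0 0) (.cut .d (-32768) (.cut .s 14057472 (.pos 21 .mm ⟨0, 0, 0, 0, 0, 1247831512, 0, 0, 0, ⟨0, 0⟩, 0⟩ 0 0) (.pos 21 .mm ⟨0, 0, 0, 0, 0, 1324911153, 0, 0, 0, ⟨0, 0⟩, 0⟩ 0 0)) (.cut .l 910763 (.cut .v 16515072 (.pos 22 .mm ⟨0, 0, 0, 0, 0, 1224101111, 0, 0, 0, ⟨0, 0⟩, 0⟩ 0 0) (.cut .v 16646144 (.pos 43 .mm ⟨0, 0, 0, 0, 0, 1233880000, 0, 0, 0, ⟨0, 0⟩, 0⟩ 0 0) (.cut .s 14057472 (.cut .s 14008320 (.pos 44 .mm ⟨0, 0, 0, 0, 0, 1187758665, 0, 0, 0, ⟨0, 0⟩, 0⟩ 0 0) (.pos 44 .mm ⟨0, 0, 0, 0, 0, 1221506734, 0, 0, 0, ⟨0, 0⟩, 0⟩ 0 0)) (.cut .s 14106624 (.pos 44 .mm ⟨0, 0, 0,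 0, 0, 1256311017, 0, 0, 0, ⟨0, 0⟩, 0⟩ 0 0) (.pos 44 .mm ⟨0, 0, 0, 0, 0, 1292160600, 0, 0, 0, ⟨0, 0⟩, 0⟩ 0 0))))) (.pos 21 .mm ⟨0, 0, 0, 0, 0, 1176708875, 0, 0, 0, ⟨0, 0⟩, 0⟩ 0 0))))))))))))))))) (.cut .v 268435456 (.cut .v 67108864 (.cut .v 33554432 (.cut .d (-8388608) (.void 24 ⟨100000, 0, 0, 0, 0, 0, 0, 0, 0, ⟨0, 0⟩, 0⟩ 0 0) (.cut .d (-4194304) (.void 24 ⟨100000, 0, 0, 0, 0, 0, 0, 0, 0, ⟨0, 0⟩, 0⟩ 0 0) (.cut .v 25165824 (.cut .d (-2097152) (.void 25 ⟨100000, 0, 0, 0, 0, 0, 0, 0, 0, ⟨0, 0⟩, 0⟩ 0 0) (.cut .v 20971520 (.cut .d (-1048576) (.void 27 ⟨100000, 0, 0, 0, 0, 0, 0, 0, 0, ⟨0, 0⟩, 0⟩ 0 0) (.cut .d (-524288) (.void 27 ⟨100000, 0, 0, 0, 0, 0, 0, 0, 0, ⟨0,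 0⟩, 0⟩ 0 0) (.cut .d (-262144) (.void 27 ⟨100000, 0, 0, 0, 0, 0, 0, 0, 0, ⟨0, 0⟩, 0⟩ 0 0) (.cut .d (-131072) (.void 27 ⟨100000, 0, 0, 0, 0, 0, 0, 0, 0, ⟨0, 0⟩, 0⟩ 0 0) (.cut .d (-65536) (.void 27 ⟨0, 0, 0, 0, 0, 100000, 0, 0, 0, ⟨0, 0⟩, 0⟩ 0 0) (.cut .v 18874368 (.cut .v 17825792 (.cut .v 17301504 (.cut .d (-32768) (.cut .v 17039360 (.cut .l 910763 (.void 35 ⟨0, 0, 0, 0, 0, 100000, 0, 0, 0, ⟨0, 0⟩, 0⟩ 0 0) (.cut .d (-49152) (.pos 35 .mp ⟨167524860, 0, 0, 0, 0, 1267124165, 0, 0, 0, ⟨0, 0⟩, 0⟩ 0 0) (.cut .s 13959168 (.cut .s 13860864 (.pos 35 .mp ⟨145882121, 0, 0, 0, 0, 885939652, 0, 0, 0, ⟨0, 0⟩, 0⟩ 0 0) (.cut .v 16908288 (.cut .s 13910016 (.pos 58 .mp ⟨0, 0,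 0, 0, 0, 1167086332, 0, 0, 0, ⟨0, 0⟩, 0⟩ 0 0) (.pos 58 .mp ⟨0, 0, 0, 0, 0, 1192182087, 0, 0, 0, ⟨0, 0⟩, 0⟩ 0 0)) (.cut .v 16973824 (.cut .s 13910016 (.cut .s 13885440 (.pos 69 .mp ⟨189766749, 0, 0, 0, 0, 816031175, 0, 0, 0, ⟨0, 0⟩, 0⟩ 0 0) (.pos 69 .mp ⟨190381028, 0, 0, 0, 0, 828771748, 0, 0, 0, ⟨0, 0⟩, 0⟩ 0 0)) (.cut .l 1234324 (.pos 69 .mp ⟨165047102, 0, 0, 0, 0, 911645504, 0, 0, 0, ⟨0, 0⟩, 0⟩ 0 0) (.cut .d (-40960) (.cut .s 13934592 (.pos 69 .mp ⟨164787415, 0, 0, 0, 0, 897385252, 0, 0, 0, ⟨0, 0⟩, 0⟩ 0 0) (.cut .d (-45056) (.cut .s 13946880 (.pos 69 .mp ⟨172007294, 0, 0, 0, 0, 899930276, 0, 0, 0, ⟨0, 0⟩, 0⟩ 0 0) (.pos 69 .mp ⟨172497115, 0, 0, 0, 0, 905697622,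 0, 0, 0, ⟨0, 0⟩, 0⟩ 0 0)) (.pos 69 .mp ⟨165665321, 0, 0, 0, 0, 905006693, 0, 0, 0, ⟨0, 0⟩, 0⟩ 0 0))) (.pos 69 .mp ⟨179451287, 0, 0, 0, 0, 859470614, 0, 0, 0, ⟨0, 0⟩, 0⟩ 0 0)))) (.pos 70 .mp ⟨695513445, 0, 0, 0, 0, 0, 0, 0, 0, ⟨0, 0⟩, 0⟩ 0 0)))) (.cut .s 14057472 (.cut .s 14008320 (.cut .v 16908288 (.pos 58 .mp ⟨0, 0, 0, 0, 0, 1220982722, 0, 0, 0, ⟨0, 0⟩, 0⟩ 0 0) (.cut .v 16973824 (.cut .s 13983744 (.cut .l 1234324 (.pos 69 .mp ⟨166467002, 0, 0, 0, 0, 927312438, 0, 0, 0, ⟨0, 0⟩, 0⟩ 0 0) (.cut .d (-40960) (.cut .s 13971456 (.cut .d (-45056) (.pos 69 .mp ⟨172973664, 0, 0, 0, 0, 911554740, 0, 0, 0, ⟨0, 0⟩, 0⟩ 0 0) (.pos 69 .mp ⟨172591940, 0, 0, 0, 0, 901470159,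 0, 0, 0, ⟨0, 0⟩, 0⟩ 0 0)) (.pos 69 .mp ⟨166876088, 0, 0, 0, 0, 926678891, 0, 0, 0, ⟨0, 0⟩, 0⟩ 0 0)) (.pos 69 .mp ⟨180376028, 0, 0, 0, 0, 881023462, 0, 0, 0, ⟨0, 0⟩, 0⟩ 0 0))) (.cut .s 13996032 (.cut .s 13989888 (.pos 69 .mp ⟨154008003, 0, 0, 0, 0, 953486999, 0, 0, 0, ⟨0, 0⟩, 0⟩ 0 0) (.pos 69 .mp ⟨154114353, 0, 0, 0, 0, 957487133, 0, 0, 0, ⟨0, 0⟩, 0⟩ 0 0)) (.pos 69 .mp ⟨154216481, 0, 0, 0, 0, 962922826, 0, 0, 0, ⟨0, 0⟩, 0⟩ 0 0))) (.pos 70 .mp ⟨718995393, 0, 0, 0, 0, 0, 0, 0, 0, ⟨0, 0⟩, 0⟩ 0 0))) (.cut .v 16908288 (.pos 58 .mp ⟨0, 0, 0, 0, 0, 1254893803, 0, 0, 0, ⟨0, 0⟩, 0⟩ 0 0) (.cut .s 14032896 (.cut .s 14020608 (.pos 59 .mp ⟨197065293, 0, 0, 0, 0, 892602268,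 0, 0, 0, ⟨0, 0⟩, 0⟩ 0 0) (.pos 59 .mp ⟨198727918, 0, 0, 0, 0, 898307327, 0, 0, 0, ⟨0, 0⟩, 0⟩ 0 0)) (.pos 59 .mp ⟨212966792, 0, 0, 0, 0, 883767302, 0, 0, 0, ⟨0, 0⟩, 0⟩ 0 0)))) (.cut .l 1234324 (.pos 35 .mp ⟨166711471, 0, 0, 0, 0, 1033375372, 0, 0, 0, ⟨0, 0⟩, 0⟩ 0 0) (.pos 35 .mp ⟨153118325, 0, 0, 0, 0, 1025843719, 0, 0, 0, ⟨0, 0⟩, 0⟩ 0 0)))))) (.pos 36 .mp ⟨738102331, 0, 0, 0, 0, 0, 0, 0, 0, ⟨0, 0⟩, 0⟩ 0 0)) (.cut .v 17039360 (.cut .s 13959168 (.cut .s 13860864 (.cut .l 910763 (.cut .v 16908288 (.cut .d (-16384) (.pos 58 .mp ⟨144877497, 0, 0, 0, 0, 872718650, 0, 0, 0, ⟨0, 0⟩, 0⟩ 0 0) (.cut .s 13811712 (.pos 58 .mp ⟨170401653, 0, 0, 0, 0, 775156958, 0, 0, 0,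 ⟨0, 0⟩, 0⟩ 0 0) (.cut .d (-8192) (.pos 58 .mp ⟨171767225, 0, 0, 0, 0, 807765624, 0, 0, 0, ⟨0, 0⟩, 0⟩ 0 0) (.pos 58 .mp ⟨160000571, 0, 0, 0, 0, 807770421, 0, 0, 0, ⟨0, 0⟩, 0⟩ 0 0)))) (.pos 59 .mp ⟨653194726, 0, 0, 0, 0, 0, 0, 0, 0, ⟨0, 0⟩, 0⟩ 0 0)) (.pos 35 .mp ⟨174059268, 0, 0, 0, 0, 775194702, 0, 0, 0, ⟨0, 0⟩, 0⟩ 0 0)) (.cut .l 910763 (.cut .v 16908288 (.cut .d (-16384) (.cut .l 587202 (.pos 58 .mp ⟨160402991, 0, 0, 0, 0, 910773074, 0, 0, 0, ⟨0, 0⟩, 0⟩ 0 0) (.cut .s 13910016 (.pos 58 .mp ⟨146964309, 0, 0, 0, 0, 894782447, 0, 0, 0, ⟨0, 0⟩, 0⟩ 0 0) (.cut .s 13934592 (.pos 58 .mp ⟨147676482, 0, 0, 0, 0, 912504661, 0, 0, 0, ⟨0, 0⟩, 0⟩ 0 0) (.pos 58 .mp ⟨147945292,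 0, 0, 0, 0, 927295225, 0, 0, 0, ⟨0, 0⟩, 0⟩ 0 0)))) (.cut .d (-8192) (.cut .l 587202 (.cut .v 16842752 (.cut .s 13910016 (.pos 60 .mp ⟨145888511, 0, 0, 0, 0, 886915075, 0, 0, 0, ⟨0, 0⟩, 0⟩ 0 0) (.cut .s 13934592 (.pos 60 .mp ⟨146287101, 0, 0, 0, 0, 906222834, 0, 0, 0, ⟨0, 0⟩, 0⟩ 0 0) (.pos 60 .mp ⟨146402207, 0, 0, 0, 0, 921070285, 0, 0, 0, ⟨0, 0⟩, 0⟩ 0 0))) (.pos 61 .mp ⟨442460023, 0, 0, 0, 0, 377240824, 0, 0, 0, ⟨0, 0⟩, 0⟩ 0 0)) (.pos 58 .mp ⟨161057108, 0, 0, 0, 0, 0, 0, 0, 0, ⟨0, 0⟩, 0⟩ 0 0)) (.pos 58 .mp ⟨161170261, 0, 0, 0, 0, 837682581, 0, 0, 0, ⟨0, 0⟩, 0⟩ 0 0))) (.pos 59 .mp ⟨680487879, 0, 0, 0, 0, 0, 0, 0, 0, ⟨0, 0⟩, 0⟩ 0 0)) (.cut .s 13910016 (.pos 35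 .mp ⟨175910896, 0, 0, 0, 0, 815913650, 0, 0, 0, ⟨0, 0⟩, 0⟩ 0 0) (.cut .s 13934592 (.pos 35 .mp ⟨176771743, 0, 0, 0, 0, 840004339, 0, 0, 0, ⟨0, 0⟩, 0⟩ 0 0) (.cut .s 13946880 (.pos 35 .mp ⟨177185494, 0, 0, 0, 0, 853001980, 0, 0, 0, ⟨0, 0⟩, 0⟩ 0 0) (.pos 35 .mp ⟨177587960, 0, 0, 0, 0, 860102562, 0, 0, 0, ⟨0, 0⟩, 0⟩ 0 0)))))) (.cut .l 910763 (.cut .v 16908288 (.cut .d (-16384) (.cut .s 14057472 (.cut .l 587202 (.pos 58 .mp ⟨161057108, 0, 0, 0, 0, 973566796, 0, 0, 0, ⟨0, 0⟩, 0⟩ 0 0) (.cut .d (-24576) (.pos 58 .mp ⟨160981414, 0, 0, 0, 0, 963784498, 0, 0, 0, ⟨0, 0⟩, 0⟩ 0 0) (.cut .s 14008320 (.cut .s 13983744 (.pos 58 .mp ⟨148154095, 0, 0, 0, 0, 939299557, 0, 0, 0,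 ⟨0, 0⟩, 0⟩ 0 0) (.pos 58 .mp ⟨148301465, 0, 0, 0, 0, 955202072, 0, 0, 0, ⟨0, 0⟩, 0⟩ 0 0)) (.pos 58 .mp ⟨148385923, 0, 0, 0, 0, 976766876, 0, 0, 0, ⟨0, 0⟩, 0⟩ 0 0)))) (.cut .s 14106624 (.pos 58 .mp ⟨148359919, 0, 0, 0, 0, 1028275956, 0, 0, 0, ⟨0, 0⟩, 0⟩ 0 0) (.pos 58 .mp ⟨148063141, 0, 0, 0, 0, 1068954977, 0, 0, 0, ⟨0, 0⟩, 0⟩ 0 0))) (.cut .d (-8192) (.cut .l 587202 (.cut .s 14057472 (.cut .s 14008320 (.cut .v 16842752 (.cut .s 13983744 (.pos 60 .mp ⟨146459422, 0, 0, 0, 0, 936690689, 0, 0, 0, ⟨0, 0⟩, 0⟩ 0 0) (.pos 60 .mp ⟨146457363, 0, 0, 0, 0, 953095304, 0, 0, 0, ⟨0, 0⟩, 0⟩ 0 0)) (.pos 61 .mp ⟨336972078, 0, 0, 0, 0, 605239682, 0, 0, 0, ⟨0, 0⟩, 0⟩ 0 0)) (.cut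 .s 14032896 (.pos 58 .mp ⟨175307381, 0, 0, 0, 0, 913167753, 0, 0, 0, ⟨0, 0⟩, 0⟩ 0 0) (.pos 58 .mp ⟨175643179, 0, 0, 0, 0, 930216600, 0, 0, 0, ⟨0, 0⟩, 0⟩ 0 0))) (.cut .s 14106624 (.cut .s 14082048 (.pos 58 .mp ⟨175933380, 0, 0, 0, 0, 948047648, 0, 0, 0, ⟨0, 0⟩, 0⟩ 0 0) (.pos 58 .mp ⟨172515846, 0, 0, 0, 0, 974698229, 0, 0, 0, ⟨0, 0⟩, 0⟩ 0 0)) (.pos 58 .mp ⟨176518837, 0, 0, 0, 0, 992962769, 0, 0, 0, ⟨0, 0⟩, 0⟩ 0 0))) (.pos 58 .mp ⟨161957048, 0, 0, 0, 0, 488078221, 0, 0, 0, ⟨0, 0⟩, 0⟩ 0 0)) (.pos 58 .mp ⟨161983520, 0, 0, 0, 0, 892118004, 0, 0, 0, ⟨0, 0⟩, 0⟩ 0 0))) (.pos 59 .mp ⟨717583433, 0, 0, 0, 0, 0, 0, 0, 0, ⟨0, 0⟩, 0⟩ 0 0)) (.cut .s 14057472 (.cut .d (-16384)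 (.cut .s 14008320 (.cut .s 13983744 (.pos 35 .mp ⟨178358512, 0, 0, 0, 0, 871927578, 0, 0, 0, ⟨0, 0⟩, 0⟩ 0 0) (.pos 35 .mp ⟨179082329, 0, 0, 0, 0, 886677111, 0, 0, 0, ⟨0, 0⟩, 0⟩ 0 0)) (.pos 35 .mp ⟨180385278, 0, 0, 0, 0, 902230398, 0, 0, 0, ⟨0, 0⟩, 0⟩ 0 0)) (.pos 35 .mp ⟨0, 0, 0, 0, 0, 0, 0, 0, 0, ⟨0, 0⟩, 0⟩ 0 0)) (.pos 35 .mp ⟨181609624, 0, 0, 0, 0, 927619566, 0, 0, 0, ⟨0, 0⟩, 0⟩ 0 0)))) (.pos 36 .mp ⟨674462527, 0, 0, 0, 0, 0, 0, 0, 0, ⟨0, 0⟩, 0⟩ 0 0))) (.pos 34 .mp ⟨731024942, 0, 0, 0, 0, 0, 0, 0, 0, ⟨0, 0⟩, 0⟩ 0 0)) (.pos 32 .mp ⟨770704973, 0, 0, 0, 0, 0, 0, 0, 0, ⟨0, 0⟩, 0⟩ 0 0)) (.void 30 ⟨100000, 0, 0, 0, 0, 0, 0, 0, 0, ⟨0, 0⟩, 0⟩ 0 0))))))) (.void 28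 ⟨100000, 0, 0, 0, 0, 0, 0, 0, 0, ⟨0, 0⟩, 0⟩ 0 0))) (.void 26 ⟨100000, 0, 0, 0, 0, 0, 0, 0, 0, ⟨0, 0⟩, 0⟩ 0 0)))) (.void 57 ⟨100000, 0, 0, 0, 0, 0, 0, 0, 0, ⟨0, 0⟩, 0⟩ 0 0)) (.void 68 ⟨100000, 0, 0, 0, 0, 0, 0, 0, 0, ⟨0, 0⟩, 0⟩ 0 0)) (.void 87 ⟨94675, 0, 0, 5325, 0, 0, 0, 0, 0, ⟨0, 0⟩, 0⟩ 0 0))) (.cut .v 16777216 (.cut .v 8388608 (.cut .v 4194304 (.cut .v 2097152 (.cut .d 1837506 (.void 6 ⟨0, 0, 100000, 0, 0, 0, 0, 0, 0, ⟨0, 0⟩, 0⟩ 0 0) (.cut .v 1048576 (.cut .v 524288 (.pos 104 .pm ⟨0, 0, 4969518, 0, 0, 0, 0, 0, 0, ⟨0, 0⟩, 0⟩ 0 0) (.pos 105 .pm ⟨0, 24607268, 0, 0, 0, 0, 0, 0, 0, ⟨0, 0⟩, 0⟩ 0 0)) (.pos 89 .pm ⟨0, 51194102, 0, 0, 0, 0, 0, 0, 0, ⟨0, 0⟩, 0⟩ 0 0)))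 (.cut .d 1837506 (.pos 7 .pm ⟨0, 0, 138878692, 0, 0, 0, 0, 0, 0, ⟨0, 0⟩, 0⟩ 0 0) (.cut .d 2756259 (.pos 7 .pm ⟨0, 0, 0, 0, 0, 0, 0, 0, 0, ⟨0, 0⟩, 0⟩ 0 0) (.pos 7 .pm ⟨0, 119798969, 0, 0, 0, 0, 0, 0, 0, ⟨0, 0⟩, 0⟩ 0 0)))) (.cut .d 1837506 (.pos 5 .pm ⟨0, 0, 240308709, 0, 0, 0, 0, 0, 0, ⟨0, 0⟩, 0⟩ 0 0) (.cut .d 2756259 (.pos 5 .pm ⟨0, 0, 0, 0, 0, 0, 0, 0, 0, ⟨0, 0⟩, 0⟩ 0 0) (.pos 5 .pm ⟨0, 172041284, 0, 0, 0, 0, 0, 0, 0, ⟨0, 0⟩, 0⟩ 0 0)))) (.cut .d 1837506 (.pos 3 .pm ⟨0, 0, 1466945, 0, 0, 0, 0, 0, 0, ⟨0, 0⟩, 0⟩ 0 0) (.pos 3 .pm ⟨0, 199752822, 0, 0, 0, 0, 0, 0, 0, ⟨0, 0⟩, 0⟩ 0 0))) (.cut .v 268435456 (.cut .d 1837506 (.cut .v 67108864 (.cut .d 918753 (.cut .v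 33554432 (.cut .v 25165824 (.pos 25 .pp ⟨460400947, 0, 0, 0, 0, 0, 0, 0, 0, ⟨0, 0⟩, 0⟩ 0 0) (.pos 26 .pp ⟨1003906270, 0, 0, 0, 0, 0, 0, 0, 0, ⟨0, 0⟩, 0⟩ 0 0)) (.cut .d 459376 (.cut .v 50331648 (.pos 62 .pp ⟨2629830404, 0, 0, 0, 0, 0, 0, 0, 0, ⟨0, 0⟩, 0⟩ 0 0) (.void 63 ⟨100000, 0, 0, 0, 0, 0, 0, 0, 0, ⟨0, 0⟩, 0⟩ 0 0)) (.cut .v 50331648 (.pos 62 .pp ⟨1318932687, 0, 0, 0, 0, 0, 0, 0, 0, ⟨0, 0⟩, 0⟩ 0 0) (.pos 63 .pp ⟨3170279120, 0, 0, 0, 0, 0, 0, 0, 0, ⟨0, 0⟩, 0⟩ 0 0)))) (.pos 56 .pp ⟨0, 0, 0, 0, 0, 0, 0, 0, 0, ⟨0, 0⟩, 0⟩ 0 0)) (.cut .v 134217728 (.cut .v 100663296 (.cut .d 918753 (.cut .d 459376 (.void 75 ⟨100000, 0, 0, 0, 0, 0, 0, 0, 0, ⟨0, 0⟩, 0⟩ 0 0) (.cut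 .v 83886080 (.cut .d 689064 (.pos 81 .pp ⟨7129754833, 0, 0, 0, 0, 0, 0, 0, 0, ⟨0, 0⟩, 0⟩ 0 0) (.pos 81 .pp ⟨5142562861, 0, 0, 0, 0, 0, 0, 0, 0, ⟨0, 0⟩, 0⟩ 0 0)) (.cut .d 689064 (.void 82 ⟨100000, 0, 0, 0, 0, 0, 0, 0, 0, ⟨0, 0⟩, 0⟩ 0 0) (.cut .v 92274688 (.cut .v 88080384 (.pos 112 .pp ⟨6549332158, 0, 0, 0, 0, 0, 0, 0, 0, ⟨0, 0⟩, 0⟩ 0 0) (.cut .d 803908 (.cut .v 90177536 (.pos 114 .pp ⟨7714174865, 519468318, 0, 0, 0, 0, 0, 0, 0, ⟨0, 0⟩, 0⟩ 0 0) (.cut .d 746486 (.pos 115 .pp ⟨8459900781, 1711297390, 0, 0, 0, 0, 0, 0, 0, ⟨0, 0⟩, 0⟩ 0 0) (.pos 115 .pp ⟨7817653651, 1544011769, 0, 0, 0, 0, 0, 0, 0, ⟨0, 0⟩, 0⟩ 0 0))) (.pos 113 .pp ⟨6010635790, 1426806667, 0, 0, 0,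 0, 0, 0, 0, ⟨0, 0⟩, 0⟩ 0 0))) (.void 107 ⟨36122, 63878, 0, 0, 0, 0, 0, 0, 0, ⟨0, 0⟩, 0⟩ 0 0))))) (.pos 75 .pp ⟨0, 2046337307, 0, 0, 0, 0, 0, 0, 0, ⟨0, 0⟩, 0⟩ 0 0)) (.void 76 ⟨35972, 64028, 0, 0, 0, 0, 0, 0, 0, ⟨0, 0⟩, 0⟩ 0 0)) (.void 74 ⟨89393, 0, 0, 10607, 0, 0, 0, 0, 0, ⟨0, 0⟩, 0⟩ 0 0))) (.pos 67 .pp ⟨0, 243278139, 0, 0, 0, 0, 0, 0, 0, ⟨0, 0⟩, 0⟩ 0 0)) (.void 87 ⟨0, 0, 0, 100000, 0, 0, 0, 0, 0, ⟨0, 0⟩, 0⟩ 0 0)))),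
    by decide +kernel⟩

def covers22 : cell.Covers table row22.1 :=
  ⟨(.cut .d 0 (.cut .v 16777216 (.cut .v 8388608 (.void 2 ⟨0, 0, 100000, 0, 0, 0, 0, 0, 0, ⟨0, 0⟩, 0⟩ 0 0) (.cut .d (-8388608) (.void 3 ⟨100000, 0, 0, 0, 0, 0, 0, 0, 0, ⟨0, 0⟩, 0⟩ 0 0) (.cut .d (-4194304) (.void 3 ⟨100000, 0, 0, 0, 0, 0, 0, 0, 0, ⟨0, 0⟩, 0⟩ 0 0) (.cut .d (-2097152) (.void 3 ⟨100000, 0, 0, 0, 0, 0, 0, 0, 0, ⟨0, 0⟩, 0⟩ 0 0) (.cut .d (-1048576) (.void 3 ⟨0, 0, 0, 0, 0, 100000, 0, 0, 0, ⟨0, 0⟩, 0⟩ 0 0) (.cut .d (-524288) (.void 3 ⟨0, 0, 0, 0, 0, 100000, 0, 0, 0, ⟨0, 0⟩, 0⟩ 0 0) (.cut .d (-262144) (.void 3 ⟨0, 0, 0, 0, 0, 100000, 0, 0, 0, ⟨0, 0⟩, 0⟩ 0 0) (.cut .d (-131072) (.void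 3 ⟨0, 0, 0, 0, 0, 100000, 0, 0, 0, ⟨0, 0⟩, 0⟩ 0 0) (.cut .d (-65536) (.void 3 ⟨0, 0, 0, 0, 0, 100000, 0, 0, 0, ⟨0, 0⟩, 0⟩ 0 0) (.cut .v 12582912 (.cut .d (-32768) (.pos 8 .mm ⟨0, 0, 1714773, 0, 0, 750374401, 0, 0, 0, ⟨0, 0⟩, 0⟩ 0 0) (.cut .d (-16384) (.pos 8 .mm ⟨0, 0, 5393757, 0, 0, 691814374, 0, 0, 0, ⟨0, 0⟩, 0⟩ 0 0) (.cut .d (-8192) (.pos 8 .mm ⟨0, 0, 8257632, 0, 0, 686494144, 0, 0, 0, ⟨0, 0⟩, 0⟩ 0 0) (.cut .v 10485760 (.cut .v 9437184 (.pos 108 .mm ⟨0, 0, 13437809, 0, 0, 547865610, 0, 0, 0, ⟨0, 0⟩, 0⟩ 0 0) (.pos 109 .mm ⟨0, 0, 0, 0, 0, 642859263, 0, 0, 0, ⟨0, 0⟩, 0⟩ 0 0)) (.pos 11 .mm ⟨0, 0, 0, 0, 0, 727302630, 0, 0, 0, ⟨0, 0⟩, 0⟩ 0 0))))) (.pos 9 .mm ⟨0,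 0, 0, 0, 0, 1312368770, 0, 0, 0, ⟨0, 0⟩, 0⟩ 0 0))))))))))) (.cut .v 268435456 (.cut .v 67108864 (.cut .v 33554432 (.cut .d (-8388608) (.void 24 ⟨100000, 0, 0, 0, 0, 0, 0, 0, 0, ⟨0, 0⟩, 0⟩ 0 0) (.cut .d (-4194304) (.void 24 ⟨100000, 0, 0, 0, 0, 0, 0, 0, 0, ⟨0, 0⟩, 0⟩ 0 0) (.cut .v 25165824 (.cut .d (-2097152) (.void 25 ⟨100000, 0, 0, 0, 0, 0, 0, 0, 0, ⟨0, 0⟩, 0⟩ 0 0) (.cut .v 20971520 (.cut .d (-1048576) (.void 27 ⟨100000, 0, 0, 0, 0, 0, 0, 0, 0, ⟨0, 0⟩, 0⟩ 0 0) (.cut .d (-524288) (.void 27 ⟨100000, 0, 0, 0, 0, 0, 0, 0, 0, ⟨0, 0⟩, 0⟩ 0 0) (.cut .d (-262144) (.void 27 ⟨100000, 0, 0, 0, 0, 0, 0, 0, 0, ⟨0, 0⟩, 0⟩ 0 0) (.cut .d (-131072) (.void 27 ⟨100000, 0, 0,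 0, 0, 0, 0, 0, 0, ⟨0, 0⟩, 0⟩ 0 0) (.cut .d (-65536) (.void 27 ⟨100000, 0, 0, 0, 0, 0, 0, 0, 0, ⟨0, 0⟩, 0⟩ 0 0) (.cut .v 18874368 (.cut .v 17825792 (.cut .d (-32768) (.pos 31 .mp ⟨181407565, 0, 0, 0, 0, 1117237693, 0, 0, 0, ⟨0, 0⟩, 0⟩ 0 0) (.cut .d (-16384) (.pos 31 .mp ⟨232897088, 0, 0, 0, 0, 930370086, 0, 0, 0, ⟨0, 0⟩, 0⟩ 0 0) (.pos 31 .mp ⟨205254917, 0, 0, 0, 0, 950940560, 0, 0, 0, ⟨0, 0⟩, 0⟩ 0 0))) (.pos 32 .mp ⟨842024853, 0, 0, 0, 0, 0, 0, 0, 0, ⟨0, 0⟩, 0⟩ 0 0)) (.void 30 ⟨100000, 0, 0, 0, 0, 0, 0, 0, 0, ⟨0, 0⟩, 0⟩ 0 0))))))) (.void 28 ⟨100000, 0, 0, 0, 0, 0, 0, 0, 0, ⟨0, 0⟩, 0⟩ 0 0))) (.void 26 ⟨100000, 0, 0, 0, 0, 0, 0, 0, 0, ⟨0, 0⟩, 0⟩ 0 0)))) (.void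 57 ⟨100000, 0, 0, 0, 0, 0, 0, 0, 0, ⟨0, 0⟩, 0⟩ 0 0)) (.void 68 ⟨100000, 0, 0, 0, 0, 0, 0, 0, 0, ⟨0, 0⟩, 0⟩ 0 0)) (.void 87 ⟨94558, 0, 0, 5442, 0, 0, 0, 0, 0, ⟨0, 0⟩, 0⟩ 0 0))) (.cut .v 16777216 (.cut .v 8388608 (.cut .v 4194304 (.cut .v 2097152 (.cut .v 1048576 (.cut .v 524288 (.pos 104 .pm ⟨0, 0, 15215181, 0, 0, 0, 0, 0, 0, ⟨0, 0⟩, 0⟩ 0 0) (.pos 105 .pm ⟨0, 0, 10395432, 0, 0, 0, 0, 0, 0, ⟨0, 0⟩, 0⟩ 0 0)) (.pos 89 .pm ⟨0, 0, 5774619, 0, 0, 0, 0, 0, 0, ⟨0, 0⟩, 0⟩ 0 0)) (.cut .d 1553447 (.pos 7 .pm ⟨0, 0, 212663304, 0, 0, 0, 0, 0, 0, ⟨0, 0⟩, 0⟩ 0 0) (.pos 7 .pm ⟨0, 64318590, 0, 0, 0, 0, 0, 0, 0, ⟨0, 0⟩, 0⟩ 0 0))) (.cut .d 1553447 (.pos 5 .pm ⟨0, 0, 320279582,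 0, 0, 0, 0, 0, 0, ⟨0, 0⟩, 0⟩ 0 0) (.pos 5 .pm ⟨0, 107664654, 0, 0, 0, 0, 0, 0, 0, ⟨0, 0⟩, 0⟩ 0 0))) (.pos 3 .pm ⟨0, 0, 1893471, 0, 0, 0, 0, 0, 0, ⟨0, 0⟩, 0⟩ 0 0)) (.cut .v 268435456 (.cut .d 1553447 (.cut .v 67108864 (.cut .d 776723 (.cut .v 33554432 (.cut .v 25165824 (.pos 25 .pp ⟨464390757, 0, 0, 0, 0, 0, 0, 0, 0, ⟨0, 0⟩, 0⟩ 0 0) (.pos 26 .pp ⟨1161723759, 0, 0, 0, 0, 0, 0, 0, 0, ⟨0, 0⟩, 0⟩ 0 0)) (.cut .d 388361 (.cut .v 50331648 (.pos 62 .pp ⟨2970446285, 0, 0, 0, 0, 0, 0, 0, 0, ⟨0, 0⟩, 0⟩ 0 0) (.void 63 ⟨100000, 0, 0, 0, 0, 0, 0, 0, 0, ⟨0, 0⟩, 0⟩ 0 0)) (.cut .v 50331648 (.pos 62 .pp ⟨1571604883, 0, 0, 0, 0, 0, 0, 0, 0, ⟨0, 0⟩, 0⟩ 0 0) (.pos 63 .pp ⟨3710370205,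 0, 0, 0, 0, 0, 0, 0, 0, ⟨0, 0⟩, 0⟩ 0 0)))) (.pos 56 .pp ⟨0, 0, 0, 0, 0, 0, 0, 0, 0, ⟨0, 0⟩, 0⟩ 0 0)) (.cut .v 134217728 (.cut .v 100663296 (.cut .d 776723 (.cut .d 388361 (.void 75 ⟨100000, 0, 0, 0, 0, 0, 0, 0, 0, ⟨0, 0⟩, 0⟩ 0 0) (.cut .d 582542 (.pos 75 .pp ⟨13521604056, 0, 0, 0, 0, 0, 0, 0, 0, ⟨0, 0⟩, 0⟩ 0 0) (.cut .v 83886080 (.pos 81 .pp ⟨6141242608, 0, 0, 0, 0, 0, 0, 0, 0, ⟨0, 0⟩, 0⟩ 0 0) (.cut .v 92274688 (.cut .v 88080384 (.pos 112 .pp ⟨7262325320, 0, 0, 0, 0, 0, 0, 0, 0, ⟨0, 0⟩, 0⟩ 0 0) (.cut .v 90177536 (.pos 114 .pp ⟨7576461987, 0, 0, 0, 0, 0, 0, 0, 0, ⟨0, 0⟩, 0⟩ 0 0) (.cut .d 679632 (.pos 115 .pp ⟨9891873607, 1396694121, 0, 0, 0, 0, 0, 0, 0, ⟨0,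 0⟩, 0⟩ 0 0) (.cut .d 728177 (.pos 115 .pp ⟨8568621602, 1282959970, 0, 0, 0, 0, 0, 0, 0, ⟨0, 0⟩, 0⟩ 0 0) (.pos 115 .pp ⟨5029742468, 2425940617, 0, 0, 0, 0, 0, 0, 0, ⟨0, 0⟩, 0⟩ 0 0))))) (.void 107 ⟨35759, 64241, 0, 0, 0, 0, 0, 0, 0, ⟨0, 0⟩, 0⟩ 0 0))))) (.pos 75 .pp ⟨0, 2689188656, 0, 0, 0, 0, 0, 0, 0, ⟨0, 0⟩, 0⟩ 0 0)) (.void 76 ⟨35632, 64368, 0, 0, 0, 0, 0, 0, 0, ⟨0, 0⟩, 0⟩ 0 0)) (.void 74 ⟨89251, 0, 0, 10749, 0, 0, 0, 0, 0, ⟨0, 0⟩, 0⟩ 0 0))) (.pos 67 .pp ⟨0, 176674282, 0, 0, 0, 0, 0, 0, 0, ⟨0, 0⟩, 0⟩ 0 0)) (.void 87 ⟨0, 0, 0, 100000, 0, 0, 0, 0, 0, ⟨0, 0⟩, 0⟩ 0 0)))),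
    by decide +kernel⟩

def covers23 : cell.Covers table row23.1 :=
  ⟨(.cut .d 0 (.cut .v 16777216 (.cut .v 8388608 (.void 2 ⟨0, 0, 100000, 0, 0, 0, 0, 0, 0, ⟨0, 0⟩, 0⟩ 0 0) (.cut .d (-8388608) (.void 3 ⟨100000, 0, 0, 0, 0, 0, 0, 0, 0, ⟨0, 0⟩, 0⟩ 0 0) (.cut .d (-4194304) (.void 3 ⟨100000, 0, 0, 0, 0, 0, 0, 0, 0, ⟨0, 0⟩, 0⟩ 0 0) (.cut .v 12582912 (.cut .d (-2097152) (.void 8 ⟨100000, 0, 0, 0, 0, 0, 0, 0, 0, ⟨0, 0⟩, 0⟩ 0 0) (.cut .d (-1048576) (.void 8 ⟨100000, 0, 0, 0, 0, 0, 0, 0, 0, ⟨0, 0⟩, 0⟩ 0 0) (.cut .v 10485760 (.cut .d (-524288) (.void 10 ⟨0, 0, 0, 0, 0, 100000, 0, 0, 0, ⟨0, 0⟩, 0⟩ 0 0) (.cut .v 9437184 (.cut .s 14647296 (.cut .d (-262144) (.void 108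 ⟨0, 0, 0, 0, 0, 100000, 0, 0, 0, ⟨0, 0⟩, 0⟩ 0 0) (.pos 108 .mm ⟨0, 0, 27116113, 0, 0, 909281361, 0, 0, 0, ⟨0, 0⟩, 0⟩ 0 0)) (.pos 108 .mm ⟨0, 0, 35247223, 0, 0, 1109612015, 0, 0, 0, ⟨0, 0⟩, 0⟩ 0 0)) (.pos 109 .mm ⟨0, 0, 0, 0, 0, 1262910155, 0, 0, 0, ⟨0, 0⟩, 0⟩ 0 0))) (.pos 11 .mm ⟨0, 0, 0, 0, 0, 1789105043, 0, 0, 0, ⟨0, 0⟩, 0⟩ 0 0)))) (.pos 9 .mm ⟨0, 0, 0, 0, 0, 4312236530, 0, 0, 0, ⟨0, 0⟩, 0⟩ 0 0))))) (.cut .v 268435456 (.cut .v 67108864 (.cut .v 33554432 (.cut .d (-8388608) (.void 24 ⟨100000, 0, 0, 0, 0, 0, 0, 0, 0, ⟨0, 0⟩, 0⟩ 0 0) (.cut .d (-4194304) (.void 24 ⟨100000, 0, 0, 0, 0, 0, 0, 0, 0, ⟨0, 0⟩, 0⟩ 0 0) (.cut .v 25165824 (.cut .d (-2097152) (.void 25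 ⟨100000, 0, 0, 0, 0, 0, 0, 0, 0, ⟨0, 0⟩, 0⟩ 0 0) (.pos 25 .mp ⟨442119728, 0, 0, 0, 0, 4273724510, 0, 0, 0, ⟨0, 0⟩, 0⟩ 0 0)) (.void 26 ⟨100000, 0, 0, 0, 0, 0, 0, 0, 0, ⟨0, 0⟩, 0⟩ 0 0)))) (.void 57 ⟨100000, 0, 0, 0, 0, 0, 0, 0, 0, ⟨0, 0⟩, 0⟩ 0 0)) (.void 68 ⟨100000, 0, 0, 0, 0, 0, 0, 0, 0, ⟨0, 0⟩, 0⟩ 0 0)) (.void 87 ⟨87849, 0, 0, 6428, 0, 0, 0, 0, 0, ⟨0, 0⟩, 0⟩ 0 0))) (.cut .v 16777216 (.cut .v 8388608 (.cut .v 4194304 (.cut .v 2097152 (.cut .v 1048576 (.cut .v 524288 (.cut .v 262144 (.pos 120 .pm ⟨0, 0, 17428383, 0, 0, 0, 0, 0, 0, ⟨0, 0⟩, 0⟩ 0 0) (.pos 121 .pm ⟨0, 0, 16853377, 0, 0, 0, 0, 0, 0, ⟨0, 0⟩, 0⟩ 0 0)) (.pos 105 .pm ⟨0, 0, 16714487, 0, 0, 0, 0, 0, 0,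 ⟨0, 0⟩, 0⟩ 0 0)) (.pos 89 .pm ⟨0, 0, 19108528, 0, 0, 0, 0, 0, 0, ⟨0, 0⟩, 0⟩ 0 0)) (.cut .d 1328514 (.pos 7 .pm ⟨0, 0, 279905773, 0, 0, 0, 0, 0, 0, ⟨0, 0⟩, 0⟩ 0 0) (.pos 7 .pm ⟨0, 53932346, 0, 0, 0, 0, 0, 0, 0, ⟨0, 0⟩, 0⟩ 0 0))) (.cut .d 1328514 (.pos 5 .pm ⟨0, 0, 413808101, 0, 0, 0, 0, 0, 0, ⟨0, 0⟩, 0⟩ 0 0) (.pos 5 .pm ⟨0, 96433115, 0, 0, 0, 0, 0, 0, 0, ⟨0, 0⟩, 0⟩ 0 0))) (.pos 3 .pm ⟨0, 0, 12353141, 0, 0, 0, 0, 0, 0, ⟨0, 0⟩, 0⟩ 0 0)) (.cut .v 268435456 (.cut .d 1328514 (.cut .v 67108864 (.cut .d 664257 (.cut .v 33554432 (.cut .v 25165824 (.pos 25 .pp ⟨442119728, 0, 0, 0, 0, 0, 0, 0, 0, ⟨0, 0⟩, 0⟩ 0 0) (.pos 26 .pp ⟨1350177073, 0, 0, 0, 0, 0, 0, 0, 0, ⟨0, 0⟩,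 0⟩ 0 0)) (.cut .d 332128 (.pos 57 .pp ⟨5664722422, 0, 0, 0, 0, 0, 0, 0, 0, ⟨0, 0⟩, 0⟩ 0 0) (.cut .v 50331648 (.pos 62 .pp ⟨1794995088, 0, 0, 0, 0, 0, 0, 0, 0, ⟨0, 0⟩, 0⟩ 0 0) (.pos 63 .pp ⟨4355726360, 0, 0, 0, 0, 0, 0, 0, 0, ⟨0, 0⟩, 0⟩ 0 0)))) (.pos 56 .pp ⟨0, 0, 0, 0, 0, 0, 0, 0, 0, ⟨0, 0⟩, 0⟩ 0 0)) (.cut .v 134217728 (.cut .v 100663296 (.cut .d 664257 (.cut .d 332128 (.void 75 ⟨100000, 0, 0, 0, 0, 0, 0, 0, 0, ⟨0, 0⟩, 0⟩ 0 0) (.cut .v 83886080 (.pos 81 .pp ⟨7810607913, 0, 0, 0, 0, 0, 0, 0, 0, ⟨0, 0⟩, 0⟩ 0 0) (.cut .v 92274688 (.cut .d 498192 (.pos 106 .pp ⟨167772160000, 0, 0, 0, 0, 0, 0, 0, 0, ⟨0, 0⟩, 0⟩ 0 0) (.pos 106 .pp ⟨9747910923, 540125403, 0, 0, 0,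 0, 0, 0, 0, ⟨0, 0⟩, 0⟩ 0 0)) (.pos 107 .pp ⟨66190034988, 101582125012, 0, 0, 0, 0, 0, 0, 0, ⟨0, 0⟩, 0⟩ 0 0)))) (.pos 75 .pp ⟨0, 3342373280, 0, 0, 0, 0, 0, 0, 0, ⟨0, 0⟩, 0⟩ 0 0)) (.void 76 ⟨35267, 64733, 0, 0, 0, 0, 0, 0, 0, ⟨0, 0⟩, 0⟩ 0 0)) (.void 74 ⟨89097, 0, 0, 10903, 0, 0, 0, 0, 0, ⟨0, 0⟩, 0⟩ 0 0))) (.pos 67 .pp ⟨0, 92915144, 0, 0, 0, 0, 0, 0, 0, ⟨0, 0⟩, 0⟩ 0 0)) (.void 87 ⟨0, 0, 0, 100000, 0, 0, 0, 0, 0, ⟨0, 0⟩, 0⟩ 0 0)))),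
    by decide +kernel⟩

def covers24 : cell.Covers table row24.1 :=
  ⟨(.cut .d 0 (.cut .v 16777216 (.cut .v 8388608 (.void 2 ⟨0, 0, 100000, 0, 0, 0, 0, 0, 0, ⟨0, 0⟩, 0⟩ 0 0) (.cut .d (-8388608) (.void 3 ⟨100000, 0, 0, 0, 0, 0, 0, 0, 0, ⟨0, 0⟩, 0⟩ 0 0) (.cut .d (-4194304) (.void 3 ⟨100000, 0, 0, 0, 0, 0, 0, 0, 0, ⟨0, 0⟩, 0⟩ 0 0) (.cut .d (-2097152) (.void 3 ⟨100000, 0, 0, 0, 0, 0, 0, 0, 0, ⟨0, 0⟩, 0⟩ 0 0) (.cut .v 12582912 (.cut .d (-1048576) (.void 8 ⟨100000, 0, 0, 0, 0, 0, 0, 0, 0, ⟨0, 0⟩, 0⟩ 0 0) (.cut .v 10485760 (.cut .d (-524288) (.void 10 ⟨0, 0, 0, 0, 0, 100000, 0, 0, 0, ⟨0, 0⟩, 0⟩ 0 0) (.cut .v 9437184 (.pos 108 .mm ⟨0, 0, 45320183, 0, 0, 1356469877,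 0, 0, 0, ⟨0, 0⟩, 0⟩ 0 0) (.pos 109 .mm ⟨0, 0, 0, 0, 0, 1550930431, 0, 0, 0, ⟨0, 0⟩, 0⟩ 0 0))) (.pos 11 .mm ⟨0, 0, 0, 0, 0, 2205102846, 0, 0, 0, ⟨0, 0⟩, 0⟩ 0 0))) (.pos 9 .mm ⟨0, 0, 0, 0, 0, 3857557876, 0, 0, 0, ⟨0, 0⟩, 0⟩ 0 0)))))) (.cut .v 268435456 (.cut .v 67108864 (.cut .v 33554432 (.cut .d (-8388608) (.void 24 ⟨100000, 0, 0, 0, 0, 0, 0, 0, 0, ⟨0, 0⟩, 0⟩ 0 0) (.cut .d (-4194304) (.void 24 ⟨100000, 0, 0, 0, 0, 0, 0, 0, 0, ⟨0, 0⟩, 0⟩ 0 0) (.pos 24 .mp ⟨981673484, 0, 0, 0, 0, 10300215615, 0, 0, 0, ⟨0, 0⟩, 0⟩ 0 0))) (.void 57 ⟨100000, 0, 0, 0, 0, 0, 0, 0, 0, ⟨0, 0⟩, 0⟩ 0 0)) (.void 68 ⟨100000, 0, 0, 0, 0, 0, 0, 0, 0, ⟨0, 0⟩, 0⟩ 0 0)) (.void 87 ⟨94349, 0, 0,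 5651, 0, 0, 0, 0, 0, ⟨0, 0⟩, 0⟩ 0 0))) (.cut .v 16777216 (.cut .v 8388608 (.cut .v 4194304 (.cut .v 2097152 (.cut .v 1048576 (.cut .v 524288 (.cut .v 262144 (.pos 120 .pm ⟨0, 0, 19199543, 0, 0, 0, 0, 0, 0, ⟨0, 0⟩, 0⟩ 0 0) (.pos 121 .pm ⟨0, 0, 23034052, 0, 0, 0, 0, 0, 0, ⟨0, 0⟩, 0⟩ 0 0)) (.pos 105 .pm ⟨0, 0, 29570945, 0, 0, 0, 0, 0, 0, ⟨0, 0⟩, 0⟩ 0 0)) (.pos 89 .pm ⟨0, 0, 42011574, 0, 0, 0, 0, 0, 0, ⟨0, 0⟩, 0⟩ 0 0)) (.pos 7 .pm ⟨0, 0, 60777603, 0, 0, 0, 0, 0, 0, ⟨0, 0⟩, 0⟩ 0 0)) (.pos 5 .pm ⟨0, 0, 114661692, 0, 0, 0, 0, 0, 0, ⟨0, 0⟩, 0⟩ 0 0)) (.pos 3 .pm ⟨0, 0, 30078980, 0, 0, 0, 0, 0, 0, ⟨0, 0⟩, 0⟩ 0 0)) (.cut .v 268435456 (.cut .d 1113533 (.cut .v 67108864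 (.cut .d 556766 (.cut .v 33554432 (.pos 24 .pp ⟨926275286, 0, 0, 0, 0, 0, 0, 0, 0, ⟨0, 0⟩, 0⟩ 0 0) (.cut .v 50331648 (.pos 62 .pp ⟨3126648533, 0, 0, 0, 0, 0, 0, 0, 0, ⟨0, 0⟩, 0⟩ 0 0) (.pos 63 .pp ⟨6293578757, 0, 0, 0, 0, 0, 0, 0, 0, ⟨0, 0⟩, 0⟩ 0 0))) (.pos 56 .pp ⟨0, 0, 0, 0, 0, 0, 0, 0, 0, ⟨0, 0⟩, 0⟩ 0 0)) (.cut .v 134217728 (.cut .v 100663296 (.cut .d 556766 (.cut .v 83886080 (.pos 81 .pp ⟨10143534083, 0, 0, 0, 0, 0, 0, 0, 0, ⟨0, 0⟩, 0⟩ 0 0) (.cut .v 92274688 (.cut .d 278383 (.void 106 ⟨100000, 0, 0, 0, 0, 0, 0, 0, 0, ⟨0, 0⟩, 0⟩ 0 0) (.pos 106 .pp ⟨11929454269, 851615434, 0, 0, 0, 0, 0, 0, 0, ⟨0, 0⟩, 0⟩ 0 0)) (.pos 107 .pp ⟨67384501663, 100387658337, 0, 0,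 0, 0, 0, 0, 0, ⟨0, 0⟩, 0⟩ 0 0))) (.pos 75 .pp ⟨0, 4227782765, 0, 0, 0, 0, 0, 0, 0, ⟨0, 0⟩, 0⟩ 0 0)) (.void 76 ⟨35008, 64992, 0, 0, 0, 0, 0, 0, 0, ⟨0, 0⟩, 0⟩ 0 0)) (.void 74 ⟨88986, 0, 0, 11014, 0, 0, 0, 0, 0, ⟨0, 0⟩, 0⟩ 0 0))) (.pos 67 .pp ⟨0, 0, 0, 0, 0, 0, 0, 0, 0, ⟨0, 0⟩, 0⟩ 0 0)) (.void 87 ⟨0, 0, 0, 100000, 0, 0, 0, 0, 0, ⟨0, 0⟩, 0⟩ 0 0)))),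
    by decide +kernel⟩

def covers25 : cell.Covers table row25.1 :=
  ⟨(.cut .d 0 (.cut .v 16777216 (.cut .v 8388608 (.void 2 ⟨0, 0, 100000, 0, 0, 0, 0, 0, 0, ⟨0, 0⟩, 0⟩ 0 0) (.cut .d (-8388608) (.void 3 ⟨100000, 0, 0, 0, 0, 0, 0, 0, 0, ⟨0, 0⟩, 0⟩ 0 0) (.cut .d (-4194304) (.void 3 ⟨100000, 0, 0, 0, 0, 0, 0, 0, 0, ⟨0, 0⟩, 0⟩ 0 0) (.cut .d (-2097152) (.void 3 ⟨100000, 0, 0, 0, 0, 0, 0, 0, 0, ⟨0, 0⟩, 0⟩ 0 0) (.cut .v 12582912 (.cut .d (-1048576) (.void 8 ⟨100000, 0, 0, 0, 0, 0, 0, 0, 0, ⟨0, 0⟩, 0⟩ 0 0) (.cut .v 10485760 (.cut .d (-524288) (.void 10 ⟨0, 0, 0, 0, 0, 100000, 0, 0, 0, ⟨0, 0⟩, 0⟩ 0 0) (.cut .v 9437184 (.cut .s 15171584 (.pos 108 .mm ⟨0, 0, 67679958,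 0, 0, 1460335297, 0, 0, 0, ⟨0, 0⟩, 0⟩ 0 0) (.pos 108 .mm ⟨0, 0, 81028622, 0, 0, 1585533110, 0, 0, 0, ⟨0, 0⟩, 0⟩ 0 0)) (.pos 109 .mm ⟨0, 0, 0, 0, 0, 1835867950, 0, 0, 0, ⟨0, 0⟩, 0⟩ 0 0))) (.pos 11 .mm ⟨0, 0, 0, 0, 0, 2619071947, 0, 0, 0, ⟨0, 0⟩, 0⟩ 0 0))) (.pos 9 .mm ⟨0, 0, 0, 0, 0, 4602390128, 0, 0, 0, ⟨0, 0⟩, 0⟩ 0 0)))))) (.cut .v 268435456 (.cut .v 67108864 (.cut .v 33554432 (.cut .d (-8388608) (.void 24 ⟨100000, 0, 0, 0, 0, 0, 0, 0, 0, ⟨0, 0⟩, 0⟩ 0 0) (.pos 24 .mp ⟨930113737, 0, 0, 0, 0, 20583470491, 0, 0, 0, ⟨0, 0⟩, 0⟩ 0 0)) (.void 57 ⟨100000, 0, 0, 0, 0, 0, 0, 0, 0, ⟨0, 0⟩, 0⟩ 0 0)) (.void 68 ⟨100000, 0, 0, 0, 0, 0, 0, 0, 0, ⟨0, 0⟩, 0⟩ 0 0)) (.void 87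 ⟨94279, 0, 0, 5721, 0, 0, 0, 0, 0, ⟨0, 0⟩, 0⟩ 0 0))) (.cut .v 16777216 (.cut .v 8388608 (.cut .v 4194304 (.cut .v 2097152 (.cut .v 1048576 (.cut .v 524288 (.cut .v 262144 (.pos 120 .pm ⟨0, 0, 21591118, 0, 0, 0, 0, 0, 0, ⟨0, 0⟩, 0⟩ 0 0) (.pos 121 .pm ⟨0, 0, 30921882, 0, 0, 0, 0, 0, 0, ⟨0, 0⟩, 0⟩ 0 0)) (.pos 105 .pm ⟨0, 0, 44721779, 0, 0, 0, 0, 0, 0, ⟨0, 0⟩, 0⟩ 0 0)) (.pos 89 .pm ⟨0, 0, 66313551, 0, 0, 0, 0, 0, 0, ⟨0, 0⟩, 0⟩ 0 0)) (.pos 7 .pm ⟨0, 0, 102526246, 0, 0, 0, 0, 0, 0, ⟨0, 0⟩, 0⟩ 0 0)) (.pos 5 .pm ⟨0, 0, 218689865, 0, 0, 0, 0, 0, 0, ⟨0, 0⟩, 0⟩ 0 0)) (.pos 3 .pm ⟨0, 0, 49143696, 0, 0, 0, 0, 0, 0, ⟨0, 0⟩, 0⟩ 0 0)) (.cut .v 268435456 (.cut .d 948278 (.cut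 .v 67108864 (.cut .v 33554432 (.pos 24 .pp ⟨887481812, 0, 0, 0, 0, 0, 0, 0, 0, ⟨0, 0⟩, 0⟩ 0 0) (.cut .d 474139 (.cut .v 50331648 (.pos 62 .pp ⟨3544725530, 0, 0, 0, 0, 0, 0, 0, 0, ⟨0, 0⟩, 0⟩ 0 0) (.pos 63 .pp ⟨7098285001, 0, 0, 0, 0, 0, 0, 0, 0, ⟨0, 0⟩, 0⟩ 0 0)) (.pos 57 .pp ⟨0, 0, 0, 0, 0, 0, 0, 0, 0, ⟨0, 0⟩, 0⟩ 0 0))) (.cut .v 134217728 (.cut .v 100663296 (.cut .d 474139 (.cut .v 83886080 (.pos 81 .pp ⟨11412807120, 0, 0, 0, 0, 0, 0, 0, 0, ⟨0, 0⟩, 0⟩ 0 0) (.cut .v 92274688 (.pos 106 .pp ⟨13728338449, 0, 0, 0, 0, 0, 0, 0, 0, ⟨0, 0⟩, 0⟩ 0 0) (.cut .d 237069 (.void 107 ⟨100000, 0, 0, 0, 0, 0, 0, 0, 0, ⟨0, 0⟩, 0⟩ 0 0) (.pos 107 .pp ⟨18204227535, 9797514509, 0,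 0, 0, 0, 0, 0, 0, ⟨0, 0⟩, 0⟩ 0 0)))) (.pos 75 .pp ⟨0, 5220042284, 0, 0, 0, 0, 0, 0, 0, ⟨0, 0⟩, 0⟩ 0 0)) (.void 76 ⟨34822, 65178, 0, 0, 0, 0, 0, 0, 0, ⟨0, 0⟩, 0⟩ 0 0)) (.void 74 ⟨88906, 0, 0, 11094, 0, 0, 0, 0, 0, ⟨0, 0⟩, 0⟩ 0 0))) (.pos 67 .pp ⟨0, 746115125, 0, 0, 0, 0, 0, 0, 0, ⟨0, 0⟩, 0⟩ 0 0)) (.void 87 ⟨0, 0, 0, 100000, 0, 0, 0, 0, 0, ⟨0, 0⟩, 0⟩ 0 0)))),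
    by decide +kernel⟩

def covers26 : cell.Covers table row26.1 :=
  ⟨(.cut .d 0 (.cut .v 16777216 (.cut .v 8388608 (.void 2 ⟨0, 0, 100000, 0, 0, 0, 0, 0, 0, ⟨0, 0⟩, 0⟩ 0 0) (.cut .d (-8388608) (.void 3 ⟨100000, 0, 0, 0, 0, 0, 0, 0, 0, ⟨0, 0⟩, 0⟩ 0 0) (.cut .d (-4194304) (.void 3 ⟨100000, 0, 0, 0, 0, 0, 0, 0, 0, ⟨0, 0⟩, 0⟩ 0 0) (.cut .d (-2097152) (.void 3 ⟨100000, 0, 0, 0, 0, 0, 0, 0, 0, ⟨0, 0⟩, 0⟩ 0 0) (.cut .v 12582912 (.cut .d (-1048576) (.void 8 ⟨100000, 0, 0, 0, 0, 0, 0, 0, 0, ⟨0, 0⟩, 0⟩ 0 0) (.cut .v 10485760 (.cut .d (-524288) (.void 10 ⟨76900, 0, 23100, 0, 0, 0, 0, 0, 0, ⟨0, 0⟩, 0⟩ 0 0) (.cut .v 9437184 (.cut .s 15400960 (.pos 108 .mm ⟨0, 0, 92602933,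 0, 0, 1789830186, 0, 0, 0, ⟨0, 0⟩, 0⟩ 0 0) (.cut .v 8912896 (.pos 118 .mm ⟨0, 0, 124739476, 0, 0, 1903155973, 0, 0, 0, ⟨0, 0⟩, 0⟩ 0 0) (.pos 119 .mm ⟨0, 0, 0, 0, 0, 2136565497, 0, 0, 0, ⟨0, 0⟩, 0⟩ 0 0))) (.pos 109 .mm ⟨0, 0, 0, 0, 0, 2368528070, 0, 0, 0, ⟨0, 0⟩, 0⟩ 0 0))) (.pos 11 .mm ⟨0, 0, 0, 0, 0, 3394232082, 0, 0, 0, ⟨0, 0⟩, 0⟩ 0 0))) (.pos 9 .mm ⟨0, 0, 0, 0, 0, 5998993196, 0, 0, 0, ⟨0, 0⟩, 0⟩ 0 0)))))) (.cut .v 268435456 (.cut .v 67108864 (.cut .v 33554432 (.cut .d (-8388608) (.void 24 ⟨100000, 0, 0, 0, 0, 0, 0, 0, 0, ⟨0, 0⟩, 0⟩ 0 0) (.pos 24 .mp ⟨843261222, 0, 0, 0, 0, 27782362690, 0, 0, 0, ⟨0, 0⟩, 0⟩ 0 0)) (.void 57 ⟨100000, 0, 0, 0, 0, 0, 0, 0, 0, ⟨0,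 0⟩, 0⟩ 0 0)) (.void 68 ⟨100000, 0, 0, 0, 0, 0, 0, 0, 0, ⟨0, 0⟩, 0⟩ 0 0)) (.void 87 ⟨74241, 0, 0, 5834, 0, 55850, 0, 0, 0, ⟨0, 0⟩, 0⟩ 0 0))) (.cut .v 16777216 (.cut .v 8388608 (.cut .v 4194304 (.cut .v 2097152 (.cut .v 1048576 (.cut .v 524288 (.cut .v 262144 (.pos 120 .pm ⟨0, 0, 24934130, 0, 0, 0, 0, 0, 0, ⟨0, 0⟩, 0⟩ 0 0) (.pos 121 .pm ⟨0, 0, 41051725, 0, 0, 0, 0, 0, 0, ⟨0, 0⟩, 0⟩ 0 0)) (.pos 105 .pm ⟨0, 0, 60611734, 0, 0, 0, 0, 0, 0, ⟨0, 0⟩, 0⟩ 0 0)) (.pos 89 .pm ⟨0, 0, 91981055, 0, 0, 0, 0, 0, 0, ⟨0, 0⟩, 0⟩ 0 0)) (.pos 7 .pm ⟨0, 0, 152012837, 0, 0, 0, 0, 0, 0, ⟨0, 0⟩, 0⟩ 0 0)) (.pos 5 .pm ⟨0, 0, 328394944, 0, 0, 0, 0, 0, 0, ⟨0, 0⟩, 0⟩ 0 0)) (.pos 3 .pm ⟨0,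 0, 70615048, 0, 0, 0, 0, 0, 0, ⟨0, 0⟩, 0⟩ 0 0)) (.cut .v 268435456 (.cut .d 828061 (.cut .v 67108864 (.cut .v 33554432 (.pos 24 .pp ⟨843261222, 0, 0, 0, 0, 0, 0, 0, 0, ⟨0, 0⟩, 0⟩ 0 0) (.cut .v 50331648 (.pos 62 .pp ⟨3131179030, 0, 0, 0, 0, 0, 0, 0, 0, ⟨0, 0⟩, 0⟩ 0 0) (.cut .d 414030 (.pos 63 .pp ⟨8123047287, 0, 0, 0, 0, 0, 0, 0, 0, ⟨0, 0⟩, 0⟩ 0 0) (.pos 63 .pp ⟨0, 0, 0, 0, 0, 0, 0, 0, 0, ⟨0, 0⟩, 0⟩ 0 0)))) (.cut .v 134217728 (.cut .v 100663296 (.cut .d 414030 (.cut .v 83886080 (.pos 81 .pp ⟨13138952622, 0, 0, 0, 0, 0, 0, 0, 0, ⟨0, 0⟩, 0⟩ 0 0) (.cut .d 207015 (.void 82 ⟨100000, 0, 0, 0, 0, 0, 0, 0, 0, ⟨0, 0⟩, 0⟩ 0 0) (.cut .v 92274688 (.pos 106 .pp ⟨14529868683,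 0, 0, 0, 0, 0, 0, 0, 0, ⟨0, 0⟩, 0⟩ 0 0) (.cut .d 310522 (.pos 107 .pp ⟨167772160000, 0, 0, 0, 0, 0, 0, 0, 0, ⟨0, 0⟩, 0⟩ 0 0) (.pos 107 .pp ⟨17867593170, 7820389627, 0, 0, 0, 0, 0, 0, 0, ⟨0, 0⟩, 0⟩ 0 0))))) (.pos 75 .pp ⟨0, 6249701101, 0, 0, 0, 0, 0, 0, 0, ⟨0, 0⟩, 0⟩ 0 0)) (.void 76 ⟨34515, 65485, 0, 0, 0, 0, 0, 0, 0, ⟨0, 0⟩, 0⟩ 0 0)) (.void 74 ⟨88772, 0, 0, 11228, 0, 0, 0, 0, 0, ⟨0, 0⟩, 0⟩ 0 0))) (.pos 67 .pp ⟨0, 2751184555, 0, 0, 0, 0, 0, 0, 0, ⟨0, 0⟩, 0⟩ 0 0)) (.void 87 ⟨0, 0, 0, 100000, 0, 0, 0, 0, 0, ⟨0, 0⟩, 0⟩ 0 0)))),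
    by decide +kernel⟩

def covers27 : cell.Covers table row27.1 :=
  ⟨(.cut .d 0 (.cut .v 16777216 (.cut .v 8388608 (.void 2 ⟨0, 0, 100000, 0, 0, 0, 0, 0, 0, ⟨0, 0⟩, 0⟩ 0 0) (.cut .d (-8388608) (.pos 3 .mm ⟨167772160000, 0, 0, 0, 0, 0, 0, 0, 0, ⟨0, 0⟩, 0⟩ 0 0) (.cut .d (-4194304) (.void 3 ⟨100000, 0, 0, 0, 0, 0, 0, 0, 0, ⟨0, 0⟩, 0⟩ 0 0) (.cut .d (-2097152) (.void 3 ⟨100000, 0, 0, 0, 0, 0, 0, 0, 0, ⟨0, 0⟩, 0⟩ 0 0) (.cut .v 12582912 (.cut .d (-1048576) (.void 8 ⟨100000, 0, 0, 0, 0, 0, 0, 0, 0, ⟨0, 0⟩, 0⟩ 0 0) (.cut .v 10485760 (.cut .d (-524288) (.void 10 ⟨100000, 0, 0, 0, 0, 0, 0, 0, 0, ⟨0, 0⟩, 0⟩ 0 0) (.cut .v 9437184 (.cut .v 8912896 (.cut .v 8650752 (.void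 126 ⟨0, 0, 100000, 0, 0, 0, 0, 0, 0, ⟨0, 0⟩, 0⟩ 0 0) (.cut .s 15654912 (.pos 127 .mm ⟨0, 0, 139109173, 0, 0, 2189494576, 0, 0, 0, ⟨0, 0⟩, 0⟩ 0 0) (.cut .d (-262144) (.void 127 ⟨0, 0, 0, 0, 0, 100000, 0, 0, 0, ⟨0, 0⟩, 0⟩ 0 0) (.pos 127 .mm ⟨0, 0, 181981811, 0, 0, 2291598785, 0, 0, 0, ⟨0, 0⟩, 0⟩ 0 0)))) (.pos 119 .mm ⟨0, 0, 0, 0, 0, 2860828609, 0, 0, 0, ⟨0, 0⟩, 0⟩ 0 0)) (.pos 109 .mm ⟨0, 0, 0, 0, 0, 3171422264, 0, 0, 0, ⟨0, 0⟩, 0⟩ 0 0))) (.pos 11 .mm ⟨0, 0, 0, 0, 0, 4554140673, 0, 0, 0, ⟨0, 0⟩, 0⟩ 0 0))) (.pos 9 .mm ⟨0, 0, 0, 0, 0, 8069880676, 0, 0, 0, ⟨0, 0⟩, 0⟩ 0 0)))))) (.cut .v 268435456 (.cut .v 67108864 (.cut .v 33554432 (.cut .d (-8388608) (.void 24 ⟨100000,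 0, 0, 0, 0, 0, 0, 0, 0, ⟨0, 0⟩, 0⟩ 0 0) (.pos 24 .mp ⟨618741714, 0, 0, 0, 0, 38466208186, 0, 0, 0, ⟨0, 0⟩, 0⟩ 0 0)) (.void 57 ⟨100000, 0, 0, 0, 0, 0, 0, 0, 0, ⟨0, 0⟩, 0⟩ 0 0)) (.void 68 ⟨100000, 0, 0, 0, 0, 0, 0, 0, 0, ⟨0, 0⟩, 0⟩ 0 0)) (.void 87 ⟨89382, 0, 0, 5739, 0, 0, 0, 0, 0, ⟨0, 0⟩, 0⟩ 0 0))) (.cut .v 16777216 (.cut .v 8388608 (.cut .v 4194304 (.cut .v 2097152 (.cut .v 1048576 (.cut .v 524288 (.cut .v 262144 (.cut .v 131072 (.pos 130 .pm ⟨0, 0, 24557227, 0, 0, 0, 0, 0, 0, ⟨0, 0⟩, 0⟩ 0 0) (.pos 131 .pm ⟨0, 0, 39776765, 0, 0, 0, 0, 0, 0, ⟨0, 0⟩, 0⟩ 0 0)) (.pos 121 .pm ⟨0, 0, 58983228, 0, 0, 0, 0, 0, 0, ⟨0, 0⟩, 0⟩ 0 0)) (.pos 105 .pm ⟨0, 0, 91259204, 0, 0,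 0, 0, 0, 0, ⟨0, 0⟩, 0⟩ 0 0)) (.pos 89 .pm ⟨0, 0, 149145435, 0, 0, 0, 0, 0, 0, ⟨0, 0⟩, 0⟩ 0 0)) (.pos 7 .pm ⟨0, 0, 262852264, 0, 0, 0, 0, 0, 0, ⟨0, 0⟩, 0⟩ 0 0)) (.pos 5 .pm ⟨0, 0, 553353950, 0, 0, 0, 0, 0, 0, ⟨0, 0⟩, 0⟩ 0 0)) (.pos 3 .pm ⟨0, 0, 113190304, 0, 0, 0, 0, 0, 0, ⟨0, 0⟩, 0⟩ 0 0)) (.cut .v 268435456 (.cut .v 67108864 (.cut .v 33554432 (.pos 24 .pp ⟨618741714, 0, 0, 0, 0, 0, 0, 0, 0, ⟨0, 0⟩, 0⟩ 0 0) (.cut .d 672505 (.cut .v 50331648 (.pos 62 .pp ⟨3837642553, 0, 0, 0, 0, 0, 0, 0, 0, ⟨0, 0⟩, 0⟩ 0 0) (.cut .d 336252 (.pos 63 .pp ⟨9828324701, 0, 0, 0, 0, 0, 0, 0, 0, ⟨0, 0⟩, 0⟩ 0 0) (.pos 63 .pp ⟨0, 0, 0, 0, 0, 0, 0, 0, 0, ⟨0, 0⟩, 0⟩ 0 0))) (.pos 57 .pp ⟨0,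 0, 0, 0, 0, 0, 0, 0, 0, ⟨0, 0⟩, 0⟩ 0 0))) (.cut .v 134217728 (.cut .v 100663296 (.cut .d 672505 (.cut .d 336252 (.cut .v 83886080 (.pos 81 .pp ⟨15928883215, 0, 0, 0, 0, 0, 0, 0, 0, ⟨0, 0⟩, 0⟩ 0 0) (.cut .d 168126 (.void 82 ⟨100000, 0, 0, 0, 0, 0, 0, 0, 0, ⟨0, 0⟩, 0⟩ 0 0) (.cut .v 92274688 (.pos 106 .pp ⟨17365246351, 0, 0, 0, 0, 0, 0, 0, 0, ⟨0, 0⟩, 0⟩ 0 0) (.cut .d 252189 (.pos 107 .pp ⟨26676050387, 10060704629, 0, 0, 0, 0, 0, 0, 0, ⟨0, 0⟩, 0⟩ 0 0) (.pos 107 .pp ⟨21788065182, 10572349152, 0, 0, 0, 0, 0, 0, 0, ⟨0, 0⟩, 0⟩ 0 0))))) (.pos 75 .pp ⟨0, 8291949352, 0, 0, 0, 0, 0, 0, 0, ⟨0, 0⟩, 0⟩ 0 0)) (.void 75 ⟨0, 0, 0, 100000, 0, 0, 0, 0, 0, ⟨0, 0⟩, 0⟩ 0 0)) (.void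 76 ⟨33827, 66173, 0, 0, 0, 0, 0, 0, 0, ⟨0, 0⟩, 0⟩ 0 0)) (.void 74 ⟨12517, 0, 0, 87483, 0, 0, 0, 0, 0, ⟨0, 0⟩, 0⟩ 0 0))) (.void 87 ⟨0, 0, 0, 100000, 0, 0, 0, 0, 0, ⟨0, 0⟩, 0⟩ 0 0)))),
    by decide +kernel⟩

def covers28 : cell.Covers table row28.1 :=
  ⟨(.cut .d 0 (.cut .v 16777216 (.cut .v 8388608 (.void 2 ⟨0, 0, 100000, 0, 0, 0, 0, 0, 0, ⟨0, 0⟩, 0⟩ 0 0) (.cut .d (-8388608) (.void 3 ⟨99440, 0, 0, 0, 0, 0, 0, 0, 0, ⟨0, 0⟩, 0⟩ 0 0) (.cut .d (-4194304) (.void 3 ⟨100000, 0, 0, 0, 0, 0, 0, 0, 0, ⟨0, 0⟩, 0⟩ 0 0) (.cut .d (-2097152) (.void 3 ⟨100000, 0, 0, 0, 0, 0, 0, 0, 0, ⟨0, 0⟩, 0⟩ 0 0) (.cut .v 12582912 (.cut .d (-1048576) (.void 8 ⟨100000, 0, 0, 0, 0, 0, 0,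 0, 0, ⟨0, 0⟩, 0⟩ 0 0) (.cut .v 10485760 (.cut .d (-524288) (.void 10 ⟨100000, 0, 0, 0, 0, 0, 0, 0, 0, ⟨0, 0⟩, 0⟩ 0 0) (.cut .v 9437184 (.cut .s 15876096 (.cut .d (-262144) (.void 108 ⟨0, 0, 0, 0, 0, 100000, 0, 0, 0, ⟨0, 0⟩, 0⟩ 0 0) (.cut .v 8912896 (.pos 118 .mm ⟨0, 0, 217662239, 0, 0, 2615033790, 0, 0, 0, ⟨0, 0⟩, 0⟩ 0 0) (.pos 119 .mm ⟨0, 0, 0, 0, 0, 2955139308, 0, 0, 0, ⟨0, 0⟩, 0⟩ 0 0))) (.pos 108 .mm ⟨0, 0, 270893828, 0, 0, 3591079889, 0, 0, 0, ⟨0, 0⟩, 0⟩ 0 0)) (.pos 109 .mm ⟨0, 0, 0, 0, 0, 4249380183, 0, 0, 0, ⟨0, 0⟩, 0⟩ 0 0))) (.pos 11 .mm ⟨0, 0, 0, 0, 0, 6099285032, 0, 0, 0, ⟨0, 0⟩, 0⟩ 0 0))) (.pos 9 .mm ⟨0, 0, 0, 0, 0, 10793394023, 0, 0, 0, ⟨0, 0⟩, 0⟩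 0 0)))))) (.cut .v 268435456 (.cut .v 67108864 (.cut .v 33554432 (.cut .d (-8388608) (.void 24 ⟨100000, 0, 0, 0, 0, 0, 0, 0, 0, ⟨0, 0⟩, 0⟩ 0 0) (.pos 24 .mp ⟨219968308, 0, 0, 0, 0, 52361890524, 0, 0, 0, ⟨0, 0⟩, 0⟩ 0 0)) (.void 57 ⟨100000, 0, 0, 0, 0, 0, 0, 0, 0, ⟨0, 0⟩, 0⟩ 0 0)) (.void 68 ⟨100000, 0, 0, 0, 0, 0, 0, 0, 0, ⟨0, 0⟩, 0⟩ 0 0)) (.void 87 ⟨94031, 0, 0, 5969, 0, 0, 0, 0, 0, ⟨0, 0⟩, 0⟩ 0 0))) (.cut .v 16777216 (.cut .v 8388608 (.cut .v 4194304 (.cut .v 2097152 (.cut .v 1048576 (.cut .v 524288 (.cut .v 262144 (.cut .v 131072 (.pos 130 .pm ⟨0, 0, 30669162, 0, 0, 0, 0, 0, 0, ⟨0, 0⟩, 0⟩ 0 0) (.pos 131 .pm ⟨0, 0, 54442919, 0, 0, 0, 0, 0, 0, ⟨0, 0⟩, 0⟩ 0 0))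 (.pos 121 .pm ⟨0, 0, 85217510, 0, 0, 0, 0, 0, 0, ⟨0, 0⟩, 0⟩ 0 0)) (.pos 105 .pm ⟨0, 0, 140462366, 0, 0, 0, 0, 0, 0, ⟨0, 0⟩, 0⟩ 0 0)) (.pos 89 .pm ⟨0, 0, 241555047, 0, 0, 0, 0, 0, 0, ⟨0, 0⟩, 0⟩ 0 0)) (.pos 7 .pm ⟨0, 0, 430255810, 0, 0, 0, 0, 0, 0, ⟨0, 0⟩, 0⟩ 0 0)) (.pos 5 .pm ⟨0, 0, 918938279, 0, 0, 0, 0, 0, 0, ⟨0, 0⟩, 0⟩ 0 0)) (.pos 3 .pm ⟨0, 0, 171756319, 0, 0, 0, 0, 0, 0, ⟨0, 0⟩, 0⟩ 0 0)) (.cut .v 268435456 (.cut .v 67108864 (.cut .v 33554432 (.pos 24 .pp ⟨219968308, 0, 0, 0, 0, 0, 0, 0, 0, ⟨0, 0⟩, 0⟩ 0 0) (.cut .v 50331648 (.pos 62 .pp ⟨3640891900, 0, 0, 0, 0, 0, 0, 0, 0, ⟨0, 0⟩, 0⟩ 0 0) (.cut .d 531367 (.pos 63 .pp ⟨9464958119, 0, 0, 0, 0, 0, 0, 0, 0, ⟨0,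 0⟩, 0⟩ 0 0) (.pos 63 .pp ⟨0, 0, 0, 0, 0, 0, 0, 0, 0, ⟨0, 0⟩, 0⟩ 0 0)))) (.cut .v 134217728 (.cut .v 100663296 (.cut .d 531367 (.cut .d 265683 (.cut .v 83886080 (.pos 81 .pp ⟨19890876132, 0, 0, 0, 0, 0, 0, 0, 0, ⟨0, 0⟩, 0⟩ 0 0) (.cut .d 132841 (.void 82 ⟨100000, 0, 0, 0, 0, 0, 0, 0, 0, ⟨0, 0⟩, 0⟩ 0 0) (.cut .v 92274688 (.pos 106 .pp ⟨21434787734, 0, 0, 0, 0, 0, 0, 0, 0, ⟨0, 0⟩, 0⟩ 0 0) (.cut .d 199262 (.pos 107 .pp ⟨33944971918, 15151606911, 0, 0, 0, 0, 0, 0, 0, ⟨0, 0⟩, 0⟩ 0 0) (.cut .s 15876096 (.pos 107 .pp ⟨27252021332, 15151810389, 0, 0, 0, 0, 0, 0, 0, ⟨0, 0⟩, 0⟩ 0 0) (.cut .v 96468992 (.pos 122 .pp ⟨28123179306, 14776675832, 0, 0, 0, 0, 0, 0, 0, ⟨0, 0⟩,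 0⟩ 0 0) (.void 123 ⟨31316, 68684, 0, 0, 0, 0, 0, 0, 0, ⟨0, 0⟩, 0⟩ 0 0))))))) (.pos 75 .pp ⟨0, 11627811573, 0, 0, 0, 0, 0, 0, 0, ⟨0, 0⟩, 0⟩ 0 0)) (.void 75 ⟨0, 0, 0, 100000, 0, 0, 0, 0, 0, ⟨0, 0⟩, 0⟩ 0 0)) (.void 76 ⟨33731, 66269, 0, 0, 0, 0, 0, 0, 0, ⟨0, 0⟩, 0⟩ 0 0)) (.void 74 ⟨0, 0, 0, 100000, 0, 0, 0, 0, 0, ⟨0, 0⟩, 0⟩ 0 0))) (.void 87 ⟨0, 0, 0, 100000, 0, 0, 0, 0, 0, ⟨0, 0⟩, 0⟩ 0 0)))),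
    by decide +kernel⟩

def covers29 : cell.Covers table row29.1 :=
  ⟨(.cut .d 0 (.cut .v 16777216 (.cut .v 8388608 (.void 2 ⟨0, 0, 100000, 0, 0, 0, 0, 0, 0, ⟨0, 0⟩, 0⟩ 0 0) (.cut .d (-8388608) (.void 3 ⟨100287, 0, 0, 0, 0, 0, 0, 0, 0, ⟨0, 0⟩, 0⟩ 0 0) (.cut .d (-4194304) (.void 3 ⟨100000, 0, 0, 0, 0, 0, 0, 0, 0, ⟨0, 0⟩, 0⟩ 0 0) (.cut .d (-2097152) (.void 3 ⟨100000, 0, 0, 0, 0, 0, 0, 0, 0, ⟨0, 0⟩, 0⟩ 0 0) (.cut .v 12582912 (.cut .d (-1048576) (.void 8 ⟨100000, 0, 0, 0, 0, 0, 0, 0, 0, ⟨0, 0⟩, 0⟩ 0 0) (.cut .v 10485760 (.cut .d (-524288) (.void 10 ⟨100000, 0, 0, 0, 0, 0, 0, 0, 0, ⟨0, 0⟩, 0⟩ 0 0) (.cut .s 16056320 (.cut .v 9437184 (.pos 108 .mm ⟨0, 0, 331529478,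 0, 0, 4114180240, 0, 0, 0, ⟨0, 0⟩, 0⟩ 0 0) (.pos 109 .mm ⟨0, 0, 0, 0, 0, 4900147874, 0, 0, 0, ⟨0, 0⟩, 0⟩ 0 0)) (.pos 10 .mm ⟨0, 0, 394624561, 0, 0, 5445818098, 0, 0, 0, ⟨0, 0⟩, 0⟩ 0 0))) (.pos 11 .mm ⟨0, 0, 0, 0, 0, 8270393154, 0, 0, 0, ⟨0, 0⟩, 0⟩ 0 0))) (.pos 9 .mm ⟨0, 0, 0, 0, 0, 14583812014, 0, 0, 0, ⟨0, 0⟩, 0⟩ 0 0)))))) (.cut .v 268435456 (.cut .v 67108864 (.cut .v 33554432 (.pos 24 .mp ⟨0, 0, 0, 0, 0, 124060544389, 0, 0, 0, ⟨0, 0⟩, 0⟩ 0 0) (.void 57 ⟨100000, 0, 0, 0, 0, 0, 0, 0, 0, ⟨0, 0⟩, 0⟩ 0 0)) (.void 68 ⟨100000, 0, 0, 0, 0, 0, 0, 0, 0, ⟨0, 0⟩, 0⟩ 0 0)) (.void 87 ⟨93974, 0, 0, 6026, 0, 0, 0, 0, 0, ⟨0, 0⟩, 0⟩ 0 0))) (.cut .v 16777216 (.cut .v 8388608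 (.cut .v 4194304 (.cut .v 2097152 (.cut .v 1048576 (.cut .v 524288 (.cut .v 262144 (.cut .v 131072 (.pos 130 .pm ⟨0, 0, 39094527, 0, 0, 0, 0, 0, 0, ⟨0, 0⟩, 0⟩ 0 0) (.pos 131 .pm ⟨0, 0, 75035037, 0, 0, 0, 0, 0, 0, ⟨0, 0⟩, 0⟩ 0 0)) (.pos 121 .pm ⟨0, 0, 123850574, 0, 0, 0, 0, 0, 0, ⟨0, 0⟩, 0⟩ 0 0)) (.pos 105 .pm ⟨0, 0, 212562511, 0, 0, 0, 0, 0, 0, ⟨0, 0⟩, 0⟩ 0 0)) (.pos 89 .pm ⟨0, 0, 364551499, 0, 0, 0, 0, 0, 0, ⟨0, 0⟩, 0⟩ 0 0)) (.pos 7 .pm ⟨0, 0, 667101571, 0, 0, 0, 0, 0, 0, ⟨0, 0⟩, 0⟩ 0 0)) (.pos 5 .pm ⟨0, 0, 1433709310, 0, 0, 0, 0, 0, 0, ⟨0, 0⟩, 0⟩ 0 0)) (.pos 3 .pm ⟨0, 0, 255987346, 0, 0, 0, 0, 0, 0, ⟨0, 0⟩, 0⟩ 0 0)) (.cut .v 268435456 (.cut .v 67108864 (.cut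 .v 33554432 (.pos 24 .pp ⟨0, 0, 0, 0, 0, 0, 0, 0, 0, ⟨0, 0⟩, 0⟩ 0 0) (.cut .v 50331648 (.pos 62 .pp ⟨4990349036, 0, 0, 0, 0, 0, 0, 0, 0, ⟨0, 0⟩, 0⟩ 0 0) (.cut .d 421582 (.pos 63 .pp ⟨12040355198, 0, 0, 0, 0, 0, 0, 0, 0, ⟨0, 0⟩, 0⟩ 0 0) (.pos 63 .pp ⟨0, 0, 0, 0, 0, 0, 0, 0, 0, ⟨0, 0⟩, 0⟩ 0 0)))) (.cut .v 134217728 (.cut .v 100663296 (.cut .d 421582 (.cut .d 210791 (.cut .v 83886080 (.pos 81 .pp ⟨24813792377, 0, 0, 0, 0, 0, 0, 0, 0, ⟨0, 0⟩, 0⟩ 0 0) (.cut .d 105395 (.void 82 ⟨100000, 0, 0, 0, 0, 0, 0, 0, 0, ⟨0, 0⟩, 0⟩ 0 0) (.cut .v 92274688 (.pos 106 .pp ⟨26384232942, 0, 0, 0, 0, 0, 0, 0, 0, ⟨0, 0⟩, 0⟩ 0 0) (.cut .v 96468992 (.cut .d 158093 (.pos 122 .pp ⟨41729310624,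 21194694726, 0, 0, 0, 0, 0, 0, 0, ⟨0, 0⟩, 0⟩ 0 0) (.cut .l 910763 (.cut .l 587202 (.cut .l 425421 (.cut .l 344531 (.cut .l 304086 (.cut .l 283863 (.cut .v 94371840 (.cut .s 16056320 (.pos 132 .pp ⟨24112938439, 0, 0, 0, 0, 0, 0, 0, 0, ⟨0, 0⟩, 0⟩ 0 0) (.pos 132 .pp ⟨26063424811, 0, 0, 0, 0, 0, 0, 0, 0, ⟨0, 0⟩, 0⟩ 0 0)) (.cut .s 16056320 (.pos 133 .pp ⟨35275416851, 20832678805, 0, 0, 0, 0, 0, 0, 0, ⟨0, 0⟩, 0⟩ 0 0) (.pos 133 .pp ⟨37454719445, 21740319471, 0, 0, 0, 0, 0, 0, 0, ⟨0, 0⟩, 0⟩ 0 0))) (.pos 122 .pp ⟨33863323996, 16169801917, 0, 0, 0, 0, 0, 0, 0, ⟨0, 0⟩, 0⟩ 0 0)) (.pos 122 .pp ⟨33641017584, 15542721785, 0, 0, 0, 0, 0, 0, 0, ⟨0, 0⟩, 0⟩ 0 0)) (.pos 122 .pp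 ⟨33197137312, 14291433273, 0, 0, 0, 0, 0, 0, 0, ⟨0, 0⟩, 0⟩ 0 0)) (.pos 122 .pp ⟨32324126573, 11943252104, 0, 0, 0, 0, 0, 0, 0, ⟨0, 0⟩, 0⟩ 0 0)) (.pos 122 .pp ⟨30762873412, 9387989287, 0, 0, 0, 0, 0, 0, 0, ⟨0, 0⟩, 0⟩ 0 0)) (.pos 122 .pp ⟨27829134858, 6243506824, 0, 0, 0, 0, 0, 0, 0, ⟨0, 0⟩, 0⟩ 0 0))) (.void 123 ⟨33991, 66009, 0, 0, 0, 0, 0, 0, 0, ⟨0, 0⟩, 0⟩ 0 0))))) (.pos 75 .pp ⟨0, 16555114319, 0, 0, 0, 0, 0, 0, 0, ⟨0, 0⟩, 0⟩ 0 0)) (.void 75 ⟨0, 0, 0, 100000, 0, 0, 0, 0, 0, ⟨0, 0⟩, 0⟩ 0 0)) (.void 76 ⟨33645, 66355, 0, 0, 0, 0, 0, 0, 0, ⟨0, 0⟩, 0⟩ 0 0)) (.void 74 ⟨0, 0, 0, 100000, 0, 0, 0, 0, 0, ⟨0, 0⟩, 0⟩ 0 0))) (.void 87 ⟨0, 0, 0, 100000, 0, 0, 0, 0, 0, ⟨0,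 0⟩, 0⟩ 0 0)))),
    by decide +kernel⟩

def covers30 : cell.Covers table row30.1 :=
  ⟨(.cut .d 0 (.cut .v 16777216 (.cut .v 8388608 (.pos 2 .mm ⟨0, 0, 167772160000, 0, 0, 0, 0, 0, 0, ⟨0, 0⟩, 0⟩ 0 0) (.cut .d (-8388608) (.void 3 ⟨70702, 0, 0, 3119, 0, 0, 0, 0, 0, ⟨0, 0⟩, 0⟩ 0 0) (.cut .d (-4194304) (.void 3 ⟨100000, 0, 0, 0, 0, 0, 0, 0, 0, ⟨0, 0⟩, 0⟩ 0 0) (.cut .d (-2097152) (.void 3 ⟨100000, 0, 0, 0, 0, 0, 0, 0, 0, ⟨0, 0⟩, 0⟩ 0 0) (.pos 3 .mm ⟨0, 0, 424071888, 0, 0, 19388545914, 0, 0, 0, ⟨0, 0⟩, 0⟩ 0 0))))) (.cut .v 268435456 (.cut .v 67108864 (.cut .v 33554432 (.pos 24 .mp ⟨0, 0, 0, 0, 0, 165386196284, 0, 0, 0, ⟨0, 0⟩, 0⟩ 0 0) (.void 57 ⟨100000, 0, 0, 0,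 0, 0, 0, 0, 0, ⟨0, 0⟩, 0⟩ 0 0)) (.void 68 ⟨100000, 0, 0, 0, 0, 0, 0, 0, 0, ⟨0, 0⟩, 0⟩ 0 0)) (.void 87 ⟨96611, 0, 0, 6128, 0, 0, 0, 0, 0, ⟨0, 0⟩, 0⟩ 0 0))) (.cut .v 16777216 (.cut .v 8388608 (.cut .v 4194304 (.cut .v 2097152 (.cut .v 1048576 (.cut .v 524288 (.cut .v 262144 (.cut .v 131072 (.cut .v 65536 (.pos 138 .pm ⟨0, 0, 34366131, 0, 0, 0, 0, 0, 0, ⟨0, 0⟩, 0⟩ 0 0) (.pos 139 .pm ⟨0, 0, 64378637, 0, 0, 0, 0, 0, 0, ⟨0, 0⟩, 0⟩ 0 0)) (.pos 131 .pm ⟨0, 0, 105636099, 0, 0, 0, 0, 0, 0, ⟨0, 0⟩, 0⟩ 0 0)) (.pos 121 .pm ⟨0, 0, 181249934, 0, 0, 0, 0, 0, 0, ⟨0, 0⟩, 0⟩ 0 0)) (.pos 105 .pm ⟨0, 0, 311832345, 0, 0, 0, 0, 0, 0, ⟨0, 0⟩, 0⟩ 0 0)) (.pos 89 .pm ⟨0, 0, 548551438,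 0, 0, 0, 0, 0, 0, ⟨0, 0⟩, 0⟩ 0 0)) (.pos 7 .pm ⟨0, 0, 1007552182, 0, 0, 0, 0, 0, 0, ⟨0, 0⟩, 0⟩ 0 0)) (.pos 5 .pm ⟨0, 0, 2212138418, 0, 0, 0, 0, 0, 0, ⟨0, 0⟩, 0⟩ 0 0)) (.pos 3 .pm ⟨0, 0, 424071888, 0, 0, 0, 0, 0, 0, ⟨0, 0⟩, 0⟩ 0 0)) (.cut .v 268435456 (.cut .v 67108864 (.cut .v 33554432 (.pos 24 .pp ⟨0, 0, 0, 0, 0, 0, 0, 0, 0, ⟨0, 0⟩, 0⟩ 0 0) (.cut .v 50331648 (.pos 62 .pp ⟨6994459686, 0, 0, 0, 0, 0, 0, 0, 0, ⟨0, 0⟩, 0⟩ 0 0) (.pos 63 .pp ⟨12598712065, 0, 0, 0, 0, 0, 0, 0, 0, ⟨0, 0⟩, 0⟩ 0 0))) (.cut .v 134217728 (.cut .v 100663296 (.cut .d 332139 (.cut .d 166069 (.cut .v 83886080 (.pos 81 .pp ⟨31923841025, 0, 0, 0, 0, 0, 0, 0, 0, ⟨0, 0⟩, 0⟩ 0 0) (.cut .v 92274688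 (.pos 106 .pp ⟨36855811696, 0, 0, 0, 0, 0, 0, 0, 0, ⟨0, 0⟩, 0⟩ 0 0) (.cut .v 96468992 (.cut .d 83034 (.void 122 ⟨100000, 0, 0, 0, 0, 0, 0, 0, 0, ⟨0, 0⟩, 0⟩ 0 0) (.cut .d 124551 (.pos 122 .pp ⟨56097135361, 31851298188, 0, 0, 0, 0, 0, 0, 0, ⟨0, 0⟩, 0⟩ 0 0) (.cut .v 94371840 (.pos 132 .pp ⟨32063872247, 0, 0, 0, 0, 0, 0, 0, 0, ⟨0, 0⟩, 0⟩ 0 0) (.cut .s 16203776 (.cut .d 145310 (.pos 133 .pp ⟨48889978527, 25788271183, 0, 0, 0, 0, 0, 0, 0, ⟨0, 0⟩, 0⟩ 0 0) (.pos 133 .pp ⟨42927784848, 25634054766, 0, 0, 0, 0, 0, 0, 0, ⟨0, 0⟩, 0⟩ 0 0)) (.pos 133 .pp ⟨50054116585, 32103063686, 0, 0, 0, 0, 0, 0, 0, ⟨0, 0⟩, 0⟩ 0 0))))) (.void 123 ⟨33909, 66091, 0, 0, 0, 0, 0, 0, 0, ⟨0,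 0⟩, 0⟩ 0 0)))) (.pos 75 .pp ⟨0, 23836826857, 0, 0, 0, 0, 0, 0, 0, ⟨0, 0⟩, 0⟩ 0 0)) (.void 75 ⟨0, 0, 0, 100000, 0, 0, 0, 0, 0, ⟨0, 0⟩, 0⟩ 0 0)) (.void 76 ⟨80962, 8960, 0, 10078, 0, 0, 0, 0, 0, ⟨0, 0⟩, 0⟩ 0 0)) (.void 74 ⟨0, 0, 0, 100000, 0, 0, 0, 0, 0, ⟨0, 0⟩, 0⟩ 0 0))) (.void 87 ⟨0, 0, 0, 100000, 0, 0, 0, 0, 0, ⟨0, 0⟩, 0⟩ 0 0)))),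
    by decide +kernel⟩

def covers31 : cell.Covers table row31.1 :=
  ⟨(.cut .d 0 (.cut .v 16777216 (.cut .v 8388608 (.pos 2 .mm ⟨0, 0, 167772160000, 0, 0, 0, 0, 0, 0, ⟨0, 0⟩, 0⟩ 0 0) (.cut .d (-8388608) (.void 3 ⟨130744, 0, 0, 0, 0, 0, 0, 0, 0, ⟨0, 0⟩, 0⟩ 0 0) (.pos 3 .mm ⟨0, 0, 694615744, 0, 0, 60134356142, 0, 0, 0, ⟨0, 0⟩, 0⟩ 0 0))) (.cut .v 4294967296 (.cut .v 268435456 (.cut .v 67108864 (.cut .d (-8388608) (.void 56 ⟨100000, 0, 0, 0, 0, 0, 0, 0, 0, ⟨0, 0⟩, 0⟩ 0 0) (.cut .d (-4194304) (.void 56 ⟨100000, 0, 0, 0, 0, 0, 0, 0, 0, ⟨0, 0⟩, 0⟩ 0 0) (.pos 56 .mp ⟨13952813976, 0, 0, 0, 0, 136346713351, 0, 0, 0, ⟨0, 0⟩, 0⟩ 0 0))) (.void 68 ⟨100000, 0, 0, 0, 0, 0,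 0, 0, 0, ⟨0, 0⟩, 0⟩ 0 0)) (.void 87 ⟨93893, 0, 0, 6107, 0, 0, 0, 0, 0, ⟨0, 0⟩, 0⟩ 0 0)) (.void 142 ⟨93893, 0, 0, 6107, 0, 0, 0, 0, 0, ⟨0, 0⟩, 0⟩ 0 0))) (.cut .v 16777216 (.cut .v 8388608 (.cut .v 4194304 (.cut .v 2097152 (.cut .v 1048576 (.cut .v 524288 (.cut .v 262144 (.cut .v 131072 (.cut .v 65536 (.pos 138 .pm ⟨0, 0, 40487257, 0, 0, 0, 0, 0, 0, ⟨0, 0⟩, 0⟩ 0 0) (.pos 139 .pm ⟨0, 0, 80327916, 0, 0, 0, 0, 0, 0, ⟨0, 0⟩, 0⟩ 0 0)) (.pos 131 .pm ⟨0, 0, 129509314, 0, 0, 0, 0, 0, 0, ⟨0, 0⟩, 0⟩ 0 0)) (.pos 121 .pm ⟨0, 0, 207434194, 0, 0, 0, 0, 0, 0, ⟨0, 0⟩, 0⟩ 0 0)) (.pos 105 .pm ⟨0, 0, 360089797, 0, 0, 0, 0, 0, 0, ⟨0, 0⟩, 0⟩ 0 0)) (.pos 89 .pm ⟨0, 0, 659297592, 0,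 0, 0, 0, 0, 0, ⟨0, 0⟩, 0⟩ 0 0)) (.pos 7 .pm ⟨0, 0, 1309990258, 0, 0, 0, 0, 0, 0, ⟨0, 0⟩, 0⟩ 0 0)) (.pos 5 .pm ⟨0, 0, 3353772450, 0, 0, 0, 0, 0, 0, ⟨0, 0⟩, 0⟩ 0 0)) (.pos 3 .pm ⟨0, 0, 694615744, 0, 0, 0, 0, 0, 0, ⟨0, 0⟩, 0⟩ 0 0)) (.cut .v 4294967296 (.cut .v 268435456 (.cut .v 67108864 (.cut .v 33554432 (.pos 24 .pp ⟨0, 0, 0, 0, 0, 0, 0, 0, 0, ⟨0, 0⟩, 0⟩ 0 0) (.cut .v 50331648 (.pos 62 .pp ⟨9936363681, 0, 0, 0, 0, 0, 0, 0, 0, ⟨0, 0⟩, 0⟩ 0 0) (.pos 63 .pp ⟨17144593454, 0, 0, 0, 0, 0, 0, 0, 0, ⟨0, 0⟩, 0⟩ 0 0))) (.cut .v 134217728 (.cut .v 100663296 (.cut .d 261881 (.cut .d 130940 (.cut .v 83886080 (.pos 81 .pp ⟨34133219624, 0, 0, 0, 0, 0, 0, 0, 0, ⟨0, 0⟩, 0⟩ 0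 0) (.cut .v 92274688 (.pos 106 .pp ⟨38543137694, 0, 0, 0, 0, 0, 0, 0, 0, ⟨0, 0⟩, 0⟩ 0 0) (.cut .v 96468992 (.cut .d 65470 (.void 122 ⟨100000, 0, 0, 0, 0, 0, 0, 0, 0, ⟨0, 0⟩, 0⟩ 0 0) (.cut .v 94371840 (.pos 132 .pp ⟨38798618818, 0, 0, 0, 0, 0, 0, 0, 0, ⟨0, 0⟩, 0⟩ 0 0) (.cut .v 95420416 (.pos 136 .pp ⟨55393072918, 31280727168, 0, 0, 0, 0, 0, 0, 0, ⟨0, 0⟩, 0⟩ 0 0) (.pos 137 .pp ⟨82876536472, 84895623528, 0, 0, 0, 0, 0, 0, 0, ⟨0, 0⟩, 0⟩ 0 0)))) (.pos 123 .pp ⟨83895547694, 83876612306, 0, 0, 0, 0, 0, 0, 0, ⟨0, 0⟩, 0⟩ 0 0)))) (.pos 75 .pp ⟨0, 34695122527, 0, 0, 0, 0, 0, 0, 0, ⟨0, 0⟩, 0⟩ 0 0)) (.void 75 ⟨0, 0, 0, 100000, 0, 0, 0, 0, 0, ⟨0, 0⟩, 0⟩ 0 0)) (.void 76 ⟨88331,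 0, 0, 11669, 0, 0, 0, 0, 0, ⟨0, 0⟩, 0⟩ 0 0)) (.void 74 ⟨0, 0, 0, 100000, 0, 0, 0, 0, 0, ⟨0, 0⟩, 0⟩ 0 0))) (.void 87 ⟨0, 0, 0, 100000, 0, 0, 0, 0, 0, ⟨0, 0⟩, 0⟩ 0 0)) (.void 142 ⟨0, 0, 0, 100000, 0, 0, 0, 0, 0, ⟨0, 0⟩, 0⟩ 0 0)))),
    by decide +kernel⟩

def covers32 : cell.Covers table row32.1 :=
  ⟨(.cut .d 0 (.cut .v 16777216 (.cut .v 8388608 (.pos 2 .mm ⟨0, 0, 167772160000, 0, 0, 0, 0, 0, 0, ⟨0, 0⟩, 0⟩ 0 0) (.pos 3 .mm ⟨0, 0, 2993726780, 0, 0, 136732224845, 0, 0, 0, ⟨0, 0⟩, 0⟩ 0 0)) (.cut .v 4294967296 (.cut .v 268435456 (.cut .v 67108864 (.cut .d (-8388608) (.void 56 ⟨100000, 0, 0, 0, 0, 0, 0, 0, 0, ⟨0, 0⟩, 0⟩ 0 0) (.cut .d (-4194304) (.void 56 ⟨100000,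 0, 0, 0, 0, 0, 0, 0, 0, ⟨0, 0⟩, 0⟩ 0 0) (.pos 56 .mp ⟨59462442989, 0, 0, 0, 0, 108309717011, 0, 0, 0, ⟨0, 0⟩, 0⟩ 0 0))) (.void 68 ⟨100000, 0, 0, 0, 0, 0, 0, 0, 0, ⟨0, 0⟩, 0⟩ 0 0)) (.void 87 ⟨93865, 0, 0, 6135, 0, 0, 0, 0, 0, ⟨0, 0⟩, 0⟩ 0 0)) (.void 142 ⟨93865, 0, 0, 6135, 0, 0, 0, 0, 0, ⟨0, 0⟩, 0⟩ 0 0))) (.cut .v 16777216 (.cut .v 8388608 (.cut .v 4194304 (.cut .v 2097152 (.cut .v 1048576 (.cut .v 524288 (.cut .v 262144 (.cut .v 131072 (.cut .v 65536 (.cut .v 32768 (.pos 143 .pm ⟨0, 0, 34782726, 0, 0, 0, 0, 0, 0, ⟨0, 0⟩, 0⟩ 0 0) (.pos 144 .pm ⟨0, 0, 66630488, 0, 0, 0, 0, 0, 0, ⟨0, 0⟩, 0⟩ 0 0)) (.pos 139 .pm ⟨0, 0, 110728295, 0, 0, 0, 0, 0, 0, ⟨0, 0⟩, 0⟩ 0 0))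 (.pos 131 .pm ⟨0, 0, 190893983, 0, 0, 0, 0, 0, 0, ⟨0, 0⟩, 0⟩ 0 0)) (.pos 121 .pm ⟨0, 0, 327641571, 0, 0, 0, 0, 0, 0, ⟨0, 0⟩, 0⟩ 0 0)) (.pos 105 .pm ⟨0, 0, 571354783, 0, 0, 0, 0, 0, 0, ⟨0, 0⟩, 0⟩ 0 0)) (.pos 89 .pm ⟨0, 0, 1011435601, 0, 0, 0, 0, 0, 0, ⟨0, 0⟩, 0⟩ 0 0)) (.pos 7 .pm ⟨0, 0, 1884171045, 0, 0, 0, 0, 0, 0, ⟨0, 0⟩, 0⟩ 0 0)) (.pos 5 .pm ⟨0, 0, 3919569917, 0, 0, 0, 0, 0, 0, ⟨0, 0⟩, 0⟩ 0 0)) (.pos 3 .pm ⟨0, 0, 2166810944, 0, 0, 0, 0, 0, 0, ⟨0, 0⟩, 0⟩ 0 0)) (.cut .v 4294967296 (.cut .v 268435456 (.cut .v 67108864 (.pos 56 .pp ⟨974008244, 0, 0, 0, 0, 0, 0, 0, 0, ⟨0, 0⟩, 0⟩ 0 0) (.cut .v 134217728 (.cut .v 100663296 (.cut .d 209926 (.pos 75 .pp ⟨55234802238,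 0, 0, 0, 0, 0, 0, 0, 0, ⟨0, 0⟩, 0⟩ 0 0) (.void 75 ⟨0, 0, 0, 100000, 0, 0, 0, 0, 0, ⟨0, 0⟩, 0⟩ 0 0)) (.void 76 ⟨88311, 0, 0, 11689, 0, 0, 0, 0, 0, ⟨0, 0⟩, 0⟩ 0 0)) (.void 74 ⟨0, 0, 0, 100000, 0, 0, 0, 0, 0, ⟨0, 0⟩, 0⟩ 0 0))) (.void 87 ⟨0, 0, 0, 100000, 0, 0, 0, 0, 0, ⟨0, 0⟩, 0⟩ 0 0)) (.void 142 ⟨0, 0, 0, 100000, 0, 0, 0, 0, 0, ⟨0, 0⟩, 0⟩ 0 0)))),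
    by decide +kernel⟩

def covers33 : cell.Covers table row33.1 :=
  ⟨(.cut .d 0 (.cut .v 16777216 (.cut .d (-8388608) (.void 1 ⟨0, 0, 0, 0, 0, 100000, 0, 0, 0, ⟨0, 0⟩, 0⟩ 0 0) (.cut .v 8388608 (.pos 2 .mm ⟨0, 0, 167772160000, 0, 0, 0, 0, 0, 0, ⟨0, 0⟩, 0⟩ 0 0) (.pos 3 .mm ⟨0, 0, 3035081664, 0, 0, 102933106070, 0, 0, 0, ⟨0, 0⟩, 0⟩ 0 0))) (.cut .v 4294967296 (.cut .v 268435456 (.cut .v 67108864 (.cut .d (-8388608) (.void 56 ⟨100000, 0, 0, 0, 0, 0, 0, 0, 0, ⟨0, 0⟩, 0⟩ 0 0) (.cut .d (-4194304) (.void 56 ⟨100000, 0, 0, 0, 0, 0, 0, 0, 0, ⟨0, 0⟩, 0⟩ 0 0) (.pos 56 .mp ⟨151369732574, 0, 0, 0, 0, 16402427426, 0, 0, 0, ⟨0, 0⟩, 0⟩ 0 0))) (.void 68 ⟨100000, 0, 0, 0, 0,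 0, 0, 0, 0, ⟨0, 0⟩, 0⟩ 0 0)) (.void 87 ⟨117701, 0, 0, 5238, 0, 0, 0, 0, 0, ⟨0, 0⟩, 0⟩ 0 0)) (.void 142 ⟨93842, 0, 0, 6158, 0, 0, 0, 0, 0, ⟨0, 0⟩, 0⟩ 0 0))) (.cut .v 16777216 (.cut .v 8388608 (.cut .v 4194304 (.cut .v 2097152 (.cut .v 1048576 (.cut .v 524288 (.cut .v 262144 (.cut .v 131072 (.cut .v 65536 (.cut .v 32768 (.pos 143 .pm ⟨0, 0, 43303082, 0, 0, 0, 0, 0, 0, ⟨0, 0⟩, 0⟩ 0 0) (.pos 144 .pm ⟨0, 0, 89867199, 0, 0, 0, 0, 0, 0, ⟨0, 0⟩, 0⟩ 0 0)) (.pos 139 .pm ⟨0, 0, 154593158, 0, 0, 0, 0, 0, 0, ⟨0, 0⟩, 0⟩ 0 0)) (.pos 131 .pm ⟨0, 0, 269017458, 0, 0, 0, 0, 0, 0, ⟨0, 0⟩, 0⟩ 0 0)) (.pos 121 .pm ⟨0, 0, 471047388, 0, 0, 0, 0, 0, 0, ⟨0, 0⟩, 0⟩ 0 0)) (.pos 105 .pm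 ⟨0, 0, 834226893, 0, 0, 0, 0, 0, 0, ⟨0, 0⟩, 0⟩ 0 0)) (.pos 89 .pm ⟨0, 0, 1484932619, 0, 0, 0, 0, 0, 0, ⟨0, 0⟩, 0⟩ 0 0)) (.pos 7 .pm ⟨0, 0, 2786818113, 0, 0, 0, 0, 0, 0, ⟨0, 0⟩, 0⟩ 0 0)) (.pos 5 .pm ⟨0, 0, 5961537288, 0, 0, 0, 0, 0, 0, ⟨0, 0⟩, 0⟩ 0 0)) (.pos 3 .pm ⟨0, 0, 3035081664, 0, 0, 0, 0, 0, 0, ⟨0, 0⟩, 0⟩ 0 0)) (.cut .v 4294967296 (.cut .v 268435456 (.cut .v 67108864 (.pos 56 .pp ⟨2182835144, 0, 0, 0, 0, 0, 0, 0, 0, ⟨0, 0⟩, 0⟩ 0 0) (.cut .v 134217728 (.cut .v 100663296 (.cut .d 167105 (.pos 75 .pp ⟨77157803644, 0, 0, 0, 0, 0, 0, 0, 0, ⟨0, 0⟩, 0⟩ 0 0) (.void 75 ⟨0, 0, 0, 100000, 0, 0, 0, 0, 0, ⟨0, 0⟩, 0⟩ 0 0)) (.void 76 ⟨88296, 0, 0, 11704, 0, 0, 0, 0,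 0, ⟨0, 0⟩, 0⟩ 0 0)) (.void 74 ⟨0, 0, 0, 100000, 0, 0, 0, 0, 0, ⟨0, 0⟩, 0⟩ 0 0))) (.void 87 ⟨0, 0, 0, 100000, 0, 0, 0, 0, 0, ⟨0, 0⟩, 0⟩ 0 0)) (.void 142 ⟨0, 0, 0, 100000, 0, 0, 0, 0, 0, ⟨0, 0⟩, 0⟩ 0 0)))),
    by decide +kernel⟩

def covers34 : cell.Covers table row34.1 :=
  ⟨(.cut .d 0 (.cut .v 16777216 (.cut .v 8388608 (.void 2 ⟨0, 0, 100384, 0, 0, 0, 0, 0, 0, ⟨0, 0⟩, 0⟩ 0 0) (.cut .d (-8388608) (.void 3 ⟨99990, 0, 0, 0, 0, 0, 0, 0, 0, ⟨0, 0⟩, 0⟩ 0 0) (.pos 3 .mm ⟨0, 0, 4268660397, 0, 0, 132633533414, 0, 0, 0, ⟨0, 0⟩, 0⟩ 0 0))) (.cut .v 4294967296 (.cut .v 268435456 (.cut .v 67108864 (.cut .d (-8388608) (.void 56 ⟨100000, 0, 0, 0, 0, 0, 0, 0, 0, ⟨0, 0⟩, 0⟩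 0 0) (.cut .v 33554432 (.cut .d (-4194304) (.void 24 ⟨100000, 0, 0, 0, 0, 0, 0, 0, 0, ⟨0, 0⟩, 0⟩ 0 0) (.pos 24 .mp ⟨15673610545, 0, 0, 0, 0, 152098549455, 0, 0, 0, ⟨0, 0⟩, 0⟩ 0 0)) (.void 57 ⟨100000, 0, 0, 0, 0, 0, 0, 0, 0, ⟨0, 0⟩, 0⟩ 0 0))) (.void 68 ⟨100000, 0, 0, 0, 0, 0, 0, 0, 0, ⟨0, 0⟩, 0⟩ 0 0)) (.void 87 ⟨93824, 0, 0, 6176, 0, 0, 0, 0, 0, ⟨0, 0⟩, 0⟩ 0 0)) (.void 142 ⟨93824, 0, 0, 6176, 0, 0, 0, 0, 0, ⟨0, 0⟩, 0⟩ 0 0))) (.cut .v 16777216 (.cut .v 8388608 (.cut .v 4194304 (.cut .v 2097152 (.cut .v 1048576 (.cut .v 524288 (.cut .v 262144 (.cut .v 131072 (.cut .v 65536 (.cut .v 32768 (.pos 143 .pm ⟨0, 0, 54756185, 0, 0, 0, 0, 0, 0, ⟨0, 0⟩, 0⟩ 0 0) (.pos 144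 .pm ⟨0, 0, 120961821, 0, 0, 0, 0, 0, 0, ⟨0, 0⟩, 0⟩ 0 0)) (.pos 139 .pm ⟨0, 0, 213187006, 0, 0, 0, 0, 0, 0, ⟨0, 0⟩, 0⟩ 0 0)) (.pos 131 .pm ⟨0, 0, 374914329, 0, 0, 0, 0, 0, 0, ⟨0, 0⟩, 0⟩ 0 0)) (.pos 121 .pm ⟨0, 0, 666633159, 0, 0, 0, 0, 0, 0, ⟨0, 0⟩, 0⟩ 0 0)) (.pos 105 .pm ⟨0, 0, 1189306090, 0, 0, 0, 0, 0, 0, ⟨0, 0⟩, 0⟩ 0 0)) (.pos 89 .pm ⟨0, 0, 2140698508, 0, 0, 0, 0, 0, 0, ⟨0, 0⟩, 0⟩ 0 0)) (.pos 7 .pm ⟨0, 0, 4056345518, 0, 0, 0, 0, 0, 0, ⟨0, 0⟩, 0⟩ 0 0)) (.pos 5 .pm ⟨0, 0, 8934988270, 0, 0, 0, 0, 0, 0, ⟨0, 0⟩, 0⟩ 0 0)) (.pos 3 .pm ⟨0, 0, 4268660397, 0, 0, 0, 0, 0, 0, ⟨0, 0⟩, 0⟩ 0 0)) (.cut .v 4294967296 (.cut .v 268435456 (.cut .v 67108864 (.pos 56 .pp ⟨5914131662,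 0, 0, 0, 0, 0, 0, 0, 0, ⟨0, 0⟩, 0⟩ 0 0) (.cut .v 134217728 (.cut .v 100663296 (.cut .d 133154 (.pos 75 .pp ⟨108015005905, 0, 0, 0, 0, 0, 0, 0, 0, ⟨0, 0⟩, 0⟩ 0 0) (.void 75 ⟨0, 0, 0, 100000, 0, 0, 0, 0, 0, ⟨0, 0⟩, 0⟩ 0 0)) (.void 76 ⟨88286, 0, 0, 11714, 0, 0, 0, 0, 0, ⟨0, 0⟩, 0⟩ 0 0)) (.void 74 ⟨0, 0, 0, 100000, 0, 0, 0, 0, 0, ⟨0, 0⟩, 0⟩ 0 0))) (.void 87 ⟨0, 0, 0, 100000, 0, 0, 0, 0, 0, ⟨0, 0⟩, 0⟩ 0 0)) (.void 142 ⟨0, 0, 0, 100000, 0, 0, 0, 0, 0, ⟨0, 0⟩, 0⟩ 0 0)))),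
    by decide +kernel⟩

def covers35 : cell.Covers table row35.1 :=
  ⟨(.cut .d 0 (.cut .v 16777216 (.cut .d (-8388608) (.void 1 ⟨0, 0, 0, 0, 0, 100000, 0, 0, 0, ⟨0, 0⟩, 0⟩ 0 0) (.cut .v 8388608 (.pos 2 .mm ⟨0, 0, 167772160000, 0, 0, 0, 0, 0, 0, ⟨0, 0⟩, 0⟩ 0 0) (.cut .v 12582912 (.pos 8 .mm ⟨0, 0, 6144084503, 0, 0, 135810038233, 0, 0, 0, ⟨0, 0⟩, 0⟩ 0 0) (.pos 9 .mm ⟨44378443146, 0, 0, 0, 0, 123393716854, 0, 0, 0, ⟨0, 0⟩, 0⟩ 0 0)))) (.cut .v 4294967296 (.cut .d (-8388608) (.void 86 ⟨100000, 0, 0, 0, 0, 0, 0, 0, 0, ⟨0, 0⟩, 0⟩ 0 0) (.cut .v 268435456 (.cut .v 67108864 (.cut .d (-4194304) (.void 56 ⟨100000, 0, 0, 0, 0, 0, 0, 0, 0, ⟨0, 0⟩, 0⟩ 0 0) (.cut .v 33554432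 (.pos 24 .mp ⟨115208083668, 0, 0, 0, 0, 52564076332, 0, 0, 0, ⟨0, 0⟩, 0⟩ 0 0) (.void 57 ⟨100000, 0, 0, 0, 0, 0, 0, 0, 0, ⟨0, 0⟩, 0⟩ 0 0))) (.void 68 ⟨100000, 0, 0, 0, 0, 0, 0, 0, 0, ⟨0, 0⟩, 0⟩ 0 0)) (.void 87 ⟨90990, 0, 0, 9010, 0, 0, 0, 0, 0, ⟨0, 0⟩, 0⟩ 0 0))) (.void 142 ⟨93808, 0, 0, 6192, 0, 0, 0, 0, 0, ⟨0, 0⟩, 0⟩ 0 0))) (.cut .v 16777216 (.cut .v 8388608 (.cut .v 4194304 (.cut .v 2097152 (.cut .v 1048576 (.cut .v 524288 (.cut .v 262144 (.cut .v 131072 (.cut .v 65536 (.cut .v 32768 (.cut .v 16384 (.pos 145 .pm ⟨0, 0, 46156864, 0, 0, 0, 0, 0, 0, ⟨0, 0⟩, 0⟩ 0 0) (.pos 146 .pm ⟨0, 0, 99314926, 0, 0, 0, 0, 0, 0, ⟨0, 0⟩, 0⟩ 0 0)) (.pos 144 .pm ⟨0, 0, 174181806,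 0, 0, 0, 0, 0, 0, ⟨0, 0⟩, 0⟩ 0 0)) (.pos 139 .pm ⟨0, 0, 307746377, 0, 0, 0, 0, 0, 0, ⟨0, 0⟩, 0⟩ 0 0)) (.pos 131 .pm ⟨0, 0, 547535137, 0, 0, 0, 0, 0, 0, ⟨0, 0⟩, 0⟩ 0 0)) (.pos 121 .pm ⟨0, 0, 981463291, 0, 0, 0, 0, 0, 0, ⟨0, 0⟩, 0⟩ 0 0)) (.pos 105 .pm ⟨0, 0, 1768416728, 0, 0, 0, 0, 0, 0, ⟨0, 0⟩, 0⟩ 0 0)) (.pos 89 .pm ⟨0, 0, 3185188633, 0, 0, 0, 0, 0, 0, ⟨0, 0⟩, 0⟩ 0 0)) (.pos 7 .pm ⟨0, 0, 5977486946, 0, 0, 0, 0, 0, 0, ⟨0, 0⟩, 0⟩ 0 0)) (.pos 5 .pm ⟨0, 0, 12855939534, 0, 0, 0, 0, 0, 0, ⟨0, 0⟩, 0⟩ 0 0)) (.pos 3 .pm ⟨0, 0, 5857547344, 0, 0, 0, 0, 0, 0, ⟨0, 0⟩, 0⟩ 0 0)) (.cut .v 4294967296 (.cut .v 268435456 (.cut .v 67108864 (.pos 56 .pp ⟨14104277354, 0, 0, 0, 0,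 0, 0, 0, 0, ⟨0, 0⟩, 0⟩ 0 0) (.cut .v 134217728 (.cut .v 100663296 (.cut .d 107866 (.cut .d 53933 (.cut .d 26966 (.void 75 ⟨100000, 0, 0, 0, 0, 0, 0, 0, 0, ⟨0, 0⟩, 0⟩ 0 0) (.pos 75 .pp ⟨167772160000, 0, 0, 0, 0, 0, 0, 0, 0, ⟨0, 0⟩, 0⟩ 0 0)) (.pos 75 .pp ⟨0, 122036545554, 0, 0, 0, 0, 0, 0, 0, ⟨0, 0⟩, 0⟩ 0 0)) (.void 75 ⟨0, 0, 0, 100000, 0, 0, 0, 0, 0, ⟨0, 0⟩, 0⟩ 0 0)) (.void 76 ⟨88271, 0, 0, 11729, 0, 0, 0, 0, 0, ⟨0, 0⟩, 0⟩ 0 0)) (.void 74 ⟨0, 0, 0, 100000, 0, 0, 0, 0, 0, ⟨0, 0⟩, 0⟩ 0 0))) (.void 87 ⟨0, 0, 0, 100000, 0, 0, 0, 0, 0, ⟨0, 0⟩, 0⟩ 0 0)) (.void 142 ⟨0, 0, 0, 100000, 0, 0, 0, 0, 0, ⟨0, 0⟩, 0⟩ 0 0)))),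
    by decide +kernel⟩

def covers36 : cell.Covers table row36.1 :=
  ⟨(.cut .d 0 (.cut .v 16777216 (.cut .d (-8388608) (.void 1 ⟨0, 0, 0, 0, 0, 100000, 0, 0, 0, ⟨0, 0⟩, 0⟩ 0 0) (.cut .v 8388608 (.void 2 ⟨0, 0, 100000, 0, 0, 0, 0, 0, 0, ⟨0, 0⟩, 0⟩ 0 0) (.cut .d (-4194304) (.void 3 ⟨100000, 0, 0, 0, 0, 0, 0, 0, 0, ⟨0, 0⟩, 0⟩ 0 0) (.pos 3 .mm ⟨2086307132, 0, 9240824079, 0, 0, 156445028790, 0, 0, 0, ⟨0, 0⟩, 0⟩ 0 0)))) (.cut .v 4294967296 (.cut .v 268435456 (.cut .v 67108864 (.cut .d (-8388608) (.void 56 ⟨100000, 0, 0, 0, 0, 0, 0, 0, 0, ⟨0, 0⟩, 0⟩ 0 0) (.cut .d (-4194304) (.void 56 ⟨100000, 0, 0, 0, 0, 0, 0, 0, 0, ⟨0, 0⟩, 0⟩ 0 0) (.cut .v 33554432 (.cut .d (-2097152)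 (.void 24 ⟨100000, 0, 0, 0, 0, 0, 0, 0, 0, ⟨0, 0⟩, 0⟩ 0 0) (.pos 24 .mp ⟨104448692107, 0, 0, 0, 0, 63323467893, 0, 0, 0, ⟨0, 0⟩, 0⟩ 0 0)) (.void 57 ⟨100000, 0, 0, 0, 0, 0, 0, 0, 0, ⟨0, 0⟩, 0⟩ 0 0)))) (.void 68 ⟨100000, 0, 0, 0, 0, 0, 0, 0, 0, ⟨0, 0⟩, 0⟩ 0 0)) (.void 87 ⟨93796, 0, 0, 6204, 0, 0, 0, 0, 0, ⟨0, 0⟩, 0⟩ 0 0)) (.void 142 ⟨93796, 0, 0, 6204, 0, 0, 0, 0, 0, ⟨0, 0⟩, 0⟩ 0 0))) (.cut .v 16777216 (.cut .v 8388608 (.cut .v 4194304 (.cut .v 2097152 (.cut .v 1048576 (.cut .v 524288 (.cut .v 262144 (.cut .v 131072 (.cut .v 65536 (.cut .v 32768 (.cut .v 16384 (.pos 145 .pm ⟨0, 0, 59989774, 0, 0, 0, 0, 0, 0, ⟨0, 0⟩, 0⟩ 0 0) (.pos 146 .pm ⟨0, 0, 137202205, 0,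 0, 0, 0, 0, 0, ⟨0, 0⟩, 0⟩ 0 0)) (.pos 144 .pm ⟨0, 0, 245950029, 0, 0, 0, 0, 0, 0, ⟨0, 0⟩, 0⟩ 0 0)) (.pos 139 .pm ⟨0, 0, 440872044, 0, 0, 0, 0, 0, 0, ⟨0, 0⟩, 0⟩ 0 0)) (.pos 131 .pm ⟨0, 0, 796032863, 0, 0, 0, 0, 0, 0, ⟨0, 0⟩, 0⟩ 0 0)) (.pos 121 .pm ⟨0, 0, 1442926724, 0, 0, 0, 0, 0, 0, ⟨0, 0⟩, 0⟩ 0 0)) (.pos 105 .pm ⟨0, 0, 2603488944, 0, 0, 0, 0, 0, 0, ⟨0, 0⟩, 0⟩ 0 0)) (.pos 89 .pm ⟨0, 0, 4753773768, 0, 0, 0, 0, 0, 0, ⟨0, 0⟩, 0⟩ 0 0)) (.pos 7 .pm ⟨0, 0, 9046132735, 0, 0, 0, 0, 0, 0, ⟨0, 0⟩, 0⟩ 0 0)) (.pos 5 .pm ⟨0, 0, 20274337942, 0, 0, 0, 0, 0, 0, ⟨0, 0⟩, 0⟩ 0 0)) (.pos 3 .pm ⟨0, 0, 8728367736, 0, 0, 0, 0, 0, 0, ⟨0, 0⟩, 0⟩ 0 0)) (.cut .v 4294967296 (.cut .v 268435456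 (.cut .v 67108864 (.pos 56 .pp ⟨28651846402, 0, 0, 0, 0, 0, 0, 0, 0, ⟨0, 0⟩, 0⟩ 0 0) (.cut .v 134217728 (.cut .v 100663296 (.cut .d 82729 (.cut .d 41364 (.cut .d 20682 (.void 75 ⟨100000, 0, 0, 0, 0, 0, 0, 0, 0, ⟨0, 0⟩, 0⟩ 0 0) (.cut .s 16629760 (.pos 75 .pp ⟨167772160000, 0, 0, 0, 0, 0, 0, 0, 0, ⟨0, 0⟩, 0⟩ 0 0) (.cut .d 31023 (.cut .d 25852 (.cut .v 83886080 (.pos 81 .pp ⟨167772160000, 0, 0, 0, 0, 0, 0, 0, 0, ⟨0, 0⟩, 0⟩ 0 0) (.void 82 ⟨100000, 0, 0, 0, 0, 0, 0, 0, 0, ⟨0, 0⟩, 0⟩ 0 0)) (.pos 75 .pp ⟨167772160000, 0, 0, 0, 0, 0, 0, 0, 0, ⟨0, 0⟩, 0⟩ 0 0)) (.pos 75 .pp ⟨153832369905, 0, 0, 13939790095, 0, 0, 0, 0, 0, ⟨0, 0⟩, 0⟩ 0 0)))) (.pos 75 .pp ⟨0, 165592845473,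 0, 2179314527, 0, 0, 0, 0, 0, ⟨0, 0⟩, 0⟩ 0 0)) (.void 75 ⟨0, 0, 0, 100000, 0, 0, 0, 0, 0, ⟨0, 0⟩, 0⟩ 0 0)) (.void 76 ⟨88266, 0, 0, 11734, 0, 0, 0, 0, 0, ⟨0, 0⟩, 0⟩ 0 0)) (.void 74 ⟨0, 0, 0, 100000, 0, 0, 0, 0, 0, ⟨0, 0⟩, 0⟩ 0 0))) (.void 87 ⟨0, 0, 0, 100000, 0, 0, 0, 0, 0, ⟨0, 0⟩, 0⟩ 0 0)) (.void 142 ⟨0, 0, 0, 100000, 0, 0, 0, 0, 0, ⟨0, 0⟩, 0⟩ 0 0)))),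
    by decide +kernel⟩

def covers37 : cell.Covers table row37.1 :=
  ⟨(.cut .d 0 (.cut .v 16777216 (.cut .d (-8388608) (.void 1 ⟨0, 0, 0, 0, 0, 38362, 0, 61343, 0, ⟨(-1), 10588244⟩, 0⟩ 0 128) (.cut .d (-4194304) (.void 1 ⟨0, 0, 0, 0, 0, 99999, 0, 0, 0, ⟨0, 0⟩, 0⟩ 0 0) (.cut .v 8388608 (.void 2 ⟨0, 0, 100000, 0, 0, 0, 0, 0, 0, ⟨0, 0⟩, 0⟩ 0 0) (.cut .v 12582912 (.pos 8 .mm ⟨0, 0, 12837497931, 0, 0, 137782044959, 0, 0, 0, ⟨0, 0⟩, 0⟩ 0 0) (.pos 9 .mm ⟨44669423391, 0, 0, 0, 0, 123102736609, 0, 0, 0, ⟨0, 0⟩, 0⟩ 0 0))))) (.cut .v 4294967296 (.cut .v 268435456 (.cut .v 67108864 (.cut .d (-8388608) (.void 56 ⟨100000, 0, 0, 0, 0, 0, 0, 0, 0, ⟨0, 0⟩, 0⟩ 0 0) (.cut .d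 (-4194304) (.void 56 ⟨100000, 0, 0, 0, 0, 0, 0, 0, 0, ⟨0, 0⟩, 0⟩ 0 0) (.cut .v 33554432 (.cut .d (-2097152) (.void 24 ⟨100000, 0, 0, 0, 0, 0, 0, 0, 0, ⟨0, 0⟩, 0⟩ 0 0) (.pos 24 .mp ⟨160023446049, 0, 0, 0, 0, 7748713951, 0, 0, 0, ⟨0, 0⟩, 0⟩ 0 0)) (.void 57 ⟨100000, 0, 0, 0, 0, 0, 0, 0, 0, ⟨0, 0⟩, 0⟩ 0 0)))) (.void 68 ⟨100000, 0, 0, 0, 0, 0, 0, 0, 0, ⟨0, 0⟩, 0⟩ 0 0)) (.void 87 ⟨94219, 0, 0, 6183, 0, 0, 0, 0, 0, ⟨0, 0⟩, 0⟩ 0 0)) (.void 142 ⟨93790, 0, 0, 6210, 0, 0, 0, 0, 0, ⟨0, 0⟩, 0⟩ 0 0))) (.cut .v 16777216 (.cut .v 8388608 (.cut .v 4194304 (.cut .v 2097152 (.cut .v 1048576 (.cut .v 524288 (.cut .v 262144 (.cut .v 131072 (.cut .v 65536 (.cut .v 32768 (.cut .v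 16384 (.pos 145 .pm ⟨0, 0, 64452556, 0, 0, 0, 0, 0, 0, ⟨0, 0⟩, 0⟩ 0 0) (.pos 146 .pm ⟨0, 0, 147703021, 0, 0, 0, 0, 0, 0, ⟨0, 0⟩, 0⟩ 0 0)) (.pos 144 .pm ⟨0, 0, 263745118, 0, 0, 0, 0, 0, 0, ⟨0, 0⟩, 0⟩ 0 0)) (.pos 139 .pm ⟨0, 0, 478548239, 0, 0, 0, 0, 0, 0, ⟨0, 0⟩, 0⟩ 0 0)) (.pos 131 .pm ⟨0, 0, 873995550, 0, 0, 0, 0, 0, 0, ⟨0, 0⟩, 0⟩ 0 0)) (.pos 121 .pm ⟨0, 0, 1601445023, 0, 0, 0, 0, 0, 0, ⟨0, 0⟩, 0⟩ 0 0)) (.pos 105 .pm ⟨0, 0, 2955793518, 0, 0, 0, 0, 0, 0, ⟨0, 0⟩, 0⟩ 0 0)) (.pos 89 .pm ⟨0, 0, 5605810958, 0, 0, 0, 0, 0, 0, ⟨0, 0⟩, 0⟩ 0 0)) (.pos 7 .pm ⟨0, 0, 11405789673, 0, 0, 0, 0, 0, 0, ⟨0, 0⟩, 0⟩ 0 0)) (.pos 5 .pm ⟨0, 0, 29666338356, 0, 0, 0, 0, 0, 0, ⟨0, 0⟩,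 0⟩ 0 0)) (.pos 3 .pm ⟨0, 0, 12243901660, 0, 0, 0, 0, 0, 0, ⟨0, 0⟩, 0⟩ 0 0)) (.cut .v 4294967296 (.cut .v 268435456 (.cut .v 67108864 (.pos 56 .pp ⟨34267711005, 0, 0, 0, 0, 0, 0, 0, 0, ⟨0, 0⟩, 0⟩ 0 0) (.cut .v 134217728 (.cut .v 100663296 (.cut .s 16654336 (.cut .s 16650240 (.cut .d 66053 (.cut .d 33026 (.cut .d 16513 (.void 75 ⟨100000, 0, 0, 0, 0, 0, 0, 0, 0, ⟨0, 0⟩, 0⟩ 0 0) (.cut .s 16648192 (.cut .s 16647168 (.cut .d 24769 (.cut .v 83886080 (.pos 81 .pp ⟨167772160000, 0, 0, 0, 0, 0, 0, 0, 0, ⟨0, 0⟩, 0⟩ 0 0) (.void 82 ⟨100000, 0, 0, 0, 0, 0, 0, 0, 0, ⟨0, 0⟩, 0⟩ 0 0)) (.pos 75 .pp ⟨167772160000, 0, 0, 0, 0, 0, 0, 0, 0, ⟨0, 0⟩, 0⟩ 0 0)) (.pos 75 .pp ⟨167772160000,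 0, 0, 0, 0, 0, 0, 0, 0, ⟨0, 0⟩, 0⟩ 0 0)) (.pos 75 .pp ⟨167772160000, 0, 0, 0, 0, 0, 0, 0, 0, ⟨0, 0⟩, 0⟩ 0 0))) (.pos 75 .pp ⟨0, 158552224528, 0, 9219935472, 0, 0, 0, 0, 0, ⟨0, 0⟩, 0⟩ 0 0)) (.void 75 ⟨0, 0, 0, 100000, 0, 0, 0, 0, 0, ⟨0, 0⟩, 0⟩ 0 0)) (.pos 75 .pp ⟨167772160000, 0, 0, 0, 0, 0, 0, 0, 0, ⟨0, 0⟩, 0⟩ 0 0)) (.pos 75 .pp ⟨167772160000, 0, 0, 0, 0, 0, 0, 0, 0, ⟨0, 0⟩, 0⟩ 0 0)) (.void 76 ⟨88266, 0, 0, 11734, 0, 0, 0, 0, 0, ⟨0, 0⟩, 0⟩ 0 0)) (.void 74 ⟨0, 0, 0, 100000, 0, 0, 0, 0, 0, ⟨0, 0⟩, 0⟩ 0 0))) (.void 87 ⟨0, 0, 0, 100000, 0, 0, 0, 0, 0, ⟨0, 0⟩, 0⟩ 0 0)) (.void 142 ⟨0, 0, 0, 100000, 0, 0, 0, 0, 0, ⟨0, 0⟩, 0⟩ 0 0)))),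
    by decide +kernel⟩

def covers38 : cell.Covers table row38.1 :=
  ⟨(.cut .d 0 (.cut .v 16777216 (.cut .d (-8388608) (.void 1 ⟨0, 0, 0, 0, 0, 100000, 0, 0, 0, ⟨0, 0⟩, 0⟩ 0 0) (.cut .v 8388608 (.void 2 ⟨0, 0, 100000, 0, 0, 0, 0, 4, 0, ⟨5048875, 473645⟩, 0⟩ 127 347) (.cut .d (-4194304) (.void 3 ⟨100000, 0, 0, 0, 0, 0, 0, 0, 0, ⟨0, 0⟩, 0⟩ 0 0) (.cut .d (-2097152) (.void 3 ⟨100000, 0, 0, 0, 0, 0, 0, 0, 0, ⟨0, 0⟩, 0⟩ 0 0) (.pos 3 .mm ⟨98136238504, 0, 64933945443, 0, 0, 4701976053, 0, 0, 0, ⟨0, 0⟩, 0⟩ 0 0))))) (.cut .v 4294967296 (.cut .d (-8388608) (.void 86 ⟨100000, 0, 0, 0, 0, 0, 0, 0, 0, ⟨0, 0⟩, 0⟩ 0 0) (.cut .v 268435456 (.cut .v 67108864 (.cut .d (-4194304)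 (.void 56 ⟨100000, 0, 0, 0, 0, 0, 0, 0, 0, ⟨0, 0⟩, 0⟩ 0 0) (.cut .v 33554432 (.cut .d (-2097152) (.void 24 ⟨100000, 0, 0, 0, 0, 0, 0, 0, 0, ⟨0, 0⟩, 0⟩ 0 0) (.cut .d (-1048576) (.void 24 ⟨100000, 0, 0, 0, 0, 0, 0, 0, 0, ⟨0, 0⟩, 0⟩ 0 0) (.cut .v 25165824 (.pos 25 .mp ⟨167772160000, 0, 0, 0, 0, 0, 0, 0, 0, ⟨0, 0⟩, 0⟩ 0 0) (.void 26 ⟨100000, 0, 0, 0, 0, 0, 0, 0, 0, ⟨0, 0⟩, 0⟩ 0 0)))) (.void 57 ⟨100000, 0, 0, 0, 0, 0, 0, 0, 0, ⟨0, 0⟩, 0⟩ 0 0))) (.void 68 ⟨99994, 0, 0, 0, 0, 0, 0, 0, 0, ⟨0, 0⟩, 0⟩ 0 0)) (.void 87 ⟨90949, 0, 0, 9051, 0, 0, 0, 0, 0, ⟨0, 0⟩, 0⟩ 0 0))) (.void 142 ⟨94167, 0, 0, 6225, 0, 0, 0, 0, 0, ⟨0, 0⟩, 0⟩ 0 0))) (.cut .v 16777216 (.cut .v 8388608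 (.cut .v 4194304 (.cut .v 2097152 (.cut .v 1048576 (.cut .v 524288 (.cut .v 262144 (.cut .v 131072 (.cut .v 65536 (.cut .v 32768 (.cut .v 16384 (.cut .v 8192 (.pos 147 .pm ⟨0, 0, 54002275, 0, 0, 0, 0, 0, 0, ⟨0, 0⟩, 0⟩ 0 0) (.pos 148 .pm ⟨0, 0, 120998350, 0, 0, 0, 0, 0, 0, ⟨0, 0⟩, 0⟩ 0 0)) (.pos 146 .pm ⟨0, 0, 204763082, 0, 0, 0, 0, 0, 0, ⟨0, 0⟩, 0⟩ 0 0)) (.pos 144 .pm ⟨0, 0, 355774789, 0, 0, 0, 0, 0, 0, ⟨0, 0⟩, 0⟩ 0 0)) (.pos 139 .pm ⟨0, 0, 645468472, 0, 0, 0, 0, 0, 0, ⟨0, 0⟩, 0⟩ 0 0)) (.pos 131 .pm ⟨0, 0, 1233825261, 0, 0, 0, 0, 0, 0, ⟨0, 0⟩, 0⟩ 0 0)) (.pos 121 .pm ⟨0, 0, 2415746700, 0, 0, 0, 0, 0, 0, ⟨0, 0⟩, 0⟩ 0 0)) (.pos 105 .pm ⟨0, 0, 4734149375, 0, 0,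 0, 0, 0, 0, ⟨0, 0⟩, 0⟩ 0 0)) (.pos 89 .pm ⟨0, 0, 9046184549, 0, 0, 0, 0, 0, 0, ⟨0, 0⟩, 0⟩ 0 0)) (.pos 7 .pm ⟨0, 0, 16950313297, 0, 0, 0, 0, 0, 0, ⟨0, 0⟩, 0⟩ 0 0)) (.pos 5 .pm ⟨0, 0, 30626925744, 0, 0, 0, 0, 0, 0, ⟨0, 0⟩, 0⟩ 0 0)) (.pos 3 .pm ⟨0, 0, 40772046883, 0, 0, 0, 0, 0, 0, ⟨0, 0⟩, 0⟩ 0 0)) (.cut .v 4294967296 (.cut .v 268435456 (.cut .v 67108864 (.pos 56 .pp ⟨0, 0, 0, 0, 0, 0, 0, 0, 0, ⟨0, 0⟩, 0⟩ 0 0) (.cut .v 134217728 (.cut .v 100663296 (.pos 75 .pp ⟨167772160000, 0, 0, 0, 0, 0, 0, 0, 0, ⟨0, 0⟩, 0⟩ 0 0) (.void 76 ⟨88250, 0, 0, 11750, 0, 0, 0, 0, 0, ⟨0, 0⟩, 0⟩ 0 0)) (.void 74 ⟨0, 0, 0, 105109, 0, 0, 0, 0, 0, ⟨0, 0⟩, 0⟩ 0 0))) (.void 87 ⟨0, 0, 0, 105109,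 0, 0, 0, 0, 0, ⟨0, 0⟩, 0⟩ 0 0)) (.void 142 ⟨0, 0, 0, 105109, 0, 0, 0, 0, 0, ⟨0, 0⟩, 0⟩ 0 0)))),
    by decide +kernel⟩

def covers39 : cell.Covers table row39.1 :=
  ⟨(.cut .d 0 (.cut .v 16777216 (.cut .d (-8388608) (.void 1 ⟨0, 0, 0, 0, 0, 1000000000, 0, 0, 0, ⟨0, 0⟩, 0⟩ 0 0) (.cut .d (-4194304) (.void 1 ⟨0, 0, 0, 0, 0, 1000000000, 0, 0, 0, ⟨0, 0⟩, 0⟩ 0 0) (.cut .d (-2097152) (.void 1 ⟨0, 0, 0, 0, 0, 1000000000, 0, 0, 0, ⟨0, 0⟩, 0⟩ 0 0) (.cut .v 8388608 (.void 2 ⟨0, 0, 100000, 0, 0, 0, 0, 0, 0, ⟨0, 0⟩, 0⟩ 0 0) (.cut .d (-1048576) (.void 3 ⟨1000000000, 0, 0, 0, 0, 0, 0, 0, 0, ⟨0, 0⟩, 0⟩ 0 0) (.pos 3 .mm ⟨142963431685, 0, 24808728315, 0, 0, 0, 0, 0, 0, ⟨0, 0⟩,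 0⟩ 0 0)))))) (.cut .v 4294967296 (.cut .d (-8388608) (.void 86 ⟨1000000000, 0, 0, 0, 0, 0, 0, 0, 0, ⟨0, 0⟩, 0⟩ 0 0) (.cut .v 268435456 (.cut .v 67108864 (.cut .d (-4194304) (.void 56 ⟨1000000000, 0, 0, 0, 0, 0, 0, 0, 0, ⟨0, 0⟩, 0⟩ 0 0) (.cut .d (-2097152) (.void 56 ⟨1000000000, 0, 0, 0, 0, 0, 0, 0, 0, ⟨0, 0⟩, 0⟩ 0 0) (.cut .v 33554432 (.cut .d (-1048576) (.void 24 ⟨1000000000, 0, 0, 0, 0, 0, 0, 0, 0, ⟨0, 0⟩, 0⟩ 0 0) (.cut .d (-524288) (.void 24 ⟨1000000000, 0, 0, 0, 0, 0, 0, 0, 0, ⟨0, 0⟩, 0⟩ 0 0) (.cut .d (-262144) (.void 24 ⟨1000000000, 0, 0, 0, 0, 0, 0, 0, 0, ⟨0, 0⟩, 0⟩ 0 0) (.cut .v 25165824 (.cut .d (-131072) (.void 25 ⟨1000000000, 0, 0, 0, 0, 0, 0, 0,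 0, ⟨0, 0⟩, 0⟩ 0 0) (.pos 25 .mp ⟨167772160000, 0, 0, 0, 0, 0, 0, 0, 0, ⟨0, 0⟩, 0⟩ 0 0)) (.void 26 ⟨1000000000, 0, 0, 0, 0, 0, 0, 0, 0, ⟨0, 0⟩, 0⟩ 0 0))))) (.void 57 ⟨1000000000, 0, 0, 0, 0, 0, 0, 0, 0, ⟨0, 0⟩, 0⟩ 0 0)))) (.void 68 ⟨1000000000, 0, 0, 0, 0, 0, 0, 0, 0, ⟨0, 0⟩, 0⟩ 0 0)) (.void 87 ⟨1000000000, 0, 0, 0, 0, 0, 0, 0, 0, ⟨0, 0⟩, 0⟩ 0 0))) (.void 142 ⟨93677, 0, 0, 6323, 0, 0, 0, 0, 0, ⟨0, 0⟩, 0⟩ 0 0))) (.cut .v 16777216 (.cut .v 8388608 (.cut .v 4194304 (.cut .v 2097152 (.cut .v 1048576 (.cut .v 524288 (.cut .v 262144 (.cut .v 131072 (.cut .v 65536 (.cut .v 32768 (.cut .v 16384 (.cut .v 8192 (.pos 147 .pm ⟨0, 0, 70084323, 0, 0, 0, 0, 0, 0, ⟨0, 0⟩, 0⟩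 0 0) (.pos 148 .pm ⟨0, 0, 158015537, 0, 0, 0, 0, 0, 0, ⟨0, 0⟩, 0⟩ 0 0)) (.pos 146 .pm ⟨0, 0, 273662634, 0, 0, 0, 0, 0, 0, ⟨0, 0⟩, 0⟩ 0 0)) (.pos 144 .pm ⟨0, 0, 473163108, 0, 0, 0, 0, 0, 0, ⟨0, 0⟩, 0⟩ 0 0)) (.pos 139 .pm ⟨0, 0, 879891835, 0, 0, 0, 0, 0, 0, ⟨0, 0⟩, 0⟩ 0 0)) (.pos 131 .pm ⟨0, 0, 1709384021, 0, 0, 0, 0, 0, 0, ⟨0, 0⟩, 0⟩ 0 0)) (.pos 121 .pm ⟨0, 0, 3337747539, 0, 0, 0, 0, 0, 0, ⟨0, 0⟩, 0⟩ 0 0)) (.pos 105 .pm ⟨0, 0, 6515121931, 0, 0, 0, 0, 0, 0, ⟨0, 0⟩, 0⟩ 0 0)) (.pos 89 .pm ⟨0, 0, 12646838789, 0, 0, 0, 0, 0, 0, ⟨0, 0⟩, 0⟩ 0 0)) (.pos 7 .pm ⟨0, 0, 24238723058, 0, 0, 0, 0, 0, 0, ⟨0, 0⟩, 0⟩ 0 0)) (.pos 5 .pm ⟨0, 0, 45977931242, 0, 0, 0, 0, 0, 0, ⟨0,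 0⟩, 0⟩ 0 0)) (.pos 3 .pm ⟨0, 0, 61042573254, 0, 0, 0, 0, 0, 0, ⟨0, 0⟩, 0⟩ 0 0)) (.cut .v 4294967296 (.cut .v 268435456 (.cut .v 67108864 (.pos 56 .pp ⟨0, 0, 0, 0, 0, 0, 0, 0, 0, ⟨0, 0⟩, 0⟩ 0 0) (.cut .v 134217728 (.cut .v 100663296 (.pos 75 .pp ⟨167772160000, 0, 0, 0, 0, 0, 0, 0, 0, ⟨0, 0⟩, 0⟩ 0 0) (.void 76 ⟨88250, 0, 0, 11750, 0, 0, 0, 0, 0, ⟨0, 0⟩, 0⟩ 0 0)) (.void 74 ⟨0, 0, 0, 100000, 0, 0, 0, 0, 0, ⟨0, 0⟩, 0⟩ 0 0))) (.void 87 ⟨0, 0, 0, 100000, 0, 0, 0, 0, 0, ⟨0, 0⟩, 0⟩ 0 0)) (.void 142 ⟨0, 0, 0, 100000, 0, 0, 0, 0, 0, ⟨0, 0⟩, 0⟩ 0 0)))),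
    by decide +kernel⟩

def covers40 : cell.Covers table row40.1 :=
  ⟨(.cut .d 0 (.cut .v 16777216 (.cut .d (-8388608) (.void 1 ⟨0, 0, 0, 0, 0, 1000000000, 0, 0, 0, ⟨0, 0⟩, 0⟩ 0 0) (.cut .d (-4194304) (.void 1 ⟨0, 0, 100000, 0, 0, 0, 0, 0, 0, ⟨0, 0⟩, 0⟩ 0 0) (.cut .d (-2097152) (.void 1 ⟨0, 0, 100000, 0, 0, 0, 0, 0, 0, ⟨0, 0⟩, 0⟩ 0 0) (.cut .d (-1048576) (.void 1 ⟨0, 0, 100000, 0, 0, 0, 0, 0, 0, ⟨0, 0⟩, 0⟩ 0 0) (.cut .d (-524288) (.void 1 ⟨0, 0, 100000, 0, 0, 0, 0, 0, 0, ⟨0, 0⟩, 0⟩ 0 0) (.cut .v 8388608 (.void 2 ⟨0, 0, 100000, 0, 0, 0, 0, 0, 0, ⟨0, 0⟩, 0⟩ 0 0) (.cut .d (-262144) (.void 3 ⟨1000000000, 0, 0, 0, 0, 0, 0, 0, 0, ⟨0, 0⟩, 0⟩ 0 0) (.pos 3 .mm ⟨133475543011,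 0, 34296616989, 0, 0, 0, 0, 0, 0, ⟨0, 0⟩, 0⟩ 0 0)))))))) (.cut .v 4294967296 (.cut .d (-8388608) (.void 86 ⟨1000000000, 0, 0, 0, 0, 0, 0, 0, 0, ⟨0, 0⟩, 0⟩ 0 0) (.cut .v 268435456 (.cut .v 67108864 (.cut .d (-4194304) (.void 56 ⟨1000000000, 0, 0, 0, 0, 0, 0, 0, 0, ⟨0, 0⟩, 0⟩ 0 0) (.cut .d (-2097152) (.void 56 ⟨1000000000, 0, 0, 0, 0, 0, 0, 0, 0, ⟨0, 0⟩, 0⟩ 0 0) (.cut .v 33554432 (.cut .d (-1048576) (.void 24 ⟨1000000000, 0, 0, 0, 0, 0, 0, 0, 0, ⟨0, 0⟩, 0⟩ 0 0) (.cut .d (-524288) (.void 24 ⟨1000000000, 0, 0, 0, 0, 0, 0, 0, 0, ⟨0, 0⟩, 0⟩ 0 0) (.cut .d (-262144) (.void 24 ⟨1000000000, 0, 0, 0, 0, 0, 0, 0, 0, ⟨0, 0⟩, 0⟩ 0 0) (.cut .d (-131072) (.void 24 ⟨1000000000,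 0, 0, 0, 0, 0, 0, 0, 0, ⟨0, 0⟩, 0⟩ 0 0) (.cut .d (-65536) (.void 24 ⟨1000000000, 0, 0, 0, 0, 0, 0, 0, 0, ⟨0, 0⟩, 0⟩ 0 0) (.pos 24 .mp ⟨167772160000, 0, 0, 0, 0, 0, 0, 0, 0, ⟨0, 0⟩, 0⟩ 0 0)))))) (.void 57 ⟨1000000000, 0, 0, 0, 0, 0, 0, 0, 0, ⟨0, 0⟩, 0⟩ 0 0)))) (.void 68 ⟨1000000000, 0, 0, 0, 0, 0, 0, 0, 0, ⟨0, 0⟩, 0⟩ 0 0)) (.void 87 ⟨1000000000, 0, 0, 0, 0, 0, 0, 0, 0, ⟨0, 0⟩, 0⟩ 0 0))) (.void 142 ⟨93767, 0, 0, 6233, 0, 0, 0, 0, 0, ⟨0, 0⟩, 0⟩ 0 0))) (.cut .v 16777216 (.cut .v 8388608 (.cut .v 4194304 (.cut .v 2097152 (.cut .v 1048576 (.cut .v 524288 (.cut .v 262144 (.cut .v 131072 (.cut .v 65536 (.cut .v 32768 (.cut .v 16384 (.cut .v 8192 (.pos 147 .pm ⟨0, 0,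 73079227, 0, 0, 0, 0, 0, 0, ⟨0, 0⟩, 0⟩ 0 0) (.pos 148 .pm ⟨0, 0, 168478005, 0, 0, 0, 0, 0, 0, ⟨0, 0⟩, 0⟩ 0 0)) (.pos 146 .pm ⟨0, 0, 299423677, 0, 0, 0, 0, 0, 0, ⟨0, 0⟩, 0⟩ 0 0)) (.pos 144 .pm ⟨0, 0, 541477364, 0, 0, 0, 0, 0, 0, ⟨0, 0⟩, 0⟩ 0 0)) (.pos 139 .pm ⟨0, 0, 1038705717, 0, 0, 0, 0, 0, 0, ⟨0, 0⟩, 0⟩ 0 0)) (.pos 131 .pm ⟨0, 0, 2062175454, 0, 0, 0, 0, 0, 0, ⟨0, 0⟩, 0⟩ 0 0)) (.pos 121 .pm ⟨0, 0, 4109188190, 0, 0, 0, 0, 0, 0, ⟨0, 0⟩, 0⟩ 0 0)) (.pos 105 .pm ⟨0, 0, 8203506702, 0, 0, 0, 0, 0, 0, ⟨0, 0⟩, 0⟩ 0 0)) (.pos 89 .pm ⟨0, 0, 16393315887, 0, 0, 0, 0, 0, 0, ⟨0, 0⟩, 0⟩ 0 0)) (.pos 7 .pm ⟨0, 0, 32777622909, 0, 0, 0, 0, 0, 0, ⟨0, 0⟩, 0⟩ 0 0)) (.pos 5 .pm ⟨0,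 0, 65564991550, 0, 0, 0, 0, 0, 0, ⟨0, 0⟩, 0⟩ 0 0)) (.pos 3 .pm ⟨0, 0, 93128474433, 0, 0, 0, 0, 0, 0, ⟨0, 0⟩, 0⟩ 0 0)) (.cut .v 4294967296 (.cut .v 268435456 (.cut .v 67108864 (.pos 56 .pp ⟨0, 0, 0, 0, 0, 0, 0, 0, 0, ⟨0, 0⟩, 0⟩ 0 0) (.cut .v 134217728 (.cut .v 100663296 (.pos 75 .pp ⟨167772160000, 0, 0, 0, 0, 0, 0, 0, 0, ⟨0, 0⟩, 0⟩ 0 0) (.void 76 ⟨88245, 0, 0, 11755, 0, 0, 0, 0, 0, ⟨0, 0⟩, 0⟩ 0 0)) (.void 74 ⟨0, 0, 0, 100000, 0, 0, 0, 0, 0, ⟨0, 0⟩, 0⟩ 0 0))) (.void 87 ⟨0, 0, 0, 100000, 0, 0, 0, 0, 0, ⟨0, 0⟩, 0⟩ 0 0)) (.void 142 ⟨0, 0, 0, 100000, 0, 0, 0, 0, 0, ⟨0, 0⟩, 0⟩ 0 0)))),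
    by decide +kernel⟩

def covers41 : cell.Covers table row41.1 :=
  ⟨(.cut .d 0 (.cut .v 16777216 (.cut .d (-8388608) (.void 1 ⟨0, 0, 100000, 0, 0, 0, 0, 0, 0, ⟨0, 0⟩, 0⟩ 0 0) (.cut .d (-4194304) (.void 1 ⟨0, 0, 100000, 0, 0, 0, 0, 0, 0, ⟨0, 0⟩, 0⟩ 0 0) (.cut .d (-2097152) (.void 1 ⟨0, 0, 100000, 0, 0, 0, 0, 0, 0, ⟨0, 0⟩, 0⟩ 0 0) (.cut .d (-1048576) (.void 1 ⟨0, 0, 100000, 0, 0, 0, 0, 0, 0, ⟨0, 0⟩, 0⟩ 0 0) (.cut .d (-524288) (.void 1 ⟨0, 0, 100000, 0, 0, 0, 0, 0, 0, ⟨0, 0⟩, 0⟩ 0 0) (.cut .d (-262144) (.void 1 ⟨0, 0, 100000, 0, 0, 0, 0, 0, 0, ⟨0, 0⟩, 0⟩ 0 0) (.cut .d (-131072) (.void 1 ⟨0, 0, 0, 0, 0, 100000, 0, 0, 0, ⟨0, 0⟩, 0⟩ 0 0) (.cut .d (-65536) (.void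 1 ⟨0, 0, 76582, 0, 0, 23418, 0, 0, 0, ⟨0, 0⟩, 0⟩ 0 0) (.cut .v 8388608 (.void 2 ⟨0, 0, 100000, 0, 0, 0, 0, 0, 0, ⟨0, 0⟩, 0⟩ 0 0) (.pos 3 .mm ⟨167772160000, 0, 0, 0, 0, 0, 0, 0, 0, ⟨0, 0⟩, 0⟩ 0 0)))))))))) (.cut .v 4294967296 (.cut .v 268435456 (.cut .d (-8388608) (.void 67 ⟨0, 0, 0, 0, 0, 1000000000, 0, 0, 0, ⟨0, 0⟩, 0⟩ 0 0) (.cut .v 67108864 (.cut .d (-4194304) (.void 56 ⟨1000000000, 0, 0, 0, 0, 0, 0, 0, 0, ⟨0, 0⟩, 0⟩ 0 0) (.cut .d (-2097152) (.void 56 ⟨1000000000, 0, 0, 0, 0, 0, 0, 0, 0, ⟨0, 0⟩, 0⟩ 0 0) (.cut .d (-1048576) (.void 56 ⟨1000000000, 0, 0, 0, 0, 0, 0, 0, 0, ⟨0, 0⟩, 0⟩ 0 0) (.cut .v 33554432 (.cut .d (-524288) (.void 24 ⟨1000000000, 0, 0, 0, 0,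 0, 0, 0, 0, ⟨0, 0⟩, 0⟩ 0 0) (.cut .d (-262144) (.void 24 ⟨1000000000, 0, 0, 0, 0, 0, 0, 0, 0, ⟨0, 0⟩, 0⟩ 0 0) (.cut .d (-131072) (.void 24 ⟨1000000000, 0, 0, 0, 0, 0, 0, 0, 0, ⟨0, 0⟩, 0⟩ 0 0) (.cut .d (-65536) (.void 24 ⟨1000000000, 0, 0, 0, 0, 0, 0, 0, 0, ⟨0, 0⟩, 0⟩ 0 0) (.pos 24 .mp ⟨167772160000, 0, 0, 0, 0, 0, 0, 0, 0, ⟨0, 0⟩, 0⟩ 0 0))))) (.void 57 ⟨1000000000, 0, 0, 0, 0, 0, 0, 0, 0, ⟨0, 0⟩, 0⟩ 0 0))))) (.void 68 ⟨1000000000, 0, 0, 0, 0, 0, 0, 0, 0, ⟨0, 0⟩, 0⟩ 0 0))) (.void 87 ⟨1908039, 0, 0, 6111, 0, 0, 0, 0, 0, ⟨0, 0⟩, 0⟩ 0 0)) (.void 142 ⟨1908039, 0, 0, 6111, 0, 0, 0, 0, 0, ⟨0, 0⟩, 0⟩ 0 0))) (.cut .v 16777216 (.cut .v 8388608 (.cut .d 24649 (.pos 2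 .pm ⟨0, 0, 130278006337, 0, 0, 0, 0, 0, 0, ⟨0, 0⟩, 0⟩ 0 0) (.pos 2 .pm ⟨0, 0, 15258953, 0, 0, 0, 0, 0, 0, ⟨0, 0⟩, 0⟩ 0 0)) (.pos 3 .pm ⟨0, 0, 167772160000, 0, 0, 0, 0, 0, 0, ⟨0, 0⟩, 0⟩ 0 0)) (.cut .v 4294967296 (.cut .v 268435456 (.cut .v 67108864 (.pos 56 .pp ⟨0, 0, 0, 0, 0, 0, 0, 0, 0, ⟨0, 0⟩, 0⟩ 0 0) (.cut .s 16736256 (.pos 68 .pp ⟨0, 0, 0, 167772160000, 0, 0, 0, 0, 0, ⟨0, 0⟩, 0⟩ 0 0) (.cut .v 134217728 (.pos 73 .pp ⟨167772160000, 0, 0, 0, 0, 0, 0, 0, 0, ⟨0, 0⟩, 0⟩ 0 0) (.void 74 ⟨0, 0, 0, 100000, 0, 0, 0, 0, 0, ⟨0, 0⟩, 0⟩ 0 0)))) (.void 87 ⟨0, 0, 0, 100000, 0, 0, 0, 0, 0, ⟨0, 0⟩, 0⟩ 0 0)) (.void 142 ⟨0, 0, 0, 100000, 0, 0, 0, 0, 0, ⟨0, 0⟩, 0⟩ 0 0)))),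
    by decide +kernel⟩

def covers42 : cell.Covers table row42.1 :=
  ⟨(.cut .d 0 (.cut .v 16777216 (.cut .d (-8388608) (.void 1 ⟨0, 0, 3514, 0, 0, 96486, 0, 0, 0, ⟨0, 0⟩, 0⟩ 0 0) (.cut .d (-4194304) (.void 1 ⟨0, 0, 1801, 0, 0, 98199, 0, 0, 0, ⟨0, 0⟩, 0⟩ 0 0) (.cut .d (-2097152) (.void 1 ⟨0, 0, 945, 0, 0, 99055, 0, 0, 0, ⟨0, 0⟩, 0⟩ 0 0) (.cut .d (-1048576) (.void 1 ⟨0, 0, 0, 0, 0, 100000, 0, 0, 0, ⟨0, 0⟩, 0⟩ 0 0) (.cut .d (-524288) (.void 1 ⟨0, 0, 0, 0, 0, 100000, 0, 0, 0, ⟨0, 0⟩, 0⟩ 0 0) (.cut .d (-262144) (.void 1 ⟨0, 0, 196, 0, 0, 99804, 0, 0, 0, ⟨0, 0⟩, 0⟩ 0 0) (.cut .d (-131072) (.void 1 ⟨0, 0, 0, 0, 0, 100000, 0, 0, 0, ⟨0, 0⟩, 0⟩ 0 0) (.cut .d (-65536)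 (.void 1 ⟨0, 0, 0, 0, 0, 100000, 0, 0, 0, ⟨0, 0⟩, 0⟩ 0 0) (.cut .d (-32768) (.void 1 ⟨0, 0, 0, 0, 0, 100000, 0, 0, 0, ⟨0, 0⟩, 0⟩ 0 0) (.cut .v 8388608 (.void 2 ⟨0, 0, 100000, 0, 0, 0, 0, 0, 0, ⟨0, 0⟩, 0⟩ 0 0) (.cut .d (-16384) (.void 3 ⟨100000, 0, 0, 0, 0, 0, 0, 0, 0, ⟨0, 0⟩, 0⟩ 0 0) (.cut .d (-8192) (.void 3 ⟨80488, 0, 19512, 0, 0, 0, 0, 0, 0, ⟨0, 0⟩, 0⟩ 0 0) (.pos 3 .mm ⟨167772160000, 0, 0, 0, 0, 0, 0, 0, 0, ⟨0, 0⟩, 0⟩ 0 0))))))))))))) (.cut .v 4294967296 (.cut .v 268435456 (.cut .v 67108864 (.cut .d (-8388608) (.void 56 ⟨100000, 0, 0, 0, 0, 0, 0, 0, 0, ⟨0, 0⟩, 0⟩ 0 0) (.cut .d (-4194304) (.void 56 ⟨100000, 0, 0, 0, 0, 0, 0, 0, 0, ⟨0, 0⟩, 0⟩ 0 0) (.cut .d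 (-2097152) (.void 56 ⟨100000, 0, 0, 0, 0, 0, 0, 0, 0, ⟨0, 0⟩, 0⟩ 0 0) (.cut .d (-1048576) (.void 56 ⟨100000, 0, 0, 0, 0, 0, 0, 0, 0, ⟨0, 0⟩, 0⟩ 0 0) (.cut .v 33554432 (.cut .d (-524288) (.void 24 ⟨100000, 0, 0, 0, 0, 0, 0, 0, 0, ⟨0, 0⟩, 0⟩ 0 0) (.cut .d (-262144) (.void 24 ⟨100000, 0, 0, 0, 0, 0, 0, 0, 0, ⟨0, 0⟩, 0⟩ 0 0) (.cut .d (-131072) (.void 24 ⟨100000, 0, 0, 0, 0, 0, 0, 0, 0, ⟨0, 0⟩, 0⟩ 0 0) (.cut .d (-65536) (.void 24 ⟨100000, 0, 0, 0, 0, 0, 0, 0, 0, ⟨0, 0⟩, 0⟩ 0 0) (.cut .d (-32768) (.void 24 ⟨100000, 0, 0, 0, 0, 0, 0, 0, 0, ⟨0, 0⟩, 0⟩ 0 0) (.cut .d (-16384) (.void 24 ⟨100000, 0, 0, 0, 0, 0, 0, 0, 0, ⟨0, 0⟩, 0⟩ 0 0) (.cut .d (-8192) (.void 24 ⟨100000,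 0, 0, 0, 0, 0, 0, 0, 0, ⟨0, 0⟩, 0⟩ 0 0) (.pos 24 .mp ⟨167772160000, 0, 0, 0, 0, 0, 0, 0, 0, ⟨0, 0⟩, 0⟩ 0 0)))))))) (.void 57 ⟨100000, 0, 0, 0, 0, 0, 0, 0, 0, ⟨0, 0⟩, 0⟩ 0 0)))))) (.void 68 ⟨100000, 0, 0, 0, 0, 0, 0, 0, 0, ⟨0, 0⟩, 0⟩ 0 0)) (.void 87 ⟨93759, 0, 0, 6241, 0, 0, 0, 0, 0, ⟨0, 0⟩, 0⟩ 0 0)) (.void 142 ⟨94102, 0, 0, 6255, 0, 0, 0, 0, 0, ⟨0, 0⟩, 0⟩ 0 0))) (.cut .v 16777216 (.cut .v 8388608 (.cut .v 4194304 (.cut .v 2097152 (.cut .v 1048576 (.cut .v 524288 (.cut .v 262144 (.cut .v 131072 (.cut .v 65536 (.cut .v 32768 (.cut .v 16384 (.cut .v 8192 (.cut .v 4096 (.cut .v 2048 (.cut .v 1024 (.pos 153 .pm ⟨0, 0, 58389374, 0, 0, 0, 0, 0, 0, ⟨0, 0⟩, 0⟩ 0 0)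 (.pos 154 .pm ⟨0, 0, 136944933, 0, 0, 0, 0, 0, 0, ⟨0, 0⟩, 0⟩ 0 0)) (.pos 152 .pm ⟨0, 0, 250069541, 0, 0, 0, 0, 0, 0, ⟨0, 0⟩, 0⟩ 0 0)) (.pos 150 .pm ⟨0, 0, 466832455, 0, 0, 0, 0, 0, 0, ⟨0, 0⟩, 0⟩ 0 0)) (.pos 148 .pm ⟨0, 0, 880446414, 0, 0, 0, 0, 0, 0, ⟨0, 0⟩, 0⟩ 0 0)) (.pos 146 .pm ⟨0, 0, 1666050813, 0, 0, 0, 0, 0, 0, ⟨0, 0⟩, 0⟩ 0 0)) (.pos 144 .pm ⟨0, 0, 3204657332, 0, 0, 0, 0, 0, 0, ⟨0, 0⟩, 0⟩ 0 0)) (.pos 139 .pm ⟨0, 0, 6328417376, 0, 0, 0, 0, 0, 0, ⟨0, 0⟩, 0⟩ 0 0)) (.pos 131 .pm ⟨0, 0, 12641620654, 0, 0, 0, 0, 0, 0, ⟨0, 0⟩, 0⟩ 0 0)) (.pos 121 .pm ⟨0, 0, 25268101394, 0, 0, 0, 0, 0, 0, ⟨0, 0⟩, 0⟩ 0 0)) (.pos 105 .pm ⟨0, 0, 50521359616, 0, 0, 0, 0, 0, 0, ⟨0,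 0⟩, 0⟩ 0 0)) (.pos 89 .pm ⟨0, 0, 100363425817, 0, 0, 0, 0, 0, 0, ⟨0, 0⟩, 0⟩ 0 0)) (.pos 7 .pm ⟨0, 0, 167772160000, 0, 0, 0, 0, 0, 0, ⟨0, 0⟩, 0⟩ 0 0)) (.pos 5 .pm ⟨0, 0, 167772160000, 0, 0, 0, 0, 0, 0, ⟨0, 0⟩, 0⟩ 0 0)) (.pos 3 .pm ⟨0, 0, 167772160000, 0, 0, 0, 0, 0, 0, ⟨0, 0⟩, 0⟩ 0 0)) (.cut .v 4294967296 (.cut .v 268435456 (.cut .v 67108864 (.pos 56 .pp ⟨0, 0, 0, 0, 0, 0, 0, 0, 0, ⟨0, 0⟩, 0⟩ 0 0) (.cut .v 134217728 (.cut .v 100663296 (.pos 75 .pp ⟨167772160000, 0, 0, 0, 0, 0, 0, 0, 0, ⟨0, 0⟩, 0⟩ 0 0) (.void 76 ⟨88242, 0, 0, 11758, 0, 0, 0, 0, 0, ⟨0, 0⟩, 0⟩ 0 0)) (.void 74 ⟨0, 0, 0, 100000, 0, 0, 0, 0, 0, ⟨0, 0⟩, 0⟩ 0 0))) (.void 87 ⟨0, 0, 0, 100000, 0, 0, 0,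 0, 0, ⟨0, 0⟩, 0⟩ 0 0)) (.void 142 ⟨0, 0, 0, 100000, 0, 0, 0, 0, 0, ⟨0, 0⟩, 0⟩ 0 0)))),
    by decide +kernel⟩

def covers43 : cell.Covers table row43.1 :=
  ⟨(.cut .d 0 (.cut .v 16777216 (.cut .d (-8388608) (.void 1 ⟨0, 0, 3145, 0, 0, 96855, 0, 0, 0, ⟨0, 0⟩, 0⟩ 0 0) (.cut .d (-4194304) (.void 1 ⟨0, 0, 100000, 0, 0, 0, 0, 0, 0, ⟨0, 0⟩, 0⟩ 0 0) (.cut .d (-2097152) (.void 1 ⟨0, 0, 846, 0, 0, 99154, 0, 0, 0, ⟨0, 0⟩, 0⟩ 0 0) (.cut .d (-1048576) (.void 1 ⟨0, 0, 0, 0, 0, 100000, 0, 0, 0, ⟨0, 0⟩, 0⟩ 0 0) (.cut .d (-524288) (.void 1 ⟨0, 0, 0, 0, 0, 100000, 0, 0, 0, ⟨0, 0⟩, 0⟩ 0 0) (.cut .d (-262144) (.void 1 ⟨0, 0, 0, 0, 0, 100000, 0, 0, 0, ⟨0, 0⟩, 0⟩ 0 0) (.cut .d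 (-131072) (.void 1 ⟨0, 0, 0, 0, 0, 100000, 0, 0, 0, ⟨0, 0⟩, 0⟩ 0 0) (.cut .d (-65536) (.void 1 ⟨0, 0, 0, 0, 0, 100000, 0, 0, 0, ⟨0, 0⟩, 0⟩ 0 0) (.cut .d (-32768) (.void 1 ⟨0, 0, 0, 0, 0, 100000, 0, 0, 0, ⟨0, 0⟩, 0⟩ 0 0) (.cut .d (-16384) (.void 1 ⟨0, 0, 86, 0, 0, 99914, 0, 0, 0, ⟨0, 0⟩, 0⟩ 0 0) (.cut .v 8388608 (.void 2 ⟨0, 0, 100000, 0, 0, 0, 0, 0, 0, ⟨0, 0⟩, 0⟩ 0 0) (.cut .d (-8192) (.void 3 ⟨100000, 0, 0, 0, 0, 0, 0, 0, 0, ⟨0, 0⟩, 0⟩ 0 0) (.pos 3 .mm ⟨167772160000, 0, 0, 0, 0, 0, 0, 0, 0, ⟨0, 0⟩, 0⟩ 0 0))))))))))))) (.cut .v 4294967296 (.cut .v 268435456 (.cut .d (-8388608) (.void 67 ⟨87130, 0, 5891, 3178, 0, 0, 0, 3800, 0, ⟨(-1), 10588244⟩, 0⟩ 0 128) (.cut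 .v 67108864 (.cut .d (-4194304) (.void 56 ⟨100000, 0, 0, 0, 0, 0, 0, 0, 0, ⟨0, 0⟩, 0⟩ 0 0) (.cut .d (-2097152) (.void 56 ⟨100000, 0, 0, 0, 0, 0, 0, 0, 0, ⟨0, 0⟩, 0⟩ 0 0) (.cut .d (-1048576) (.void 56 ⟨100000, 0, 0, 0, 0, 0, 0, 0, 0, ⟨0, 0⟩, 0⟩ 0 0) (.cut .d (-524288) (.void 56 ⟨100000, 0, 0, 0, 0, 0, 0, 0, 0, ⟨0, 0⟩, 0⟩ 0 0) (.cut .d (-262144) (.void 56 ⟨100000, 0, 0, 0, 0, 0, 0, 0, 0, ⟨0, 0⟩, 0⟩ 0 0) (.cut .d (-131072) (.void 56 ⟨100000, 0, 0, 0, 0, 0, 0, 0, 0, ⟨0, 0⟩, 0⟩ 0 0) (.cut .d (-65536) (.void 56 ⟨100000, 0, 0, 0, 0, 0, 0, 0, 0, ⟨0, 0⟩, 0⟩ 0 0) (.cut .d (-32768) (.void 56 ⟨100000, 0, 0, 0, 0, 0, 0, 0, 0, ⟨0, 0⟩, 0⟩ 0 0) (.cut .d (-16384) (.void 56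 ⟨100000, 0, 0, 0, 0, 0, 0, 0, 0, ⟨0, 0⟩, 0⟩ 0 0) (.cut .d (-8192) (.void 56 ⟨100000, 0, 0, 0, 0, 0, 0, 0, 0, ⟨0, 0⟩, 0⟩ 0 0) (.cut .d (-4096) (.void 56 ⟨100000, 0, 0, 0, 0, 0, 0, 0, 0, ⟨0, 0⟩, 0⟩ 0 0) (.pos 56 .mp ⟨167772160000, 0, 0, 0, 0, 0, 0, 0, 0, ⟨0, 0⟩, 0⟩ 0 0)))))))))))) (.void 68 ⟨100000, 0, 0, 0, 0, 0, 0, 0, 0, ⟨0, 0⟩, 0⟩ 0 0))) (.cut .d (-8388608) (.void 87 ⟨76296, 19925, 153, 0, 0, 0, 0, 28549, 0, ⟨(-1), 10588244⟩, 0⟩ 0 128) (.void 87 ⟨90917, 0, 0, 9083, 0, 0, 0, 0, 0, ⟨0, 0⟩, 0⟩ 0 0))) (.void 142 ⟨93716, 0, 0, 6241, 0, 0, 0, 0, 0, ⟨0, 0⟩, 0⟩ 0 0))) (.cut .v 16777216 (.cut .v 8388608 (.cut .v 4194304 (.cut .v 2097152 (.cut .v 1048576 (.cut .v 524288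 (.cut .v 262144 (.cut .v 131072 (.cut .v 65536 (.cut .v 32768 (.cut .v 16384 (.cut .v 8192 (.cut .v 4096 (.cut .v 2048 (.cut .v 1024 (.pos 153 .pm ⟨0, 0, 51842951, 0, 0, 0, 0, 0, 0, ⟨0, 0⟩, 0⟩ 0 0) (.pos 154 .pm ⟨0, 0, 149144132, 0, 0, 0, 0, 0, 0, ⟨0, 0⟩, 0⟩ 0 0)) (.pos 152 .pm ⟨0, 0, 269320845, 0, 0, 0, 0, 0, 0, ⟨0, 0⟩, 0⟩ 0 0)) (.pos 150 .pm ⟨0, 0, 494472637, 0, 0, 0, 0, 0, 0, ⟨0, 0⟩, 0⟩ 0 0)) (.pos 148 .pm ⟨0, 0, 912863480, 0, 0, 0, 0, 0, 0, ⟨0, 0⟩, 0⟩ 0 0)) (.pos 146 .pm ⟨0, 0, 1682900530, 0, 0, 0, 0, 0, 0, ⟨0, 0⟩, 0⟩ 0 0)) (.pos 144 .pm ⟨0, 0, 3169311208, 0, 0, 0, 0, 0, 0, ⟨0, 0⟩, 0⟩ 0 0)) (.pos 139 .pm ⟨0, 0, 6216929122, 0, 0, 0, 0, 0, 0, ⟨0, 0⟩, 0⟩ 0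 0)) (.pos 131 .pm ⟨0, 0, 12418667600, 0, 0, 0, 0, 0, 0, ⟨0, 0⟩, 0⟩ 0 0)) (.pos 121 .pm ⟨0, 0, 24822218743, 0, 0, 0, 0, 0, 0, ⟨0, 0⟩, 0⟩ 0 0)) (.pos 105 .pm ⟨0, 0, 49629617769, 0, 0, 0, 0, 0, 0, ⟨0, 0⟩, 0⟩ 0 0)) (.pos 89 .pm ⟨0, 0, 99245602778, 0, 0, 0, 0, 0, 0, ⟨0, 0⟩, 0⟩ 0 0)) (.pos 7 .pm ⟨0, 0, 167772160000, 0, 0, 0, 0, 0, 0, ⟨0, 0⟩, 0⟩ 0 0)) (.pos 5 .pm ⟨0, 0, 167772160000, 0, 0, 0, 0, 0, 0, ⟨0, 0⟩, 0⟩ 0 0)) (.pos 3 .pm ⟨0, 0, 167772160000, 0, 0, 0, 0, 0, 0, ⟨0, 0⟩, 0⟩ 0 0)) (.cut .v 4294967296 (.cut .v 268435456 (.cut .v 67108864 (.pos 56 .pp ⟨0, 0, 0, 0, 0, 0, 0, 0, 0, ⟨0, 0⟩, 0⟩ 0 0) (.cut .v 134217728 (.cut .v 100663296 (.pos 75 .pp ⟨167772160000, 0,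 0, 0, 0, 0, 0, 0, 0, ⟨0, 0⟩, 0⟩ 0 0) (.void 76 ⟨88239, 0, 0, 11761, 0, 0, 0, 0, 0, ⟨0, 0⟩, 0⟩ 0 0)) (.void 74 ⟨0, 0, 0, 100000, 0, 0, 0, 0, 0, ⟨0, 0⟩, 0⟩ 0 0))) (.void 87 ⟨0, 0, 0, 100000, 0, 0, 0, 0, 0, ⟨0, 0⟩, 0⟩ 0 0)) (.void 142 ⟨0, 0, 0, 100000, 0, 0, 0, 0, 0, ⟨0, 0⟩, 0⟩ 0 0)))),
    by decide +kernel⟩

def covers44 : cell.Covers table row44.1 :=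
  ⟨(.cut .d 0 (.cut .v 16777216 (.cut .d (-8388608) (.void 1 ⟨0, 0, 100000, 0, 0, 0, 0, 0, 0, ⟨0, 0⟩, 0⟩ 0 0) (.cut .d (-4194304) (.void 1 ⟨0, 0, 100000, 0, 0, 0, 0, 0, 0, ⟨0, 0⟩, 0⟩ 0 0) (.cut .d (-2097152) (.void 1 ⟨0, 0, 100000, 0, 0, 0, 0, 0, 0, ⟨0, 0⟩, 0⟩ 0 0) (.cut .d (-1048576) (.void 1 ⟨0, 0, 100000, 0, 0, 0, 0, 0, 0, ⟨0, 0⟩, 0⟩ 0 0) (.cut .d (-524288) (.void 1 ⟨0, 0, 100000, 0, 0, 0, 0, 0, 0, ⟨0, 0⟩, 0⟩ 0 0) (.cut .d (-262144) (.void 1 ⟨0, 0, 100000, 0, 0, 0, 0, 0, 0, ⟨0, 0⟩, 0⟩ 0 0) (.cut .d (-131072) (.void 1 ⟨0, 0, 100000, 0, 0, 0, 0, 0, 0, ⟨0, 0⟩, 0⟩ 0 0) (.cut .d (-65536) (.void 1 ⟨0, 0, 100000, 0, 0, 0, 0, 0, 0, ⟨0, 0⟩, 0⟩ 0 0) (.cut .d (-32768)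 (.void 1 ⟨0, 0, 100000, 0, 0, 0, 0, 0, 0, ⟨0, 0⟩, 0⟩ 0 0) (.cut .d (-16384) (.void 1 ⟨0, 0, 100000, 0, 0, 0, 0, 0, 0, ⟨0, 0⟩, 0⟩ 0 0) (.cut .v 8388608 (.cut .d (-8192) (.void 2 ⟨0, 0, 100000, 0, 0, 0, 0, 0, 0, ⟨0, 0⟩, 0⟩ 0 0) (.void 2 ⟨0, 0, 100000, 0, 0, 0, 0, 0, 0, ⟨0, 0⟩, 0⟩ 0 0)) (.cut .d (-8192) (.void 3 ⟨1000000000, 0, 0, 0, 0, 0, 0, 0, 0, ⟨0, 0⟩, 0⟩ 0 0) (.pos 3 .mm ⟨167772160000, 0, 0, 0, 0, 0, 0, 0, 0, ⟨0, 0⟩, 0⟩ 0 0))))))))))))) (.cut .v 4294967296 (.cut .d (-8388608) (.void 86 ⟨1000000000, 0, 0, 0, 0, 0, 0, 0, 0, ⟨0, 0⟩, 0⟩ 0 0) (.cut .d (-4194304) (.void 86 ⟨1000000000, 0, 0, 0, 0, 0, 0, 0, 0, ⟨0, 0⟩, 0⟩ 0 0) (.cut .v 268435456 (.cut .v 67108864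 (.cut .d (-2097152) (.void 56 ⟨1000000000, 0, 0, 0, 0, 0, 0, 0, 0, ⟨0, 0⟩, 0⟩ 0 0) (.cut .d (-1048576) (.void 56 ⟨1000000000, 0, 0, 0, 0, 0, 0, 0, 0, ⟨0, 0⟩, 0⟩ 0 0) (.cut .d (-524288) (.void 56 ⟨1000000000, 0, 0, 0, 0, 0, 0, 0, 0, ⟨0, 0⟩, 0⟩ 0 0) (.cut .d (-262144) (.void 56 ⟨1000000000, 0, 0, 0, 0, 0, 0, 0, 0, ⟨0, 0⟩, 0⟩ 0 0) (.cut .d (-131072) (.void 56 ⟨1000000000, 0, 0, 0, 0, 0, 0, 0, 0, ⟨0, 0⟩, 0⟩ 0 0) (.cut .d (-65536) (.void 56 ⟨1000000000, 0, 0, 0, 0, 0, 0, 0, 0, ⟨0, 0⟩, 0⟩ 0 0) (.cut .d (-32768) (.void 56 ⟨1000000000, 0, 0, 0, 0, 0, 0, 0, 0, ⟨0, 0⟩, 0⟩ 0 0) (.cut .d (-16384) (.void 56 ⟨1000000000, 0, 0, 0, 0, 0, 0, 0, 0, ⟨0, 0⟩, 0⟩ 0 0) (.cut .d (-8192)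 (.void 56 ⟨1000000000, 0, 0, 0, 0, 0, 0, 0, 0, ⟨0, 0⟩, 0⟩ 0 0) (.pos 56 .mp ⟨167772160000, 0, 0, 0, 0, 0, 0, 0, 0, ⟨0, 0⟩, 0⟩ 0 0)))))))))) (.void 68 ⟨1000000000, 0, 0, 0, 0, 0, 0, 0, 0, ⟨0, 0⟩, 0⟩ 0 0)) (.void 87 ⟨1000000000, 0, 0, 0, 0, 0, 0, 0, 0, ⟨0, 0⟩, 0⟩ 0 0)))) (.void 142 ⟨1000000000, 0, 0, 0, 0, 0, 0, 0, 0, ⟨0, 0⟩, 0⟩ 0 0))) (.cut .v 16777216 (.cut .v 8388608 (.cut .v 4194304 (.cut .v 2097152 (.cut .d 6150 (.void 6 ⟨0, 0, 100000, 0, 0, 0, 0, 0, 0, ⟨0, 0⟩, 0⟩ 0 0) (.pos 6 .pm ⟨0, 0, 15210899, 0, 0, 0, 0, 0, 0, ⟨0, 0⟩, 0⟩ 0 0)) (.pos 7 .pm ⟨0, 0, 167772160000, 0, 0, 0, 0, 0, 0, ⟨0, 0⟩, 0⟩ 0 0)) (.pos 5 .pm ⟨0, 0, 167772160000, 0, 0, 0, 0, 0, 0, ⟨0, 0⟩,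 0⟩ 0 0)) (.pos 3 .pm ⟨0, 0, 167772160000, 0, 0, 0, 0, 0, 0, ⟨0, 0⟩, 0⟩ 0 0)) (.cut .v 4294967296 (.cut .v 268435456 (.cut .v 67108864 (.pos 56 .pp ⟨0, 0, 0, 0, 0, 0, 0, 0, 0, ⟨0, 0⟩, 0⟩ 0 0) (.cut .v 134217728 (.pos 73 .pp ⟨167772160000, 0, 0, 0, 0, 0, 0, 0, 0, ⟨0, 0⟩, 0⟩ 0 0) (.void 74 ⟨0, 0, 0, 100000, 0, 0, 0, 0, 0, ⟨0, 0⟩, 0⟩ 0 0))) (.void 87 ⟨0, 0, 0, 100000, 0, 0, 0, 0, 0, ⟨0, 0⟩, 0⟩ 0 0)) (.void 142 ⟨0, 0, 0, 100000, 0, 0, 0, 0, 0, ⟨0, 0⟩, 0⟩ 0 0)))),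
    by decide +kernel⟩

def covers45 : cell.Covers table row45.1 :=
  ⟨(.cut .d 0 (.cut .v 16777216 (.cut .d (-8388608) (.void 1 ⟨0, 0, 0, 0, 0, 1000000000, 0, 0, 0, ⟨0, 0⟩, 0⟩ 0 0) (.cut .d (-4194304) (.void 1 ⟨0, 0, 0, 0, 0, 100000, 0, 0, 0, ⟨0, 0⟩, 0⟩ 0 0) (.cut .d (-2097152) (.void 1 ⟨0, 0, 0, 0, 0, 1000000000, 0, 0, 0, ⟨0, 0⟩, 0⟩ 0 0) (.cut .d (-1048576) (.void 1 ⟨0, 0, 100000, 0, 0, 0, 0, 0, 0, ⟨0, 0⟩, 0⟩ 0 0) (.cut .v 8388608 (.cut .s 16771072 (.void 2 ⟨0, 0, 100000, 0, 0, 0, 0, 0, 0, ⟨0, 0⟩, 0⟩ 0 0) (.void 2 ⟨0, 0, 100000, 0, 0, 0, 0, 0, 0, ⟨0, 0⟩, 0⟩ 0 0)) (.cut .d (-524288) (.void 3 ⟨1000000000, 0, 0, 0, 0, 0, 0, 0, 0, ⟨0, 0⟩, 0⟩ 0 0) (.cut .d (-262144)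 (.void 3 ⟨1000000000, 0, 0, 0, 0, 0, 0, 0, 0, ⟨0, 0⟩, 0⟩ 0 0) (.cut .d (-131072) (.void 3 ⟨1000000000, 0, 0, 0, 0, 0, 0, 0, 0, ⟨0, 0⟩, 0⟩ 0 0) (.cut .d (-65536) (.void 3 ⟨1000000000, 0, 0, 0, 0, 0, 0, 0, 0, ⟨0, 0⟩, 0⟩ 0 0) (.cut .d (-32768) (.void 3 ⟨1000000000, 0, 0, 0, 0, 0, 0, 0, 0, ⟨0, 0⟩, 0⟩ 0 0) (.cut .d (-16384) (.void 3 ⟨1000000000, 0, 0, 0, 0, 0, 0, 0, 0, ⟨0, 0⟩, 0⟩ 0 0) (.cut .d (-8192) (.void 3 ⟨1000000000, 0, 0, 0, 0, 0, 0, 0, 0, ⟨0, 0⟩, 0⟩ 0 0) (.cut .d (-4096) (.void 3 ⟨1000000000, 0, 0, 0, 0, 0, 0, 0, 0, ⟨0, 0⟩, 0⟩ 0 0) (.pos 3 .mm ⟨167772160000, 0, 0, 0, 0, 0, 0, 0, 0, ⟨0, 0⟩, 0⟩ 0 0)))))))))))))) (.cut .v 4294967296 (.cut .d (-8388608) (.void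 86 ⟨1000000000, 0, 0, 0, 0, 0, 0, 0, 0, ⟨0, 0⟩, 0⟩ 0 0) (.cut .v 268435456 (.cut .d (-4194304) (.void 67 ⟨1000000000, 0, 0, 0, 0, 0, 0, 0, 0, ⟨0, 0⟩, 0⟩ 0 0) (.cut .v 67108864 (.cut .d (-2097152) (.void 56 ⟨1000000000, 0, 0, 0, 0, 0, 0, 0, 0, ⟨0, 0⟩, 0⟩ 0 0) (.cut .d (-1048576) (.void 56 ⟨1000000000, 0, 0, 0, 0, 0, 0, 0, 0, ⟨0, 0⟩, 0⟩ 0 0) (.cut .d (-524288) (.void 56 ⟨1000000000, 0, 0, 0, 0, 0, 0, 0, 0, ⟨0, 0⟩, 0⟩ 0 0) (.cut .d (-262144) (.void 56 ⟨1000000000, 0, 0, 0, 0, 0, 0, 0, 0, ⟨0, 0⟩, 0⟩ 0 0) (.cut .d (-131072) (.void 56 ⟨1000000000, 0, 0, 0, 0, 0, 0, 0, 0, ⟨0, 0⟩, 0⟩ 0 0) (.cut .d (-65536) (.void 56 ⟨1000000000, 0, 0, 0, 0, 0, 0, 0, 0, ⟨0, 0⟩, 0⟩ 0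 0) (.cut .d (-32768) (.void 56 ⟨1000000000, 0, 0, 0, 0, 0, 0, 0, 0, ⟨0, 0⟩, 0⟩ 0 0) (.cut .d (-16384) (.void 56 ⟨1000000000, 0, 0, 0, 0, 0, 0, 0, 0, ⟨0, 0⟩, 0⟩ 0 0) (.cut .d (-8192) (.void 56 ⟨1000000000, 0, 0, 0, 0, 0, 0, 0, 0, ⟨0, 0⟩, 0⟩ 0 0) (.cut .d (-4096) (.void 56 ⟨1000000000, 0, 0, 0, 0, 0, 0, 0, 0, ⟨0, 0⟩, 0⟩ 0 0) (.pos 56 .mp ⟨167772160000, 0, 0, 0, 0, 0, 0, 0, 0, ⟨0, 0⟩, 0⟩ 0 0))))))))))) (.void 68 ⟨100000, 0, 0, 0, 0, 0, 0, 0, 0, ⟨0, 0⟩, 0⟩ 0 0))) (.void 87 ⟨100000, 0, 0, 0, 0, 0, 0, 0, 0, ⟨0, 0⟩, 0⟩ 0 0))) (.cut .l 910763 (.void 142 ⟨93728, 0, 0, 6272, 0, 0, 0, 0, 0, ⟨0, 0⟩, 0⟩ 0 0) (.cut .v 68719476736 (.void 157 ⟨93964, 0, 0, 6036, 0, 0, 0, 0,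 0, ⟨0, 0⟩, 0⟩ 0 0) (.void 158 ⟨93751, 0, 0, 6249, 0, 0, 0, 0, 0, ⟨0, 0⟩, 0⟩ 0 0))))) (.cut .v 16777216 (.cut .v 8388608 (.cut .v 4194304 (.cut .v 2097152 (.cut .v 1048576 (.cut .v 524288 (.cut .d 4099 (.cut .v 262144 (.pos 120 .pm ⟨0, 0, 81511824519, 0, 0, 0, 0, 0, 0, ⟨0, 0⟩, 0⟩ 0 0) (.pos 121 .pm ⟨0, 0, 167772160000, 0, 0, 0, 0, 0, 0, ⟨0, 0⟩, 0⟩ 0 0)) (.pos 104 .pm ⟨0, 0, 0, 2233712, 0, 0, 0, 0, 0, ⟨0, 0⟩, 0⟩ 0 0)) (.pos 105 .pm ⟨0, 0, 167772160000, 0, 0, 0, 0, 0, 0, ⟨0, 0⟩, 0⟩ 0 0)) (.pos 89 .pm ⟨0, 0, 167772160000, 0, 0, 0, 0, 0, 0, ⟨0, 0⟩, 0⟩ 0 0)) (.pos 7 .pm ⟨0, 0, 167772160000, 0, 0, 0, 0, 0, 0, ⟨0, 0⟩, 0⟩ 0 0)) (.pos 5 .pm ⟨0, 0, 167772160000, 0, 0,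 0, 0, 0, 0, ⟨0, 0⟩, 0⟩ 0 0)) (.pos 3 .pm ⟨0, 0, 167772160000, 0, 0, 0, 0, 0, 0, ⟨0, 0⟩, 0⟩ 0 0)) (.cut .v 4294967296 (.cut .v 268435456 (.cut .v 67108864 (.pos 56 .pp ⟨0, 0, 0, 0, 0, 0, 0, 0, 0, ⟨0, 0⟩, 0⟩ 0 0) (.cut .d 4099 (.cut .v 134217728 (.pos 73 .pp ⟨21376840262, 0, 0, 146395319738, 0, 0, 0, 0, 0, ⟨0, 0⟩, 0⟩ 0 0) (.cut .s 16771072 (.void 74 ⟨0, 0, 0, 100000, 0, 0, 0, 0, 0, ⟨0, 0⟩, 0⟩ 0 0) (.void 74 ⟨0, 0, 0, 100000, 0, 0, 0, 0, 0, ⟨0, 0⟩, 0⟩ 0 0))) (.void 68 ⟨0, 0, 0, 100000, 0, 0, 0, 0, 0, ⟨0, 0⟩, 0⟩ 0 0))) (.void 87 ⟨0, 0, 0, 100000, 0, 0, 0, 0, 0, ⟨0, 0⟩, 0⟩ 0 0)) (.void 142 ⟨0, 0, 0, 100000, 0, 0, 0, 0, 0, ⟨0, 0⟩, 0⟩ 0 0)))),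
    by decide +kernel⟩

end Vale.Agent.P237.Petty.Cor.Grid.N14.Low
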